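import Vale.Agent.P228.MathlibUsed

set_option linter.all false

namespace AFast7e0c08x5a
@[reducible] noncomputable def a0.{u1} {x1 : Type u1} : Module ℝ (x1 → ℂ) := inferInstance
theorem a1.{u1, u2} {x1 : Type u1} {x2 : Type u2} [x3 : Ring x1] [x4 : Ring x2] : MulHomClass (x1 →+* x2) x1 x2 := inferInstance
theorem a2.{u1, u2} {x1 : Type u1} {x2 : Type u2} [x3 : Ring x1] [x4 : Ring x2] : NonUnitalRingHomClass (x1 →+* x2) x1 x2 := inferInstance
@[reducible] noncomputable def a3.{u1} {x1 : Type u1} [x2 : Field x1] : Sub (ℤ × Bool →₀ x1) := inferInstance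
theorem a4.{u1} {x1 : Type u1} [x2 : Field x1] : AddMonoidHomClass ((ℤ × Bool →₀ x1) →ₗ[x1] ℤ × Bool →₀ x1) (ℤ × Bool →₀ x1) (ℤ × Bool →₀ x1) := inferInstance
theorem a5.{u1, u2} {x1 : Type u1} {x2 : Type u2} [x3 : Ring x1] [x4 : Ring x2] : OneHomClass (x1 →+* x2) x1 x2 := inferInstance
theorem a6.{u1} {x1 : Type u1} [x2 : Field x1] : DistribMulActionSemiHomClass ((ℤ × Bool →₀ x1) →ₗ[x1] ℤ × Bool →₀ x1) (⇑(RingHom.id x1)) (ℤ × Bool →₀ x1) (ℤ × Bool →₀ x1) := inferInstance
theorem a7.{u1, u2} {x1 : Type u1} {x2 : Type u2} [x3 : Ring x1] [x4 : Ring x2] : MonoidWithZeroHomClass (x1 →+* x2) x1 x2 := inferInstance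
theorem a8.{u1, u2} {x1 : Type u1} {x2 : Type u2} [x3 : Ring x1] [x4 : Ring x2] : MonoidHomClass (x1 →+* x2) x1 x2 := inferInstance
theorem a9.{u1} {x1 : Type u1} [x2 : Fintype x1] : FiniteDimensional ℝ (x1 → ℂ) := inferInstance
@[reducible] noncomputable def a10 : NormedSpace ℝ ℝ := inferInstance
@[reducible] noncomputable def a11.{u1} {x1 : Type u1} : SMulZeroClass ℝ (x1 → ℂ) := inferInstance
theorem a12 {x1 : ℕ} : FiniteDimensional ℝ (Fin x1 → ℝ) := inferInstance
@[reducible] noncomputable def a13.{u1} {x1 : Type u1} : DistribSMul ℝ (x1 → ℂ) := inferInstance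
@[reducible] def a14 : Monoid ℂ := inferInstance
@[reducible] noncomputable def a15.{u1} {x1 : Type u1} : DistribMulAction ℝ (x1 → ℂ) := inferInstance
theorem a16.{u1, u2} {x1 : Type u1} {x2 : Type u2} [x3 : Ring x1] [x4 : Ring x2] : ZeroHomClass (x1 →+* x2) x1 x2 := inferInstance
@[reducible] def a17.{u1} {x1 : Type u1} [x2 : Ring x1] : One (Matrix Bool Bool x1) := inferInstance
theorem a18 : CharZero ℝ := inferInstance
@[reducible] def a19 : SMulZeroClass ℂ ℂ := inferInstance
theorem a20 {x1 : ℕ} : ContinuousSMul ℝ (Fin x1 → ℝ) := inferInstance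
@[reducible] def a21 {x1 : ℕ} : Module ℝ ((Fin x1 → ℝ) →L[ℝ] Fin x1 → ℝ) := inferInstance
theorem a22 : ContinuousSMul ℝ ℝ := inferInstance
theorem a23 {x1 : ℕ} {x2 : Fin x1} : CovariantClass ((fun x => ℝ) x2) ((fun x => ℝ) x2) (Function.swap fun x1_1 x2_1 => x1_1 + x2_1) fun x1_1 x2_1 => x1_1 ≤ x2_1 := inferInstance
@[reducible] def a24 {x1 : ℕ} : AddCommGroup ((Fin x1 → ℝ) →L[ℝ] Fin x1 → ℝ) := inferInstance
@[reducible] noncomputable def a25 {x1 : ℕ} [x2 : Fact (Nat.Prime x1)] : TopologicalSpace ℤ_[x1] := inferInstance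
@[reducible] def a26.{u1} {x1 : Type u1} [x2 : Ring x1] : Mul (Matrix Bool Bool x1) := inferInstance
@[reducible] noncomputable def a27 {x1 : ℕ} : NormedSpace ℝ (Fin x1 → ℝ) := inferInstance
@[reducible] noncomputable def a28.{u1, u2} {x1 : Type u1} {x2 : Type u2} [x3 : Field x2] : Sub (x1 →₀ x2) := inferInstance
theorem a29 {x1 : ℕ} : ContinuousConstSMul ℝ (Fin x1 → ℝ) := inferInstance
theorem a30 {x1 : ℕ} : HasContDiffBump (Fin x1 → ℝ) := inferInstance
@[reducible] def a31.{u1} {x1 : Type u1} [x2 : Ring x1] [x3 : Algebra ℂ x1] : SMulZeroClass ℂ (Matrix Bool Bool x1) := inferInstance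
@[reducible] noncomputable def a32 : NormedSpace ℝ ℂ := inferInstance
@[reducible] def a33.{u1} {x1 : Type u1} [x2 : Ring x1] [x3 : StarRing x1] : Star (Matrix Bool Bool x1) := inferInstance
@[reducible] def a34.{u1} {x1 : Type u1} [x2 : Ring x1] [x3 : Algebra ℂ x1] : DistribSMul ℂ (Matrix Bool Bool x1) := inferInstance
@[reducible] def a35 : SMulZeroClass ℝ ℝ := inferInstance
@[reducible] noncomputable def a36.{u1} {x1 : Type u1} [x2 : Field x1] : Add (ℤ × Bool →₀ x1) := inferInstance
@[reducible] noncomputable def a37 {x1 : ℕ} [x2 : Fact (Nat.Prime x1)] : Monoid ℤ_[x1] := inferInstance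
@[reducible] noncomputable def a38 {x1 : ℕ} [x2 : Fact (Nat.Prime x1)] : Pow ℤ_[x1] ℕ := inferInstance
@[reducible] noncomputable def a39 {x1 : ℕ} [x2 : Fact (Nat.Prime x1)] : NPow ℤ_[x1] := inferInstance
@[reducible] noncomputable def a40 {x1 : ℕ} : TopologicalSpace ((Fin x1 → ℝ) →L[ℝ] Fin x1 → ℝ) := inferInstance
theorem a41 {x1 : ℕ} : T2Space (Fin x1 → ℝ) := inferInstance
@[reducible] noncomputable def a42.{u1} {x1 : Type u1} [x2 : Field x1] : AddZeroClass (ℤ × Bool →₀ x1) := inferInstance
theorem a43 : T2Space ℝ := inferInstance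
@[reducible] noncomputable def a44 {x1 : ℕ} : TopologicalSpace (((Fin x1 → ℝ) →L[ℝ] Fin x1 → ℝ) →L[ℝ] Fin x1 → ℝ) := inferInstance
@[reducible] noncomputable def a45 {x1 : ℕ} : Module ℝ (((Fin x1 → ℝ) →L[ℝ] Fin x1 → ℝ) →L[ℝ] Fin x1 → ℝ) := inferInstance
theorem a46 : PosMulReflectLT ℝ := inferInstance
@[reducible] def a47 {x1 : ℕ} : Module ℝ (Fin x1 → Fin x1 → ℝ) := inferInstance
@[reducible] def a48.{u1} {x1 : Type u1} [x2 : Ring x1] : Semigroup (Matrix Bool Bool x1) := inferInstance
end AFast7e0c08x5a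
attribute [local instance] AFast7e0c08x5a.a0 AFast7e0c08x5a.a1 AFast7e0c08x5a.a2 AFast7e0c08x5a.a3
  AFast7e0c08x5a.a4 AFast7e0c08x5a.a5 AFast7e0c08x5a.a6 AFast7e0c08x5a.a7 AFast7e0c08x5a.a8
  AFast7e0c08x5a.a9 AFast7e0c08x5a.a10 AFast7e0c08x5a.a11 AFast7e0c08x5a.a12 AFast7e0c08x5a.a13
  AFast7e0c08x5a.a14 AFast7e0c08x5a.a15 AFast7e0c08x5a.a16 AFast7e0c08x5a.a17 AFast7e0c08x5a.a18
  AFast7e0c08x5a.a19 AFast7e0c08x5a.a20 AFast7e0c08x5a.a21 AFast7e0c08x5a.a22 AFast7e0c08x5a.a23
  AFast7e0c08x5a.a24 AFast7e0c08x5a.a25 AFast7e0c08x5a.a26 AFast7e0c08x5a.a27 AFast7e0c08x5a.a28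
  AFast7e0c08x5a.a29 AFast7e0c08x5a.a30 AFast7e0c08x5a.a31 AFast7e0c08x5a.a32 AFast7e0c08x5a.a33
  AFast7e0c08x5a.a34 AFast7e0c08x5a.a35 AFast7e0c08x5a.a36 AFast7e0c08x5a.a37 AFast7e0c08x5a.a38
  AFast7e0c08x5a.a39 AFast7e0c08x5a.a40 AFast7e0c08x5a.a41 AFast7e0c08x5a.a42 AFast7e0c08x5a.a43
  AFast7e0c08x5a.a44 AFast7e0c08x5a.a45 AFast7e0c08x5a.a46 AFast7e0c08x5a.a47 AFast7e0c08x5a.a48
namespace AFast7e0c08x5b
theorem a0.{u1, u2} {x1 : Type u1} {x2 : Type u2} [x3 : Ring x1] [x4 : Ring x2] : AddMonoidHomClass (x1 →+* x2) x1 x2 := inferInstance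
@[reducible] noncomputable def a1 : Module ℝ ℂ := inferInstance
theorem a2.{u1, u2} {x1 : Type u1} {x2 : Type u2} [x3 : Ring x1] [x4 : Ring x2] : AddHomClass (x1 →+* x2) x1 x2 := inferInstance
theorem a3.{u1} {x1 : Type u1} [x2 : Field x1] : ZeroHomClass ((ℤ × Bool →₀ x1) →ₗ[x1] ℤ × Bool →₀ x1) (ℤ × Bool →₀ x1) (ℤ × Bool →₀ x1) := inferInstance
theorem a4 {x1 : ℕ} [x2 : Fact (Nat.Prime x1)] : AddMonoidHomClass (ℤ_[x1] →+* ZMod x1) ℤ_[x1] (ZMod x1) := inferInstance
theorem a5 {x1 : ℕ} {x2 : ℕ} : AddMonoidHomClass (ZMod x1 →+* ZMod x2) (ZMod x1) (ZMod x2) := inferInstance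
theorem a6 : Module.Free ℝ ℂ := inferInstance
theorem a7 : Module.Flat ℝ ℂ := inferInstance
theorem a8 : Module.FaithfullyFlat ℝ ℂ := inferInstance
@[reducible] noncomputable def a9.{u1} {x1 : Type u1} {x2 : x1} : SemigroupAction ℝ ((fun a => ℂ) x2) := inferInstance
@[reducible] noncomputable def a10.{u1} {x1 : Type u1} {x2 : x1} : MulAction ℝ ((fun a => ℂ) x2) := inferInstance
theorem a11 {x1 : ℕ} : SemilinearMapClass ((Fin x1 → ℝ) →L[ℝ] ℝ) (RingHom.id ℝ) (Fin x1 → ℝ) ℝ := inferInstance
theorem a12 : NoZeroDivisors (AddMonoidAlgebra ℂ (ℤ × ℤ)) := inferInstance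
theorem a13 : UniqueSums (ℤ × ℤ) := inferInstance
theorem a14 : UniqueSums ℤ := inferInstance
theorem a15 : TwoUniqueSums ℤ := inferInstance
theorem a16.{u1, u2, u3} {x1 : Type u1} [x2 : Field x1] {x3 : Type u2} {x4 : Type u3} : ZeroHomClass ((x3 →₀ x1) →ₗ[x1] x4 →₀ x1) (x3 →₀ x1) (x4 →₀ x1) := inferInstance
theorem a17.{u1, u2, u3} {x1 : Type u1} [x2 : Field x1] {x3 : Type u2} {x4 : Type u3} : AddMonoidHomClass ((x3 →₀ x1) →ₗ[x1] x4 →₀ x1) (x3 →₀ x1) (x4 →₀ x1) := inferInstance
end AFast7e0c08x5b
attribute [local instance] AFast7e0c08x5b.a0 AFast7e0c08x5b.a1 AFast7e0c08x5b.a2 AFast7e0c08x5b.a3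
  AFast7e0c08x5b.a4 AFast7e0c08x5b.a5 AFast7e0c08x5b.a6 AFast7e0c08x5b.a7 AFast7e0c08x5b.a8
  AFast7e0c08x5b.a9 AFast7e0c08x5b.a10 AFast7e0c08x5b.a11 AFast7e0c08x5b.a12 AFast7e0c08x5b.a13
  AFast7e0c08x5b.a14 AFast7e0c08x5b.a15 AFast7e0c08x5b.a16 AFast7e0c08x5b.a17
section

section

/-!
P228, block [S]: the slicing operator `S` in an abstract star algebra over `ℂ`.

`v = (1-2P)(V(2b)U(-a))^2`, `b = P θ P`, `a = P θ' P`,
`S = K0 (2 v Q v⁻¹ - 1)`, `K0 = i [0,1;-1,0]`.
-/

open Matrix

set_option linter.unusedSectionVars false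
set_option linter.unusedSimpArgs false

noncomputable section

namespace Vale.Agent.P228.Inv

variable {R : Type*} [Ring R]

/-- 2x2 blocks; `false` is the first index -/
def m2 (a b c d : R) : Matrix Bool Bool R := fun i j =>
  match i, j with
  | false, false => a
  | false, true => b
  | true, false => c
  | true, true => d

section basic

variable (a b c d a' b' c' d' : R)

@[simp] theorem m2_ff : m2 a b c d false false = a := rfl
@[simp] theorem m2_ft : m2 a b c d false true = b := rfl
@[simp] theorem m2_tf : m2 a b c d true false = c := rfl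
@[simp] theorem m2_tt : m2 a b c d true true = d := rfl

theorem m2_ext {M N : Matrix Bool Bool R} (h1 : M false false = N false false)
    (h2 : M false true = N false true) (h3 : M true false = N true false)
    (h4 : M true true = N true true) : M = N := by
  ext i j
  cases i <;> cases j <;> assumption

theorem m2_mul : m2 a b c d * m2 a' b' c' d' =
    m2 (a * a' + b * c') (a * b' + b * d') (c * a' + d * c') (c * b' + d * d') := by
  apply m2_ext <;> simp [Matrix.mul_apply, add_comm]

theorem m2_add : m2 a b c d + m2 a' b' c' d' = m2 (a + a') (b + b') (c + c') (d + d') := by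
  apply m2_ext <;> simp [Matrix.add_apply]

theorem m2_sub : m2 a b c d - m2 a' b' c' d' = m2 (a - a') (b - b') (c - c') (d - d') := by
  apply m2_ext <;> simp [Matrix.sub_apply]

theorem m2_neg : -m2 a b c d = m2 (-a) (-b) (-c) (-d) := by
  apply m2_ext <;> simp [Matrix.neg_apply]

theorem m2_one : (1 : Matrix Bool Bool R) = m2 1 0 0 1 := by
  apply m2_ext <;> simp [Matrix.one_apply]

theorem m2_zero : (0 : Matrix Bool Bool R) = m2 0 0 0 0 := by
  apply m2_ext <;> simp

theorem m2_star [StarRing R] : star (m2 a b c d) = m2 (star a) (star c) (star b) (star d) := by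
  apply m2_ext <;> simp [Matrix.star_apply]

theorem m2_smul {S : Type*} [SMul S R] (s : S) :
    s • m2 a b c d = m2 (s • a) (s • b) (s • c) (s • d) := by
  apply m2_ext <;> simp [Matrix.smul_apply]

theorem m2_map {R' : Type*} [Ring R'] (f : R → R') :
    (m2 a b c d).map f = m2 (f a) (f b) (f c) (f d) := by
  apply m2_ext <;> simp [Matrix.map_apply]

end basic

/-- lower unipotent -/
def Vl (b : R) : Matrix Bool Bool R := m2 1 0 b 1
/-- upper unipotent -/
def Uu (a : R) : Matrix Bool Bool R := m2 1 a 0 1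
/-- diagonal -/
def Dg (a : R) : Matrix Bool Bool R := m2 a 0 0 a
/-- the skew form -/
def Om (R : Type*) [Ring R] : Matrix Bool Bool R := m2 0 1 (-1) 0

theorem Vl_mul (b b' : R) : Vl b * Vl b' = Vl (b + b') := by
  simp only [Vl, m2_mul, mul_one, zero_mul, add_comm, zero_add, mul_zero, add_zero, one_mul]

theorem Uu_mul (b b' : R) : Uu b * Uu b' = Uu (b + b') := by
  simp only [Uu, m2_mul, mul_one, mul_zero, add_comm, zero_add, one_mul, add_zero, zero_mul]

theorem Dg_mul (b b' : R) : Dg b * Dg b' = Dg (b * b') := by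
  simp [Dg, m2_mul]

theorem Vl_zero : Vl (0 : R) = 1 := by simp [Vl, m2_one]
theorem Uu_zero : Uu (0 : R) = 1 := by simp [Uu, m2_one]
theorem Dg_one : Dg (1 : R) = 1 := by simp [Dg, m2_one]

/-- the word `v` -/
def vop (P th th' : R) : Matrix Bool Bool R :=
  Dg (1 - 2 * P) * (Vl (2 * (P * th * P)) * Uu (-(P * th' * P)) *
    (Vl (2 * (P * th * P)) * Uu (-(P * th' * P))))

/-- the inverse word -/
def vinv (P th th' : R) : Matrix Bool Bool R :=
  (Uu (P * th' * P) * Vl (-(2 * (P * th * P))) *
    (Uu (P * th' * P) * Vl (-(2 * (P * th * P))))) * Dg (1 - 2 * P)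

theorem two_mul_idem {P : R} (hP : P * P = P) : (1 - 2 * P) * (1 - 2 * P) = 1 := by
  have : (1 - 2 * P) * (1 - 2 * P) = 1 - 4 * P + 4 * (P * P) := by noncomm_ring
  rw [this, hP]; noncomm_ring

theorem w_inv (a b : R) : (Vl b * Uu (-a)) * (Uu a * Vl (-b)) = 1 := by
  rw [Matrix.mul_assoc, ← Matrix.mul_assoc (Uu (-a)), Uu_mul, neg_add_cancel, Uu_zero,
    Matrix.one_mul, Vl_mul, add_neg_cancel, Vl_zero]

theorem w_inv' (a b : R) : (Uu a * Vl (-b)) * (Vl b * Uu (-a)) = 1 := by
  rw [Matrix.mul_assoc, ← Matrix.mul_assoc (Vl (-b)), Vl_mul, neg_add_cancel, Vl_zero,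
    Matrix.one_mul, Uu_mul, add_neg_cancel, Uu_zero]

theorem vop_mul_vinv {P : R} (hP : P * P = P) (th th' : R) :
    vop P th th' * vinv P th th' = 1 := by
  unfold vop vinv
  set W := Vl (2 * (P * th * P)) * Uu (-(P * th' * P)) with hW
  set W' := Uu (P * th' * P) * Vl (-(2 * (P * th * P))) with hW'
  have h1 : W * W' = 1 := w_inv _ _
  calc Dg (1 - 2 * P) * (W * W) * (W' * W' * Dg (1 - 2 * P))
      = Dg (1 - 2 * P) * (W * (W * W') * W') * Dg (1 - 2 * P) := by noncomm_ring
    _ = 1 := by
        rw [h1, Matrix.mul_one, h1, Matrix.mul_one, Dg_mul, two_mul_idem hP, Dg_one]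

theorem vinv_mul_vop {P : R} (hP : P * P = P) (th th' : R) :
    vinv P th th' * vop P th th' = 1 := by
  unfold vop vinv
  set W := Vl (2 * (P * th * P)) * Uu (-(P * th' * P)) with hW
  set W' := Uu (P * th' * P) * Vl (-(2 * (P * th * P))) with hW'
  have h1 : W' * W = 1 := w_inv' _ _
  calc W' * W' * Dg (1 - 2 * P) * (Dg (1 - 2 * P) * (W * W))
      = W' * W' * (Dg (1 - 2 * P) * Dg (1 - 2 * P)) * (W * W) := by noncomm_ring
    _ = W' * (W' * W) * W := by
        rw [Dg_mul, two_mul_idem hP, Dg_one]; noncomm_ring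
    _ = 1 := by rw [h1, Matrix.mul_one, h1]

/-- `v = 1` if `P` commutes with `θ` and `θ'` -/
theorem vop_eq_one {P th th' : R} (hP : P * P = P) (h1 : P * th = th * P)
    (h2 : P * th' = th' * P) (h3 : th * th' = 1) (h4 : th' * th = 1) :
    vop P th th' = 1 := by
  have e1 : P * th * P = P * th := by rw [mul_assoc, ← h1, ← mul_assoc, hP]
  have e2 : P * th' * P = P * th' := by rw [mul_assoc, ← h2, ← mul_assoc, hP]
  have e3 : (P * th) * (P * th') = P := by
    rw [← mul_assoc, mul_assoc P th P, ← h1, ← mul_assoc, hP, mul_assoc, h3, mul_one]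
  have e4 : (P * th') * (P * th) = P := by
    rw [← mul_assoc, mul_assoc P th' P, ← h2, ← mul_assoc, hP, mul_assoc, h4, mul_one]
  unfold vop
  rw [e1, e2]
  have hW : Vl (2 * (P * th)) * Uu (-(P * th')) =
      m2 1 (-(P * th')) (2 * (P * th)) (1 - 2 * P) := by
    unfold Vl Uu
    rw [m2_mul]
    congr 1
    · simp
    · simp
    · simp only [mul_one, mul_zero, add_zero]
    · have : 2 * (P * th) * -(P * th') = -(2 * ((P * th) * (P * th'))) := by noncomm_ring
      rw [this, e3]; noncomm_ring
  rw [hW, m2_mul]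
  have f1 : 1 * 1 + -(P * th') * (2 * (P * th)) = 1 - 2 * P := by
    have : -(P * th') * (2 * (P * th)) = -(2 * ((P * th') * (P * th))) := by noncomm_ring
    rw [this, e4]; noncomm_ring
  have f2 : 1 * -(P * th') + -(P * th') * (1 - 2 * P) = 0 := by
    have : 1 * -(P * th') + -(P * th') * (1 - 2 * P)
      = -(2 * (P * th')) + 2 * (P * th' * P) := by noncomm_ring
    rw [this, e2]; noncomm_ring
  have f3 : 2 * (P * th) * 1 + (1 - 2 * P) * (2 * (P * th)) = 0 := by
    have : 2 * (P * th) * 1 + (1 - 2 * P) * (2 * (P * th))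
      = 4 * (P * th) - 4 * ((P * P) * th) := by noncomm_ring
    rw [this, hP]; noncomm_ring
  have f4 : 2 * (P * th) * -(P * th') + (1 - 2 * P) * (1 - 2 * P) = 1 - 2 * P := by
    have : 2 * (P * th) * -(P * th') = -(2 * ((P * th) * (P * th'))) := by noncomm_ring
    rw [this, e3, two_mul_idem hP]; noncomm_ring
  rw [f1, f2, f3, f4]
  change Dg (1 - 2 * P) * Dg (1 - 2 * P) = 1
  rw [Dg_mul, two_mul_idem hP, Dg_one]

section star

variable [StarRing R]

/-- `Ω`-isometry -/
theorem Vl_iso {b : R} (hb : star b = b) : star (Vl b) * Om R * Vl b = Om R := by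
  simp only [Vl, m2_star, star_one, hb, star_zero, Om, m2_mul, mul_zero, mul_neg, mul_one, zero_add, add_zero, one_mul, neg_add_cancel, zero_mul]

theorem Uu_iso {b : R} (hb : star b = b) : star (Uu b) * Om R * Uu b = Om R := by
  simp only [Uu, m2_star, star_one, star_zero, hb, Om, m2_mul, mul_zero, mul_neg, mul_one, neg_zero, add_zero, zero_add, zero_mul, neg_mul, one_mul, neg_add_cancel]

theorem Dg_iso {b : R} (hb : star b * b = 1) : star (Dg b) * Om R * Dg b = Om R := by
  simp only [Dg, m2_star, star_zero, Om, m2_mul, mul_zero, mul_neg, mul_one, neg_zero, add_zero, zero_add, zero_mul, hb, neg_mul]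

theorem iso_mul {X Y : Matrix Bool Bool R} (hX : star X * Om R * X = Om R)
    (hY : star Y * Om R * Y = Om R) : star (X * Y) * Om R * (X * Y) = Om R := by
  rw [star_mul]
  calc star Y * star X * Om R * (X * Y) = star Y * (star X * Om R * X) * Y := by noncomm_ring
    _ = Om R := by rw [hX, hY]

theorem vop_iso {P th th' : R} (hP : P * P = P) (hPs : star P = P) (h1 : star th = th)
    (h2 : star th' = th') : star (vop P th th') * Om R * vop P th th' = Om R := by
  have hb : star (2 * (P * th * P)) = 2 * (P * th * P) := by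
    simp only [star_mul, hPs, h1, star_ofNat]; noncomm_ring
  have ha : star (-(P * th' * P)) = -(P * th' * P) := by
    simp only [star_neg, star_mul, hPs, h2]; noncomm_ring
  have hd : star (1 - 2 * P) = 1 - 2 * P := by
    simp only [star_sub, star_one, star_mul, hPs, star_ofNat]; noncomm_ring
  have hW := iso_mul (Vl_iso hb) (Uu_iso ha)
  exact iso_mul (Dg_iso (by rw [hd, two_mul_idem hP])) (iso_mul hW hW)

end star

section S

variable [Algebra ℂ R]

/-- `K0 = i Ω` -/
def K0 (R : Type*) [Ring R] [Algebra ℂ R] : Matrix Bool Bool R := Complex.I • Om R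

theorem Om_sq : Om R * Om R = -1 := by
  simp [Om, m2_mul, m2_one, m2_neg]

theorem K0_sq : K0 R * K0 R = 1 := by
  unfold K0
  rw [smul_mul_smul_comm, Om_sq, Complex.I_mul_I]
  simp

theorem K0_Dg (a : R) : K0 R * Dg a = Dg a * K0 R := by
  unfold K0
  rw [smul_mul_assoc, mul_smul_comm]
  congr 1
  simp only [Om, Dg, m2_mul, zero_mul, mul_zero, add_zero, one_mul, zero_add, neg_mul, mul_neg, mul_one, neg_zero]

/-- the idempotent `ρ = v Q v⁻¹` as reflection `2 ρ - 1` -/
def refl (P Q th th' : R) : Matrix Bool Bool R :=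
  2 * (vop P th th' * Dg Q * vinv P th th') - 1

/-- the slicing operator -/
def Sop (P Q th th' : R) : Matrix Bool Bool R := K0 R * refl P Q th th'

/-- its inverse -/
def SopInv (P Q th th' : R) : Matrix Bool Bool R := refl P Q th th' * K0 R

theorem refl_sq {P Q : R} (hP : P * P = P) (hQ : Q * Q = Q) (th th' : R) :
    refl P Q th th' * refl P Q th th' = 1 := by
  have hρ : (vop P th th' * Dg Q * vinv P th th') * (vop P th th' * Dg Q * vinv P th th') =
      vop P th th' * Dg Q * vinv P th th' := by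
    calc _ = vop P th th' * Dg Q * (vinv P th th' * vop P th th') * Dg Q * vinv P th th' := by
            noncomm_ring
      _ = vop P th th' * (Dg Q * Dg Q) * vinv P th th' := by
            rw [vinv_mul_vop hP]; noncomm_ring
      _ = _ := by rw [Dg_mul, hQ]
  unfold refl
  set ρ := vop P th th' * Dg Q * vinv P th th'
  have : (2 * ρ - 1) * (2 * ρ - 1) = 4 * (ρ * ρ) - 4 * ρ + 1 := by noncomm_ring
  rw [this, hρ]; noncomm_ring

theorem Sop_mul_SopInv {P Q : R} (hP : P * P = P) (hQ : Q * Q = Q) (th th' : R) :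
    Sop P Q th th' * SopInv P Q th th' = 1 := by
  unfold Sop SopInv
  rw [Matrix.mul_assoc, ← Matrix.mul_assoc (refl P Q th th'), refl_sq hP hQ, Matrix.one_mul,
    K0_sq]

theorem SopInv_mul_Sop {P Q : R} (hP : P * P = P) (hQ : Q * Q = Q) (th th' : R) :
    SopInv P Q th th' * Sop P Q th th' = 1 := by
  unfold Sop SopInv
  rw [Matrix.mul_assoc, ← Matrix.mul_assoc (K0 R), K0_sq, Matrix.one_mul, refl_sq hP hQ]

variable [StarRing R] [StarModule ℂ R]

theorem K0_star : star (K0 R) = K0 R := by
  unfold K0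
  rw [star_smul]
  have : star (Om R) = -Om R := by simp only [Om, m2_star, star_zero, star_neg, star_one, m2_neg, neg_zero, neg_neg]
  rw [this]
  simp

/-- `v⁻¹ = K0 v* K0` -/
theorem vinv_eq {P th th' : R} (hP : P * P = P) (hPs : star P = P) (h1 : star th = th)
    (h2 : star th' = th') : vinv P th th' = K0 R * star (vop P th th') * K0 R := by
  have h := vop_iso hP hPs h1 h2
  have h3 : star (vop P th th') * K0 R * vop P th th' = K0 R := by
    unfold K0
    rw [mul_smul_comm, smul_mul_assoc, h]
  have h4 : (K0 R * star (vop P th th') * K0 R) * vop P th th' = 1 := by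
    rw [Matrix.mul_assoc, Matrix.mul_assoc, ← Matrix.mul_assoc (star (vop P th th')), h3, K0_sq]
  calc vinv P th th' = (K0 R * star (vop P th th') * K0 R) * vop P th th' * vinv P th th' := by
        rw [h4, Matrix.one_mul]
    _ = _ := by rw [Matrix.mul_assoc, vop_mul_vinv hP, Matrix.mul_one]

theorem Sop_star {P Q th th' : R} (hP : P * P = P) (hPs : star P = P) (hQs : star Q = Q)
    (h1 : star th = th) (h2 : star th' = th') : star (Sop P Q th th') = Sop P Q th th' := by
  unfold Sop refl
  rw [vinv_eq hP hPs h1 h2]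
  set v := vop P th th'
  have hD : star (Dg Q) = Dg Q := by simp only [Dg, m2_star, hQs, star_zero]
  have h2s : star (2 : Matrix Bool Bool R) = 2 := star_ofNat 2
  rw [star_mul, star_sub, star_one, star_mul, star_mul, star_mul, star_mul, star_mul, star_star,
    K0_star, hD, h2s]
  have e : K0 R * v * K0 R * (Dg Q * star v) * 2 =
      2 * (K0 R * v * Dg Q * (K0 R * star v)) := by
    have := K0_Dg Q
    calc K0 R * v * K0 R * (Dg Q * star v) * 2
        = 2 * (K0 R * v * (K0 R * Dg Q) * star v) := by noncomm_ring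
      _ = _ := by rw [this]; noncomm_ring
  calc (K0 R * (v * K0 R) * (Dg Q * star v) * 2 - 1) * K0 R
      = (K0 R * v * K0 R * (Dg Q * star v) * 2 - 1) * K0 R := by noncomm_ring
    _ = (2 * (K0 R * v * Dg Q * (K0 R * star v)) - 1) * K0 R := by rw [e]
    _ = K0 R * (2 * (v * Dg Q * (K0 R * star v * K0 R)) - 1) := by noncomm_ring

theorem SopInv_star {P Q th th' : R} (hP : P * P = P) (hPs : star P = P) (hQs : star Q = Q)
    (h1 : star th = th) (h2 : star th' = th') :
    star (SopInv P Q th th') = SopInv P Q th th' := by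
  have h : SopInv P Q th th' = K0 R * Sop P Q th th' * K0 R := by
    unfold SopInv Sop
    rw [← Matrix.mul_assoc, K0_sq, Matrix.one_mul]
  rw [h, star_mul, star_mul, Sop_star hP hPs hQs h1 h2, K0_star, Matrix.mul_assoc]

end S

/-! ### naturality -/

section nat

variable {R' : Type*} [Ring R'] [Algebra ℂ R] [Algebra ℂ R']

theorem Vl_map (f : R →+* R') (b : R) : (Vl b).map f = Vl (f b) := by
  simp [Vl, m2_map]

theorem Uu_map (f : R →+* R') (b : R) : (Uu b).map f = Uu (f b) := by
  simp only [Uu, m2_map, map_one, map_zero]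

theorem Dg_map (f : R →+* R') (b : R) : (Dg b).map f = Dg (f b) := by
  simp only [Dg, m2_map, map_zero]

theorem Om_map (f : R →+* R') : (Om R).map f = Om R' := by
  simp only [Om, m2_map, map_zero, map_one, map_neg]

theorem vop_map (f : R →+* R') (P th th' : R) :
    (vop P th th').map f = vop (f P) (f th) (f th') := by
  unfold vop
  simp only [Matrix.map_mul, Vl_map, Uu_map, Dg_map, map_mul, map_sub, map_neg, map_one,
    map_ofNat]

theorem vinv_map (f : R →+* R') (P th th' : R) :
    (vinv P th th').map f = vinv (f P) (f th) (f th') := by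
  unfold vinv
  simp only [Matrix.map_mul, Vl_map, Uu_map, Dg_map, map_mul, map_sub, map_neg, map_one,
    map_ofNat]

theorem map_one' (f : R →+* R') : (1 : Matrix Bool Bool R).map f = 1 :=
  Matrix.map_one f (map_zero f) (map_one f)

theorem refl_map (f : R →+* R') (P Q th th' : R) :
    (refl P Q th th').map f = refl (f P) (f Q) (f th) (f th') := by
  have e : ∀ X : Matrix Bool Bool R, 2 * X - 1 = X + X - 1 := fun X => by rw [two_mul]
  have e' : ∀ X : Matrix Bool Bool R', 2 * X - 1 = X + X - 1 := fun X => by rw [two_mul]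
  unfold refl
  rw [e, e', Matrix.map_sub f (map_sub f), Matrix.map_add f (map_add f), map_one' f,
    Matrix.map_mul, Matrix.map_mul, vop_map, vinv_map, Dg_map]

theorem K0_map (f : R →+* R') (hI : ∀ x, f (Complex.I • x) = Complex.I • f x) :
    (K0 R).map f = K0 R' := by
  unfold K0
  rw [← Om_map f]
  ext i j
  simp [Matrix.map_apply, Matrix.smul_apply, hI]

theorem Sop_map (f : R →+* R') (hI : ∀ x, f (Complex.I • x) = Complex.I • f x)
    (P Q th th' : R) :
    (Sop P Q th th').map f = Sop (f P) (f Q) (f th) (f th') := by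
  unfold Sop
  rw [Matrix.map_mul, refl_map, K0_map f hI]

theorem SopInv_map (f : R →+* R') (hI : ∀ x, f (Complex.I • x) = Complex.I • f x)
    (P Q th th' : R) :
    (SopInv P Q th th').map f = SopInv (f P) (f Q) (f th) (f th') := by
  unfold SopInv
  rw [Matrix.map_mul, refl_map, K0_map f hI]

end nat

/-! ### congruence by elements commuting with the walls -/

theorem m2_diag_inv [StarRing R] {k k' : R} (h1 : k * k' = 1) (h2 : k' * k = 1) :
    m2 k 0 0 (star k') * m2 k' 0 0 (star k) = 1 := by
  have e2 : star k' * star k = 1 := by rw [← star_mul, h1, star_one]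
  rw [m2_mul, m2_one]
  simp only [h1, mul_zero, add_zero, zero_mul, e2, zero_add]

section congr

variable [StarRing R]

theorem vop_congr {P th th' k k' : R} (hPs : star P = P) (hk : k * k' = 1) (hk' : k' * k = 1)
    (hPk : P * k = k * P) :
    vop P (star k * th * k) (k' * th' * star k') =
      m2 k' 0 0 (star k) * vop P th th' * m2 k 0 0 (star k') := by
  have hPk' : P * k' = k' * P := by
    calc P * k' = k' * k * P * k' := by rw [hk', one_mul]
      _ = k' * (P * k) * k' := by rw [hPk]; noncomm_ring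
      _ = k' * P := by rw [mul_assoc, mul_assoc, hk, mul_one]
  have hPks : P * star k = star k * P := by
    have := congrArg star hPk
    rw [star_mul, star_mul, hPs] at this
    exact this.symm
  have hPks' : P * star k' = star k' * P := by
    have := congrArg star hPk'
    rw [star_mul, star_mul, hPs] at this
    exact this.symm
  have hks : star k * star k' = 1 := by rw [← star_mul, hk', star_one]
  have hks' : star k' * star k = 1 := by rw [← star_mul, hk, star_one]
  set E := m2 k 0 0 (star k') with hE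
  set E' := m2 k' 0 0 (star k) with hE'
  have hEE : E * E' = 1 := by
    rw [hE, hE', m2_mul]; simp only [hk, mul_zero, add_zero, zero_mul, hks', zero_add, m2_one]
  have hb : Vl (2 * (P * (star k * th * k) * P)) = E' * Vl (2 * (P * th * P)) * E := by
    rw [hE, hE']
    unfold Vl
    rw [m2_mul, m2_mul]
    have : 2 * (P * (star k * th * k) * P) = star k * (2 * (P * th * P)) * k := by
      calc 2 * (P * (star k * th * k) * P) = 2 * ((P * star k) * th * (k * P)) := by noncomm_ring
        _ = _ := by rw [hPks, ← hPk]; noncomm_ring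
    rw [this]
    congr 1 <;> simp [hk', hks]
  have ha : Uu (-(P * (k' * th' * star k') * P)) = E' * Uu (-(P * th' * P)) * E := by
    rw [hE, hE']
    unfold Uu
    rw [m2_mul, m2_mul]
    have : -(P * (k' * th' * star k') * P) = k' * (-(P * th' * P)) * star k' := by
      calc -(P * (k' * th' * star k') * P) = -((P * k') * th' * (star k' * P)) := by noncomm_ring
        _ = _ := by rw [hPk', ← hPks']; noncomm_ring
    rw [this]
    congr 1 <;> simp [hk', hks]
  have hd : Dg (1 - 2 * P) = E' * Dg (1 - 2 * P) * E := by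
    rw [hE, hE']
    unfold Dg
    rw [m2_mul, m2_mul]
    have h1 : 1 - 2 * P = k' * (1 - 2 * P) * k := by
      calc 1 - 2 * P = k' * k * (1 - 2 * P) := by rw [hk', one_mul]
        _ = k' * (k - 2 * (k * P)) := by noncomm_ring
        _ = _ := by rw [← hPk]; noncomm_ring
    have h2 : 1 - 2 * P = star k * (1 - 2 * P) * star k' := by
      calc 1 - 2 * P = (1 - 2 * P) * (star k * star k') := by rw [hks, mul_one]
        _ = (star k - 2 * (P * star k)) * star k' := by noncomm_ring
        _ = _ := by rw [hPks]; noncomm_ring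
    congr 1
    · simpa only [mul_zero, add_zero, zero_mul] using h1
    · simp only [mul_zero, add_zero, zero_mul]
    · simp only [zero_mul, mul_zero, add_zero, zero_add]
    · simpa only [zero_mul, mul_zero, add_zero, zero_add] using h2
  unfold vop
  rw [hb, ha]
  nth_rewrite 1 [hd]
  set D := Dg (1 - 2 * P)
  set A := Vl (2 * (P * th * P))
  set B := Uu (-(P * th' * P))
  calc E' * D * E * (E' * A * E * (E' * B * E) * (E' * A * E * (E' * B * E)))
      = E' * D * (E * E') * A * (E * E') * B * (E * E') * A * (E * E') * B * E := by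
        noncomm_ring
    _ = _ := by rw [hEE]; noncomm_ring

variable [Algebra ℂ R] [StarModule ℂ R]

theorem refl_congr {P Q th th' k k' : R} (hP : P * P = P) (hPs : star P = P)
    (hQs : star Q = Q)
    (hk : k * k' = 1) (hk' : k' * k = 1) (hPk : P * k = k * P) (hQk : Q * k = k * Q) :
    refl P Q (star k * th * k) (k' * th' * star k') =
      m2 k' 0 0 (star k) * refl P Q th th' * m2 k 0 0 (star k') := by
  have hQk' : Q * k' = k' * Q := by
    calc Q * k' = k' * k * Q * k' := by rw [hk', one_mul]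
      _ = k' * (Q * k) * k' := by rw [hQk]; noncomm_ring
      _ = k' * Q := by rw [mul_assoc, mul_assoc, hk, mul_one]
  have hQks' : Q * star k' = star k' * Q := by
    have := congrArg star hQk'
    rw [star_mul, star_mul, hQs] at this
    exact this.symm
  have hv := vop_congr (th := th) (th' := th') hPs hk hk' hPk
  have hEE := m2_diag_inv hk hk'
  have hEE' := m2_diag_inv hk' hk
  have hQE : Dg Q * m2 k 0 0 (star k') = m2 k 0 0 (star k') * Dg Q := by
    unfold Dg; rw [m2_mul, m2_mul]; simp only [hQk, mul_zero, add_zero, zero_mul, hQks', zero_add]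
  have hvi : vinv P (star k * th * k) (k' * th' * star k') =
      m2 k' 0 0 (star k) * vinv P th th' * m2 k 0 0 (star k') := by
    have a1 : vop P (star k * th * k) (k' * th' * star k') *
        (m2 k' 0 0 (star k) * vinv P th th' * m2 k 0 0 (star k')) = 1 := by
      rw [hv]
      generalize m2 k 0 0 (star k') = E at *
      generalize m2 k' 0 0 (star k) = E' at *
      calc E' * vop P th th' * E * (E' * vinv P th th' * E)
          = E' * vop P th th' * (E * E') * vinv P th th' * E := by noncomm_ring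
        _ = E' * (vop P th th' * vinv P th th') * E := by rw [hEE]; noncomm_ring
        _ = 1 := by rw [vop_mul_vinv hP, Matrix.mul_one, hEE']
    calc vinv P (star k * th * k) (k' * th' * star k')
        = vinv P (star k * th * k) (k' * th' * star k') *
          (vop P (star k * th * k) (k' * th' * star k') *
            (m2 k' 0 0 (star k) * vinv P th th' * m2 k 0 0 (star k'))) := by
          rw [a1, Matrix.mul_one]
      _ = _ := by rw [← Matrix.mul_assoc, vinv_mul_vop hP, Matrix.one_mul]
  unfold refl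
  rw [hv, hvi]
  generalize m2 k 0 0 (star k') = E at *
  generalize m2 k' 0 0 (star k) = E' at *
  generalize vop P th th' = v at *
  generalize vinv P th th' = w at *
  calc 2 * (E' * v * E * Dg Q * (E' * w * E)) - 1
      = 2 * (E' * v * (E * Dg Q) * (E' * w * E)) - E' * E := by
        rw [hEE']; noncomm_ring
    _ = 2 * (E' * v * (Dg Q * E) * (E' * w * E)) - E' * E := by rw [hQE]
    _ = 2 * (E' * v * Dg Q * (E * E') * w * E) - E' * E := by noncomm_ring
    _ = _ := by rw [hEE]; noncomm_ring

theorem K0_congr (k k' : R) : K0 R * m2 k' 0 0 (star k) = star (m2 k 0 0 (star k')) * K0 R := by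
  rw [m2_star]
  unfold K0 Om
  rw [smul_mul_assoc, mul_smul_comm, m2_mul, m2_mul]
  simp only [zero_mul, mul_zero, add_zero, one_mul, zero_add, neg_mul, star_zero, mul_neg, mul_one, neg_zero, star_star]

theorem K0_congr' (k k' : R) : m2 k 0 0 (star k') * K0 R = K0 R * star (m2 k' 0 0 (star k)) := by
  rw [m2_star]
  unfold K0 Om
  rw [smul_mul_assoc, mul_smul_comm, m2_mul, m2_mul]
  simp only [mul_zero, mul_neg, mul_one, neg_zero, add_zero, zero_add, zero_mul, star_zero, star_star, one_mul, neg_mul]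

theorem Sop_congr {P Q th th' k k' : R} (hP : P * P = P) (hPs : star P = P)
    (hQs : star Q = Q)
    (hk : k * k' = 1) (hk' : k' * k = 1) (hPk : P * k = k * P) (hQk : Q * k = k * Q) :
    Sop P Q (star k * th * k) (k' * th' * star k') =
      star (m2 k 0 0 (star k')) * Sop P Q th th' * m2 k 0 0 (star k') := by
  unfold Sop
  rw [refl_congr hP hPs hQs hk hk' hPk hQk, ← Matrix.mul_assoc, ← Matrix.mul_assoc,
    K0_congr, Matrix.mul_assoc (star (m2 k 0 0 (star k')))]

theorem SopInv_congr {P Q th th' k k' : R} (hP : P * P = P) (hPs : star P = P)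
    (hQs : star Q = Q)
    (hk : k * k' = 1) (hk' : k' * k = 1) (hPk : P * k = k * P) (hQk : Q * k = k * Q) :
    SopInv P Q (star k * th * k) (k' * th' * star k') =
      m2 k' 0 0 (star k) * SopInv P Q th th' * star (m2 k' 0 0 (star k)) := by
  unfold SopInv
  rw [refl_congr hP hPs hQs hk hk' hPk hQk, Matrix.mul_assoc, K0_congr', ← Matrix.mul_assoc,
    Matrix.mul_assoc (m2 k' 0 0 (star k))]

end congr

/-! ### oddness and standard values -/

section odd

variable [Algebra ℂ R]

/-- the sign `diag(1,-1)` -/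
def Sg (R : Type*) [Ring R] : Matrix Bool Bool R := m2 1 0 0 (-1)

theorem Sg_sq : Sg R * Sg R = 1 := by simp [Sg, m2_mul, m2_one]

theorem Sg_star [StarRing R] : star (Sg R) = Sg R := by simp only [Sg, m2_star, star_one, star_zero, star_neg]

theorem Sg_Vl (b : R) : Vl (-b) = Sg R * Vl b * Sg R := by simp [Sg, Vl, m2_mul]
theorem Sg_Uu (b : R) : Uu (-b) = Sg R * Uu b * Sg R := by simp [Sg, Uu, m2_mul]
theorem Sg_Dg (b : R) : Dg b = Sg R * Dg b * Sg R := by simp [Sg, Dg, m2_mul]

theorem vop_neg (P th th' : R) : vop P (-th) (-th') = Sg R * vop P th th' * Sg R := by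
  have e1 : 2 * (P * -th * P) = -(2 * (P * th * P)) := by noncomm_ring
  have e2 : -(P * -th' * P) = -(-(P * th' * P)) := by noncomm_ring
  unfold vop
  rw [e1, e2, Sg_Vl, Sg_Uu (-(P * th' * P))]
  nth_rewrite 1 [Sg_Dg (1 - 2 * P)]
  set D := Dg (1 - 2 * P)
  set A := Vl (2 * (P * th * P))
  set B := Uu (-(P * th' * P))
  set G := Sg R with hG
  have hGG : G * G = 1 := Sg_sq
  calc G * D * G * (G * A * G * (G * B * G) * (G * A * G * (G * B * G)))
      = G * D * (G * G) * A * (G * G) * B * (G * G) * A * (G * G) * B * G := by noncomm_ring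
    _ = _ := by rw [hGG]; noncomm_ring

theorem vinv_neg (P th th' : R) : vinv P (-th) (-th') = Sg R * vinv P th th' * Sg R := by
  have e1 : -(2 * (P * -th * P)) = -(-(2 * (P * th * P))) := by noncomm_ring
  have e2 : P * -th' * P = -(P * th' * P) := by noncomm_ring
  unfold vinv
  rw [e1, e2, Sg_Vl (-(2 * (P * th * P))), Sg_Uu]
  nth_rewrite 1 [Sg_Dg (1 - 2 * P)]
  set D := Dg (1 - 2 * P)
  set A := Vl (-(2 * (P * th * P)))
  set B := Uu (P * th' * P)
  set G := Sg R with hG
  have hGG : G * G = 1 := Sg_sq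
  calc G * B * G * (G * A * G) * (G * B * G * (G * A * G)) * (G * D * G)
      = G * B * (G * G) * A * (G * G) * B * (G * G) * A * (G * G) * D * G := by noncomm_ring
    _ = _ := by rw [hGG]; noncomm_ring

theorem refl_neg (P Q th th' : R) :
    refl P Q (-th) (-th') = Sg R * refl P Q th th' * Sg R := by
  unfold refl
  rw [vop_neg, vinv_neg]
  nth_rewrite 1 [Sg_Dg Q]
  set v := vop P th th'
  set w := vinv P th th'
  set G := Sg R with hG
  have hGG : G * G = 1 := Sg_sq
  calc 2 * (G * v * G * (G * Dg Q * G) * (G * w * G)) - 1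
      = 2 * (G * v * (G * G) * Dg Q * (G * G) * w * G) - 1 := by noncomm_ring
    _ = 2 * (G * v * Dg Q * w * G) - G * G := by rw [hGG]; noncomm_ring
    _ = _ := by noncomm_ring

theorem K0_Sg : K0 R * Sg R = -(Sg R * K0 R) := by
  unfold K0 Sg Om
  rw [smul_mul_assoc, mul_smul_comm, m2_mul, m2_mul, m2_smul, m2_smul, m2_neg]
  simp only [mul_one, mul_zero, add_zero, smul_zero, mul_neg, zero_add, smul_neg, neg_zero, neg_neg]

theorem Sop_neg (P Q th th' : R) :
    Sop P Q (-th) (-th') = -(Sg R * Sop P Q th th' * Sg R) := by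
  unfold Sop
  rw [refl_neg, ← Matrix.mul_assoc, ← Matrix.mul_assoc, K0_Sg]
  noncomm_ring

theorem SopInv_neg (P Q th th' : R) :
    SopInv P Q (-th) (-th') = -(Sg R * SopInv P Q th th' * Sg R) := by
  unfold SopInv
  rw [refl_neg]
  have : Sg R * refl P Q th th' * Sg R * K0 R =
      -(Sg R * refl P Q th th' * (K0 R * Sg R)) := by
    rw [K0_Sg]; noncomm_ring
  rw [this]; noncomm_ring

/-- the standard value -/
def Sstd (Q : R) : Matrix Bool Bool R := K0 R * Dg (2 * Q - 1)

theorem two_Dg (Q : R) : 2 * Dg Q - 1 = Dg (2 * Q - 1) := by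
  rw [two_mul, m2_one]
  unfold Dg
  rw [m2_add, m2_sub]
  simp only [add_zero, sub_self, two_mul]

theorem Sstd_eq (Q : R) :
    Sstd Q = m2 0 (Complex.I • (2 * Q - 1)) (-(Complex.I • (2 * Q - 1))) 0 := by
  unfold Sstd K0 Om Dg
  rw [smul_mul_assoc, m2_mul, m2_smul]
  congr 1
  · simp
  · simp only [mul_zero, one_mul, zero_add]
  · rw [← smul_neg]; congr 1; noncomm_ring
  · simp only [mul_zero, zero_mul, add_zero, smul_zero]

end odd

end Vale.Agent.P228.Inv
end
end
end

section

section

/-!
# Row- and column-finite matrices `LMat ι K`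

`ι` an arbitrary (infinite) index type, `K` a ring (usually commutative with a star).
-/

namespace Vale.Agent.P228

/-- Matrices `ι → ι → K` with finite rows and finite columns. -/
structure LMat (ι : Type*) (K : Type*) [Zero K] where
  toFun : ι → ι → K
  row_finite : ∀ i, {j | toFun i j ≠ 0}.Finite
  col_finite : ∀ j, {i | toFun i j ≠ 0}.Finite

namespace LMat

variable {ι κ μ K L R : Type*}

section Basic

variable [Zero K]

instance : CoeFun (LMat ι K) (fun _ => ι → ι → K) := ⟨LMat.toFun⟩

@[ext] theorem ext {a b : LMat ι K} (h : ∀ i j, a i j = b i j) : a = b := by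
  cases a; cases b; congr; funext i j; exact h i j

@[simp] theorem mk_apply (f : ι → ι → K) (h h') (i j : ι) :
    (LMat.mk f h h' : LMat ι K) i j = f i j := rfl

instance : Zero (LMat ι K) :=
  ⟨⟨fun _ _ => 0, fun _ => by simp, fun _ => by simp⟩⟩

@[simp] theorem zero_apply (i j : ι) : (0 : LMat ι K) i j = 0 := rfl

instance : Inhabited (LMat ι K) := ⟨0⟩

open scoped Classical in
/-- Diagonal matrices. -/
noncomputable def diag (f : ι → K) : LMat ι K where
  toFun i j := if i = j then f i else 0
  row_finite i := (Set.finite_singleton i).subset (by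
    intro j hj
    by_contra h
    have h' : ¬ (i = j) := fun e => h (by simp [e])
    simp [h'] at hj)
  col_finite j := (Set.finite_singleton j).subset (by
    intro i hi
    by_contra h
    have h' : ¬ (i = j) := fun e => h (by simp [e])
    simp [h'] at hi)

theorem diag_apply [DecidableEq ι] (f : ι → K) (i j : ι) :
    diag f i j = if i = j then f i else 0 := by
  unfold diag
  by_cases h : i = j
  · simp [h]
  · simp [h]

@[simp] theorem diag_apply_self (f : ι → K) (i : ι) : diag f i i = f i := by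
  classical
  simp only [diag_apply, ↓reduceIte]

theorem diag_apply_ne (f : ι → K) {i j : ι} (h : i ≠ j) : diag f i j = 0 := by
  classical
  simp only [diag_apply, h, ↓reduceIte]

@[simp] theorem diag_zero : diag (fun _ : ι => (0 : K)) = 0 := by
  classical
  ext i j; simp only [diag_apply, ite_self, zero_apply]

noncomputable instance [One K] : One (LMat ι K) := ⟨diag fun _ => 1⟩

theorem one_def [One K] : (1 : LMat ι K) = diag fun _ => 1 := rfl

theorem one_apply [One K] [DecidableEq ι] (i j : ι) :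
    (1 : LMat ι K) i j = if i = j then 1 else 0 := by
  rw [one_def, diag_apply]

@[simp] theorem one_apply_self [One K] (i : ι) : (1 : LMat ι K) i i = 1 := by
  classical
  simp [one_apply]

theorem one_apply_ne [One K] {i j : ι} (h : i ≠ j) : (1 : LMat ι K) i j = 0 := by
  classical
  simp only [one_apply, h, ↓reduceIte]

end Basic

section AddStruct

variable [Ring K]

instance : Add (LMat ι K) :=
  ⟨fun a b => ⟨fun i j => a i j + b i j,
    fun i => ((a.row_finite i).union (b.row_finite i)).subset (by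
      intro j hj
      by_contra h
      simp only [Set.mem_union, Set.mem_ofPred_eq, not_or, not_not] at h
      exact hj (by rw [h.1, h.2, add_zero])),
    fun j => ((a.col_finite j).union (b.col_finite j)).subset (by
      intro i hi
      by_contra h
      simp only [Set.mem_union, Set.mem_ofPred_eq, not_or, not_not] at h
      exact hi (by rw [h.1, h.2, add_zero]))⟩⟩

instance : Neg (LMat ι K) :=
  ⟨fun a => ⟨fun i j => - a i j,
    fun i => (a.row_finite i).subset (by
      intro j hj h
      exact hj (by rw [h, neg_zero])),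
    fun j => (a.col_finite j).subset (by
      intro i hi h
      exact hi (by rw [h, neg_zero]))⟩⟩

instance : Sub (LMat ι K) :=
  ⟨fun a b => ⟨fun i j => a i j - b i j,
    fun i => ((a.row_finite i).union (b.row_finite i)).subset (by
      intro j hj
      by_contra h
      simp only [Set.mem_union, Set.mem_ofPred_eq, not_or, not_not] at h
      exact hj (by rw [h.1, h.2, sub_zero])),
    fun j => ((a.col_finite j).union (b.col_finite j)).subset (by
      intro i hi
      by_contra h
      simp only [Set.mem_union, Set.mem_ofPred_eq, not_or, not_not] at h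
      exact hi (by rw [h.1, h.2, sub_zero]))⟩⟩

/-- Scalar multiplication by anything acting on `K` with `r • 0 = 0`. -/
instance {S : Type*} [SMulZeroClass S K] : SMul S (LMat ι K) :=
  ⟨fun r a => ⟨fun i j => r • a i j,
    fun i => (a.row_finite i).subset (by
      intro j hj h
      exact hj (by rw [h, smul_zero])),
    fun j => (a.col_finite j).subset (by
      intro i hi h
      exact hi (by rw [h, smul_zero]))⟩⟩

@[simp] theorem add_apply (a b : LMat ι K) (i j : ι) : (a + b) i j = a i j + b i j := rfl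
@[simp] theorem neg_apply (a : LMat ι K) (i j : ι) : (-a) i j = - a i j := rfl
@[simp] theorem sub_apply (a b : LMat ι K) (i j : ι) : (a - b) i j = a i j - b i j := rfl
@[simp] theorem smul_apply {S : Type*} [SMulZeroClass S K] (r : S) (a : LMat ι K) (i j : ι) :
    (r • a) i j = r • a i j := rfl

theorem coe_injective : Function.Injective (fun (a : LMat ι K) => (a : ι → ι → K)) := by
  intro a b h
  ext i j
  exact congrFun (congrFun h i) j

instance : AddCommGroup (LMat ι K) :=
  coe_injective.addCommGroup _ rfl (fun _ _ => rfl) (fun _ => rfl) (fun _ _ => rfl)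
    (fun _ _ => rfl) (fun _ _ => rfl)

/-- Entry as an additive homomorphism. -/
def entryHom (i j : ι) : LMat ι K →+ K where
  toFun a := a i j
  map_zero' := rfl
  map_add' _ _ := rfl

@[simp] theorem entryHom_apply (i j : ι) (a : LMat ι K) : entryHom i j a = a i j := rfl

@[simp] theorem sum_apply {α : Type*} (s : Finset α) (f : α → LMat ι K) (i j : ι) :
    (∑ x ∈ s, f x) i j = ∑ x ∈ s, f x i j := by
  exact map_sum (entryHom (K := K) i j) f s

/-- The finite row support. -/
noncomputable def rowF (a : LMat ι K) (i : ι) : Finset ι := (a.row_finite i).toFinset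
/-- The finite column support. -/
noncomputable def colF (a : LMat ι K) (j : ι) : Finset ι := (a.col_finite j).toFinset

@[simp] theorem mem_rowF (a : LMat ι K) (i j : ι) : j ∈ a.rowF i ↔ a i j ≠ 0 := by
  simp only [rowF, ne_eq, Set.Finite.mem_toFinset, Set.mem_ofPred_eq]
@[simp] theorem mem_colF (a : LMat ι K) (i j : ι) : i ∈ a.colF j ↔ a i j ≠ 0 := by
  simp only [colF, ne_eq, Set.Finite.mem_toFinset, Set.mem_ofPred_eq]

private theorem exists_of_sum_ne_zero {a b : LMat ι K} {i j : ι}
    (h : ∑ k ∈ a.rowF i, a i k * b k j ≠ 0) : ∃ k, a i k ≠ 0 ∧ b k j ≠ 0 := by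
  obtain ⟨k, _, hk⟩ := Finset.exists_ne_zero_of_sum_ne_zero h
  exact ⟨k, left_ne_zero_of_mul hk, right_ne_zero_of_mul hk⟩

noncomputable instance : Mul (LMat ι K) :=
  ⟨fun a b => ⟨fun i j => ∑ k ∈ a.rowF i, a i k * b k j,
    fun i => ((a.row_finite i).biUnion (fun k _ => b.row_finite k)).subset (by
      intro j hj
      obtain ⟨k, h1, h2⟩ := exists_of_sum_ne_zero hj
      simp only [Set.mem_iUnion]
      exact ⟨k, h1, h2⟩),
    fun j => ((b.col_finite j).biUnion (fun k _ => a.col_finite k)).subset (by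
      intro i hi
      obtain ⟨k, h1, h2⟩ := exists_of_sum_ne_zero hi
      simp only [Set.mem_iUnion]
      exact ⟨k, h2, h1⟩)⟩⟩

theorem mul_apply (a b : LMat ι K) (i j : ι) :
    (a * b) i j = ∑ k ∈ a.rowF i, a i k * b k j := rfl

/-- The general evaluation of a product: sum over any finite set containing all the
contributing indices. -/
theorem mul_apply_of (a b : LMat ι K) (i j : ι) (s : Finset ι)
    (h : ∀ k, a i k ≠ 0 → b k j ≠ 0 → k ∈ s) :
    (a * b) i j = ∑ k ∈ s, a i k * b k j := by
  classical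
  rw [mul_apply]
  have h1 : ∑ k ∈ a.rowF i, a i k * b k j = ∑ k ∈ a.rowF i ∪ s, a i k * b k j := by
    apply Finset.sum_subset Finset.subset_union_left
    intro k _ hk
    simp only [mem_rowF, not_not] at hk
    rw [hk, zero_mul]
  have h2 : ∑ k ∈ s, a i k * b k j = ∑ k ∈ a.rowF i ∪ s, a i k * b k j := by
    apply Finset.sum_subset Finset.subset_union_right
    intro k _ hk
    by_cases ha : a i k = 0
    · rw [ha, zero_mul]
    · by_cases hb : b k j = 0
      · rw [hb, mul_zero]
      · exact absurd (h k ha hb) hk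
  rw [h1, h2]

theorem exists_of_mul_ne_zero {a b : LMat ι K} {i j : ι} (h : (a * b) i j ≠ 0) :
    ∃ k, a i k ≠ 0 ∧ b k j ≠ 0 := exists_of_sum_ne_zero h

theorem diag_mul_apply (f : ι → K) (b : LMat ι K) (i j : ι) :
    (diag f * b) i j = f i * b i j := by
  rw [mul_apply_of (diag f) b i j {i}]
  · simp
  · intro k hk _
    by_contra h
    rw [Finset.mem_singleton] at h
    exact hk (diag_apply_ne f (Ne.symm h))

theorem mul_diag_apply (a : LMat ι K) (f : ι → K) (i j : ι) :
    (a * diag f) i j = a i j * f j := by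
  rw [mul_apply_of a (diag f) i j {j}]
  · simp
  · intro k _ hk
    by_contra h
    rw [Finset.mem_singleton] at h
    exact hk (diag_apply_ne f h)

private theorem mul_assoc' (a b c : LMat ι K) : a * b * c = a * (b * c) := by
  classical
  ext i j
  set T : Finset ι := (a.rowF i).biUnion (fun k => b.rowF k) with hT
  have hl : (a * b * c) i j = ∑ l ∈ T, (∑ k ∈ a.rowF i, a i k * b k l) * c l j := by
    rw [mul_apply_of (a * b) c i j T]
    · rfl
    · intro l hl _
      obtain ⟨k, h1, h2⟩ := exists_of_mul_ne_zero hl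
      rw [hT, Finset.mem_biUnion]
      exact ⟨k, by simpa using h1, by simpa using h2⟩
  have hr : (a * (b * c)) i j = ∑ k ∈ a.rowF i, a i k * ∑ l ∈ T, b k l * c l j := by
    rw [mul_apply]
    apply Finset.sum_congr rfl
    intro k hk
    rw [mul_apply_of b c k j T]
    intro l hl _
    rw [hT, Finset.mem_biUnion]
    exact ⟨k, hk, by simpa using hl⟩
  rw [hl, hr]
  simp only [Finset.sum_mul, Finset.mul_sum]
  rw [Finset.sum_comm]
  apply Finset.sum_congr rfl; intro k _
  apply Finset.sum_congr rfl; intro l _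
  rw [mul_assoc]

noncomputable instance : NatCast (LMat ι K) := ⟨fun n => diag fun _ => (n : K)⟩
noncomputable instance : IntCast (LMat ι K) := ⟨fun n => diag fun _ => (n : K)⟩

theorem natCast_def (n : ℕ) : (n : LMat ι K) = diag fun _ => (n : K) := rfl
theorem intCast_def (n : ℤ) : (n : LMat ι K) = diag fun _ => (n : K) := rfl

theorem add_diag (f g : ι → K) : diag f + diag g = diag (fun i => f i + g i) := by
  classical
  ext i j
  by_cases h : i = j <;> simp [diag_apply, h]

noncomputable instance : Ring (LMat ι K) :=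
  { (inferInstance : AddCommGroup (LMat ι K)) with
    mul := (· * ·)
    one := 1
    mul_assoc := mul_assoc'
    one_mul := fun a => by ext i j; rw [one_def, diag_mul_apply, one_mul]
    mul_one := fun a => by ext i j; rw [one_def, mul_diag_apply, mul_one]
    zero_mul := fun a => by ext i j; simp [mul_apply]
    mul_zero := fun a => by ext i j; simp [mul_apply]
    left_distrib := fun a b c => by
      ext i j
      simp only [mul_apply, add_apply, mul_add, Finset.sum_add_distrib]
    right_distrib := fun a b c => by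
      classical
      ext i j
      rw [add_apply, mul_apply_of (a + b) c i j (a.rowF i ∪ b.rowF i),
        mul_apply_of a c i j (a.rowF i ∪ b.rowF i), mul_apply_of b c i j (a.rowF i ∪ b.rowF i)]
      · simp only [add_apply, add_mul, Finset.sum_add_distrib]
      · intro k hk _; simp [hk]
      · intro k hk _; simp [hk]
      · intro k hk _
        by_contra h
        simp only [Finset.mem_union, mem_rowF, not_or, not_not] at h
        exact hk (by rw [add_apply, h.1, h.2, add_zero])
    natCast := fun n => (n : LMat ι K)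
    natCast_zero := by
      classical
      ext i j; simp [natCast_def, diag_apply]
    natCast_succ := fun n => by
      classical
      ext i j
      by_cases h : i = j <;> simp [natCast_def, diag_apply, one_apply, h]
    intCast := fun n => (n : LMat ι K)
    intCast_ofNat := fun n => by
      classical
      ext i j
      simp [natCast_def, intCast_def]
    intCast_negSucc := fun n => by
      classical
      ext i j
      by_cases h : i = j <;> simp [natCast_def, intCast_def, diag_apply, h] }

theorem diag_mul_diag (f g : ι → K) : diag f * diag g = diag (fun i => f i * g i) := by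
  classical
  ext i j
  rw [diag_mul_apply]
  by_cases h : i = j <;> simp only [diag_apply, h, ↓reduceIte, mul_zero]

@[simp] theorem diag_one : diag (fun _ : ι => (1 : K)) = 1 := rfl

theorem neg_diag (f : ι → K) : -diag f = diag (fun i => - f i) := by
  classical
  ext i j
  by_cases h : i = j <;> simp only [neg_apply, diag_apply, h, ↓reduceIte, neg_zero]

theorem sub_diag (f g : ι → K) : diag f - diag g = diag (fun i => f i - g i) := by
  classical
  ext i j
  by_cases h : i = j <;> simp only [sub_apply, diag_apply, h, ↓reduceIte, sub_self]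

/-- `diag` as a ring homomorphism. -/
noncomputable def diagHom : (ι → K) →+* LMat ι K where
  toFun := diag
  map_one' := rfl
  map_mul' f g := (diag_mul_diag f g).symm
  map_zero' := diag_zero
  map_add' f g := (add_diag f g).symm

@[simp] theorem diagHom_apply (f : ι → K) : diagHom f = diag f := rfl

end AddStruct

section Algebra

variable [Ring K]

noncomputable instance {S : Type*} [Semiring S] [Module S K] : Module S (LMat ι K) :=
  coe_injective.module S ⟨⟨fun (a : LMat ι K) => (a : ι → ι → K), rfl⟩, fun _ _ => rfl⟩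
    (fun _ _ => rfl)

theorem smul_mul' {S : Type*} [CommSemiring S] [Algebra S K] (r : S) (a b : LMat ι K) :
    r • a * b = r • (a * b) := by
  ext i j
  rw [smul_apply, mul_apply_of (r • a) b i j (a.rowF i), mul_apply, Finset.smul_sum]
  · simp only [smul_apply, smul_mul_assoc]
  · intro k hk _
    rw [mem_rowF]
    intro h
    exact hk (by rw [smul_apply, h, smul_zero])

theorem mul_smul' {S : Type*} [CommSemiring S] [Algebra S K] (r : S) (a b : LMat ι K) :
    a * r • b = r • (a * b) := by
  ext i j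
  rw [smul_apply, mul_apply, mul_apply, Finset.smul_sum]
  simp only [smul_apply, mul_smul_comm]

noncomputable instance {S : Type*} [CommSemiring S] [Algebra S K] : Algebra S (LMat ι K) :=
  Algebra.ofModule smul_mul' mul_smul'

theorem smul_diag {S : Type*} [SMulZeroClass S K] (r : S) (f : ι → K) :
    r • diag f = diag (fun i => r • f i) := by
  classical
  ext i j
  by_cases h : i = j <;> simp [diag_apply, h]

end Algebra

section Star

variable [Ring K] [StarRing K]

instance : Star (LMat ι K) :=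
  ⟨fun a => ⟨fun i j => star (a j i),
    fun i => (a.col_finite i).subset (by
      intro j hj h
      exact hj (by rw [h, star_zero])),
    fun j => (a.row_finite j).subset (by
      intro i hi h
      exact hi (by rw [h, star_zero]))⟩⟩

@[simp] theorem star_apply (a : LMat ι K) (i j : ι) : (star a) i j = star (a j i) := rfl

noncomputable instance : StarRing (LMat ι K) where
  star_involutive a := by ext i j; simp
  star_mul a b := by
    ext i j
    rw [star_apply, mul_apply_of a b j i (b.colF i), mul_apply_of (star b) (star a) i j (b.colF i),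
      star_sum]
    · simp only [star_mul, star_apply]
    · intro k hk _
      rw [mem_colF]
      intro h
      exact hk (by rw [star_apply, h, star_zero])
    · intro k _ hk
      simpa using hk
  star_add a b := by ext i j; simp

instance {S : Type*} [CommSemiring S] [StarRing S] [Algebra S K] [StarModule S K] :
    StarModule S (LMat ι K) where
  star_smul r a := by ext i j; simp

theorem star_diag (f : ι → K) : star (diag f) = diag (fun i => star (f i)) := by
  classical
  ext i j
  by_cases h : i = j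
  · subst h; simp only [star_apply, diag_apply_self]
  · rw [star_apply, diag_apply_ne _ (Ne.symm h), diag_apply_ne _ h, star_zero]

end Star

section Map

variable [Ring K] [Ring L]

/-- Entrywise application of a ring homomorphism. -/
noncomputable def map (f : K →+* L) : LMat ι K →+* LMat ι L where
  toFun a := ⟨fun i j => f (a i j),
    fun i => (a.row_finite i).subset (by
      intro j hj h
      exact hj (by rw [h, map_zero])),
    fun j => (a.col_finite j).subset (by
      intro i hi h
      exact hi (by rw [h, map_zero]))⟩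
  map_one' := by
    classical
    ext i j
    by_cases h : i = j <;> simp [one_apply, h]
  map_mul' a b := by
    ext i j
    rw [mk_apply, mul_apply a b, map_sum, mul_apply_of _ _ i j (a.rowF i)]
    · simp only [map_mul, mk_apply]
    · intro k hk _
      rw [mem_rowF]
      intro h
      exact hk (by rw [mk_apply, h, map_zero])
  map_zero' := by ext i j; simp
  map_add' a b := by ext i j; simp

@[simp] theorem map_apply (f : K →+* L) (a : LMat ι K) (i j : ι) :
    map f a i j = f (a i j) := rfl

theorem map_diag (f : K →+* L) (g : ι → K) : map f (diag g) = diag (fun i => f (g i)) := by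
  classical
  ext i j
  by_cases h : i = j <;> simp only [map_apply, diag_apply, h, ↓reduceIte, map_zero]

theorem map_star [StarRing K] [StarRing L] (f : K →+* L) (hf : ∀ x, f (star x) = star (f x))
    (a : LMat ι K) : map f (star a) = star (map f a) := by
  ext i j; simp only [map_apply, star_apply, hf]

theorem map_smul {S T : Type*} [CommSemiring S] [Algebra S K] [CommSemiring T] [Algebra T L]
    (f : K →+* L) (g : S → T) (h : ∀ s x, f (s • x) = g s • f x) (s : S) (a : LMat ι K) :
    map f (s • a) = g s • map f a := by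
  ext i j; simp only [map_apply, smul_apply, h]

end Map

section Reindex

variable [Ring K]

/-- Reindexing along an equivalence. -/
noncomputable def reindex (e : ι ≃ κ) : LMat ι K ≃+* LMat κ K where
  toFun a := ⟨fun i j => a (e.symm i) (e.symm j),
    fun i => ((a.row_finite (e.symm i)).preimage e.symm.injective.injOn),
    fun j => ((a.col_finite (e.symm j)).preimage e.symm.injective.injOn)⟩
  invFun a := ⟨fun i j => a (e i) (e j),
    fun i => ((a.row_finite (e i)).preimage e.injective.injOn),
    fun j => ((a.col_finite (e j)).preimage e.injective.injOn)⟩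
  left_inv a := by ext i j; simp
  right_inv a := by ext i j; simp
  map_mul' a b := by
    ext i j
    rw [mk_apply, mul_apply, mul_apply_of _ _ i j ((a.rowF (e.symm i)).map e.toEmbedding)]
    · rw [Finset.sum_map]
      simp
    · intro k hk _
      simp only [Finset.mem_map, Equiv.coe_toEmbedding]
      exact ⟨e.symm k, by simpa using hk, by simp⟩
  map_add' a b := by ext i j; simp

@[simp] theorem reindex_apply (e : ι ≃ κ) (a : LMat ι K) (i j : κ) :
    reindex e a i j = a (e.symm i) (e.symm j) := rfl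

@[simp] theorem reindex_symm_apply (e : ι ≃ κ) (a : LMat κ K) (i j : ι) :
    (reindex e).symm a i j = a (e i) (e j) := rfl

theorem reindex_star [StarRing K] (e : ι ≃ κ) (a : LMat ι K) :
    reindex e (star a) = star (reindex e a) := by
  ext i j; simp only [reindex_apply, star_apply]

theorem reindex_diag (e : ι ≃ κ) (f : ι → K) :
    reindex e (diag f) = diag (fun i => f (e.symm i)) := by
  classical
  ext i j
  by_cases h : i = j
  · subst h; simp
  · rw [reindex_apply, diag_apply_ne _ h, diag_apply_ne _ (fun e' => h (e.symm.injective e'))]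

end Reindex

end LMat

end Vale.Agent.P228
end
end
namespace AFast7e0c08x1188a
@[reducible] noncomputable def a0.{u1, u2} {x1 : Type u1} {x2 : Type u2} [x3 : Ring x2] : Semiring (Vale.Agent.P228.LMat x1 x2) := inferInstance
@[reducible] noncomputable def a1.{u1, u2} {x1 : Type u1} {x2 : Type u2} [x3 : CommRing x2] : Mul (Matrix Bool Bool (Vale.Agent.P228.LMat x1 x2)) := inferInstance
@[reducible] noncomputable def a2.{u1, u2} {x1 : Type u1} {x2 : Type u2} [x3 : Ring x2] : AddCommMonoid (Vale.Agent.P228.LMat x1 x2) := inferInstance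
@[reducible] noncomputable def a3.{u1, u2} {x1 : Type u1} {x2 : Type u2} [x3 : Ring x2] : NonAssocSemiring (Vale.Agent.P228.LMat x1 x2) := inferInstance
@[reducible] def a4.{u1, u2} {x1 : Type u1} {x2 : Type u2} [x3 : CommRing x2] [x4 : StarRing x2] : Star (Vale.Agent.P228.LMat x1 x2) := inferInstance
@[reducible] noncomputable def a5 : Semiring (Vale.Agent.P228.LMat (ℤ × ℤ) ℂ) := inferInstance
@[reducible] noncomputable def a6.{u1, u2} {x1 : Type u1} {x2 : Type u2} [x3 : CommRing x2] : MulOne (Vale.Agent.P228.LMat x1 x2) := inferInstance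
@[reducible] noncomputable def a7.{u1, u2} {x1 : Type u1} {x2 : Type u2} [x3 : CommRing x2] : NonUnitalNonAssocSemiring (Vale.Agent.P228.LMat x1 x2) := inferInstance
@[reducible] def a8.{u1, u2} {x1 : Type u1} {x2 : Type u2} [x3 : CommRing x2] : Add (Matrix Bool Bool (Vale.Agent.P228.LMat x1 x2)) := inferInstance
end AFast7e0c08x1188a
attribute [local instance] AFast7e0c08x1188a.a0 AFast7e0c08x1188a.a1 AFast7e0c08x1188a.a2
  AFast7e0c08x1188a.a3 AFast7e0c08x1188a.a4 AFast7e0c08x1188a.a5 AFast7e0c08x1188a.a6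
  AFast7e0c08x1188a.a7 AFast7e0c08x1188a.a8

section

section

/-!
# Block matrices, direct sums, Kronecker products and finite restrictions for `LMat`
-/

namespace Vale.Agent.P228

namespace LMat

variable {ι κ σ τ K L : Type*}

section OfBlocks

variable [Ring K]

/-- The matrix on `ι × σ` with blocks `M s t`. -/
def ofBlocks [Finite σ] (M : Matrix σ σ (LMat ι K)) : LMat (ι × σ) K where
  toFun x y := M x.2 y.2 x.1 y.1
  row_finite x := by
    refine (Set.finite_iUnion (fun t : σ =>
      ((M x.2 t).row_finite x.1).image (fun i => ((i, t) : ι × σ)))).subset ?_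
    intro y hy
    simp only [Set.mem_iUnion, Set.mem_image]
    exact ⟨y.2, y.1, hy, rfl⟩
  col_finite y := by
    refine (Set.finite_iUnion (fun t : σ =>
      ((M t y.2).col_finite y.1).image (fun i => ((i, t) : ι × σ)))).subset ?_
    intro x hx
    simp only [Set.mem_iUnion, Set.mem_image]
    exact ⟨x.2, x.1, hx, rfl⟩

@[simp] theorem ofBlocks_apply [Finite σ] (M : Matrix σ σ (LMat ι K)) (x y : ι × σ) :
    ofBlocks M x y = M x.2 y.2 x.1 y.1 := rfl

/-- The `(s,t)` block of a matrix on `ι × σ`. -/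
def block (a : LMat (ι × σ) K) (s t : σ) : LMat ι K where
  toFun i j := a (i, s) (j, t)
  row_finite i := ((a.row_finite (i, s)).preimage
    (f := fun j => ((j, t) : ι × σ)) (fun _ _ _ _ h => (Prod.ext_iff.1 h).1))
  col_finite j := ((a.col_finite (j, t)).preimage
    (f := fun i => ((i, s) : ι × σ)) (fun _ _ _ _ h => (Prod.ext_iff.1 h).1))

@[simp] theorem block_apply (a : LMat (ι × σ) K) (s t : σ) (i j : ι) :
    block a s t i j = a (i, s) (j, t) := rfl

@[simp] theorem ofBlocks_block [Finite σ] (a : LMat (ι × σ) K) :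
    ofBlocks (Matrix.of fun s t => block a s t) = a := by
  ext x y; rfl

@[simp] theorem block_ofBlocks [Finite σ] (M : Matrix σ σ (LMat ι K)) (s t : σ) :
    block (ofBlocks M) s t = M s t := by
  ext x y; rfl

theorem ofBlocks_mul [Fintype σ] (M N : Matrix σ σ (LMat ι K)) :
    ofBlocks M * ofBlocks N = ofBlocks (M * N) := by
  classical
  ext x y
  set S : Finset ι := Finset.univ.biUnion (fun t : σ => (M x.2 t).rowF x.1) with hS
  rw [mul_apply_of (ofBlocks M) (ofBlocks N) x y (S ×ˢ (Finset.univ : Finset σ))]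
  · rw [ofBlocks_apply, Matrix.mul_apply, sum_apply, Finset.sum_product_right]
    apply Finset.sum_congr rfl
    intro t _
    rw [mul_apply_of (M x.2 t) (N t y.2) x.1 y.1 S]
    · rfl
    · intro k hk _
      rw [hS, Finset.mem_biUnion]
      exact ⟨t, Finset.mem_univ _, by simpa using hk⟩
  · intro k hk _
    rw [Finset.mem_product]
    refine ⟨?_, Finset.mem_univ _⟩
    rw [hS, Finset.mem_biUnion]
    exact ⟨k.2, Finset.mem_univ _, by simpa using hk⟩

/-- Matrices over `LMat ι K` are `LMat (ι × σ) K`. -/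
noncomputable def blocksEquiv [Fintype σ] [DecidableEq σ] :
    Matrix σ σ (LMat ι K) ≃+* LMat (ι × σ) K where
  toFun := ofBlocks
  invFun a := Matrix.of fun s t => block a s t
  left_inv M := by ext s t i j; rfl
  right_inv a := by ext x y; rfl
  map_mul' M N := (ofBlocks_mul M N).symm
  map_add' M N := by ext x y; rfl

@[simp] theorem blocksEquiv_apply [Fintype σ] [DecidableEq σ] (M : Matrix σ σ (LMat ι K)) :
    blocksEquiv M = ofBlocks M := rfl

/-- Star algebra version of `blocksEquiv`: `Matrix σ σ (LMat ι K) ≃⋆ₐ[K] LMat (ι × σ) K`. -/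
noncomputable def blocksStarEquiv {K : Type*} [CommRing K] [StarRing K] [Fintype σ]
    [DecidableEq σ] : Matrix σ σ (LMat ι K) ≃⋆ₐ[K] LMat (ι × σ) K where
  toFun := ofBlocks
  invFun a := Matrix.of fun s t => block a s t
  left_inv M := by ext s t i j; rfl
  right_inv a := by ext x y; rfl
  map_mul' M N := (ofBlocks_mul M N).symm
  map_add' M N := by ext x y; rfl
  map_star' M := by ext x y; rfl
  map_smul' r M := by ext x y; rfl

@[simp] theorem blocksStarEquiv_apply {K : Type*} [CommRing K] [StarRing K] [Fintype σ]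
    [DecidableEq σ] (M : Matrix σ σ (LMat ι K)) : blocksStarEquiv M = ofBlocks M := rfl

/-- 2 x 2 blocks: `Matrix Bool Bool (LMat ι K) ≃⋆ₐ[K] LMat (ι × Bool) K`. -/
noncomputable def toBlk {K : Type*} [CommRing K] [StarRing K] :
    Matrix Bool Bool (LMat ι K) ≃⋆ₐ[K] LMat (ι × Bool) K := blocksStarEquiv

theorem toBlk_apply {K : Type*} [CommRing K] [StarRing K] (M : Matrix Bool Bool (LMat ι K))
    (x y : ι) (s t : Bool) : toBlk M (x, s) (y, t) = (M s t) x y := rfl

theorem toBlk_map {K L : Type*} [CommRing K] [StarRing K] [CommRing L] [StarRing L] (f : K →+* L)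
    (M : Matrix Bool Bool (LMat ι K)) : map f (toBlk M) = toBlk (M.map (map f)) := rfl

end OfBlocks

section Blk

variable [Ring K]

/-- 2 x 2 block matrix on `ι × Bool`; `false` is the first, `true` the second copy. -/
def blk (a b c d : LMat ι K) : LMat (ι × Bool) K :=
  ofBlocks (Matrix.of fun s t => cond s (cond t d c) (cond t b a))

@[simp] theorem blk_ff (a b c d : LMat ι K) (i j : ι) :
    blk a b c d (i, false) (j, false) = a i j := rfl
@[simp] theorem blk_ft (a b c d : LMat ι K) (i j : ι) :
    blk a b c d (i, false) (j, true) = b i j := rfl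
@[simp] theorem blk_tf (a b c d : LMat ι K) (i j : ι) :
    blk a b c d (i, true) (j, false) = c i j := rfl
@[simp] theorem blk_tt (a b c d : LMat ι K) (i j : ι) :
    blk a b c d (i, true) (j, true) = d i j := rfl

@[simp] theorem block_blk_ff (a b c d : LMat ι K) : block (blk a b c d) false false = a := by
  ext i j; rfl
@[simp] theorem block_blk_ft (a b c d : LMat ι K) : block (blk a b c d) false true = b := by
  ext i j; rfl
@[simp] theorem block_blk_tf (a b c d : LMat ι K) : block (blk a b c d) true false = c := by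
  ext i j; rfl
@[simp] theorem block_blk_tt (a b c d : LMat ι K) : block (blk a b c d) true true = d := by
  ext i j; rfl

theorem blk_inj {a b c d a' b' c' d' : LMat ι K} :
    blk a b c d = blk a' b' c' d' ↔ a = a' ∧ b = b' ∧ c = c' ∧ d = d' := by
  constructor
  · intro h
    refine ⟨?_, ?_, ?_, ?_⟩
    · simpa using congrArg (fun M => block M false false) h
    · simpa using congrArg (fun M => block M false true) h
    · simpa using congrArg (fun M => block M true false) h
    · simpa using congrArg (fun M => block M true true) h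
  · rintro ⟨rfl, rfl, rfl, rfl⟩; rfl

theorem blk_mul (a b c d a' b' c' d' : LMat ι K) :
    blk a b c d * blk a' b' c' d' =
      blk (a * a' + b * c') (a * b' + b * d') (c * a' + d * c') (c * b' + d * d') := by
  unfold blk
  rw [ofBlocks_mul]
  congr 1
  refine Matrix.ext fun s t => ?_
  rw [Matrix.mul_apply, Fintype.sum_bool]
  cases s <;> cases t <;> simp only [Matrix.of_apply, cond_true, cond_false, add_comm]

theorem blk_add (a b c d a' b' c' d' : LMat ι K) :
    blk a b c d + blk a' b' c' d' = blk (a + a') (b + b') (c + c') (d + d') := by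
  ext ⟨i, s⟩ ⟨j, t⟩
  cases s <;> cases t <;> rfl

theorem blk_neg (a b c d : LMat ι K) : -blk a b c d = blk (-a) (-b) (-c) (-d) := by
  ext ⟨i, s⟩ ⟨j, t⟩
  cases s <;> cases t <;> rfl

theorem blk_smul {S : Type*} [SMulZeroClass S K] (r : S) (a b c d : LMat ι K) :
    r • blk a b c d = blk (r • a) (r • b) (r • c) (r • d) := by
  ext ⟨i, s⟩ ⟨j, t⟩
  cases s <;> cases t <;> rfl

@[simp] theorem blk_one : blk (1 : LMat ι K) 0 0 1 = 1 := by
  classical
  ext ⟨i, s⟩ ⟨j, t⟩
  rw [one_apply]
  cases s <;> cases t <;> simp [one_apply]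

@[simp] theorem blk_zero : blk (0 : LMat ι K) 0 0 0 = 0 := by
  ext ⟨i, s⟩ ⟨j, t⟩
  cases s <;> cases t <;> rfl

theorem blk_star [StarRing K] (a b c d : LMat ι K) :
    star (blk a b c d) = blk (star a) (star c) (star b) (star d) := by
  ext ⟨i, s⟩ ⟨j, t⟩
  cases s <;> cases t <;> rfl

theorem blk_map [Ring L] (f : K →+* L) (a b c d : LMat ι K) :
    map f (blk a b c d) = blk (map f a) (map f b) (map f c) (map f d) := by
  ext ⟨i, s⟩ ⟨j, t⟩
  cases s <;> cases t <;> rfl

theorem blk_diag (f g : ι → K) :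
    blk (diag f) 0 0 (diag g) = diag (fun x : ι × Bool => cond x.2 (g x.1) (f x.1)) := by
  classical
  ext ⟨i, s⟩ ⟨j, t⟩
  cases s <;> cases t <;> by_cases h : i = j <;> simp [diag_apply, h]

/-- A diagonal matrix depending only on the `ι`-component. -/
theorem diag_fst (f : ι → K) :
    diag (fun x : ι × Bool => f x.1) = blk (diag f) 0 0 (diag f) := by
  rw [blk_diag]
  congr 1
  funext x
  cases x.2 <;> rfl

/-- `blk a 0 0 a` as a ring homomorphism. -/
noncomputable def dup : LMat ι K →+* LMat (ι × Bool) K where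
  toFun a := blk a 0 0 a
  map_one' := blk_one
  map_mul' a b := by rw [blk_mul]; simp
  map_zero' := blk_zero
  map_add' a b := by rw [blk_add]; simp

@[simp] theorem dup_apply (a : LMat ι K) : dup a = blk a 0 0 a := rfl

end Blk

section DSum

variable [Ring K]

/-- Direct sum of two matrices. -/
def dsum (a : LMat ι K) (b : LMat κ K) : LMat (ι ⊕ κ) K where
  toFun x y := Sum.elim (fun i => Sum.elim (fun j => a i j) (fun _ => 0) y)
    (fun i => Sum.elim (fun _ => 0) (fun j => b i j) y) x
  row_finite x := by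
    rcases x with i | i
    · refine ((a.row_finite i).image Sum.inl).subset ?_
      rintro (j | j) hj
      · exact ⟨j, hj, rfl⟩
      · exact absurd rfl hj
    · refine ((b.row_finite i).image Sum.inr).subset ?_
      rintro (j | j) hj
      · exact absurd rfl hj
      · exact ⟨j, hj, rfl⟩
  col_finite y := by
    rcases y with j | j
    · refine ((a.col_finite j).image Sum.inl).subset ?_
      rintro (i | i) hi
      · exact ⟨i, hi, rfl⟩
      · exact absurd rfl hi
    · refine ((b.col_finite j).image Sum.inr).subset ?_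
      rintro (i | i) hi
      · exact absurd rfl hi
      · exact ⟨i, hi, rfl⟩

@[simp] theorem dsum_ll (a : LMat ι K) (b : LMat κ K) (i j : ι) :
    dsum a b (Sum.inl i) (Sum.inl j) = a i j := rfl
@[simp] theorem dsum_lr (a : LMat ι K) (b : LMat κ K) (i : ι) (j : κ) :
    dsum a b (Sum.inl i) (Sum.inr j) = 0 := rfl
@[simp] theorem dsum_rl (a : LMat ι K) (b : LMat κ K) (i : κ) (j : ι) :
    dsum a b (Sum.inr i) (Sum.inl j) = 0 := rfl
@[simp] theorem dsum_rr (a : LMat ι K) (b : LMat κ K) (i j : κ) :
    dsum a b (Sum.inr i) (Sum.inr j) = b i j := rfl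

theorem dsum_mul (a a' : LMat ι K) (b b' : LMat κ K) :
    dsum a b * dsum a' b' = dsum (a * a') (b * b') := by
  classical
  ext x y
  rcases x with i | i <;> rcases y with j | j
  · rw [mul_apply_of _ _ _ _ ((a.rowF i).map ⟨Sum.inl, Sum.inl_injective⟩)]
    · rw [Finset.sum_map, dsum_ll, mul_apply]; rfl
    · rintro (k | k) hk _
      · simpa only [Finset.mem_map_mk, mem_rowF, ne_eq, dsum_ll] using hk
      · exact absurd rfl hk
  · rw [dsum_lr]
    by_contra h
    obtain ⟨k | k, h1, h2⟩ := exists_of_mul_ne_zero h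
    · exact h2 rfl
    · exact h1 rfl
  · rw [dsum_rl]
    by_contra h
    obtain ⟨k | k, h1, h2⟩ := exists_of_mul_ne_zero h
    · exact h1 rfl
    · exact h2 rfl
  · rw [mul_apply_of _ _ _ _ ((b.rowF i).map ⟨Sum.inr, Sum.inr_injective⟩)]
    · rw [Finset.sum_map, dsum_rr, mul_apply]; rfl
    · rintro (k | k) hk _
      · exact absurd rfl hk
      · simpa using hk

theorem dsum_add (a a' : LMat ι K) (b b' : LMat κ K) :
    dsum a b + dsum a' b' = dsum (a + a') (b + b') := by
  ext x y
  rcases x with i | i <;> rcases y with j | j <;> simp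

theorem dsum_smul {S : Type*} [SMulZeroClass S K] (r : S) (a : LMat ι K) (b : LMat κ K) :
    r • dsum a b = dsum (r • a) (r • b) := by
  ext x y
  rcases x with i | i <;> rcases y with j | j <;> simp

@[simp] theorem dsum_one : dsum (1 : LMat ι K) (1 : LMat κ K) = 1 := by
  classical
  ext x y
  rcases x with i | i <;> rcases y with j | j <;> simp [one_apply]

@[simp] theorem dsum_zero : dsum (0 : LMat ι K) (0 : LMat κ K) = 0 := by
  ext x y
  rcases x with i | i <;> rcases y with j | j <;> simp

theorem dsum_diag (f : ι → K) (g : κ → K) :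
    dsum (diag f) (diag g) = diag (Sum.elim f g) := by
  classical
  ext x y
  rcases x with i | i <;> rcases y with j | j <;> simp [diag_apply]

/-- 2 x 2 block matrix on `ι ⊕ ι`. -/
noncomputable def fromBlocks (a b c d : LMat ι K) : LMat (ι ⊕ ι) K :=
  reindex ((Equiv.prodComm ι Bool).trans (Equiv.boolProdEquivSum ι)) (blk a b c d)

@[simp] theorem fromBlocks_ll (a b c d : LMat ι K) (i j : ι) :
    fromBlocks a b c d (Sum.inl i) (Sum.inl j) = a i j := rfl
@[simp] theorem fromBlocks_lr (a b c d : LMat ι K) (i j : ι) :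
    fromBlocks a b c d (Sum.inl i) (Sum.inr j) = b i j := rfl
@[simp] theorem fromBlocks_rl (a b c d : LMat ι K) (i j : ι) :
    fromBlocks a b c d (Sum.inr i) (Sum.inl j) = c i j := rfl
@[simp] theorem fromBlocks_rr (a b c d : LMat ι K) (i j : ι) :
    fromBlocks a b c d (Sum.inr i) (Sum.inr j) = d i j := rfl

@[simp] theorem fromBlocks_one : fromBlocks (1 : LMat ι K) 0 0 1 = 1 := by
  unfold fromBlocks
  rw [blk_one, map_one]

end DSum

section Kron

variable [CommRing K]

/-- Kronecker product. -/
def kron (a : LMat ι K) (b : LMat κ K) : LMat (ι × κ) K where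
  toFun x y := a x.1 y.1 * b x.2 y.2
  row_finite x := ((a.row_finite x.1).prod (b.row_finite x.2)).subset (by
    intro y hy
    exact ⟨left_ne_zero_of_mul hy, right_ne_zero_of_mul hy⟩)
  col_finite y := ((a.col_finite y.1).prod (b.col_finite y.2)).subset (by
    intro x hx
    exact ⟨left_ne_zero_of_mul hx, right_ne_zero_of_mul hx⟩)

@[simp] theorem kron_apply (a : LMat ι K) (b : LMat κ K) (x y : ι × κ) :
    kron a b x y = a x.1 y.1 * b x.2 y.2 := rfl

theorem kron_mul (a a' : LMat ι K) (b b' : LMat κ K) :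
    kron a b * kron a' b' = kron (a * a') (b * b') := by
  classical
  ext x y
  rw [mul_apply_of (kron a b) (kron a' b') x y (a.rowF x.1 ×ˢ b.rowF x.2)]
  · rw [kron_apply, mul_apply, mul_apply, Finset.sum_mul_sum, Finset.sum_product]
    apply Finset.sum_congr rfl; intro k _
    apply Finset.sum_congr rfl; intro l _
    simp only [kron_apply]
    ring
  · intro k hk _
    rw [Finset.mem_product]
    exact ⟨by simpa only [mem_rowF, ne_eq] using left_ne_zero_of_mul hk, by simpa only [mem_rowF, ne_eq] using right_ne_zero_of_mul hk⟩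

@[simp] theorem kron_one_one : kron (1 : LMat ι K) (1 : LMat κ K) = 1 := by
  classical
  ext x y
  rw [kron_apply, one_apply, one_apply, one_apply]
  by_cases h1 : x.1 = y.1
  · by_cases h2 : x.2 = y.2
    · simp [Prod.ext h1 h2]
    · have : x ≠ y := fun e => h2 (by rw [e])
      simp [h2, this]
  · have : x ≠ y := fun e => h1 (by rw [e])
    simp [h1, this]

theorem kron_add_left (a a' : LMat ι K) (b : LMat κ K) :
    kron (a + a') b = kron a b + kron a' b := by
  ext x y; simp only [kron_apply, add_apply, add_mul]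

theorem kron_sub_left (a a' : LMat ι K) (b : LMat κ K) :
    kron (a - a') b = kron a b - kron a' b := by
  ext x y; simp only [kron_apply, sub_apply, sub_mul]

theorem kron_neg_left (a : LMat ι K) (b : LMat κ K) : kron (-a) b = -kron a b := by
  ext x y; simp only [kron_apply, neg_apply, neg_mul]

theorem kron_neg_right (a : LMat ι K) (b : LMat κ K) : kron a (-b) = -kron a b := by
  ext x y; simp only [kron_apply, neg_apply, mul_neg]

@[simp] theorem kron_zero_left (b : LMat κ K) : kron (0 : LMat ι K) b = 0 := by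
  ext x y; simp only [kron_apply, zero_apply, zero_mul]

@[simp] theorem kron_zero_right (a : LMat ι K) : kron a (0 : LMat κ K) = 0 := by
  ext x y; simp

theorem kron_smul_left {S : Type*} [CommSemiring S] [Algebra S K] (r : S) (a : LMat ι K)
    (b : LMat κ K) : kron (r • a) b = r • kron a b := by
  ext x y; simp only [kron_apply, smul_apply, Algebra.smul_mul_assoc]

theorem kron_smul_right {S : Type*} [CommSemiring S] [Algebra S K] (r : S) (a : LMat ι K)
    (b : LMat κ K) : kron a (r • b) = r • kron a b := by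
  ext x y; simp only [kron_apply, smul_apply, Algebra.mul_smul_comm]

theorem kron_star [StarRing K] (a : LMat ι K) (b : LMat κ K) :
    star (kron a b) = kron (star a) (star b) := by
  ext x y; simp only [star_apply, kron_apply, star_mul']

theorem kron_diag (f : ι → K) (g : κ → K) :
    kron (diag f) (diag g) = diag (fun x : ι × κ => f x.1 * g x.2) := by
  classical
  ext x y
  by_cases h1 : x.1 = y.1
  · by_cases h2 : x.2 = y.2
    · have h : x = y := Prod.ext h1 h2
      subst h
      simp
    · have : x ≠ y := fun e => h2 (by rw [e])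
      rw [kron_apply, diag_apply_ne _ h2, diag_apply_ne _ this, mul_zero]
  · have : x ≠ y := fun e => h1 (by rw [e])
    rw [kron_apply, diag_apply_ne _ h1, diag_apply_ne _ this, zero_mul]

/-- `a ↦ a ⊗ 1`. -/
noncomputable def kronL (κ : Type*) : LMat ι K →+* LMat (ι × κ) K where
  toFun a := kron a 1
  map_one' := kron_one_one
  map_mul' a b := by rw [kron_mul, mul_one]
  map_zero' := kron_zero_left _
  map_add' a b := kron_add_left _ _ _

end Kron

section Finite

variable [Ring K]

/-- Restriction along a map `f : α → ι` (a finite matrix when `α` is a `Fintype`). -/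
def sub {α : Type*} (f : α → ι) (a : LMat ι K) : Matrix α α K := fun i j => a (f i) (f j)

@[simp] theorem sub_apply' {α : Type*} (f : α → ι) (a : LMat ι K) (i j : α) :
    sub f a i j = a (f i) (f j) := rfl

/-- Restriction to a finite set of indices (`restrict` is a synonym). -/
def toMatrix (s : Finset ι) (a : LMat ι K) : Matrix s s K := fun i j => a i j

@[simp] theorem toMatrix_apply (s : Finset ι) (a : LMat ι K) (i j : s) :
    toMatrix s a i j = a i j := rfl

/-- For a finite index type `LMat ι K` is the full matrix ring. -/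
noncomputable def ofMatrix [Fintype ι] [DecidableEq ι] : Matrix ι ι K ≃+* LMat ι K where
  toFun M := ⟨fun i j => M i j, fun _ => Set.toFinite _, fun _ => Set.toFinite _⟩
  invFun a := fun i j => a i j
  left_inv M := by ext i j; rfl
  right_inv a := by ext i j; rfl
  map_mul' M N := by
    ext i j
    rw [mul_apply_of _ _ i j Finset.univ (fun k _ _ => Finset.mem_univ k)]
    simp [Matrix.mul_apply]
  map_add' M N := by ext i j; rfl

@[simp] theorem ofMatrix_apply [Fintype ι] [DecidableEq ι] (M : Matrix ι ι K) (i j : ι) :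
    ofMatrix M i j = M i j := rfl

@[simp] theorem ofMatrix_symm_apply [Fintype ι] [DecidableEq ι] (a : LMat ι K) (i j : ι) :
    ofMatrix.symm a i j = a i j := rfl

end Finite

section Support

variable [Ring K]

/-- `a` is supported on the relation `E`. -/
def SuppOn (E : ι → ι → Prop) (a : LMat ι K) : Prop := ∀ i j, a i j ≠ 0 → E i j

theorem SuppOn.add {E : ι → ι → Prop} {a b : LMat ι K} (ha : SuppOn E a) (hb : SuppOn E b) :
    SuppOn E (a + b) := by
  intro i j h
  by_cases h1 : a i j = 0
  · by_cases h2 : b i j = 0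
    · exact absurd (by rw [add_apply, h1, h2, add_zero]) h
    · exact hb i j h2
  · exact ha i j h1

theorem SuppOn.star [StarRing K] {E F : ι → ι → Prop} {a : LMat ι K} (ha : SuppOn E a)
    (hF : ∀ i j, E i j → F j i) : SuppOn F (star a) := by
  intro i j h
  exact hF j i (ha j i (fun h1 => h (by rw [star_apply, h1, star_zero])))

end Support

end LMat

end Vale.Agent.P228
end
end

section

section

/-!
P228: signature of complex matrices (as the signature of the real quadratic form `re (x* A x)`).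
-/

open Matrix

noncomputable section

namespace Vale.Agent.P228.Sgn

variable {m n k : Type*} [Fintype m] [Fintype n] [Fintype k]

/-- the real bilinear form `re (x* A y)` -/
def hb (A : Matrix n n ℂ) : LinearMap.BilinForm ℝ (n → ℂ) :=
  LinearMap.mk₂ ℝ (fun x y => (star x ⬝ᵥ (A *ᵥ y)).re)
    (fun x x' y => by simp [star_add, add_dotProduct])
    (fun c x y => by simp [star_smul, smul_dotProduct])
    (fun x y y' => by simp [mulVec_add, dotProduct_add])
    (fun c x y => by simp [mulVec_smul, dotProduct_smul])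

/-- the real quadratic form `re (x* A x)` -/
def hq (A : Matrix n n ℂ) : QuadraticForm ℝ (n → ℂ) := (hb A).toQuadraticMap

theorem hq_apply (A : Matrix n n ℂ) (x : n → ℂ) : hq A x = (star x ⬝ᵥ (A *ᵥ x)).re := rfl

/-- signature (twice the number of positive minus the number of negative eigenvalues) -/
def sgn (A : Matrix n n ℂ) : ℤ := (sigPos (hq A) : ℤ) - sigNeg (hq A)

theorem hq_neg (A : Matrix n n ℂ) : hq (-A) = -hq A := by
  ext x
  simp only [hq_apply, neg_mulVec, dotProduct_neg, Complex.neg_re, _root_.neg_apply]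

theorem sgn_neg (A : Matrix n n ℂ) : sgn (-A) = -sgn A := by
  unfold sgn
  rw [hq_neg, sigPos_neg, sigNeg_neg]
  ring

theorem sgn_eq_of_equiv {A : Matrix n n ℂ} {B : Matrix m m ℂ}
    (h : QuadraticMap.Equivalent (hq A) (hq B)) : sgn A = sgn B := by
  unfold sgn
  rw [h.sigPos_eq, h.sigNeg_eq]

/-- congruence invariance -/
theorem sgn_congr {A : Matrix n n ℂ} {B : Matrix m m ℂ} {P : Matrix n m ℂ} {Q : Matrix m n ℂ}
    [DecidableEq m] [DecidableEq n] (hPQ : P * Q = 1) (hQP : Q * P = 1)
    (h : Pᴴ * A * P = B) : sgn A = sgn B := by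
  symm
  apply sgn_eq_of_equiv
  refine ⟨⟨⟨(Matrix.mulVecLin P).restrictScalars ℝ, Q.mulVec, ?_, ?_⟩, ?_⟩⟩
  · intro x
    simp only [AddHom.toFun_eq_coe, LinearMap.coe_toAddHom, LinearMap.coe_restrictScalars, mulVecBilin_apply, mulVec_mulVec, hQP, one_mulVec]
  · intro x
    simp only [AddHom.toFun_eq_coe, LinearMap.coe_toAddHom, LinearMap.coe_restrictScalars, mulVecBilin_apply, mulVec_mulVec, hPQ, one_mulVec]
  · intro x
    simp only [hq_apply]
    have : star (P *ᵥ x) ⬝ᵥ (A *ᵥ (P *ᵥ x)) = star x ⬝ᵥ (B *ᵥ x) := by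
      rw [star_mulVec, ← h, ← dotProduct_mulVec, Matrix.mulVec_mulVec, Matrix.mulVec_mulVec,
        Matrix.mul_assoc]
    exact congrArg Complex.re this

/-- reindexing -/
theorem sgn_reindex (e : n ≃ m) (A : Matrix n n ℂ) : sgn (A.submatrix e.symm e.symm) = sgn A := by
  symm
  apply sgn_eq_of_equiv
  refine ⟨⟨LinearEquiv.funCongrLeft ℝ ℂ e.symm, ?_⟩⟩
  intro x
  simp only [hq_apply]
  have : star ((LinearEquiv.funCongrLeft ℝ ℂ e.symm) x) ⬝ᵥ
      (A.submatrix e.symm e.symm *ᵥ ((LinearEquiv.funCongrLeft ℝ ℂ e.symm) x)) =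
      star x ⬝ᵥ (A *ᵥ x) := by
    have h1 : (LinearEquiv.funCongrLeft ℝ ℂ e.symm) x = x ∘ e.symm := rfl
    rw [h1]
    simp only [dotProduct, mulVec, submatrix_apply, Function.comp, Pi.star_apply]
    rw [← Equiv.sum_comp e.symm (fun i => star (x i) * ∑ j, A i j * x j)]
    refine Finset.sum_congr rfl fun i _ => ?_
    rw [← Equiv.sum_comp e.symm (fun j => A (e.symm i) j * x j)]
  exact congrArg Complex.re this

end Vale.Agent.P228.Sgn
end
end
end

section

section

/-!
P228: signature: nondegeneracy, path invariance, additivity, hyperbolic forms.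
-/

open Matrix QuadraticForm QuadraticMap Topology

noncomputable section

namespace Vale.Agent.P228.Sgn

variable {m n k : Type*} [Fintype m] [Fintype n] [Fintype k]

theorem hb_apply (A : Matrix n n ℂ) (x y : n → ℂ) : hb A x y = (star x ⬝ᵥ (A *ᵥ y)).re := rfl

theorem finrank_fun : Module.finrank ℝ (n → ℂ) = 2 * Fintype.card n := by
  rw [Module.finrank_pi_fintype]
  simp only [Complex.finrank_real_complex, Finset.sum_const, Finset.card_univ, smul_eq_mul, mul_comm]

theorem hb_symm {A : Matrix n n ℂ} (hA : A.IsHermitian) (x y : n → ℂ) : hb A x y = hb A y x := by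
  have h : star (star x ⬝ᵥ (A *ᵥ y)) = star y ⬝ᵥ (A *ᵥ x) := by
    rw [← star_dotProduct_star, star_star, star_mulVec, hA.eq, dotProduct_comm,
      dotProduct_mulVec, dotProduct_comm]
  rw [hb_apply, hb_apply, ← h]
  simp only [RCLike.star_def, Complex.conj_re]

/-- the form is nondegenerate if `A` is invertible -/
theorem radical_eq_bot [DecidableEq n] {A B : Matrix n n ℂ} (hA : A.IsHermitian)
    (hBA : B * A = 1) : (hq A).radical = ⊥ := by
  rw [QuadraticMap.radical_eq_ker_polarBilin, LinearMap.ker_eq_bot']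
  intro x hx
  have h1 : hb A (A *ᵥ x) x = 0 := by
    have := LinearMap.congr_fun hx (A *ᵥ x)
    rw [QuadraticMap.polarBilin_apply_apply] at this
    have h2 : polar (hq A) x (A *ᵥ x) = hb A x (A *ᵥ x) + hb A (A *ᵥ x) x :=
      LinearMap.BilinMap.polar_toQuadraticMap _ _
    rw [h2, hb_symm hA x] at this
    simp only [LinearMap.zero_apply] at this
    linarith only [this]
  rw [hb_apply] at h1
  have h3 : A *ᵥ x = 0 := by
    have h4 : star (A *ᵥ x) ⬝ᵥ (A *ᵥ x) = 0 := by
      apply Complex.ext
      · rw [h1]; simp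
      · have : (star (star (A *ᵥ x) ⬝ᵥ (A *ᵥ x))) = star (A *ᵥ x) ⬝ᵥ (A *ᵥ x) := by
          rw [← star_dotProduct_star, star_star]
        have h5 := congrArg Complex.im this
        simp only [Complex.star_def, Complex.conj_im] at h5
        simp only [Complex.zero_im]
        have h6 : (star (A *ᵥ x) ⬝ᵥ (A *ᵥ x)).im = -(star (A *ᵥ x) ⬝ᵥ (A *ᵥ x)).im := h5.symm
        linarith
    open scoped ComplexOrder in exact dotProduct_star_self_eq_zero.mp h4
  calc x = (B * A) *ᵥ x := by rw [hBA, one_mulVec]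
    _ = 0 := by rw [← mulVec_mulVec, h3, mulVec_zero]

theorem sigPos_add_sigNeg [DecidableEq n] {A B : Matrix n n ℂ} (hA : A.IsHermitian)
    (hBA : B * A = 1) : sigPos (hq A) + sigNeg (hq A) = 2 * Fintype.card n := by
  have := sigPos_add_sigNeg_add_radical (Q := hq A)
  rw [radical_eq_bot hA hBA, finrank_bot, finrank_fun] at this
  simpa only [add_zero] using this

theorem hq_smul (A : Matrix n n ℂ) (c : ℝ) (x : n → ℂ) : hq A (c • x) = c ^ 2 * hq A x := by
  rw [QuadraticMap.map_smul, smul_eq_mul]; ring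

theorem continuous_hq : Continuous fun p : Matrix n n ℂ × (n → ℂ) => hq p.1 p.2 := by
  unfold hq hb
  simp only [LinearMap.BilinMap.toQuadraticMap_apply, LinearMap.mk₂_apply]
  fun_prop

theorem eventually_sigPos_le {X : Type*} [TopologicalSpace X] {A : X → Matrix n n ℂ}
    (hA : Continuous A) (x₀ : X) : ∀ᶠ x in 𝓝 x₀, sigPos (hq (A x₀)) ≤ sigPos (hq (A x)) := by
  obtain ⟨V, hV, hpos⟩ := exists_finrank_eq_sigPos_and_posDef (hq (A x₀))
  let K : Set (n → ℂ) := {v | v ∈ V} ∩ Metric.sphere 0 1
  have hK : IsCompact K :=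
    (isCompact_sphere (0 : n → ℂ) 1).inter_left (Submodule.closed_of_finiteDimensional V)
  have h0 : ∀ v ∈ K, 0 < hq (A x₀) v := by
    rintro v ⟨hv, hv1⟩
    refine hpos ⟨v, hv⟩ ?_
    intro h
    have : v = 0 := congrArg Subtype.val h
    rw [this] at hv1
    simp only [mem_sphere_iff_norm, sub_self, norm_zero, zero_ne_one] at hv1
  have h1 : ∀ᶠ x in 𝓝 x₀, ∀ v ∈ K, 0 < hq (A x) v := by
    refine hK.eventually_forall_of_forall_eventually (P := fun x v => 0 < hq (A x) v) ?_
    intro v hv
    have hc : Continuous fun p : X × (n → ℂ) => hq (A p.1) p.2 :=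
      Continuous.comp (g := fun p : Matrix n n ℂ × (n → ℂ) => hq p.1 p.2)
        (f := fun p : X × (n → ℂ) => (A p.1, p.2)) continuous_hq
        ((hA.comp continuous_fst).prodMk continuous_snd)
    have ht : Filter.Tendsto (fun p : X × (n → ℂ) => hq (A p.1) p.2) (𝓝 (x₀, v))
        (𝓝 (hq (A x₀) v)) := Continuous.tendsto hc (x₀, v)
    exact ht.eventually (lt_mem_nhds (h0 v hv))
  filter_upwards [h1] with x hx
  rw [← hV]
  apply le_sigPos_of_posDef
  intro v hv
  rw [QuadraticMap.restrict_apply]
  have hv0 : (v : n → ℂ) ≠ 0 := fun h => hv (Subtype.ext h)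
  have hn : 0 < ‖(v : n → ℂ)‖ := norm_pos_iff.mpr hv0
  have h2 := hx (‖(v : n → ℂ)‖⁻¹ • (v : n → ℂ)) ⟨V.smul_mem _ v.2, by
    rw [mem_sphere_zero_iff_norm, norm_smul, norm_inv, norm_norm, inv_mul_cancel₀ hn.ne']⟩
  rw [hq_smul] at h2
  exact pos_of_mul_pos_right h2 (by positivity)

/-- **path invariance** -/
theorem sgn_const {X : Type*} [TopologicalSpace X] [PreconnectedSpace X] [DecidableEq n]
    {A B : X → Matrix n n ℂ} (hc : Continuous A) (hA : ∀ x, (A x).IsHermitian)
    (hBA : ∀ x, B x * A x = 1) (x y : X) : sgn (A x) = sgn (A y) := by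
  have hloc : IsLocallyConstant fun x => sgn (A x) := by
    rw [IsLocallyConstant.iff_eventually_eq]
    intro x₀
    have hn : ∀ᶠ x in 𝓝 x₀, sigPos (hq (-A x₀)) ≤ sigPos (hq (-A x)) :=
      eventually_sigPos_le hc.neg x₀
    filter_upwards [eventually_sigPos_le hc x₀, hn] with x h1 h2
    rw [hq_neg, hq_neg, sigPos_neg, sigPos_neg] at h2
    have h3 := sigPos_add_sigNeg (hA x) (hBA x)
    have h4 := sigPos_add_sigNeg (hA x₀) (hBA x₀)
    unfold sgn
    omega
  exact hloc.apply_eq_of_preconnectedSpace x y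

end Vale.Agent.P228.Sgn
end
end
end

section

section

/-!
P228: signature: additivity, hyperbolic forms, scaling, reductions.
-/

open Matrix QuadraticForm QuadraticMap Topology

noncomputable section

namespace Vale.Agent.P228.Sgn

variable {m n k l : Type*} [Fintype m] [Fintype n] [Fintype k] [Fintype l]

/-- signature of a real quadratic form -/
def rs {M : Type*} [AddCommGroup M] [Module ℝ M] (Q : QuadraticForm ℝ M) : ℤ :=
  (sigPos Q : ℤ) - sigNeg Q

theorem rs_congr {M M' : Type*} [AddCommGroup M] [Module ℝ M] [AddCommGroup M'] [Module ℝ M']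
    {Q : QuadraticForm ℝ M} {Q' : QuadraticForm ℝ M'} (h : Equivalent Q Q') : rs Q = rs Q' := by
  unfold rs; rw [h.sigPos_eq, h.sigNeg_eq]

theorem rs_wss {ι : Type*} [Fintype ι] (w : ι → ℝ) :
    rs (weightedSumSquares ℝ w) = ({i | 0 < w i}.ncard : ℤ) - {i | w i < 0}.ncard := by
  unfold rs; rw [sigPos_weightedSumSquares, sigNeg_weightedSumSquares]

theorem wss_prod {ι κ : Type*} [Fintype ι] [Fintype κ] (w : ι → ℝ) (v : κ → ℝ) :
    Equivalent ((weightedSumSquares ℝ w).prod (weightedSumSquares ℝ v))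
      (weightedSumSquares ℝ (Sum.elim w v)) := by
  refine ⟨⟨(LinearEquiv.sumArrowLequivProdArrow ι κ ℝ ℝ).symm, ?_⟩⟩
  rintro ⟨x, y⟩
  simp only [AddHom.toFun_eq_coe, LinearMap.coe_toAddHom, LinearEquiv.coe_coe, weightedSumSquares_apply, smul_eq_mul, Fintype.sum_sum_type, Sum.elim_inl, LinearEquiv.sumArrowLequivProdArrow_symm_apply_inl, Sum.elim_inr, LinearEquiv.sumArrowLequivProdArrow_symm_apply_inr, QuadraticMap.prod_apply]

theorem ncard_sumElim {ι κ : Type*} [Fintype ι] [Fintype κ] (p : ι → Prop) (q : κ → Prop) :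
    {i : ι ⊕ κ | Sum.elim p q i}.ncard = {i | p i}.ncard + {i | q i}.ncard := by
  have : {i : ι ⊕ κ | Sum.elim p q i} = Sum.inl '' {i | p i} ∪ Sum.inr '' {i | q i} := by
    ext (i | i) <;> simp
  rw [this, Set.ncard_union_eq, Set.ncard_image_of_injective _ Sum.inl_injective,
    Set.ncard_image_of_injective _ Sum.inr_injective]
  rw [Set.disjoint_left]
  rintro _ ⟨a, -, rfl⟩ ⟨b, -, h⟩
  simp at h

theorem rs_prod {M M' : Type*} [AddCommGroup M] [Module ℝ M] [AddCommGroup M'] [Module ℝ M']
    [FiniteDimensional ℝ M] [FiniteDimensional ℝ M']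
    (Q : QuadraticForm ℝ M) (Q' : QuadraticForm ℝ M') : rs (Q.prod Q') = rs Q + rs Q' := by
  obtain ⟨w, ⟨e⟩⟩ := Q.equivalent_weightedSumSquares
  obtain ⟨v, ⟨e'⟩⟩ := Q'.equivalent_weightedSumSquares
  rw [rs_congr ⟨e⟩, rs_congr ⟨e'⟩, rs_congr (QuadraticMap.Equivalent.trans ⟨e.prod e'⟩ (wss_prod w v)),
    rs_wss, rs_wss, rs_wss]
  have h1 := ncard_sumElim (fun i => 0 < w i) (fun i => 0 < v i)
  have h2 := ncard_sumElim (fun i => w i < 0) (fun i => v i < 0)
  have h1' : {i | 0 < Sum.elim w v i} =
    {i | Sum.elim (fun i => 0 < w i) (fun i => 0 < v i) i} := by ext (i | i) <;> simp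
  have h2' : {i | Sum.elim w v i < 0} =
    {i | Sum.elim (fun i => w i < 0) (fun i => v i < 0) i} := by ext (i | i) <;> simp
  rw [h1', h2', h1, h2]
  push_cast
  ring

theorem sgn_fromBlocks_diag (A : Matrix n n ℂ) (B : Matrix m m ℂ) :
    sgn (fromBlocks A 0 0 B) = sgn A + sgn B := by
  have h : Equivalent (hq (fromBlocks A 0 0 B)) ((hq A).prod (hq B)) := by
    refine ⟨⟨LinearEquiv.sumArrowLequivProdArrow n m ℝ ℂ, ?_⟩⟩
    intro x
    simp only [QuadraticMap.prod_apply, hq_apply, AddHom.toFun_eq_coe, LinearMap.coe_toAddHom,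
      LinearEquiv.coe_coe]
    rw [← Complex.add_re]
    congr 1
    have hx : x = Sum.elim (fun i => x (Sum.inl i)) (fun i => x (Sum.inr i)) := by
      ext (i | i) <;> rfl
    rw [hx, fromBlocks_mulVec]
    simp only [dotProduct, Pi.star_apply, Fintype.sum_sum_type]
    simp only [LinearEquiv.sumArrowLequivProdArrow_apply_fst, Sum.elim_inl, RCLike.star_def, LinearEquiv.sumArrowLequivProdArrow_apply_snd, Sum.elim_inr, Sum.elim_comp_inl, Sum.elim_comp_inr, zero_mulVec, add_zero, zero_add]
    rfl
  exact (rs_congr h).trans (rs_prod _ _)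

theorem sgn_zero : sgn (0 : Matrix n n ℂ) = 0 := by
  have := sgn_neg (0 : Matrix n n ℂ)
  rw [neg_zero] at this
  omega

section
variable [DecidableEq m] [DecidableEq n] [DecidableEq k] [DecidableEq l]

end

end Vale.Agent.P228.Sgn
end
end
end

section

section

/-!
P228, block [S]: the slicing operator on `LMat` and the integer `sInv`.
-/

open Matrix

set_option linter.unusedSectionVars false
set_option linter.unusedSimpArgs false

noncomputable section

namespace Vale.Agent.P228.Inv

open LMat Sgn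

variable {B ι κ K L : Type*}

section toBlk

theorem map_smul_I [Ring K] [Algebra ℂ K] [Ring L] [Algebra ℂ L] (f : K →+* L)
    (hI : ∀ x, f (Complex.I • x) = Complex.I • f x) (a : LMat ι K) :
    LMat.map f (Complex.I • a) = Complex.I • LMat.map f a := by
  ext i j; simp only [LMat.map_apply, LMat.smul_apply, hI]

variable [CommRing K] [StarRing K]

theorem toBlk_star (M : Matrix Bool Bool (LMat ι K)) :
    toBlk (star M) = star (toBlk M) := map_star toBlk M

theorem toBlk_mul (M N : Matrix Bool Bool (LMat ι K)) :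
    toBlk (M * N) = toBlk M * toBlk N := map_mul toBlk M N

theorem toBlk_one : toBlk (1 : Matrix Bool Bool (LMat ι K)) = 1 := map_one toBlk

theorem toBlk_neg (M : Matrix Bool Bool (LMat ι K)) : toBlk (-M) = -toBlk M := map_neg toBlk M

end toBlk

/-! ### walls and the step -/

/-- a pair of walls -/
abbrev Wall (B : Type*) := Set B × Set B

section prj

variable [Ring K]

open scoped Classical in
/-- the indicator function of a wall -/
def ind (w : Set B) (base : ι → B) : ι → K := fun i => if base i ∈ w then 1 else 0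

theorem ind_mul (w : Set B) (base : ι → B) (i : ι) :
    (ind w base i : K) * ind w base i = ind w base i := by
  unfold ind; split_ifs <;> simp

/-- the coordinate projection of a wall -/
def prj (w : Set B) (base : ι → B) : LMat ι K := diag (ind w base)

theorem prj_mul (w : Set B) (base : ι → B) :
    (prj w base : LMat ι K) * prj w base = prj w base := by
  unfold prj
  rw [diag_mul_diag]
  congr 1; funext i; exact ind_mul w base i

theorem prj_star [StarRing K] (w : Set B) (base : ι → B) :
    star (prj w base : LMat ι K) = prj w base := by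
  unfold prj
  rw [star_diag]
  congr 1; funext i; unfold ind; split_ifs <;> simp

theorem map_prj [Ring L] (f : K →+* L) (w : Set B) (base : ι → B) :
    LMat.map f (prj w base) = prj w base := by
  unfold prj
  rw [map_diag]
  congr 1; funext i; unfold ind; split_ifs <;> simp

/-- base-diagonal matrices -/
def BD (base : ι → B) (M : LMat ι K) : Prop := ∀ x y, M x y ≠ 0 → base x = base y

theorem prj_comm {w : Set B} {base : ι → B} {M : LMat ι K} (hM : BD base M) :
    prj w base * M = M * prj w base := by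
  unfold prj
  ext i j
  rw [diag_mul_apply, mul_diag_apply]
  by_cases h : M i j = 0
  · simp [h]
  · unfold ind; rw [hM i j h]; split_ifs <;> simp

theorem BD.star [StarRing K] {base : ι → B} {M : LMat ι K} (hM : BD base M) :
    BD base (star M) := by
  intro x y h
  refine (hM y x ?_).symm
  intro h0
  exact h (by rw [LMat.star_apply, h0, star_zero])

theorem BD.zero {base : ι → B} : BD base (0 : LMat ι K) := by
  intro x y h; exact absurd rfl h

theorem BD.diag {base : ι → B} (u : ι → K) : BD base (diag u) := by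
  intro x y h
  by_contra h'
  exact h (diag_apply_ne u fun e => h' (by rw [e]))

theorem BD.one {base : ι → B} : BD base (1 : LMat ι K) := BD.diag _

theorem BD.neg {base : ι → B} {M : LMat ι K} (hM : BD base M) : BD base (-M) := by
  intro x y h; exact hM x y (by simpa only [ne_eq, LMat.neg_apply, neg_eq_zero] using h)

end prj

section step

theorem BD.toBlk_m2 [CommRing K] [StarRing K] {base : ι → B} {a b c d : LMat ι K}
    (ha : BD base a) (hb : BD base b) (hc : BD base c) (hd : BD base d) :
    BD (fun x : ι × Bool => base x.1) (toBlk (m2 a b c d)) := by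
  rintro ⟨i, s⟩ ⟨j, t⟩ h
  cases s <;> cases t
  · exact ha _ _ h
  · exact hb _ _ h
  · exact hc _ _ h
  · exact hd _ _ h

variable [CommRing K] [StarRing K] [Algebra ℂ K]

/-- the slicing step -/
def stepS (w : Wall B) (base : ι → B) (th th' : LMat ι K) : LMat (ι × Bool) K :=
  toBlk (Sop (prj w.1 base) (prj w.2 base) th th')

/-- the inverse of the slicing step -/
def stepI (w : Wall B) (base : ι → B) (th th' : LMat ι K) : LMat (ι × Bool) K :=
  toBlk (SopInv (prj w.1 base) (prj w.2 base) th th')

theorem stepS_mul_stepI (w : Wall B) (base : ι → B) (th th' : LMat ι K) :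
    stepS w base th th' * stepI w base th th' = 1 := by
  unfold stepS stepI
  rw [← toBlk_mul, Sop_mul_SopInv (prj_mul _ _) (prj_mul _ _), toBlk_one]

theorem stepI_mul_stepS (w : Wall B) (base : ι → B) (th th' : LMat ι K) :
    stepI w base th th' * stepS w base th th' = 1 := by
  unfold stepS stepI
  rw [← toBlk_mul, SopInv_mul_Sop (prj_mul _ _) (prj_mul _ _), toBlk_one]

theorem stepS_star [StarModule ℂ K] (w : Wall B) (base : ι → B)
    {th th' : LMat ι K} (h1 : star th = th) (h2 : star th' = th') :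
    star (stepS w base th th') = stepS w base th th' := by
  unfold stepS
  rw [← toBlk_star, Sop_star (prj_mul _ _) (prj_star _ _) (prj_star _ _) h1 h2]

theorem stepI_star [StarModule ℂ K] (w : Wall B) (base : ι → B)
    {th th' : LMat ι K} (h1 : star th = th) (h2 : star th' = th') :
    star (stepI w base th th') = stepI w base th th' := by
  unfold stepI
  rw [← toBlk_star, SopInv_star (prj_mul _ _) (prj_star _ _) (prj_star _ _) h1 h2]

theorem map_stepS [CommRing L] [StarRing L] [Algebra ℂ L] (f : K →+* L)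
    (hI : ∀ x, f (Complex.I • x) = Complex.I • f x) (w : Wall B) (base : ι → B)
    (th th' : LMat ι K) :
    LMat.map f (stepS w base th th') = stepS w base (LMat.map f th) (LMat.map f th') := by
  unfold stepS
  have h := Sop_map (R := LMat ι K) (R' := LMat ι L) (LMat.map f) (map_smul_I f hI)
    (prj w.1 base) (prj w.2 base) th th'
  rw [toBlk_map, h, map_prj, map_prj]

theorem map_stepI [CommRing L] [StarRing L] [Algebra ℂ L] (f : K →+* L)
    (hI : ∀ x, f (Complex.I • x) = Complex.I • f x) (w : Wall B) (base : ι → B)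
    (th th' : LMat ι K) :
    LMat.map f (stepI w base th th') = stepI w base (LMat.map f th) (LMat.map f th') := by
  unfold stepI
  have h := SopInv_map (R := LMat ι K) (R' := LMat ι L) (LMat.map f) (map_smul_I f hI)
    (prj w.1 base) (prj w.2 base) th th'
  rw [toBlk_map, h, map_prj, map_prj]

end step

/-! ### restriction to a finite set of base points -/

section restr

variable [Ring K]

/-- restriction to the indices over `e` -/
def restr (e : Finset B) (base : ι → B) (M : LMat ι K) :
    Matrix {i : ι // base i ∈ e} {i : ι // base i ∈ e} K := fun i j => M i.1 j.1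

theorem restr_mul {e : Finset B} {base : ι → B} [Fintype {i : ι // base i ∈ e}]
    {M N : LMat ι K} (h : ∀ x y, base x ∈ e → M x y ≠ 0 → base y ∈ e) :
    restr e base (M * N) = restr e base M * restr e base N := by
  classical
  ext i j
  rw [Matrix.mul_apply]
  change (M * N) i.1 j.1 = _
  rw [LMat.mul_apply_of M N i.1 j.1
    ((Finset.univ : Finset {i : ι // base i ∈ e}).map ⟨Subtype.val, Subtype.val_injective⟩)]
  · rw [Finset.sum_map]; rfl
  · intro k hk _
    rw [Finset.mem_map]
    exact ⟨⟨k, h _ _ i.2 hk⟩, Finset.mem_univ _, rfl⟩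

theorem restr_mul' {e : Finset B} {base : ι → B} [Fintype {i : ι // base i ∈ e}]
    {M N : LMat ι K} (h : ∀ x y, base y ∈ e → N x y ≠ 0 → base x ∈ e) :
    restr e base (M * N) = restr e base M * restr e base N := by
  classical
  ext i j
  rw [Matrix.mul_apply]
  change (M * N) i.1 j.1 = _
  rw [LMat.mul_apply_of M N i.1 j.1
    ((Finset.univ : Finset {i : ι // base i ∈ e}).map ⟨Subtype.val, Subtype.val_injective⟩)]
  · rw [Finset.sum_map]; rfl
  · intro k _ hk
    rw [Finset.mem_map]
    exact ⟨⟨k, h _ _ j.2 hk⟩, Finset.mem_univ _, rfl⟩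

theorem restr_one {e : Finset B} {base : ι → B} [DecidableEq ι] :
    restr e base (1 : LMat ι K) = 1 := by
  ext i j
  change (1 : LMat ι K) i.1 j.1 = _
  by_cases h : i = j
  · subst h; simp only [one_apply_self, one_apply_eq]
  · rw [Matrix.one_apply_ne h, LMat.one_apply_ne (fun e => h (Subtype.ext e))]

theorem restr_star [StarRing K] (e : Finset B) (base : ι → B) (M : LMat ι K) :
    restr e base (star M) = (restr e base M)ᴴ := rfl

theorem restr_neg (e : Finset B) (base : ι → B) (M : LMat ι K) :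
    restr e base (-M) = -restr e base M := rfl

theorem restr_BD_mul {e : Finset B} {base : ι → B} [Fintype {i : ι // base i ∈ e}]
    {M N : LMat ι K} (h : BD base M) :
    restr e base (M * N) = restr e base M * restr e base N :=
  restr_mul fun x y hx hxy => (h x y hxy) ▸ hx

theorem restr_mul_BD {e : Finset B} {base : ι → B} [Fintype {i : ι // base i ∈ e}]
    {M N : LMat ι K} (h : BD base N) :
    restr e base (M * N) = restr e base M * restr e base N :=
  restr_mul' fun x y hy hxy => (h x y hxy).symm ▸ hy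

end restr

open scoped Classical in
/-- the signature of the restriction to `e` (`0` if infinite) -/
def sgnOn (e : Finset B) (base : ι → B) (M : LMat ι ℂ) : ℤ :=
  if h : Finite {i : ι // base i ∈ e} then
    letI : Fintype {i : ι // base i ∈ e} := Fintype.ofFinite _
    sgn (restr e base M)
  else 0

theorem sgnOn_eq (e : Finset B) (base : ι → B) (M : LMat ι ℂ)
    [inst : Fintype {i : ι // base i ∈ e}] : sgnOn e base M = sgn (restr e base M) := by
  classical
  have h : Finite {i : ι // base i ∈ e} := inferInstance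
  unfold sgnOn
  rw [dif_pos h]
  have : (Fintype.ofFinite {i : ι // base i ∈ e}) = inst := Subsingleton.elim _ _
  rw [this]

theorem sgnOn_neg (e : Finset B) (base : ι → B) (M : LMat ι ℂ) :
    sgnOn e base (-M) = -sgnOn e base M := by
  classical
  by_cases h : Finite {i : ι // base i ∈ e}
  · let _ : Fintype {i : ι // base i ∈ e} := Fintype.ofFinite _
    rw [sgnOn_eq, sgnOn_eq, restr_neg, sgn_neg]
  · unfold sgnOn
    rw [dif_neg h, dif_neg h, neg_zero]

theorem sgnOn_congr (e : Finset B) (base : ι → B) (M : LMat ι ℂ) {k k' : LMat ι ℂ}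
    (hk : BD base k) (hk' : BD base k') (h1 : k * k' = 1) (h2 : k' * k = 1) :
    sgnOn e base (star k * M * k) = sgnOn e base M := by
  classical
  by_cases h : Finite {i : ι // base i ∈ e}
  · let _ : Fintype {i : ι // base i ∈ e} := Fintype.ofFinite _
    rw [sgnOn_eq, sgnOn_eq]
    symm
    refine sgn_congr (P := restr e base k) (Q := restr e base k') ?_ ?_ ?_
    · rw [← restr_BD_mul hk, h1, restr_one]
    · rw [← restr_BD_mul hk', h2, restr_one]
    · rw [restr_mul_BD hk, restr_BD_mul hk.star, restr_star]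
  · unfold sgnOn
    rw [dif_neg h, dif_neg h]

/-! ### the integer -/

/-- the integer invariant: iterate the slicing step over the list of walls and take the
signature of the restriction to `e` -/
def sInv (e : Finset B) : List (Wall B) → {ι : Type} → (ι → B) → LMat ι ℂ → LMat ι ℂ → ℤ
  | [], _, base, th, _ => sgnOn e base th
  | w :: ws, _, base, th, th' =>
    sInv e ws (fun x : _ × Bool => base x.1) (stepS w base th th') (stepI w base th th')

theorem sInv_nil (e : Finset B) {ι : Type} (base : ι → B) (th th' : LMat ι ℂ) :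
    sInv e [] base th th' = sgnOn e base th := rfl

theorem sInv_cons (e : Finset B) (w : Wall B) (ws : List (Wall B)) {ι : Type} (base : ι → B)
    (th th' : LMat ι ℂ) :
    sInv e (w :: ws) base th th' =
      sInv e ws (fun x : ι × Bool => base x.1) (stepS w base th th') (stepI w base th th') := rfl

/-- congruence by a base-diagonal invertible matrix -/
theorem sInv_congr (e : Finset B) (ws : List (Wall B)) {ι : Type} (base : ι → B)
    (th th' : LMat ι ℂ) {k k' : LMat ι ℂ} (hk : BD base k) (hk' : BD base k')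
    (h1 : k * k' = 1) (h2 : k' * k = 1) :
    sInv e ws base (star k * th * k) (k' * th' * star k') = sInv e ws base th th' := by
  induction ws generalizing ι with
  | nil => exact sgnOn_congr e base th hk hk' h1 h2
  | cons w ws ih =>
    rw [sInv_cons, sInv_cons]
    unfold stepS stepI
    rw [Sop_congr (prj_mul _ _) (prj_star _ _) (prj_star _ _) h1 h2 (prj_comm hk) (prj_comm hk),
      SopInv_congr (prj_mul _ _) (prj_star _ _) (prj_star _ _) h1 h2 (prj_comm hk)
        (prj_comm hk), toBlk_mul, toBlk_mul, toBlk_mul, toBlk_mul, toBlk_star, toBlk_star]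
    apply ih
    · exact BD.toBlk_m2 hk BD.zero BD.zero hk'.star
    · exact BD.toBlk_m2 hk' BD.zero BD.zero hk.star
    · rw [← toBlk_mul, m2_diag_inv h1 h2, toBlk_one]
    · rw [← toBlk_mul, m2_diag_inv h2 h1, toBlk_one]

/-- oddness -/
theorem sInv_neg (e : Finset B) (ws : List (Wall B)) {ι : Type} (base : ι → B)
    (th th' : LMat ι ℂ) : sInv e ws base (-th) (-th') = -sInv e ws base th th' := by
  induction ws generalizing ι with
  | nil => exact sgnOn_neg e base th
  | cons w ws ih =>
    rw [sInv_cons, sInv_cons]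
    have hs : star (toBlk (Sg (LMat ι ℂ))) = toBlk (Sg (LMat ι ℂ)) := by
      rw [← toBlk_star, Sg_star]
    have hBD : BD (fun x : ι × Bool => base x.1) (toBlk (Sg (LMat ι ℂ))) :=
      BD.toBlk_m2 BD.one BD.zero BD.zero BD.one.neg
    have hsq : toBlk (Sg (LMat ι ℂ)) * toBlk (Sg (LMat ι ℂ)) = 1 := by
      rw [← toBlk_mul, Sg_sq, toBlk_one]
    have e1 : stepS w base (-th) (-th') =
        -(star (toBlk (Sg (LMat ι ℂ))) * stepS w base th th' * toBlk (Sg (LMat ι ℂ))) := by
      unfold stepS
      rw [Sop_neg, toBlk_neg, toBlk_mul, toBlk_mul, hs]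
    have e2 : stepI w base (-th) (-th') =
        -(toBlk (Sg (LMat ι ℂ)) * stepI w base th th' * star (toBlk (Sg (LMat ι ℂ)))) := by
      unfold stepI
      rw [SopInv_neg, toBlk_neg, toBlk_mul, toBlk_mul, hs]
    rw [e1, e2, ih, sInv_congr e ws _ _ _ hBD hBD hsq hsq]

end Vale.Agent.P228.Inv
end
end
end

section

section

/-! # Row calculus

Supports and equality of the rows over a set `U` of locations, for `LMat ι K` with a location
map `base : ι → B`, and for 2x2 blocks `Matrix Bool Bool (LMat ι K)`.  Main results: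

* `vop_row`, `vinv_row`: the rows of `v`, `v⁻¹` over `U 0` are those of `1` if the wall `P` is
  constant over `U 4`;
* `Sop_row_P`, `Sop_row_Q`: the rows of `S` over `U 0` are those of `K0 (2 Q - 1)` if `P` or `Q` is
  constant over `U 4`;
* `Sop_row_diag`: the same if the rows of `θ, θ'` over `U` are location-diagonal;
* `Sop_sup`: the rows of `S`, `S⁻¹` over `U 0` are supported over `U 8`. -/

open Matrix

set_option linter.unusedSectionVars false

noncomputable section

namespace Vale.Agent.P228.Inv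

variable {ι B K : Type*} [Ring K]

/-- the rows of `A` over `U` are supported over `V` -/
def SupT (base : ι → B) (U V : Set B) (A : LMat ι K) : Prop :=
  ∀ x y, base x ∈ U → A x y ≠ 0 → base y ∈ V

/-- `A` and `A'` have the same rows over `U` -/
def REq (base : ι → B) (U : Set B) (A A' : LMat ι K) : Prop :=
  ∀ x, base x ∈ U → ∀ y, A x y = A' x y

section single

variable {base : ι → B} {U V W U' V' : Set B} {A A' A'' C C' : LMat ι K}

theorem SupT.zero : SupT base U V (0 : LMat ι K) := fun _ _ _ h => absurd rfl h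

theorem SupT.diag (f : ι → K) (hUV : U ⊆ V) : SupT base U V (LMat.diag f) := by
  intro x y hx h
  by_cases hxy : x = y
  · subst hxy; exact hUV hx
  · exact absurd (LMat.diag_apply_ne f hxy) h

theorem SupT.one (hUV : U ⊆ V) : SupT base U V (1 : LMat ι K) := SupT.diag _ hUV

theorem SupT.add (h : SupT base U V A) (h' : SupT base U V C) : SupT base U V (A + C) := by
  intro x y hx hne
  by_cases hA : A x y = 0
  · refine h' x y hx fun hC => hne ?_
    rw [LMat.add_apply, hA, hC, add_zero]
  · exact h x y hx hA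

theorem SupT.neg (h : SupT base U V A) : SupT base U V (-A) := by
  intro x y hx hne
  refine h x y hx fun hA => hne ?_
  rw [LMat.neg_apply, hA, neg_zero]

theorem SupT.sub (h : SupT base U V A) (h' : SupT base U V C) : SupT base U V (A - C) := by
  rw [sub_eq_add_neg]; exact h.add h'.neg

theorem SupT.smul {S : Type*} [SMulZeroClass S K] (s : S) (h : SupT base U V A) :
    SupT base U V (s • A) := by
  intro x y hx hne
  refine h x y hx fun hA => hne ?_
  rw [LMat.smul_apply, hA, smul_zero]

theorem SupT.mul (h : SupT base U V A) (h' : SupT base V W C) : SupT base U W (A * C) := by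
  intro x y hx hne
  obtain ⟨k, hk1, hk2⟩ := LMat.exists_of_mul_ne_zero hne
  exact h' k y (h x k hx hk1) hk2

theorem SupT.congr (h : SupT base U V A) (he : REq base U A' A) : SupT base U V A' := by
  intro x y hx hne
  exact h x y hx (by rwa [← he x hx y])

theorem REq.refl (A : LMat ι K) : REq base U A A := fun _ _ _ => rfl

theorem REq.trans (h : REq base U A A') (h' : REq base U A' A'') : REq base U A A'' :=
  fun x hx y => (h x hx y).trans (h' x hx y)

theorem REq.mono (h : REq base U A A') (hU : U' ⊆ U) : REq base U' A A' :=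
  fun x hx y => h x (hU hx) y

theorem REq.add (h : REq base U A A') (h' : REq base U C C') : REq base U (A + C) (A' + C') := by
  intro x hx y
  rw [LMat.add_apply, LMat.add_apply, h x hx y, h' x hx y]

theorem REq.neg (h : REq base U A A') : REq base U (-A) (-A') := by
  intro x hx y
  rw [LMat.neg_apply, LMat.neg_apply, h x hx y]

theorem REq.sub (h : REq base U A A') (h' : REq base U C C') : REq base U (A - C) (A' - C') := by
  intro x hx y
  rw [LMat.sub_apply, LMat.sub_apply, h x hx y, h' x hx y]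

theorem REq.mul (h : REq base U A A') (hS : SupT base U V A') (h' : REq base V C C') :
    REq base U (A * C) (A' * C') := by
  intro x hx y
  rw [LMat.mul_apply_of A C x y (A'.rowF x), LMat.mul_apply]
  · refine Finset.sum_congr rfl fun k hk => ?_
    rw [LMat.mem_rowF] at hk
    rw [h x hx k, h' k (hS x k hx hk) y]
  · intro k hk _
    rw [LMat.mem_rowF]
    rwa [← h x hx k]

theorem REq.diag {f g : ι → K} (h : ∀ x, base x ∈ U → f x = g x) :
    REq base U (LMat.diag f) (LMat.diag g) := by
  intro x hx y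
  by_cases hxy : x = y
  · subst hxy; rw [LMat.diag_apply_self, LMat.diag_apply_self, h x hx]
  · rw [LMat.diag_apply_ne f hxy, LMat.diag_apply_ne g hxy]

end single

/-- block version of `SupT` -/
def SupM (base : ι → B) (U V : Set B) (M : Matrix Bool Bool (LMat ι K)) : Prop :=
  ∀ i j, SupT base U V (M i j)

/-- block version of `REq` -/
def REqM (base : ι → B) (U : Set B) (M M' : Matrix Bool Bool (LMat ι K)) : Prop :=
  ∀ i j, REq base U (M i j) (M' i j)

section block

variable {base : ι → B} {U V W U' V' : Set B} {M M' M'' N N' : Matrix Bool Bool (LMat ι K)}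

theorem SupM.add (h : SupM base U V M) (h' : SupM base U V N) : SupM base U V (M + N) :=
  fun i j => (h i j).add (h' i j)

theorem SupM.sub (h : SupM base U V M) (h' : SupM base U V N) : SupM base U V (M - N) :=
  fun i j => (h i j).sub (h' i j)

theorem SupM.smul {S : Type*} [SMulZeroClass S K] (s : S) (h : SupM base U V M) :
    SupM base U V (s • M) := fun i j => (h i j).smul s

theorem SupM.mul (h : SupM base U V M) (h' : SupM base V W N) : SupM base U W (M * N) := by
  intro i j
  rw [Matrix.mul_apply, Fintype.sum_bool]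
  exact ((h i true).mul (h' true j)).add ((h i false).mul (h' false j))

theorem SupM.m2 {a b c d : LMat ι K} (ha : SupT base U V a) (hb : SupT base U V b)
    (hc : SupT base U V c) (hd : SupT base U V d) : SupM base U V (m2 a b c d) := by
  intro i j
  cases i <;> cases j
  · exact ha
  · exact hb
  · exact hc
  · exact hd

theorem SupM.one (hUV : U ⊆ V) : SupM base U V (1 : Matrix Bool Bool (LMat ι K)) := by
  rw [m2_one]
  exact SupM.m2 (SupT.one hUV) SupT.zero SupT.zero (SupT.one hUV)

theorem SupM.Vl {b : LMat ι K} (hb : SupT base U V b) (hUV : U ⊆ V) : SupM base U V (Vl b) :=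
  SupM.m2 (SupT.one hUV) SupT.zero hb (SupT.one hUV)

theorem SupM.Uu {b : LMat ι K} (hb : SupT base U V b) (hUV : U ⊆ V) : SupM base U V (Uu b) :=
  SupM.m2 (SupT.one hUV) hb SupT.zero (SupT.one hUV)

theorem SupM.Dg {b : LMat ι K} (hb : SupT base U V b) : SupM base U V (Dg b) :=
  SupM.m2 hb SupT.zero SupT.zero hb

theorem SupM.congr (h : SupM base U V M) (he : REqM base U M' M) : SupM base U V M' :=
  fun i j => (h i j).congr (he i j)

theorem REqM.refl (M : Matrix Bool Bool (LMat ι K)) : REqM base U M M :=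
  fun _ _ => REq.refl _

theorem REqM.of_eq (h : M = M') : REqM base U M M' := by subst h; exact REqM.refl M

theorem REqM.trans (h : REqM base U M M') (h' : REqM base U M' M'') : REqM base U M M'' :=
  fun i j => (h i j).trans (h' i j)

theorem REqM.add (h : REqM base U M M') (h' : REqM base U N N') :
    REqM base U (M + N) (M' + N') := fun i j => (h i j).add (h' i j)

theorem REqM.sub (h : REqM base U M M') (h' : REqM base U N N') :
    REqM base U (M - N) (M' - N') := fun i j => (h i j).sub (h' i j)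

theorem REqM.mul (h : REqM base U M M') (hS : SupM base U V M') (h' : REqM base V N N') :
    REqM base U (M * N) (M' * N') := by
  intro i j
  rw [Matrix.mul_apply, Matrix.mul_apply, Fintype.sum_bool, Fintype.sum_bool]
  exact ((h i true).mul (hS i true) (h' true j)).add ((h i false).mul (hS i false) (h' false j))

theorem REqM.m2 {a b c d a' b' c' d' : LMat ι K} (ha : REq base U a a') (hb : REq base U b b')
    (hc : REq base U c c') (hd : REq base U d d') :
    REqM base U (m2 a b c d) (m2 a' b' c' d') := by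
  intro i j
  cases i <;> cases j
  · exact ha
  · exact hb
  · exact hc
  · exact hd

theorem REqM.Vl {b b' : LMat ι K} (hb : REq base U b b') : REqM base U (Vl b) (Vl b') :=
  REqM.m2 (REq.refl _) (REq.refl _) hb (REq.refl _)

theorem REqM.Uu {b b' : LMat ι K} (hb : REq base U b b') : REqM base U (Uu b) (Uu b') :=
  REqM.m2 (REq.refl _) hb (REq.refl _) (REq.refl _)

theorem REqM.Dg {b b' : LMat ι K} (hb : REq base U b b') : REqM base U (Dg b) (Dg b') :=
  REqM.m2 hb (REq.refl _) (REq.refl _) hb

end block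

/-- `θ` and `θ'` move rows over `U i` into `U (i+1)`, for `i < n`. -/
structure Flow (base : ι → B) (th th' : LMat ι K) (n : ℕ) (U : ℕ → Set B) : Prop where
  mono : ∀ i < n, U i ⊆ U (i + 1)
  sup : ∀ i < n, SupT base (U i) (U (i + 1)) th
  sup' : ∀ i < n, SupT base (U i) (U (i + 1)) th'

namespace Flow

variable {base : ι → B} {th th' : LMat ι K} {n : ℕ} {U : ℕ → Set B}

theorem mono_le (F : Flow base th th' n U) {i j : ℕ} (hij : i ≤ j) (hj : j ≤ n) : U i ⊆ U j := by
  induction j, hij using Nat.le_induction with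
  | base => exact subset_rfl
  | succ j hij ih => exact (ih (by omega)).trans (F.mono j (by omega))

theorem of_le (F : Flow base th th' n U) {m : ℕ} (hm : m ≤ n) : Flow base th th' m U :=
  ⟨fun i hi => F.mono i (by omega), fun i hi => F.sup i (by omega),
    fun i hi => F.sup' i (by omega)⟩

end Flow

/-! ### the words -/

section words

variable {base : ι → B} {th th' : LMat ι K} {U : ℕ → Set B}

/-- a diagonal matrix is supported over the same locations -/
theorem sup_PtP (p : ι → K) {U V : Set B} {t : LMat ι K} (ht : SupT base U V t) :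
    SupT base U V (LMat.diag p * t * LMat.diag p) :=
  ((SupT.diag (base := base) p subset_rfl).mul ht).mul (SupT.diag p subset_rfl)

theorem sup_two {U V : Set B} {t : LMat ι K} (ht : SupT base U V t) :
    SupT base U V (2 * t) := by
  rw [two_mul]; exact ht.add ht

theorem sup_one_sub_two (p : ι → K) {U V : Set B} (hUV : U ⊆ V) :
    SupT base U V (1 - 2 * LMat.diag p : LMat ι K) :=
  (SupT.one hUV).sub (sup_two (SupT.diag p hUV))

theorem req_two {U : Set B} {t t' : LMat ι K} (ht : REq base U t t') :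
    REq base U (2 * t) (2 * t') := by
  rw [two_mul, two_mul]; exact ht.add ht

/-- the factor `V(2b) U(-a)` -/
theorem vop_sup (p : ι → K) (F : Flow base th th' 4 U) :
    SupM base (U 0) (U 4) (vop (LMat.diag p) th th') := by
  unfold vop
  have hV : ∀ i < 4, SupM base (U i) (U (i + 1)) (Vl (2 * (LMat.diag p * th * LMat.diag p))) :=
    fun i hi => SupM.Vl (sup_two (sup_PtP p (F.sup i hi))) (F.mono i hi)
  have hU : ∀ i < 4, SupM base (U i) (U (i + 1)) (Uu (-(LMat.diag p * th' * LMat.diag p))) :=
    fun i hi => SupM.Uu (sup_PtP p (F.sup' i hi)).neg (F.mono i hi)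
  have h0 : SupM base (U 0) (U 0) (Dg (1 - 2 * LMat.diag p : LMat ι K)) :=
    SupM.Dg (sup_one_sub_two p subset_rfl)
  exact h0.mul (((hV 0 (by omega)).mul (hU 1 (by omega))).mul
    ((hV 2 (by (clear * -; omega))).mul (hU 3 (by omega))))

theorem vinv_sup (p : ι → K) (F : Flow base th th' 4 U) :
    SupM base (U 0) (U 4) (vinv (LMat.diag p) th th') := by
  unfold vinv
  have hV : ∀ i < 4, SupM base (U i) (U (i + 1))
      (Vl (-(2 * (LMat.diag p * th * LMat.diag p)))) :=
    fun i hi => SupM.Vl (sup_two (sup_PtP p (F.sup i hi))).neg (F.mono i hi)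
  have hU : ∀ i < 4, SupM base (U i) (U (i + 1)) (Uu (LMat.diag p * th' * LMat.diag p)) :=
    fun i hi => SupM.Uu (sup_PtP p (F.sup' i hi)) (F.mono i hi)
  have h0 : SupM base (U 4) (U 4) (Dg (1 - 2 * LMat.diag p : LMat ι K)) :=
    SupM.Dg (sup_one_sub_two p subset_rfl)
  exact (((hU 0 (by omega)).mul (hV 1 (by omega))).mul
    ((hU 2 (by omega)).mul (hV 3 (by omega)))).mul h0

/-- comparison of the words for two diagonal matrices which agree over `U 4` -/
theorem vop_congr_row {p q : ι → K} (F : Flow base th th' 4 U)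
    (hpq : ∀ x, base x ∈ U 4 → p x = q x) :
    REqM base (U 0) (vop (LMat.diag p) th th') (vop (LMat.diag q) th th') := by
  have hP : ∀ i ≤ 4, REq base (U i) (LMat.diag p) (LMat.diag q) := fun i hi =>
    REq.diag fun x hx => hpq x (F.mono_le hi le_rfl hx)
  have h1 : ∀ i < 4, REq base (U i) (LMat.diag p * th * LMat.diag p)
      (LMat.diag q * th * LMat.diag q) := by
    intro i hi
    refine REq.mul (V := U (i + 1)) ?_ ?_ (hP (i + 1) (by omega))
    · exact REq.mul (hP i (by omega)) (SupT.diag q subset_rfl) (REq.refl _)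
    · exact (SupT.diag (base := base) q subset_rfl).mul (F.sup i hi)
  have h2 : ∀ i < 4, REq base (U i) (LMat.diag p * th' * LMat.diag p)
      (LMat.diag q * th' * LMat.diag q) := by
    intro i hi
    refine REq.mul (V := U (i + 1)) ?_ ?_ (hP (i + 1) (by omega))
    · exact REq.mul (hP i (by omega)) (SupT.diag q subset_rfl) (REq.refl _)
    · exact (SupT.diag (base := base) q subset_rfl).mul (F.sup' i hi)
  have hV : ∀ i < 4, SupM base (U i) (U (i + 1)) (Vl (2 * (LMat.diag q * th * LMat.diag q))) :=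
    fun i hi => SupM.Vl (sup_two (sup_PtP q (F.sup i hi))) (F.mono i hi)
  have hU : ∀ i < 4, SupM base (U i) (U (i + 1)) (Uu (-(LMat.diag q * th' * LMat.diag q))) :=
    fun i hi => SupM.Uu (sup_PtP q (F.sup' i hi)).neg (F.mono i hi)
  have eV : ∀ i < 4, REqM base (U i) (Vl (2 * (LMat.diag p * th * LMat.diag p)))
      (Vl (2 * (LMat.diag q * th * LMat.diag q))) := fun i hi => REqM.Vl (req_two (h1 i hi))
  have eU : ∀ i < 4, REqM base (U i) (Uu (-(LMat.diag p * th' * LMat.diag p)))
      (Uu (-(LMat.diag q * th' * LMat.diag q))) := fun i hi => REqM.Uu (h2 i hi).neg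
  unfold vop
  refine REqM.mul (V := U 0) ?_ (SupM.Dg (sup_one_sub_two q subset_rfl)) ?_
  · exact REqM.Dg ((REq.refl _).sub (req_two (hP 0 (by omega))))
  refine REqM.mul (V := U 2) ?_ ((hV 0 (by omega)).mul (hU 1 (by omega))) ?_
  · exact REqM.mul (eV 0 (by omega)) (hV 0 (by omega)) (eU 1 (by omega))
  · exact REqM.mul (eV 2 (by omega)) (hV 2 (by omega)) (eU 3 (by omega))

theorem vinv_congr_row {p q : ι → K} (F : Flow base th th' 4 U)
    (hpq : ∀ x, base x ∈ U 4 → p x = q x) :
    REqM base (U 0) (vinv (LMat.diag p) th th') (vinv (LMat.diag q) th th') := by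
  have hP : ∀ i ≤ 4, REq base (U i) (LMat.diag p) (LMat.diag q) := fun i hi =>
    REq.diag fun x hx => hpq x (F.mono_le hi le_rfl hx)
  have h1 : ∀ i < 4, REq base (U i) (LMat.diag p * th * LMat.diag p)
      (LMat.diag q * th * LMat.diag q) := by
    intro i hi
    refine REq.mul (V := U (i + 1)) ?_ ?_ (hP (i + 1) (by omega))
    · exact REq.mul (hP i (by omega)) (SupT.diag q subset_rfl) (REq.refl _)
    · exact (SupT.diag (base := base) q subset_rfl).mul (F.sup i hi)
  have h2 : ∀ i < 4, REq base (U i) (LMat.diag p * th' * LMat.diag p)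
      (LMat.diag q * th' * LMat.diag q) := by
    intro i hi
    refine REq.mul (V := U (i + 1)) ?_ ?_ (hP (i + 1) (by omega))
    · exact REq.mul (hP i (by omega)) (SupT.diag q subset_rfl) (REq.refl _)
    · exact (SupT.diag (base := base) q subset_rfl).mul (F.sup' i hi)
  have hV : ∀ i < 4, SupM base (U i) (U (i + 1))
      (Vl (-(2 * (LMat.diag q * th * LMat.diag q)))) :=
    fun i hi => SupM.Vl (sup_two (sup_PtP q (F.sup i hi))).neg (F.mono i hi)
  have hU : ∀ i < 4, SupM base (U i) (U (i + 1)) (Uu (LMat.diag q * th' * LMat.diag q)) :=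
    fun i hi => SupM.Uu (sup_PtP q (F.sup' i hi)) (F.mono i hi)
  have eV : ∀ i < 4, REqM base (U i) (Vl (-(2 * (LMat.diag p * th * LMat.diag p))))
      (Vl (-(2 * (LMat.diag q * th * LMat.diag q)))) :=
    fun i hi => REqM.Vl (req_two (h1 i hi)).neg
  have eU : ∀ i < 4, REqM base (U i) (Uu (LMat.diag p * th' * LMat.diag p))
      (Uu (LMat.diag q * th' * LMat.diag q)) := fun i hi => REqM.Uu (h2 i hi)
  unfold vinv
  refine REqM.mul (V := U 4) ?_ (((hU 0 (by omega)).mul (hV 1 (by omega))).mul
    ((hU 2 (by omega)).mul (hV 3 (by omega)))) ?_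
  · refine REqM.mul (V := U 2) ?_ ((hU 0 (by omega)).mul (hV 1 (by omega))) ?_
    · exact REqM.mul (eU 0 (by omega)) (hU 0 (by omega)) (eV 1 (by omega))
    · exact REqM.mul (eU 2 (by omega)) (hU 2 (by omega)) (eV 3 (by omega))
  · exact REqM.Dg ((REq.refl _).sub (req_two (hP 4 (by omega))))

/-- the wall is constant over `V` -/
def Const (base : ι → B) (p : ι → K) (V : Set B) : Prop :=
  (∀ x, base x ∈ V → p x = 0) ∨ (∀ x, base x ∈ V → p x = 1)

theorem vinv_eq_one {R : Type*} [Ring R] {P th th' : R} (hP : P * P = P)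
    (h1 : P * th = th * P) (h2 : P * th' = th' * P) (h3 : th * th' = 1) (h4 : th' * th = 1) :
    vinv P th th' = 1 := by
  have h := vop_mul_vinv hP th th'
  rwa [vop_eq_one hP h1 h2 h3 h4, Matrix.one_mul] at h

theorem vop_row {p : ι → K} (F : Flow base th th' 4 U) (hp : Const base p (U 4))
    (h3 : th * th' = 1) (h4 : th' * th = 1) :
    REqM base (U 0) (vop (LMat.diag p) th th') 1 := by
  rcases hp with hp | hp
  · refine (vop_congr_row (q := fun _ => 0) F hp).trans (REqM.of_eq ?_)
    rw [LMat.diag_zero]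
    exact vop_eq_one (by simp) (by simp) (by simp) h3 h4
  · refine (vop_congr_row (q := fun _ => 1) F hp).trans (REqM.of_eq ?_)
    rw [LMat.diag_one]
    exact vop_eq_one (by simp) (by simp only [one_mul, mul_one]) (by simp) h3 h4

theorem vinv_row {p : ι → K} (F : Flow base th th' 4 U) (hp : Const base p (U 4))
    (h3 : th * th' = 1) (h4 : th' * th = 1) :
    REqM base (U 0) (vinv (LMat.diag p) th th') 1 := by
  rcases hp with hp | hp
  · refine (vinv_congr_row (q := fun _ => 0) F hp).trans (REqM.of_eq ?_)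
    rw [LMat.diag_zero]
    exact vinv_eq_one (by simp) (by simp) (by simp) h3 h4
  · refine (vinv_congr_row (q := fun _ => 1) F hp).trans (REqM.of_eq ?_)
    rw [LMat.diag_one]
    exact vinv_eq_one (by simp) (by simp) (by simp) h3 h4

variable [Algebra ℂ K]

/-- supports of `2 v Q v⁻¹ - 1` -/
theorem refl_sup (p q : ι → K) (F : Flow base th th' 8 U) :
    SupM base (U 0) (U 8) (refl (LMat.diag p) (LMat.diag q) th th') := by
  have h1 : SupM base (U 0) (U 4) (vop (LMat.diag p) th th') := vop_sup p (F.of_le (by omega))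
  have h2 : SupM base (U 4) (U 8) (vinv (LMat.diag p) th th') :=
    vinv_sup (U := fun i => U (i + 4)) p
      ⟨fun i hi => F.mono (i + 4) (by omega) , fun i hi => F.sup (i + 4) (by omega),
        fun i hi => F.sup' (i + 4) (by omega)⟩
  have h3 : SupM base (U 0) (U 8)
      (vop (LMat.diag p) th th' * Dg (LMat.diag q) * vinv (LMat.diag p) th th') :=
    (h1.mul (SupM.Dg (SupT.diag q subset_rfl))).mul h2
  unfold refl
  rw [two_mul]
  exact (h3.add h3).sub (SupM.one (F.mono_le (by omega) le_rfl))

theorem K0_sup {V : Set B} : SupM base V V (K0 (LMat ι K)) := by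
  unfold K0 Om
  refine SupM.smul _ (SupM.m2 SupT.zero (SupT.one subset_rfl) ?_ SupT.zero)
  exact (SupT.one subset_rfl).neg

/-- supports of `S` -/
theorem Sop_sup (p q : ι → K) (F : Flow base th th' 8 U) :
    SupM base (U 0) (U 8) (Sop (LMat.diag p) (LMat.diag q) th th') :=
  K0_sup.mul (refl_sup p q F)

theorem SopInv_sup (p q : ι → K) (F : Flow base th th' 8 U) :
    SupM base (U 0) (U 8) (SopInv (LMat.diag p) (LMat.diag q) th th') :=
  (refl_sup p q F).mul K0_sup

/-- the standard location-diagonal form `K0 (2 Q - 1)`. -/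
def Std (q : ι → K) : Matrix Bool Bool (LMat ι K) :=
  K0 (LMat ι K) * (2 * Dg (LMat.diag q) - 1)

theorem Std_eq (q : ι → K) : Std q = (2 * Dg (LMat.diag q) - 1) * K0 (LMat ι K) := by
  unfold Std
  have h := K0_Dg (LMat.diag q : LMat ι K)
  rw [Matrix.mul_sub, Matrix.sub_mul, Matrix.mul_one, Matrix.one_mul, two_mul, Matrix.mul_add,
    Matrix.add_mul, h]

theorem Std_sup (q : ι → K) {V : Set B} : SupM base V V (Std q) := by
  unfold Std
  refine K0_sup.mul ?_
  rw [two_mul]
  exact ((SupM.Dg (SupT.diag q subset_rfl)).add (SupM.Dg (SupT.diag q subset_rfl))).sub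
    (SupM.one subset_rfl)

theorem refl_row {p q : ι → K} (F : Flow base th th' 4 U)
    (h : Const base p (U 4) ∨ Const base q (U 4))
    (h3 : th * th' = 1) (h4 : th' * th = 1) (hp : ∀ x, p x * p x = p x) :
    REqM base (U 0) (refl (LMat.diag p) (LMat.diag q) th th') (2 * Dg (LMat.diag q) - 1) := by
  have key : REqM base (U 0)
      (vop (LMat.diag p) th th' * Dg (LMat.diag q) * vinv (LMat.diag p) th th')
      (Dg (LMat.diag q)) := by
    rcases h with h | h
    · have e1 : REqM base (U 0) (vop (LMat.diag p) th th' * Dg (LMat.diag q))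
          (1 * Dg (LMat.diag q)) :=
        REqM.mul (V := U 0) (vop_row F h h3 h4) (SupM.one subset_rfl) (REqM.refl _)
      rw [Matrix.one_mul] at e1
      have e2 : REqM base (U 0)
          (vop (LMat.diag p) th th' * Dg (LMat.diag q) * vinv (LMat.diag p) th th')
          (Dg (LMat.diag q) * 1) :=
        REqM.mul (V := U 0) e1 (SupM.Dg (SupT.diag q subset_rfl)) (vinv_row F h h3 h4)
      rwa [Matrix.mul_one] at e2
    · have hpp : (LMat.diag p : LMat ι K) * LMat.diag p = LMat.diag p := by
        rw [LMat.diag_mul_diag]; congr 1; funext x; exact hp x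
      have hvv := vop_mul_vinv hpp th th'
      have hc : ∀ c : K, (c = 0 ∨ c = 1) → (∀ x, base x ∈ U 4 → q x = c) →
          REqM base (U 0)
            (vop (LMat.diag p) th th' * Dg (LMat.diag q) * vinv (LMat.diag p) th th')
            (Dg (LMat.diag q)) := by
        intro c hc01 hc
        have e1 : REqM base (U 0) (vop (LMat.diag p) th th' * Dg (LMat.diag q))
            (vop (LMat.diag p) th th' * Dg (LMat.diag fun _ => c)) :=
          REqM.mul (V := U 4) (REqM.refl _) (vop_sup p F) (REqM.Dg (REq.diag hc))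
        have hs : SupM base (U 0) (U 4)
            (vop (LMat.diag p) th th' * Dg (LMat.diag fun _ => c)) :=
          (vop_sup p F).mul (SupM.Dg (SupT.diag _ subset_rfl))
        have e2 := REqM.mul (V := U 4) e1 hs (REqM.refl (vinv (LMat.diag p) th th'))
        have e3 : vop (LMat.diag p) th th' * Dg (LMat.diag fun _ => c) *
            vinv (LMat.diag p) th th' = Dg (LMat.diag fun _ => c) := by
          rcases hc01 with rfl | rfl
          · rw [LMat.diag_zero]
            have : (Dg (0 : LMat ι K)) = 0 := by simp [Dg, m2_zero]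
            rw [this, Matrix.mul_zero, Matrix.zero_mul]
          · rw [LMat.diag_one, Dg_one, Matrix.mul_one, hvv]
        rw [e3] at e2
        refine e2.trans (REqM.Dg (REq.diag fun x hx => ?_))
        exact (hc x (F.mono_le (by omega) le_rfl hx)).symm
      rcases h with h | h
      · exact hc 0 (Or.inl rfl) h
      · exact hc 1 (Or.inr rfl) h
  unfold refl
  rw [two_mul, two_mul]
  exact (key.add key).sub (REqM.refl _)

/-- **row lemma**: the rows of `S` are standard where one of the two walls is constant. -/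
theorem Sop_row {p q : ι → K} (F : Flow base th th' 4 U)
    (h : Const base p (U 4) ∨ Const base q (U 4))
    (h3 : th * th' = 1) (h4 : th' * th = 1) (hp : ∀ x, p x * p x = p x) :
    REqM base (U 0) (Sop (LMat.diag p) (LMat.diag q) th th') (Std q) :=
  REqM.mul (V := U 0) (REqM.refl _) K0_sup (refl_row F h h3 h4 hp)

theorem SopInv_row {p q : ι → K} (F : Flow base th th' 4 U)
    (h : Const base p (U 4) ∨ Const base q (U 4))
    (h3 : th * th' = 1) (h4 : th' * th = 1) (hp : ∀ x, p x * p x = p x) :
    REqM base (U 0) (SopInv (LMat.diag p) (LMat.diag q) th th') (Std q) := by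
  rw [Std_eq]
  refine REqM.mul (V := U 0) (refl_row F h h3 h4 hp) ?_ (REqM.refl _)
  rw [two_mul]
  exact ((SupM.Dg (SupT.diag q subset_rfl)).add (SupM.Dg (SupT.diag q subset_rfl))).sub
    (SupM.one subset_rfl)

/-- a location-diagonal pair gives a constant flow -/
theorem Flow.of_diag {b : B} (h1 : SupT base {b} {b} th) (h2 : SupT base {b} {b} th') (n : ℕ) :
    Flow base th th' n (fun _ => {b}) :=
  ⟨fun _ _ => subset_rfl, fun _ _ => h1, fun _ _ => h2⟩

end words

end Vale.Agent.P228.Inv
end
end
end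

section

section

/-! The strict self-duality of the cubical chain complex of `ℤ²`, written with Laurent
polynomials: identities between `4 × 4` matrices over a commutative star ring which contains
two unitary elements `z, w` and an element `i` with `i² = -1`, `i* = -i`.
Order of the cells: `0` vertex, `1` edge in direction `z`, `2` edge in direction `w`,
`3` square.  Rows are targets. -/

namespace Vale.Agent.P228.Std

open Matrix

section

variable {L : Type*} [CommRing L]

/-- differential. -/
def dL (z w : L) : Matrix (Fin 4) (Fin 4) L :=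
  !![0, z - 1, w - 1, 0; 0, 0, 0, 1 - w; 0, 0, 0, z - 1; 0, 0, 0, 0]

/-- adjoint of the differential, `z' = z⁻¹`, `w' = w⁻¹`. -/
def dsL (z' w' : L) : Matrix (Fin 4) (Fin 4) L :=
  !![0, 0, 0, 0; z' - 1, 0, 0, 0; w' - 1, 0, 0, 0; 0, 1 - w', z' - 1, 0]

/-- parity. -/
def eL : Matrix (Fin 4) (Fin 4) L :=
  !![1, 0, 0, 0; 0, -1, 0, 0; 0, 0, -1, 0; 0, 0, 0, 1]

/-- the duality; `a` is the imaginary unit. -/
def JL (a z z' w w' : L) : Matrix (Fin 4) (Fin 4) L :=
  !![0, 0, 0, 2 * a;
     0, a * (z' - z), a * (1 - w - z' - w * z'), 0;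
     0, a * (z - 1 + w' + z * w'), a * (w - w'), 0;
     -2 * a, 0, 0, 0]

/-- four times the inverse of the duality. -/
def JiL (a z z' w w' : L) : Matrix (Fin 4) (Fin 4) L :=
  !![0, 0, 0, 2 * a;
     0, -(a * (w - w')), -(a * (w - 1 + z' + w * z')), 0;
     0, -(a * (1 - z - w' - z * w')), -(a * (z' - z)), 0;
     -2 * a, 0, 0, 0]

variable {a z z' w w' : L}

theorem dL_sq : dL z w * dL z w = 0 := by
  ext i j
  fin_cases i <;> fin_cases j <;> simp [dL, Matrix.mul_apply, Fin.sum_univ_four] <;> ring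

theorem eL_sq : (eL : Matrix (Fin 4) (Fin 4) L) * eL = 1 := by
  ext i j
  fin_cases i <;> fin_cases j <;> simp [eL, Matrix.mul_apply, Fin.sum_univ_four]

theorem eL_dL : eL * dL z w = -(dL z w * eL) := by
  ext i j
  fin_cases i <;> fin_cases j <;> simp [eL, dL, Matrix.mul_apply, Fin.sum_univ_four]

theorem eL_JL : eL * JL a z z' w w' = JL a z z' w w' * eL := by
  ext i j
  fin_cases i <;> fin_cases j <;> simp [eL, JL, Matrix.mul_apply, Fin.sum_univ_four]

theorem JL_dL (hz : z * z' = 1) (hw : w * w' = 1) :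
    JL a z z' w w' * dL z w = dsL z' w' * JL a z z' w w' := by
  ext i j
  fin_cases i <;> fin_cases j <;>
    simp [JL, dL, dsL, Matrix.mul_apply, Fin.sum_univ_four] <;> grind

theorem JL_JiL (ha : a * a = -1) (hz : z * z' = 1) (hw : w * w' = 1) :
    JL a z z' w w' * JiL a z z' w w' = (4 : ℕ) • (1 : Matrix (Fin 4) (Fin 4) L) := by
  ext i j
  fin_cases i <;> fin_cases j <;>
    simp [JL, JiL, Matrix.mul_apply, Fin.sum_univ_four] <;> grind

theorem JiL_JL (ha : a * a = -1) (hz : z * z' = 1) (hw : w * w' = 1) :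
    JiL a z z' w w' * JL a z z' w w' = (4 : ℕ) • (1 : Matrix (Fin 4) (Fin 4) L) := by
  ext i j
  fin_cases i <;> fin_cases j <;>
    simp [JL, JiL, Matrix.mul_apply, Fin.sum_univ_four] <;> grind

end

section star

variable {L : Type*} [CommRing L] [StarRing L] {a z z' w w' : L}

theorem star_dL (hz : star z = z') (hw : star w = w') : star (dL z w) = dsL z' w' := by
  subst hz; subst hw
  ext i j
  fin_cases i <;> fin_cases j <;> simp [dL, dsL, Matrix.star_eq_conjTranspose]

theorem star_eL : star (eL : Matrix (Fin 4) (Fin 4) L) = eL := by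
  ext i j
  fin_cases i <;> fin_cases j <;> simp [eL, Matrix.star_eq_conjTranspose]

theorem star_JL (ha : star a = -a) (hz : star z = z') (hw : star w = w') :
    star (JL a z z' w w') = JL a z z' w w' := by
  subst hz; subst hw
  ext i j
  fin_cases i <;> fin_cases j <;>
    simp [JL, Matrix.star_eq_conjTranspose, ha] <;> ring

end star

end Vale.Agent.P228.Std
end
end

section

section

/-! Shift operators in `LMat`. -/

namespace Vale.Agent.P228.Std

section shift

variable {G : Type*} [AddCommGroup G] {K : Type*} [Ring K]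

open scoped Classical in
/-- the shift `e_y ↦ e_{y+g}`. -/
noncomputable def shift (K : Type*) [Ring K] (g : G) : LMat G K where
  toFun x y := if x = y + g then 1 else 0
  row_finite x := (Set.finite_singleton (x - g)).subset (by
    intro y hy
    by_contra h
    apply hy
    rw [if_neg]
    intro h2
    apply h
    rw [Set.mem_singleton_iff, h2, add_sub_cancel_right])
  col_finite y := (Set.finite_singleton (y + g)).subset (by
    intro x hx
    by_contra h
    apply hx
    rw [if_neg]
    exact h)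

theorem shift_apply [DecidableEq G] (g x y : G) :
    shift K g x y = if x = y + g then 1 else 0 := by
  unfold shift
  by_cases h : x = y + g <;> simp [h]

theorem shift_zero : shift K (0 : G) = 1 := by
  classical
  ext x y
  rw [shift_apply, LMat.one_apply, add_zero]

theorem shift_mul (g h : G) : shift K g * shift K h = shift K (g + h) := by
  classical
  ext x z
  rw [LMat.mul_apply_of (shift K g) (shift K h) x z {z + h}]
  · rw [Finset.sum_singleton, shift_apply, shift_apply, shift_apply, if_pos rfl, mul_one]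
    congr 1
    rw [add_assoc, add_comm h g]
  · intro k _ hk
    rw [shift_apply] at hk
    rw [Finset.mem_singleton]
    by_contra hne
    exact hk (if_neg hne)

theorem shift_star [StarRing K] (g : G) : star (shift K g) = shift K (-g) := by
  classical
  ext x y
  rw [LMat.star_apply, shift_apply, shift_apply]
  by_cases h : y = x + g
  · rw [if_pos h, if_pos (by rw [h]; abel), star_one]
  · rw [if_neg h, if_neg (fun h2 => h (by rw [h2]; abel)), star_zero]

theorem eq_of_shift_ne_zero {g x y : G} (h : shift K g x y ≠ 0) : x = y + g := by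
  classical
  rw [shift_apply] at h
  by_contra hne
  exact h (if_neg hne)

/-- the shifts as a monoid homomorphism. -/
noncomputable def shiftHom (K : Type*) [Ring K] (G : Type*) [AddCommGroup G] :
    Multiplicative G →* LMat G K where
  toFun g := shift K (Multiplicative.toAdd g)
  map_one' := by rw [toAdd_one, shift_zero]
  map_mul' g h := by rw [toAdd_mul, shift_mul]

end shift

end Vale.Agent.P228.Std
end
end

section

section

/-!
# P228, block A (helper144): from the chain maps `Θ_g` to `(A, h)`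

Everything takes place in one abstract star ring `R` which is an `ℝ`-algebra (in the application
`R = LMat ι 𝒢` or `R = LMat ι ℂ`).  Conventions (helper688 / helper528): `J` is the hermitian
duality `C → C^*`, `J d = d^* J`, `e = (-1)^deg`.  The adjoint is `x♯ = Ji x^* J`.

Input (`Fam`): `T : ZMod q → R` (think `T g = [g] Θ_g`) even chain maps, with
* `T g * T k = T (g + k) + [d, H g k]`,
* `(T g)♯ = T (-g) + [d, Bh g]`,
`H`, `Bh` odd.  Output: `A`, `h` with
`A e = e A`, `A d = d A`, `J A = A^* J`, `h e = - e h`, `J h = h^* J`, `A A = 1 + (d h + h d)`,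
and, if `T g = c g + [d, K g]` with `(1/q) ∑ c g = δ`, `A = (1 - 2δ) + [d, κ]` with `κ` odd,
`J κ = κ^* J`.
-/

namespace Vale.Agent.P228.Alg

open Finset

/-- a based complex with a strict hermitian duality, as elements of a star ring -/
structure Dual (R : Type*) [Ring R] [StarRing R] where
  d : R
  e : R
  J : R
  Ji : R
  dd : d * d = 0
  ee : e * e = 1
  se : star e = e
  de : d * e = -(e * d)
  sJ : star J = J
  JJi : J * Ji = 1
  JiJ : Ji * J = 1
  Je : J * e = e * J
  Jd : J * d = star d * J

namespace Dual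

variable {R : Type*} [Ring R] [StarRing R] (c : Dual R)

/-- super-commutator with `d` for odd elements -/
def br (x : R) : R := c.d * x + x * c.d

/-- the `J`-adjoint -/
def sh (x : R) : R := c.Ji * star x * c.J

theorem star_Ji : star c.Ji = c.Ji := by
  have h1 : star c.Ji * c.J = 1 := by
    have := congrArg star c.JJi
    rwa [star_mul, c.sJ, star_one] at this
  calc star c.Ji = star c.Ji * (c.J * c.Ji) := by rw [c.JJi, mul_one]
    _ = c.Ji := by rw [← mul_assoc, h1, one_mul]

theorem sh_add (x y : R) : c.sh (x + y) = c.sh x + c.sh y := by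
  simp only [sh, star_add]; noncomm_ring

theorem sh_neg (x : R) : c.sh (-x) = -c.sh x := by
  simp only [sh, star_neg]; noncomm_ring

theorem sh_sub (x y : R) : c.sh (x - y) = c.sh x - c.sh y := by
  simp only [sh, star_sub]; noncomm_ring

theorem sh_zero : c.sh 0 = 0 := by simp [sh]

theorem sh_one : c.sh 1 = 1 := by simp only [sh, star_one, mul_one, c.JiJ]

theorem sh_mul (x y : R) : c.sh (x * y) = c.sh y * c.sh x := by
  simp only [sh, star_mul]
  calc c.Ji * (star y * star x) * c.J = c.Ji * star y * 1 * star x * c.J := by noncomm_ring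
    _ = _ := by rw [← c.JJi]; noncomm_ring

theorem sh_sh (x : R) : c.sh (c.sh x) = x := by
  simp only [sh, star_mul, star_star, c.star_Ji, c.sJ]
  calc c.Ji * (c.J * (x * c.Ji)) * c.J = (c.Ji * c.J) * x * (c.Ji * c.J) := by noncomm_ring
    _ = x := by rw [c.JiJ, one_mul, mul_one]

theorem sh_sum {α : Type*} (s : Finset α) (f : α → R) :
    c.sh (∑ a ∈ s, f a) = ∑ a ∈ s, c.sh (f a) := by
  classical
  induction s using Finset.induction_on with
  | empty => simp [sh_zero]
  | insert a s ha ih => rw [Finset.sum_insert ha, Finset.sum_insert ha, sh_add, ih]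

theorem sh_d : c.sh c.d = c.d := by
  rw [sh, mul_assoc, ← c.Jd, ← mul_assoc, c.JiJ, one_mul]

theorem sh_e : c.sh c.e = c.e := by
  rw [sh, c.se, mul_assoc, ← c.Je, ← mul_assoc, c.JiJ, one_mul]

theorem sh_br (x : R) : c.sh (c.br x) = c.br (c.sh x) := by
  simp only [br, sh_add, sh_mul, sh_d]; abel

/-- `x♯ = x` is the same as `J x = x^* J` -/
theorem sh_eq_iff {x : R} : c.sh x = x ↔ c.J * x = star x * c.J := by
  constructor
  · intro h
    calc c.J * x = c.J * (c.Ji * star x * c.J) := by
          conv_lhs => rw [← h]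
          rfl
      _ = (c.J * c.Ji) * star x * c.J := by noncomm_ring
      _ = star x * c.J := by rw [c.JJi, one_mul]
  · intro h
    rw [sh, mul_assoc, ← h, ← mul_assoc, c.JiJ, one_mul]

theorem br_add (x y : R) : c.br (x + y) = c.br x + c.br y := by
  simp only [br]; noncomm_ring

theorem br_neg (x : R) : c.br (-x) = -c.br x := by
  simp only [br]; noncomm_ring

theorem br_sub (x y : R) : c.br (x - y) = c.br x - c.br y := by
  simp only [br]; noncomm_ring

theorem br_zero : c.br 0 = 0 := by simp [br]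

theorem br_sum {α : Type*} (s : Finset α) (f : α → R) :
    c.br (∑ a ∈ s, f a) = ∑ a ∈ s, c.br (f a) := by
  simp only [br, Finset.mul_sum, Finset.sum_mul, Finset.sum_add_distrib]

/-- `[d, x]` is a chain map -/
theorem br_d (x : R) : c.br x * c.d = c.d * c.br x := by
  have h := c.dd
  have e1 : c.br x * c.d = c.d * x * c.d + x * (c.d * c.d) := by simp only [br]; noncomm_ring
  have e2 : c.d * c.br x = (c.d * c.d) * x + c.d * x * c.d := by simp only [br]; noncomm_ring
  rw [e1, e2, h]; simp

/-- multiplication of a null-homotopy by a chain map on the left -/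
theorem mul_br {x y : R} (hx : x * c.d = c.d * x) : x * c.br y = c.br (x * y) := by
  simp only [br]
  calc x * (c.d * y + y * c.d) = (x * c.d) * y + x * y * c.d := by noncomm_ring
    _ = c.d * (x * y) + x * y * c.d := by rw [hx]; noncomm_ring

/-- multiplication of a null-homotopy by a chain map on the right -/
theorem br_mul {x y : R} (hx : x * c.d = c.d * x) : c.br y * x = c.br (y * x) := by
  simp only [br]
  calc (c.d * y + y * c.d) * x = c.d * y * x + y * (c.d * x) := by noncomm_ring
    _ = c.d * (y * x) + y * x * c.d := by rw [← hx]; noncomm_ring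

/-- products of null-homotopic maps -/
theorem br_br (x y : R) : c.br x * c.br y = c.br (x * c.br y) := by
  exact c.br_mul (c.br_d y)

/-- even / odd elements -/
def IsEven (x : R) : Prop := x * c.e = c.e * x
/-- odd elements -/
def IsOdd (x : R) : Prop := x * c.e = -(c.e * x)

variable {c}

theorem IsOdd.add {x y : R} (hx : c.IsOdd x) (hy : c.IsOdd y) : c.IsOdd (x + y) := by
  unfold IsOdd at *; rw [add_mul, hx, hy]; noncomm_ring
theorem IsOdd.sub {x y : R} (hx : c.IsOdd x) (hy : c.IsOdd y) : c.IsOdd (x - y) := by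
  unfold IsOdd at *; rw [sub_mul, hx, hy]; noncomm_ring
theorem IsOdd.neg {x : R} (hx : c.IsOdd x) : c.IsOdd (-x) := by
  unfold IsOdd at *; rw [neg_mul, hx]; noncomm_ring
theorem IsEven.add {x y : R} (hx : c.IsEven x) (hy : c.IsEven y) : c.IsEven (x + y) := by
  unfold IsEven at *; rw [add_mul, hx, hy]; noncomm_ring
theorem IsEven.sub {x y : R} (hx : c.IsEven x) (hy : c.IsEven y) : c.IsEven (x - y) := by
  unfold IsEven at *; rw [sub_mul, hx, hy]; noncomm_ring
theorem isOdd_zero : c.IsOdd 0 := by simp [IsOdd]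
theorem isEven_one : c.IsEven 1 := by simp [IsEven]
theorem isOdd_d : c.IsOdd c.d := c.de
theorem IsOdd.sum {α : Type*} {s : Finset α} {f : α → R} (h : ∀ a ∈ s, c.IsOdd (f a)) :
    c.IsOdd (∑ a ∈ s, f a) := by
  unfold IsOdd at *
  rw [Finset.sum_mul, Finset.mul_sum, ← Finset.sum_neg_distrib]
  exact Finset.sum_congr rfl h
theorem IsEven.sum {α : Type*} {s : Finset α} {f : α → R} (h : ∀ a ∈ s, c.IsEven (f a)) :
    c.IsEven (∑ a ∈ s, f a) := by
  unfold IsEven at *
  rw [Finset.sum_mul, Finset.mul_sum]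
  exact Finset.sum_congr rfl h
theorem IsEven.mul_odd {x y : R} (hx : c.IsEven x) (hy : c.IsOdd y) : c.IsOdd (x * y) := by
  unfold IsEven IsOdd at *; rw [mul_assoc, hy, mul_neg, ← mul_assoc, hx, mul_assoc]
theorem IsOdd.mul_even {x y : R} (hx : c.IsOdd x) (hy : c.IsEven y) : c.IsOdd (x * y) := by
  unfold IsEven IsOdd at *; rw [mul_assoc, hy, ← mul_assoc, hx, neg_mul, mul_assoc]
theorem IsOdd.mul {x y : R} (hx : c.IsOdd x) (hy : c.IsOdd y) : c.IsEven (x * y) := by
  unfold IsEven IsOdd at *
  rw [mul_assoc, hy, mul_neg, ← mul_assoc, hx, neg_mul, neg_neg, mul_assoc]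
theorem IsOdd.br {x : R} (hx : c.IsOdd x) : c.IsEven (c.br x) :=
  (isOdd_d.mul hx).add (hx.mul isOdd_d)
theorem IsEven.sh {x : R} (hx : c.IsEven x) : c.IsEven (c.sh x) := by
  have h := congrArg c.sh hx
  rw [c.sh_mul, c.sh_mul, c.sh_e] at h
  exact h.symm
theorem IsOdd.sh {x : R} (hx : c.IsOdd x) : c.IsOdd (c.sh x) := by
  have h := congrArg c.sh hx
  rw [c.sh_mul, c.sh_neg, c.sh_mul, c.sh_e] at h
  unfold IsOdd; rw [h, neg_neg]

section Real

variable [Algebra ℝ R]

theorem IsOdd.smul {x : R} (r : ℝ) (hx : c.IsOdd x) : c.IsOdd (r • x) := by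
  unfold IsOdd at *; rw [smul_mul_assoc, hx, mul_smul_comm, smul_neg]
theorem IsEven.smul {x : R} (r : ℝ) (hx : c.IsEven x) : c.IsEven (r • x) := by
  unfold IsEven at *; rw [smul_mul_assoc, hx, mul_smul_comm]

variable (c)

theorem br_smul (r : ℝ) (x : R) : c.br (r • x) = r • c.br x := by
  simp only [Dual.br, mul_smul_comm, smul_mul_assoc, smul_add]

theorem sh_smul [StarModule ℝ R] (r : ℝ) (x : R) : c.sh (r • x) = r • c.sh x := by
  simp only [Dual.sh, star_smul, star_trivial, mul_smul_comm, smul_mul_assoc]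

end Real

end Dual

/-- the input family -/
structure Fam {R : Type*} [Ring R] [StarRing R] (c : Dual R) (q : ℕ) where
  T : ZMod q → R
  H : ZMod q → ZMod q → R
  Bh : ZMod q → R
  T_even : ∀ g, c.IsEven (T g)
  T_d : ∀ g, T g * c.d = c.d * T g
  H_odd : ∀ g k, c.IsOdd (H g k)
  Bh_odd : ∀ g, c.IsOdd (Bh g)
  T_mul : ∀ g k, T g * T k = T (g + k) + c.br (H g k)
  T_sh : ∀ g, c.sh (T g) = T (-g) + c.br (Bh g)

namespace Fam

variable {R : Type*} [Ring R] [StarRing R] [Algebra ℝ R] {c : Dual R} {q : ℕ}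
  [NeZero q] (F : Fam c q)

/-- `ê = (1/q) ∑ T_g` -/
noncomputable def eh : R := ((q : ℝ)⁻¹) • ∑ g, F.T g
/-- `B̂ = (1/q) ∑ B_g` -/
noncomputable def Bb : R := ((q : ℝ)⁻¹) • ∑ g, F.Bh g
/-- `Ĥ = (1/q²) ∑ H_{g,k}` -/
noncomputable def Hb : R := ((q : ℝ)⁻¹ * (q : ℝ)⁻¹) • ∑ g, ∑ k, F.H g k
/-- the symmetrised projection -/
noncomputable def E : R := F.eh + (1 / 2 : ℝ) • c.br F.Bb
/-- its homotopy -/
noncomputable def eta : R :=
  F.Hb + (1 / 2 : ℝ) • (F.eh * F.Bb + F.Bb * F.eh) + (1 / 4 : ℝ) • (F.Bb * c.br F.Bb)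
    - (1 / 2 : ℝ) • F.Bb
/-- the involution up to homotopy -/
noncomputable def A : R := 1 - (2 : ℝ) • F.E
/-- its homotopy -/
noncomputable def h : R := (2 : ℝ) • (F.eta + c.sh F.eta)

theorem eh_even : c.IsEven F.eh := (Dual.IsEven.sum fun g _ => F.T_even g).smul _
theorem Bb_odd : c.IsOdd F.Bb := (Dual.IsOdd.sum fun g _ => F.Bh_odd g).smul _
theorem Hb_odd : c.IsOdd F.Hb :=
  (Dual.IsOdd.sum fun g _ => Dual.IsOdd.sum fun k _ => F.H_odd g k).smul _
theorem E_even : c.IsEven F.E := F.eh_even.add (F.Bb_odd.br.smul _)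
theorem eta_odd : c.IsOdd F.eta :=
  ((F.Hb_odd.add (((F.eh_even.mul_odd F.Bb_odd).add (F.Bb_odd.mul_even F.eh_even)).smul _)).add
    ((F.Bb_odd.mul_even F.Bb_odd.br).smul _)).sub (F.Bb_odd.smul _)
theorem A_even : c.IsEven F.A := Dual.isEven_one.sub (F.E_even.smul _)
theorem h_odd : c.IsOdd F.h := (F.eta_odd.add F.eta_odd.sh).smul _

theorem eh_d : F.eh * c.d = c.d * F.eh := by
  unfold eh
  rw [smul_mul_assoc, mul_smul_comm, Finset.sum_mul, Finset.mul_sum]
  congr 1
  exact Finset.sum_congr rfl fun g _ => F.T_d g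

theorem E_d : F.E * c.d = c.d * F.E := by
  unfold E
  rw [add_mul, mul_add, F.eh_d, smul_mul_assoc, mul_smul_comm, c.br_d]

theorem A_d : F.A * c.d = c.d * F.A := by
  unfold A
  rw [sub_mul, mul_sub, smul_mul_assoc, mul_smul_comm, F.E_d, one_mul, mul_one]

theorem eh_sh [StarModule ℝ R] : c.sh F.eh = F.eh + c.br F.Bb := by
  unfold eh Bb
  rw [c.sh_smul, c.sh_sum, c.br_smul, c.br_sum, ← smul_add]
  congr 1
  rw [← Equiv.sum_comp (Equiv.neg (ZMod q)) F.T, ← Finset.sum_add_distrib]
  exact Finset.sum_congr rfl fun g _ => F.T_sh g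

theorem eh_sq : F.eh * F.eh = F.eh + c.br F.Hb := by
  have hq : (q : ℝ) ≠ 0 := Nat.cast_ne_zero.mpr (NeZero.ne q)
  have h1 : ∀ g, ∑ k, F.T (g + k) = ∑ k, F.T k := fun g =>
    Equiv.sum_comp (Equiv.addLeft g) F.T
  have h2 : (∑ g, F.T g) * (∑ g, F.T g)
      = (q : ℝ) • (∑ g, F.T g) + ∑ g, ∑ k, c.br (F.H g k) := by
    rw [Finset.sum_mul]
    have h3 : ∀ g, F.T g * ∑ k, F.T k = ∑ k, F.T k + ∑ k, c.br (F.H g k) := by
      intro g
      rw [Finset.mul_sum, Finset.sum_congr rfl fun k _ => F.T_mul g k, Finset.sum_add_distrib, h1]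
    rw [Finset.sum_congr rfl fun g _ => h3 g, Finset.sum_add_distrib, Finset.sum_const,
      Finset.card_univ, ZMod.card, Nat.cast_smul_eq_nsmul ℝ]
  unfold eh Hb
  rw [smul_mul_smul_comm, h2, smul_add, smul_smul, c.br_smul, c.br_sum]
  congr 1
  · congr 1; rw [mul_assoc, inv_mul_cancel₀ hq, mul_one]
  · congr 1
    exact Finset.sum_congr rfl fun g _ => (c.br_sum _ _).symm

theorem E_sh [StarModule ℝ R] : c.sh F.E = F.E := by
  have h1 : c.sh (c.br F.Bb) = - c.br F.Bb := by
    have h2 : c.sh (c.sh F.eh) = F.eh := c.sh_sh _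
    rw [F.eh_sh, c.sh_add, F.eh_sh, add_assoc] at h2
    have h3 : c.br F.Bb + c.sh (c.br F.Bb) = 0 := by
      have := h2
      exact add_left_cancel (this.trans (add_zero _).symm)
    exact (neg_eq_of_add_eq_zero_right h3).symm
  unfold E
  rw [c.sh_add, c.sh_smul, h1, F.eh_sh]
  module

theorem E_eq [StarModule ℝ R] : F.E = (1 / 2 : ℝ) • (F.eh + c.sh F.eh) := by
  rw [F.eh_sh]; unfold E; module

theorem A_sh [StarModule ℝ R] : c.sh F.A = F.A := by
  unfold A
  rw [c.sh_sub, c.sh_smul, F.E_sh, c.sh_one]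

theorem E_sq : F.E * F.E = F.E + c.br F.eta := by
  have h1 := F.eh_sq
  have h2 : F.eh * c.br F.Bb = c.br (F.eh * F.Bb) := c.mul_br F.eh_d
  have h3 : c.br F.Bb * F.eh = c.br (F.Bb * F.eh) := c.br_mul F.eh_d
  have h4 : c.br F.Bb * c.br F.Bb = c.br (F.Bb * c.br F.Bb) := c.br_br _ _
  unfold E eta
  rw [add_mul, mul_add, mul_add, mul_smul_comm, smul_mul_assoc, smul_mul_smul_comm, h1, h2, h3, h4,
    c.br_sub, c.br_add, c.br_add, c.br_smul, c.br_smul, c.br_smul, c.br_add]
  module

theorem h_sh [StarModule ℝ R] : c.sh F.h = F.h := by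
  unfold h
  rw [c.sh_smul, c.sh_add, c.sh_sh, add_comm]

theorem A_sq [StarModule ℝ R] : F.A * F.A = 1 + c.br F.h := by
  have h1 : c.br F.eta = F.E * F.E - F.E := by rw [F.E_sq]; abel
  have h2 : c.br (c.sh F.eta) = F.E * F.E - F.E := by
    rw [← c.sh_br, h1, c.sh_sub, c.sh_mul, F.E_sh]
  unfold A h
  rw [c.br_smul, c.br_add, h1, h2, sub_mul, mul_sub, mul_sub, smul_mul_smul_comm, one_mul, mul_one,
    one_mul]
  module

/-! ### the coarse form of `A` -/

/-- `κ`, for given null-homotopies `K g` -/
noncomputable def kap (c : Dual R) (K : ZMod q → R) : R :=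
  -(((q : ℝ)⁻¹ • ∑ g, K g) + c.sh ((q : ℝ)⁻¹ • ∑ g, K g))

theorem kap_odd {K : ZMod q → R} (hK : ∀ g, c.IsOdd (K g)) : c.IsOdd (kap c K) := by
  have h1 : c.IsOdd ((q : ℝ)⁻¹ • ∑ g, K g) := (Dual.IsOdd.sum fun g _ => hK g).smul _
  exact (h1.add h1.sh).neg

theorem kap_sh {K : ZMod q → R} : c.sh (kap c K) = kap c K := by
  unfold kap
  rw [c.sh_neg, c.sh_add, c.sh_sh, add_comm]

/-- if `T g = cg g + [d, K g]` and `(1/q) ∑ cg g = δ` then `A = (1 - 2δ) + [d, κ]` -/
theorem A_coarse [StarModule ℝ R] {K cg : ZMod q → R} {δ : ℝ}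
    (hT : ∀ g, F.T g = cg g + c.br (K g)) (hc : ((q : ℝ)⁻¹) • ∑ g, cg g = δ • (1 : R)) :
    F.A = (1 - 2 * δ) • (1 : R) + c.br (kap c K) := by
  have h1 : F.eh = δ • (1 : R) + c.br ((q : ℝ)⁻¹ • ∑ g, K g) := by
    unfold eh
    rw [Finset.sum_congr rfl fun g _ => hT g, Finset.sum_add_distrib, smul_add, hc, c.br_smul,
      c.br_sum]
  have h2 : c.sh F.eh = δ • (1 : R) + c.br (c.sh ((q : ℝ)⁻¹ • ∑ g, K g)) := by
    rw [h1, c.sh_add, c.sh_smul, c.sh_one, c.sh_br]
  unfold A
  rw [F.E_eq, h2, h1]
  unfold kap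
  rw [c.br_neg, c.br_add]
  module

end Fam

end Vale.Agent.P228.Alg
end
end

section

section

/-! The strict self-duality of the cubical chain complex of `ℤ²` as an element of `LMat`. -/

namespace Vale.Agent.P228.Std

open Matrix

/-- cells of `ℤ²`: base vertex and type (`0` vertex, `1` edge in the first direction, `2` edge
in the second direction, `3` square). -/
abbrev Cell2 := (ℤ × ℤ) × Fin 4

/-- the commutative ring of Laurent polynomials. -/
abbrev Lau := AddMonoidAlgebra ℂ (ℤ × ℤ)

/-- Laurent polynomials as shift operators. -/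
noncomputable def lauHom : Lau →ₐ[ℂ] LMat (ℤ × ℤ) ℂ :=
  AddMonoidAlgebra.lift ℂ (LMat (ℤ × ℤ) ℂ) (ℤ × ℤ) (shiftHom ℂ (ℤ × ℤ))

theorem lauHom_single (g : ℤ × ℤ) (c : ℂ) :
    lauHom (AddMonoidAlgebra.single g c) = c • shift ℂ g := by
  unfold lauHom
  rw [AddMonoidAlgebra.lift_single]
  rfl

/-- the involution of the Laurent ring. -/
noncomputable def bar : Lau →+* Lau :=
  (AddMonoidAlgebra.mapDomainRingHom ℂ (-(AddMonoidHom.id (ℤ × ℤ)))).comp
    (AddMonoidAlgebra.mapRingHom (ℤ × ℤ) (starRingEnd ℂ))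

theorem bar_single (g : ℤ × ℤ) (c : ℂ) :
    bar (AddMonoidAlgebra.single g c) = AddMonoidAlgebra.single (-g) (star c) := by
  unfold bar
  simp only [RingHom.coe_comp, Function.comp_apply, AddMonoidAlgebra.mapRingHom_single, AddMonoidAlgebra.mapDomainRingHom_apply, AddMonoidAlgebra.mapDomain_single, AddMonoidHom.neg_apply, AddMonoidHom.id_apply, RCLike.star_def]

theorem bar_bar (x : Lau) : bar (bar x) = x := by
  induction x using AddMonoidAlgebra.induction_linear with
  | zero => simp only [map_zero]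
  | add f g hf hg => rw [map_add, map_add, hf, hg]
  | single g c => rw [bar_single, bar_single, neg_neg, star_star]

noncomputable instance lauStar : StarRing Lau where
  star := bar
  star_involutive := bar_bar
  star_mul x y := by rw [map_mul, mul_comm]
  star_add := map_add bar

theorem star_single (g : ℤ × ℤ) (c : ℂ) :
    star (AddMonoidAlgebra.single g c : Lau) = AddMonoidAlgebra.single (-g) (star c) :=
  bar_single g c

theorem lauHom_star (x : Lau) : lauHom (star x) = star (lauHom x) := by
  induction x using AddMonoidAlgebra.induction_linear with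
  | zero =>
    rw [star_zero, map_zero]
    exact (star_zero (LMat (ℤ × ℤ) ℂ)).symm
  | add f g hf hg =>
    rw [star_add, map_add, map_add, hf, hg]
    exact (star_add (lauHom f) (lauHom g)).symm
  | single g c => rw [star_single, lauHom_single, lauHom_single, star_smul, shift_star]

/-- the monomial. -/
noncomputable def mono (g : ℤ × ℤ) : Lau := AddMonoidAlgebra.single g 1

theorem lauHom_mono (g : ℤ × ℤ) : lauHom (mono g) = shift ℂ g := by
  unfold mono
  rw [lauHom_single, one_smul]

theorem mono_mul (g h : ℤ × ℤ) : mono g * mono h = mono (g + h) := by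
  unfold mono
  rw [AddMonoidAlgebra.single_mul_single, one_mul]

theorem mono_zero : mono 0 = 1 := rfl

theorem star_mono (g : ℤ × ℤ) : star (mono g) = mono (-g) := by
  unfold mono
  rw [star_single, star_one]

/-- the imaginary unit in the Laurent ring. -/
noncomputable def aI : Lau := AddMonoidAlgebra.single 0 Complex.I

theorem aI_sq : aI * aI = -1 := by
  unfold aI
  rw [AddMonoidAlgebra.single_mul_single, Complex.I_mul_I, add_zero]
  show _ = -(AddMonoidAlgebra.single 0 1)
  rw [← AddMonoidAlgebra.single_neg]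

theorem star_aI : star aI = -aI := by
  unfold aI
  rw [star_single, neg_zero, ← AddMonoidAlgebra.single_neg]
  congr 1
  exact Complex.conj_I

/-- block matrices over the Laurent ring as matrices on the cells. -/
noncomputable def conv : Matrix (Fin 4) (Fin 4) Lau →+* LMat Cell2 ℂ :=
  (LMat.blocksEquiv (ι := ℤ × ℤ) (K := ℂ) (σ := Fin 4)).toRingHom.comp
    (RingHom.mapMatrix lauHom.toRingHom)

theorem conv_apply (M : Matrix (Fin 4) (Fin 4) Lau) (x y : Cell2) :
    conv M x y = lauHom (M x.2 y.2) x.1 y.1 := rfl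

theorem conv_star (M : Matrix (Fin 4) (Fin 4) Lau) : conv (star M) = star (conv M) := by
  ext x y
  rw [LMat.star_apply, conv_apply, conv_apply, Matrix.star_apply, lauHom_star, LMat.star_apply]

theorem conv_smul (c : ℂ) (M : Matrix (Fin 4) (Fin 4) Lau) : conv (c • M) = c • conv M := by
  ext x y
  rw [LMat.smul_apply, conv_apply, conv_apply, Matrix.smul_apply, map_smul, LMat.smul_apply]

private theorem hz : mono (1, 0) * mono (-1, 0) = 1 := by
  rw [mono_mul]; exact mono_zero
private theorem hw : mono (0, 1) * mono (0, -1) = 1 := by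
  rw [mono_mul]; exact mono_zero
private theorem sz : star (mono (1, 0)) = mono (-1, 0) := by
  rw [star_mono]; rfl
private theorem sw : star (mono (0, 1)) = mono (0, -1) := by
  rw [star_mono]; rfl

/-- the duality matrix over the Laurent ring. -/
noncomputable abbrev JM : Matrix (Fin 4) (Fin 4) Lau :=
  JL aI (mono (1, 0)) (mono (-1, 0)) (mono (0, 1)) (mono (0, -1))

/-- four times its inverse. -/
noncomputable abbrev JiM : Matrix (Fin 4) (Fin 4) Lau :=
  JiL aI (mono (1, 0)) (mono (-1, 0)) (mono (0, 1)) (mono (0, -1))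

/-- the cubical complex of `ℤ²` with its strict hermitian duality. -/
noncomputable def dual2 : Alg.Dual (LMat Cell2 ℂ) where
  d := conv (dL (mono (1, 0)) (mono (0, 1)))
  e := conv eL
  J := conv JM
  Ji := (4⁻¹ : ℂ) • conv JiM
  dd := by rw [← map_mul, dL_sq, map_zero]
  ee := by rw [← map_mul, eL_sq, map_one]
  se := by rw [← conv_star, star_eL]
  de := by rw [← map_mul, ← map_mul, eL_dL, map_neg, neg_neg]
  sJ := by rw [← conv_star, star_JL star_aI sz sw]
  JJi := by
    rw [LMat.mul_smul', ← map_mul, JL_JiL aI_sq hz hw, map_nsmul, map_one,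
      ← Nat.cast_smul_eq_nsmul ℂ, smul_smul]
    norm_num
  JiJ := by
    rw [LMat.smul_mul', ← map_mul, JiL_JL aI_sq hz hw, map_nsmul, map_one,
      ← Nat.cast_smul_eq_nsmul ℂ, smul_smul]
    norm_num
  Je := by rw [← map_mul, ← map_mul, eL_JL]
  Jd := by
    rw [← conv_star, ← map_mul, ← map_mul, JL_dL hz hw, star_dL sz sw]

end Vale.Agent.P228.Std
end
end
namespace AFast7e0c08x3568a
@[reducible] noncomputable def a0 : Semiring (Vale.Agent.P228.LMat Vale.Agent.P228.Std.Cell2 ℂ) := inferInstance
@[reducible] noncomputable def a1 : NonAssocSemiring (Vale.Agent.P228.LMat Vale.Agent.P228.Std.Cell2 ℂ) := inferInstance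
end AFast7e0c08x3568a
attribute [local instance] AFast7e0c08x3568a.a0 AFast7e0c08x3568a.a1
namespace AFast7e0c08x3568b
theorem a0 : AddHomClass (Vale.Agent.P228.Std.Lau →+* Vale.Agent.P228.Std.Lau) Vale.Agent.P228.Std.Lau Vale.Agent.P228.Std.Lau := inferInstance
theorem a1 : AddMonoidHomClass (Vale.Agent.P228.Std.Lau →+* Vale.Agent.P228.Std.Lau) Vale.Agent.P228.Std.Lau Vale.Agent.P228.Std.Lau := inferInstance
end AFast7e0c08x3568b
attribute [local instance] AFast7e0c08x3568b.a0 AFast7e0c08x3568b.a1

section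

section

/-! Tensor products of strictly self-dual complexes; the standard self-dual complex of `ℤ^(2m)`. -/

namespace Vale.Agent.P228.Std

open LMat

section Tensor

variable {ι κ : Type*} {K : Type*} [CommRing K] [StarRing K]

/-- tensor product of strictly self-dual complexes. -/
noncomputable def tensor (a : Alg.Dual (LMat ι K)) (b : Alg.Dual (LMat κ K)) :
    Alg.Dual (LMat (ι × κ) K) where
  d := kron a.d 1 + kron a.e b.d
  e := kron a.e b.e
  J := kron a.J b.J
  Ji := kron a.Ji b.Ji
  dd := by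
    rw [mul_add, add_mul, add_mul]
    simp only [kron_mul, a.dd, b.dd, a.de, mul_one, one_mul, kron_zero_left, kron_zero_right,
      kron_neg_left]
    abel
  ee := by rw [kron_mul, a.ee, b.ee, kron_one_one]
  se := by rw [kron_star, a.se, b.se]
  de := by
    rw [mul_add, add_mul, kron_mul, kron_mul, kron_mul, kron_mul, a.de, b.de, a.ee, one_mul,
      mul_one, kron_neg_left, kron_neg_right]
    abel
  sJ := by rw [kron_star, a.sJ, b.sJ]
  JJi := by rw [kron_mul, a.JJi, b.JJi, kron_one_one]
  JiJ := by rw [kron_mul, a.JiJ, b.JiJ, kron_one_one]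
  Je := by rw [kron_mul, kron_mul, a.Je, b.Je]
  Jd := by
    rw [star_add, kron_star, kron_star, mul_add, add_mul, kron_mul, kron_mul, kron_mul, kron_mul,
      a.Jd, b.Jd, a.Je, a.se, mul_one, star_one, one_mul]

/-- the complex of a point. -/
noncomputable def ptDual : Alg.Dual (LMat Unit K) where
  d := 0
  e := 1
  J := 1
  Ji := 1
  dd := by simp
  ee := by simp
  se := star_one _
  de := by simp
  sJ := star_one _
  JJi := by simp
  JiJ := by simp
  Je := by simp
  Jd := by simp

theorem tensor_e (a : Alg.Dual (LMat ι K)) (b : Alg.Dual (LMat κ K)) :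
    (tensor a b).e = kron a.e b.e := rfl

theorem tensor_J (a : Alg.Dual (LMat ι K)) (b : Alg.Dual (LMat κ K)) :
    (tensor a b).J = kron a.J b.J := rfl

theorem tensor_Ji (a : Alg.Dual (LMat ι K)) (b : Alg.Dual (LMat κ K)) :
    (tensor a b).Ji = kron a.Ji b.Ji := rfl

/-- the form `J e` of a tensor product is the tensor product of the forms. -/
theorem tensor_Je (a : Alg.Dual (LMat ι K)) (b : Alg.Dual (LMat κ K)) :
    (tensor a b).J * (tensor a b).e = kron (a.J * a.e) (b.J * b.e) := by
  rw [tensor_J, tensor_e, kron_mul]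

end Tensor

/-- cells of `ℤ^(2m)`. -/
def CellR : ℕ → Type
  | 0 => Unit
  | m + 1 => Cell2 × CellR m

instance CellR.decEq : (m : ℕ) → DecidableEq (CellR m)
  | 0 => inferInstanceAs (DecidableEq Unit)
  | m + 1 => by
    haveI := CellR.decEq m
    exact inferInstanceAs (DecidableEq (Cell2 × CellR m))

/-- the strictly self-dual cubical complex of `ℤ^(2m)`. -/
noncomputable def dualR : (m : ℕ) → Alg.Dual (LMat (CellR m) ℂ)
  | 0 => (ptDual : Alg.Dual (LMat Unit ℂ))
  | m + 1 => (tensor dual2 (dualR m) : Alg.Dual (LMat (Cell2 × CellR m) ℂ))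

/-- cells which are neighbours in each of the `2m` coordinates. -/
def NearR : (m : ℕ) → CellR m → CellR m → Prop
  | 0, _, _ => True
  | m + 1, x, y => |x.1.1.1 - y.1.1.1| ≤ 1 ∧ |x.1.1.2 - y.1.1.2| ≤ 1 ∧ NearR m x.2 y.2

end Vale.Agent.P228.Std
end
end

section

section

/-!
P228, block [S]: direct sums, splittings, base change and scaling of `sInv`.
-/

open Matrix

set_option linter.unusedSectionVars false
set_option linter.unusedSimpArgs false

noncomputable section

namespace Vale.Agent.P228.Inv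

open LMat Sgn

variable {B : Type*}

/-! ### direct sums -/

section dsum

variable {K : Type*} [CommRing K] [StarRing K] [Algebra ℂ K]

end dsum

/-! ### pulling back along an injection -/

/-- the matrix with the entries `h (f a) (f b)` -/
def pull {ι κ K : Type*} [Zero K] (f : κ → ι) (hf : Function.Injective f) (h : LMat ι K) :
    LMat κ K where
  toFun a b := h (f a) (f b)
  row_finite a := (h.row_finite (f a)).preimage hf.injOn
  col_finite b := (h.col_finite (f b)).preimage hf.injOn

@[simp] theorem pull_apply {ι κ K : Type*} [Zero K] (f : κ → ι) (hf : Function.Injective f)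
    (h : LMat ι K) (a b : κ) : pull f hf h a b = h (f a) (f b) := rfl

/-! ### base change -/

/-! ### scaling and odd congruences -/

end Vale.Agent.P228.Inv
end
end
end

section

section

/-!
# P228, block K: the group ring of `ZMod q` on the Fourier side

`GK q = (ZMod q → ℂ)` with pointwise operations; the group element `g` is the function
`mon g = (j ↦ exp (2 π i g j / q))`; the character `j` is evaluation at `j`.
-/

open ZMod
open scoped Pointwise

namespace Vale.Agent.P228.Kos

/-- the coefficient ring -/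
abbrev GK (q : ℕ) : Type := ZMod q → ℂ

variable {q : ℕ} [NeZero q]

/-- the group element `g` -/
noncomputable def mon (g : ZMod q) : GK q := fun j => stdAddChar (g * j)

theorem mon_apply (g j : ZMod q) : mon g j = stdAddChar (g * j) := rfl

@[simp] theorem mon_zero : mon (0 : ZMod q) = 1 := by
  funext j; simp [mon]

theorem mon_mul (g h : ZMod q) : mon g * mon h = mon (g + h) := by
  funext j; simp only [Pi.mul_apply, mon, add_mul, AddChar.map_add_eq_mul]

theorem star_mon (g : ZMod q) : star (mon g) = mon (-g) := by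
  funext j
  simp only [mon, Pi.star_apply, neg_mul, AddChar.map_neg_eq_inv, RCLike.star_def]
  rw [Complex.inv_def]
  have h : ‖(stdAddChar (g * j) : ℂ)‖ = 1 := by
    rw [stdAddChar_apply]; exact Circle.norm_coe _
  simp only [Complex.normSq_eq_norm_sq, h, one_pow, inv_one, Complex.ofReal_one, mul_one]

/-- elements with support in `A` -/
noncomputable def gr (A : Set (ZMod q)) : Submodule ℂ (GK q) := Submodule.span ℂ (mon '' A)

theorem gr_mono {A B : Set (ZMod q)} (h : A ⊆ B) : gr A ≤ gr B :=
  Submodule.span_mono (Set.image_mono h)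

theorem mon_mem_gr {A : Set (ZMod q)} {g : ZMod q} (h : g ∈ A) : mon g ∈ gr A :=
  Submodule.subset_span ⟨g, h, rfl⟩

theorem one_mem_gr {A : Set (ZMod q)} (h : (0 : ZMod q) ∈ A) : (1 : GK q) ∈ gr A := by
  rw [← mon_zero]; exact mon_mem_gr h

theorem mul_mem_gr {A B C : Set (ZMod q)} (hC : ∀ a ∈ A, ∀ b ∈ B, a + b ∈ C) {f f' : GK q}
    (hf : f ∈ gr A) (hf' : f' ∈ gr B) : f * f' ∈ gr C := by
  have h : f * f' ∈ gr A * gr B := Submodule.mul_mem_mul hf hf'
  rw [gr, gr, Submodule.span_mul_span] at h
  refine (Submodule.span_mono ?_) h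
  rintro _ ⟨_, ⟨a, ha, rfl⟩, _, ⟨b, hb, rfl⟩, rfl⟩
  exact ⟨a + b, hC a ha b hb, (mon_mul a b).symm⟩

theorem star_mem_gr {A B : Set (ZMod q)} (hB : ∀ a ∈ A, -a ∈ B) {f : GK q}
    (hf : f ∈ gr A) : star f ∈ gr B := by
  refine Submodule.span_induction (p := fun f _ => star f ∈ gr B) ?_ ?_ ?_ ?_ hf
  · rintro _ ⟨a, ha, rfl⟩
    rw [star_mon]
    exact mon_mem_gr (hB a ha)
  · rw [star_zero]; exact zero_mem _
  · intro x y _ _ hx hy
    rw [star_add]; exact add_mem hx hy
  · intro c x _ hx
    rw [star_smul]; exact Submodule.smul_mem _ _ hx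

/-- the twist by the character `c` : `σ f = f (· + c)` -/
def twist (c : ZMod q) : GK q →⋆ₐ[ℂ] GK q where
  toFun f := fun j => f (j + c)
  map_one' := rfl
  map_mul' _ _ := rfl
  map_zero' := rfl
  map_add' _ _ := rfl
  commutes' _ := rfl
  map_star' _ := rfl

omit [NeZero q] in
@[simp] theorem twist_apply (c : ZMod q) (f : GK q) (j : ZMod q) : twist c f j = f (j + c) := rfl

theorem twist_mon (c g : ZMod q) : twist c (mon g) = (stdAddChar (g * c) : ℂ) • mon g := by
  funext j
  simp only [twist_apply, mon_apply, mul_add, AddChar.map_add_eq_mul, Pi.smul_apply, smul_eq_mul]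
  ring

theorem twist_of_mem_gr {c : ZMod q} {z : ℂ} {A : Set (ZMod q)}
    (hA : ∀ g ∈ A, (stdAddChar (g * c) : ℂ) = z) {f : GK q} (hf : f ∈ gr A) :
    twist c f = z • f := by
  refine Submodule.span_induction (p := fun f _ => twist c f = z • f) ?_ ?_ ?_ ?_ hf
  · rintro _ ⟨a, ha, rfl⟩
    rw [twist_mon, hA a ha]
  · simp only [map_zero, smul_zero]
  · intro x y _ _ hx hy
    rw [map_add, hx, hy, smul_add]
  · intro d x _ hx
    rw [_root_.map_smul, hx, smul_comm]

/-- the twist preserves the grading -/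
theorem twist_mem_gr (c : ZMod q) {A : Set (ZMod q)} {f : GK q} (hf : f ∈ gr A) :
    twist c f ∈ gr A := by
  refine Submodule.span_induction (p := fun f _ => twist c f ∈ gr A) ?_ ?_ ?_ ?_ hf
  · rintro _ ⟨a, ha, rfl⟩
    rw [twist_mon]
    exact Submodule.smul_mem _ _ (mon_mem_gr ha)
  · simp
  · intro x y _ _ hx hy
    rw [map_add]; exact add_mem hx hy
  · intro d x _ hx
    rw [_root_.map_smul]; exact Submodule.smul_mem _ _ hx

/-- the character of order `p` of `ZMod q`, `p ∣ q` -/
def cp (q p : ℕ) : ZMod q := ((q / p : ℕ) : ZMod q)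

omit [NeZero q] in
theorem p_mul_cp {p : ℕ} (hpq : p ∣ q) : (p : ZMod q) * cp q p = 0 := by
  unfold cp
  rw [← Nat.cast_mul, Nat.mul_div_cancel' hpq, ZMod.natCast_self]

/-- `g * cp` depends only on `g` modulo `p` -/
theorem mul_cp_congr {p : ℕ} (hpq : p ∣ q) {g g' : ZMod q}
    (h : ZMod.castHom hpq (ZMod p) g = ZMod.castHom hpq (ZMod p) g') :
    g * cp q p = g' * cp q p := by
  have h1 : ((g - g').val : ZMod p) = 0 := by
    have : ZMod.castHom hpq (ZMod p) (g - g') = 0 := by rw [map_sub, h, sub_self]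
    rwa [ZMod.castHom_apply, ZMod.cast_eq_val] at this
  rw [ZMod.natCast_eq_zero_iff] at h1
  obtain ⟨k, hk⟩ := h1
  have h2 : g - g' = (p : ZMod q) * k := by
    rw [← ZMod.natCast_zmod_val (g - g'), hk]; push_cast; ring
  have h3 : (g - g') * cp q p = 0 := by
    rw [h2, mul_assoc, mul_comm (k : ZMod q), ← mul_assoc, p_mul_cp hpq, zero_mul]
  rw [sub_mul] at h3
  exact sub_eq_zero.mp h3

/-- the character value of `x : ZMod p` -/
noncomputable def chiv (q p : ℕ) [NeZero q] (x : ZMod p) : ℂ :=
  stdAddChar ((x.val : ZMod q) * cp q p)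

theorem chiv_cast {p : ℕ} [NeZero p] (hpq : p ∣ q) (g : ZMod q) :
    (stdAddChar (g * cp q p) : ℂ) = chiv q p (ZMod.castHom hpq (ZMod p) g) := by
  unfold chiv
  congr 1
  apply mul_cp_congr hpq
  simp

theorem chiv_zero {p : ℕ} [NeZero p] : chiv q p 0 = 1 := by
  simp only [chiv, val_zero, Nat.cast_zero, zero_mul, AddChar.map_zero_eq_one]

theorem chiv_add {p : ℕ} [NeZero p] (hpq : p ∣ q) (x y : ZMod p) :
    chiv q p (x + y) = chiv q p x * chiv q p y := by
  unfold chiv
  rw [← AddChar.map_add_eq_mul, ← add_mul]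
  congr 1
  apply mul_cp_congr hpq
  simp [map_add]

theorem star_chiv {p : ℕ} [NeZero p] (hpq : p ∣ q) (x : ZMod p) :
    star (chiv q p x) = chiv q p (-x) := by
  have h1 : chiv q p x * chiv q p (-x) = 1 := by rw [← chiv_add hpq, add_neg_cancel, chiv_zero]
  have h : ‖chiv q p x‖ = 1 := by
    unfold chiv; rw [stdAddChar_apply]; exact Circle.norm_coe _
  have h2 : star (chiv q p x) = (chiv q p x)⁻¹ := by
    rw [RCLike.star_def, Complex.inv_def]
    simp only [Complex.normSq_eq_norm_sq, h, one_pow, inv_one, Complex.ofReal_one, mul_one]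
  rw [h2]
  exact (eq_inv_of_mul_eq_one_right h1).symm

theorem star_chiv_mul {p : ℕ} [NeZero p] (hpq : p ∣ q) (x : ZMod p) :
    star (chiv q p x) * chiv q p x = 1 := by
  rw [star_chiv hpq, ← chiv_add hpq, neg_add_cancel, chiv_zero]

/-- **the only fact used by the Koszul step**: elements supported in the class of `x` modulo `p`
are multiplied by `χ x` -/
theorem twist_class {p : ℕ} [NeZero p] (hpq : p ∣ q) (x : ZMod p) {A : Set (ZMod q)}
    (hA : ∀ g ∈ A, ZMod.castHom hpq (ZMod p) g = x) {f : GK q} (hf : f ∈ gr A) :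
    twist (cp q p) f = chiv q p x • f :=
  twist_of_mem_gr (fun g hg => by rw [chiv_cast hpq, hA g hg]) hf

end Vale.Agent.P228.Kos
end
end
namespace AFast7e0c08x3902b
theorem a0 {x1 : ℕ} : MulActionSemiHomClass (Vale.Agent.P228.Kos.GK x1 →⋆ₐ[ℂ] Vale.Agent.P228.Kos.GK x1) (⇑(RingHom.id ℂ)) (Vale.Agent.P228.Kos.GK x1) (Vale.Agent.P228.Kos.GK x1) := inferInstance
theorem a1 {x1 : ℕ} : AddHomClass (Vale.Agent.P228.Kos.GK x1 →⋆ₐ[ℂ] Vale.Agent.P228.Kos.GK x1) (Vale.Agent.P228.Kos.GK x1) (Vale.Agent.P228.Kos.GK x1) := inferInstance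
theorem a2 {x1 : ℕ} : LinearMapClass (Vale.Agent.P228.Kos.GK x1 →⋆ₐ[ℂ] Vale.Agent.P228.Kos.GK x1) ℂ (Vale.Agent.P228.Kos.GK x1) (Vale.Agent.P228.Kos.GK x1) := inferInstance
end AFast7e0c08x3902b
attribute [local instance] AFast7e0c08x3902b.a0 AFast7e0c08x3902b.a1 AFast7e0c08x3902b.a2

section

section

/-!
# P228, block A (helper144): naturality and twisting of the group averaging

* `Dual.map`, `Fam.map`, `Fam.A_map`, `Fam.h_map` : naturality under star homomorphisms;
* `Fam.twist u` : multiply `T g` by a character `u : ZMod q → S` with values in a commutative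
  star ring of scalars;
* `Fil` : support filtrations of a star algebra, `Fam.A_mem`, `Fam.h_mem`.
-/

namespace Vale.Agent.P228.Alg

open Finset

namespace Dual

variable {R R' : Type*} [Ring R] [StarRing R] [Ring R'] [StarRing R']

/-- image under a star homomorphism -/
def map (c : Dual R) (f : R →+* R') (hf : ∀ x, f (star x) = star (f x)) : Dual R' where
  d := f c.d
  e := f c.e
  J := f c.J
  Ji := f c.Ji
  dd := by rw [← map_mul, c.dd, map_zero]
  ee := by rw [← map_mul, c.ee, map_one]
  se := by rw [← hf, c.se]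
  de := by rw [← map_mul, c.de, map_neg, map_mul]
  sJ := by rw [← hf, c.sJ]
  JJi := by rw [← map_mul, c.JJi, map_one]
  JiJ := by rw [← map_mul, c.JiJ, map_one]
  Je := by rw [← map_mul, c.Je, map_mul]
  Jd := by rw [← map_mul, c.Jd, map_mul, hf]

variable (c : Dual R) (f : R →+* R') (hf : ∀ x, f (star x) = star (f x))

@[simp] theorem map_d : (c.map f hf).d = f c.d := rfl
@[simp] theorem map_e : (c.map f hf).e = f c.e := rfl
@[simp] theorem map_J : (c.map f hf).J = f c.J := rfl
@[simp] theorem map_Ji : (c.map f hf).Ji = f c.Ji := rfl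

theorem br_map (x : R) : (c.map f hf).br (f x) = f (c.br x) := by
  simp only [br, map_d, map_add, map_mul]

theorem sh_map (x : R) : (c.map f hf).sh (f x) = f (c.sh x) := by
  simp only [sh, map_J, map_Ji, map_mul, hf]

theorem isEven_map {x : R} (hx : c.IsEven x) : (c.map f hf).IsEven (f x) := by
  unfold IsEven at *; rw [map_e, ← map_mul, hx, map_mul]

theorem isOdd_map {x : R} (hx : c.IsOdd x) : (c.map f hf).IsOdd (f x) := by
  unfold IsOdd at *; rw [map_e, ← map_mul, hx, map_neg, map_mul]

section Scal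

variable {S : Type*} [CommRing S] [Algebra S R]

theorem br_smulS (s : S) (x : R) : c.br (s • x) = s • c.br x := by
  simp only [br, mul_smul_comm, smul_mul_assoc, smul_add]

theorem isEven_smulS {x : R} (s : S) (hx : c.IsEven x) : c.IsEven (s • x) := by
  unfold IsEven at *; rw [smul_mul_assoc, hx, mul_smul_comm]

theorem isOdd_smulS {x : R} (s : S) (hx : c.IsOdd x) : c.IsOdd (s • x) := by
  unfold IsOdd at *; rw [smul_mul_assoc, hx, mul_smul_comm, smul_neg]

theorem sh_smulS [StarRing S] [StarModule S R] (s : S) (x : R) :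
    c.sh (s • x) = star s • c.sh x := by
  simp only [sh, star_smul, mul_smul_comm, smul_mul_assoc]

end Scal

end Dual

namespace Fam

section Map

variable {R R' : Type*} [Ring R] [StarRing R] [Ring R'] [StarRing R']
  {c : Dual R} {q : ℕ} (F : Fam c q) (f : R →+* R') (hf : ∀ x, f (star x) = star (f x))

/-- image of a family -/
def map : Fam (c.map f hf) q where
  T g := f (F.T g)
  H g k := f (F.H g k)
  Bh g := f (F.Bh g)
  T_even g := c.isEven_map f hf (F.T_even g)
  T_d g := by rw [Dual.map_d, ← map_mul, F.T_d, map_mul]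
  H_odd g k := c.isOdd_map f hf (F.H_odd g k)
  Bh_odd g := c.isOdd_map f hf (F.Bh_odd g)
  T_mul g k := by rw [← map_mul, F.T_mul, map_add, c.br_map f hf]
  T_sh g := by rw [c.sh_map f hf, F.T_sh, map_add, c.br_map f hf]

@[simp] theorem map_T (g : ZMod q) : (F.map f hf).T g = f (F.T g) := rfl
@[simp] theorem map_H (g k : ZMod q) : (F.map f hf).H g k = f (F.H g k) := rfl
@[simp] theorem map_Bh (g : ZMod q) : (F.map f hf).Bh g = f (F.Bh g) := rfl

variable [Algebra ℝ R] [Algebra ℝ R'] [NeZero q] (hr : ∀ (r : ℝ) (x : R), f (r • x) = r • f x)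

include hr

end Map

section Twist

variable {R : Type*} [Ring R] [StarRing R] {c : Dual R} {q : ℕ} (F : Fam c q)
  {S : Type*} [CommRing S] [StarRing S] [Algebra S R] [StarModule S R]

/-- multiply `T g` by the scalar `u g`, `u` a unitary character -/
def twist (u : ZMod q → S) (hu : ∀ g k, u (g + k) = u g * u k) (hus : ∀ g, star (u g) = u (-g)) :
    Fam c q where
  T g := u g • F.T g
  H g k := u (g + k) • F.H g k
  Bh g := u (-g) • F.Bh g
  T_even g := c.isEven_smulS _ (F.T_even g)
  T_d g := by rw [smul_mul_assoc, F.T_d, mul_smul_comm]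
  H_odd g k := c.isOdd_smulS _ (F.H_odd g k)
  Bh_odd g := c.isOdd_smulS _ (F.Bh_odd g)
  T_mul g k := by
    rw [smul_mul_smul_comm, F.T_mul, c.br_smulS, ← smul_add, hu]
  T_sh g := by rw [c.sh_smulS, F.T_sh, c.br_smulS, ← smul_add, hus]

end Twist

end Fam

/-- a support filtration of a star algebra over `ℝ` -/
structure Fil (R : Type*) [Ring R] [StarRing R] [Algebra ℝ R] where
  L : ℕ → Submodule ℝ R
  mono : Monotone L
  one_mem : 1 ∈ L 0
  mul_mem : ∀ {r s : ℕ} {x y : R}, x ∈ L r → y ∈ L s → x * y ∈ L (r + s)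
  star_mem : ∀ {r : ℕ} {x : R}, x ∈ L r → star x ∈ L r

namespace Fil

variable {R : Type*} [Ring R] [StarRing R] [Algebra ℝ R] (L : Fil R)

theorem le {r s : ℕ} (h : r ≤ s) {x : R} (hx : x ∈ L.L r) : x ∈ L.L s := L.mono h hx

theorem one_mem' (r : ℕ) : (1 : R) ∈ L.L r := L.mono (Nat.zero_le r) L.one_mem

theorem mul_mem_of {r s t : ℕ} {x y : R} (hx : x ∈ L.L r) (hy : y ∈ L.L s) (h : r + s ≤ t) :
    x * y ∈ L.L t := L.mono h (L.mul_mem hx hy)

theorem br_mem {c : Dual R} {a r t : ℕ} {x : R} (hd : c.d ∈ L.L a) (hx : x ∈ L.L r)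
    (h : a + r ≤ t) : c.br x ∈ L.L t :=
  (L.L t).add_mem (L.mul_mem_of hd hx h) (L.mul_mem_of hx hd (by omega))

theorem sh_mem {c : Dual R} {a r t : ℕ} {x : R} (hJ : c.J ∈ L.L a) (hJi : c.Ji ∈ L.L a)
    (hx : x ∈ L.L r) (h : 2 * a + r ≤ t) : c.sh x ∈ L.L t :=
  L.mul_mem_of (L.mul_mem_of hJi (L.star_mem hx) (le_refl _)) hJ (by omega)

end Fil

namespace Fam

variable {R : Type*} [Ring R] [StarRing R] [Algebra ℝ R] {c : Dual R} {q : ℕ} [NeZero q]
  (F : Fam c q) (L : Fil R) {a : ℕ}

variable {F L}

theorem eh_mem (hT : ∀ g, F.T g ∈ L.L a) : F.eh ∈ L.L a :=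
  (L.L a).smul_mem _ ((L.L a).sum_mem fun g _ => hT g)

theorem Bb_mem (hB : ∀ g, F.Bh g ∈ L.L a) : F.Bb ∈ L.L a :=
  (L.L a).smul_mem _ ((L.L a).sum_mem fun g _ => hB g)

theorem Hb_mem (hH : ∀ g k, F.H g k ∈ L.L a) : F.Hb ∈ L.L a :=
  (L.L a).smul_mem _ ((L.L a).sum_mem fun g _ => (L.L a).sum_mem fun k _ => hH g k)

theorem E_mem (hd : c.d ∈ L.L a) (hT : ∀ g, F.T g ∈ L.L a) (hB : ∀ g, F.Bh g ∈ L.L a) :
    F.E ∈ L.L (2 * a) :=
  (L.L _).add_mem (L.le (by (clear * -; omega)) (eh_mem hT))
    ((L.L _).smul_mem _ (L.br_mem hd (Bb_mem hB) (by omega)))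

theorem eta_mem (hd : c.d ∈ L.L a) (hT : ∀ g, F.T g ∈ L.L a) (hB : ∀ g, F.Bh g ∈ L.L a)
    (hH : ∀ g k, F.H g k ∈ L.L a) : F.eta ∈ L.L (3 * a) := by
  refine (L.L _).sub_mem ((L.L _).add_mem ((L.L _).add_mem ?_ ?_) ?_) ?_
  · exact L.le (by omega) (Hb_mem hH)
  · refine (L.L _).smul_mem _ ((L.L _).add_mem ?_ ?_)
    · exact L.mul_mem_of (eh_mem hT) (Bb_mem hB) (by (clear * -; omega))
    · exact L.mul_mem_of (Bb_mem hB) (eh_mem hT) (by omega)
  · refine (L.L _).smul_mem _ ?_
    exact L.mul_mem_of (Bb_mem hB) (L.br_mem hd (Bb_mem hB) (le_refl _)) (by omega)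
  · exact (L.L _).smul_mem _ (L.le (by (clear * -; omega)) (Bb_mem hB))

/-- `A` has support in `2a` steps -/
theorem A_mem (hd : c.d ∈ L.L a) (hT : ∀ g, F.T g ∈ L.L a) (hB : ∀ g, F.Bh g ∈ L.L a) :
    F.A ∈ L.L (2 * a) :=
  (L.L _).sub_mem (L.one_mem' _) ((L.L _).smul_mem _ (E_mem hd hT hB))

/-- `h` has support in `5a` steps -/
theorem h_mem (hd : c.d ∈ L.L a) (hJ : c.J ∈ L.L a) (hJi : c.Ji ∈ L.L a)
    (hT : ∀ g, F.T g ∈ L.L a) (hB : ∀ g, F.Bh g ∈ L.L a)
    (hH : ∀ g k, F.H g k ∈ L.L a) : F.h ∈ L.L (5 * a) :=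
  (L.L _).smul_mem _ ((L.L _).add_mem (L.le (by omega) (eta_mem hd hT hB hH))
    (L.sh_mem hJ hJi (eta_mem hd hT hB hH) (by omega)))

/-- `κ` has support in `3a` steps -/
theorem kap_mem {K : ZMod q → R} (hJ : c.J ∈ L.L a) (hJi : c.Ji ∈ L.L a)
    (hK : ∀ g, K g ∈ L.L a) : kap c K ∈ L.L (3 * a) := by
  have h1 : ((q : ℝ)⁻¹ • ∑ g, K g) ∈ L.L a :=
    (L.L a).smul_mem _ ((L.L a).sum_mem fun g _ => hK g)
  exact (L.L _).neg_mem ((L.L _).add_mem (L.le (by (clear * -; omega)) h1) (L.sh_mem hJ hJi h1 (by omega)))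

end Fam

end Vale.Agent.P228.Alg
end
end

section

section

/-!
# Coarse paths of duality data (P228, block A)

`Cx d e J Ji`: a total complex `d`, its grading sign `e` and a strict hermitian duality `J`.
`Good d e J A h`: `A` is an even self-adjoint chain map with `A² = 1 + dh + hd`, `h` odd and
self-adjoint.  For a central self-adjoint parameter `t`:
* `Good.segment`: two homotopies for the same `A` are joined by a segment;
* `Good.contract`: `A = a + dc + cd` is joined to `a`;
* `Cx.scale`, `Good.scale`: `d` is joined to `0`.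
-/

namespace Vale.Agent.P228.Alg

section

variable {R : Type*} [Ring R] [StarRing R]

/-- total complex with grading sign `e` and strict hermitian duality `J` (inverse `Ji`) -/
structure Cx (d e J Ji : R) : Prop where
  dd : d * d = 0
  ee : e * e = 1
  se : star e = e
  ed : e * d = -(d * e)
  JJi : J * Ji = 1
  JiJ : Ji * J = 1
  sJ : star J = J
  Jd : J * d = star d * J
  Je : J * e = e * J

/-- `A` even self-adjoint chain map, `A² = 1 + dh + hd`, `h` odd self-adjoint -/
structure Good (d e J A h : R) : Prop where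
  Ae : A * e = e * A
  Ad : A * d = d * A
  JA : J * A = star A * J
  he : h * e = -(e * h)
  Jh : J * h = star h * J
  AA : A * A = 1 + d * h + h * d

/-- a central self-adjoint element -/
structure Cen (t : R) : Prop where
  comm : ∀ x : R, t * x = x * t
  st : star t = t

theorem Cen.add {s t : R} (hs : Cen s) (ht : Cen t) : Cen (s + t) :=
  ⟨fun x => by rw [add_mul, mul_add, hs.comm, ht.comm], by rw [star_add, hs.st, ht.st]⟩

theorem Cen.mul {s t : R} (hs : Cen s) (ht : Cen t) : Cen (s * t) :=
  ⟨fun x => by rw [mul_assoc, ht.comm x, ← mul_assoc, hs.comm x, mul_assoc],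
    by rw [star_mul, hs.st, ht.st, hs.comm]⟩

theorem Good.segment {d e J A h h' t : R} (g : Good d e J A h) (g' : Good d e J A h')
    (ht : Cen t) : Good d e J A (h + t * (h' - h)) where
  Ae := g.Ae
  Ad := g.Ad
  JA := g.JA
  he := by
    have H := g.he; have H' := g'.he; have C := ht.comm e
    linear_combination (norm := noncomm_ring) H + t * H' - t * H - C * h' + C * h
  Jh := by
    have H := g.Jh; have H' := g'.Jh
    have C := ht.comm J
    rw [star_add, star_mul, star_sub, ht.st]
    have C1 := ht.comm (star h')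
    have C2 := ht.comm (star h)
    linear_combination (norm := noncomm_ring) H + t * H' - t * H - C * h' + C * h + C1 * J - C2 * J
  AA := by
    have H := g.AA; have H' := g'.AA
    have C := ht.comm d
    linear_combination (norm := noncomm_ring) H + t * H' - t * H + C * h' - C * h

/-- the homotopy belonging to `a + t (dc + cd)` -/
def hcon (d c a t half : R) : R :=
  a * t * c + a * t * c + t * t * (c * d * c + half * (d * c * c + c * c * d))

theorem Good.contract {d e J Ji c a t half : R} (X : Cx d e J Ji) (ha : Cen a) (haa : a * a = 1)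
    (ht : Cen t) (hh : Cen half) (h2 : half + half = 1) (ce : c * e = -(e * c))
    (Jc : J * c = star c * J) :
    Good d e J (a + t * (d * c + c * d)) (hcon d c a t half) where
  Ae := by
    have C1 := ha.comm e; have C2 := ht.comm e; have ed := X.ed
    linear_combination (norm := noncomm_ring) C1 + C2 * (d * c + c * d) + t * d * ce + t * c * ed
      - t * ce * d - t * ed * c
  Ad := by
    have C1 := ha.comm d; have C2 := ht.comm d; have dd := X.dd
    linear_combination (norm := noncomm_ring) C1 + C2 * (d * c + c * d) + t * c * dd - t * dd * c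
  JA := by
    have C1 := ha.comm J; have C2 := ht.comm J; have Jd := X.Jd
    have C3 := ht.comm (star (d * c + c * d))
    rw [star_add, star_mul, ht.st, ha.st, ← C3, star_add, star_mul, star_mul]
    linear_combination (norm := noncomm_ring) -C1 - C2 * (d * c + c * d) + t * Jd * c
      + t * star d * Jc + t * Jc * d + t * star c * Jd
  he := by
    have C1 := (ha.mul ht).comm e; have C2 := (ht.mul ht).comm e; have C3 := hh.comm e
    have ed := X.ed
    unfold hcon
    linear_combination (norm := noncomm_ring) 2 * (a * t * ce) - 2 * (C1 * c)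
      + t * t * (c * d * ce) - t * t * (c * ed * c) + t * t * (ce * d * c)
      + t * t * (half * (d * c * ce - d * ce * c + ed * c * c))
      + t * t * (half * (c * c * ed - c * ce * d + ce * c * d))
      - t * t * (C3 * (d * c * c + c * c * d))
      - C2 * (c * d * c + half * (d * c * c + c * c * d))
  Jh := by
    have C1 := (ha.mul ht).comm J; have C2 := (ht.mul ht).comm J; have C3 := hh.comm J
    have C6 := (ha.mul ht).comm (star c)
    have hat := ha.comm t
    have C4 := hh.comm (star c * star c * star d + star d * star c * star c)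
    have C5 := (ht.mul ht).comm (star c * star d * star c
      + (star c * star c * star d + star d * star c * star c) * half)
    have Jd := X.Jd
    unfold hcon
    simp only [star_add, star_mul, ht.st, ha.st, hh.st]
    linear_combination (norm := noncomm_ring) 2 * (a * t * Jc) - 2 * (C1 * c) + 2 * (C6 * J)
      + 2 * (star c * hat * J) - C2 * (c * d * c + half * (d * c * c + c * c * d))
      + t * t * (Jc * d * c + star c * Jd * c + star c * star d * Jc)
      - t * t * (C3 * (d * c * c + c * c * d))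
      + t * t * (half * (Jd * c * c + star d * Jc * c + star d * star c * Jc
        + Jc * c * d + star c * Jc * d + star c * star c * Jd))
      + t * t * (C4 * J) + C5 * J
  AA := by
    have dd := X.dd
    have Cad := (ha.mul ht).comm d
    have C2d := (ht.mul ht).comm d
    have C3d := hh.comm d
    have hat := ha.comm t
    have Ca := ha.comm (d * c + c * d)
    have Ct := ht.comm (d * c + c * d)
    unfold hcon
    linear_combination (norm := noncomm_ring) haa + 2 * (Cad * c)
      + C2d * (c * d * c + half * (d * c * c + c * c * d)) - hat * (d * c + c * d) - t * Ca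
      - t * Ct * (d * c + c * d)
      + t * t * (c * dd * c - h2 * (d * c * c * d) - half * dd * c * c - half * c * c * dd
        + C3d * (d * c * c + c * c * d))

omit [StarRing R] in
@[simp] theorem hcon_zero (d c a half : R) : hcon d c a 0 half = 0 := by
  simp only [hcon, mul_zero, zero_mul, add_zero]

/-- `d` may be scaled by a central self-adjoint element -/
theorem Cx.scale {d e J Ji t : R} (X : Cx d e J Ji) (ht : Cen t) : Cx (t * d) e J Ji where
  dd := by
    have C := ht.comm d; have dd := X.dd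
    linear_combination (norm := noncomm_ring) t * t * dd - t * C * d
  ee := X.ee
  se := X.se
  ed := by
    have C := ht.comm e; have ed := X.ed
    linear_combination (norm := noncomm_ring) t * ed - C * d
  JJi := X.JJi
  JiJ := X.JiJ
  sJ := X.sJ
  Jd := by
    have C := ht.comm J; have C2 := ht.comm (star d); have Jd := X.Jd
    rw [star_mul, ht.st]
    linear_combination (norm := noncomm_ring) t * Jd - C * d + C2 * J
  Je := X.Je

/-- a central sign is a good self-adjoint chain map with `h = 0` -/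
theorem Good.sign {d e J a : R} (ha : Cen a) (haa : a * a = 1) : Good d e J a 0 where
  Ae := ha.comm e
  Ad := ha.comm d
  JA := by rw [ha.st, ← ha.comm J]
  he := by simp
  Jh := by simp only [mul_zero, star_zero, zero_mul]
  AA := by simp [haa]

end

section map

variable {R S : Type*} [Ring R] [StarRing R] [Ring S] [StarRing S]

theorem Cx.map {d e J Ji : R} (X : Cx d e J Ji) (f : R →+* S) (hf : ∀ x, f (star x) = star (f x)) :
    Cx (f d) (f e) (f J) (f Ji) where
  dd := by rw [← map_mul, X.dd, map_zero]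
  ee := by rw [← map_mul, X.ee, map_one]
  se := by rw [← hf, X.se]
  ed := by rw [← map_mul, X.ed, map_neg, map_mul]
  JJi := by rw [← map_mul, X.JJi, map_one]
  JiJ := by rw [← map_mul, X.JiJ, map_one]
  sJ := by rw [← hf, X.sJ]
  Jd := by rw [← map_mul, X.Jd, map_mul, hf]
  Je := by rw [← map_mul, X.Je, map_mul]

theorem Good.map {d e J A h : R} (g : Good d e J A h) (f : R →+* S)
    (hf : ∀ x, f (star x) = star (f x)) : Good (f d) (f e) (f J) (f A) (f h) where
  Ae := by rw [← map_mul, g.Ae, map_mul]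
  Ad := by rw [← map_mul, g.Ad, map_mul]
  JA := by rw [← map_mul, g.JA, map_mul, hf]
  he := by rw [← map_mul, g.he, map_neg, map_mul]
  Jh := by rw [← map_mul, g.Jh, map_mul, hf]
  AA := by rw [← map_mul, g.AA]; simp only [map_add, map_one, map_mul]

omit [StarRing R] [StarRing S] in
theorem map_hcon (f : R →+* S) (d c a t half : R) :
    f (hcon d c a t half) = hcon (f d) (f c) (f a) (f t) (f half) := by
  simp only [hcon, map_add, map_mul]

end map

end Vale.Agent.P228.Alg
end
end

section

section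

/-! # P228, block K: a periodic integer function with a vanishing iterated difference is constant -/

namespace Vale.Agent.P228.Kos

/-- first difference -/
def del (s : ℤ → ℤ) : ℤ → ℤ := fun j => s (j + 1) - s j

theorem del_iter_succ (k : ℕ) (s : ℤ → ℤ) : del^[k + 1] s = del (del^[k] s) :=
  Function.iterate_succ_apply' del k s

theorem del_periodic {s : ℤ → ℤ} {p : ℤ} (h : ∀ j, s (j + p) = s j) :
    ∀ j, del s (j + p) = del s j := by
  intro j
  have h1 : j + p + 1 = (j + 1) + p := by ring
  simp only [del, h1, h]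

theorem del_iter_periodic {s : ℤ → ℤ} {p : ℤ} (h : ∀ j, s (j + p) = s j) (k : ℕ) :
    ∀ j, del^[k] s (j + p) = del^[k] s j := by
  induction k with
  | zero => simpa only [Function.iterate_zero, id_eq] using h
  | succ k ih =>
    rw [del_iter_succ]
    exact del_periodic ih

theorem const_of_del_eq_zero {s : ℤ → ℤ} (h : ∀ j, del s j = 0) : ∀ i j, s i = s j := by
  have h1 : ∀ j, s (j + 1) = s j := fun j => by have := h j; unfold del at this; omega
  have h2 : ∀ j, s j = s 0 := by
    intro j
    induction j using Int.induction_on with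
    | zero => rfl
    | succ n ih => rw [h1, ih]
    | pred n ih =>
      have := h1 (-(n : ℤ) - 1)
      rw [sub_add_cancel] at this
      rw [← this, ih]
  intro i j
  rw [h2 i, h2 j]

theorem sum_del (s : ℤ → ℤ) (n : ℕ) : ∑ i ∈ Finset.range n, del s i = s n - s 0 := by
  induction n with
  | zero => simp
  | succ n ih =>
    rw [Finset.sum_range_succ, ih]
    simp only [del]
    push_cast
    ring

/-- one step down: a periodic function whose difference is constant has vanishing difference -/
theorem del_eq_zero_of_del_del {s : ℤ → ℤ} {p : ℕ} (hp : p ≠ 0)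
    (hper : ∀ j, s (j + p) = s j) (h : ∀ j, del (del s) j = 0) : ∀ j, del s j = 0 := by
  have hc := const_of_del_eq_zero h
  have h1 := sum_del s p
  have h2 : s (p : ℤ) - s 0 = 0 := by
    have := hper 0
    rw [zero_add] at this
    rw [this, sub_self]
  have h3 : ∑ i ∈ Finset.range p, del s i = p * del s 0 := by
    rw [Finset.sum_congr rfl (fun (i : ℕ) _ => hc (i : ℤ) 0)]
    simp only [Finset.sum_const, Finset.card_range, Int.nsmul_eq_mul]
  rw [h2, h3] at h1
  have h4 : del s 0 = 0 := by
    rcases mul_eq_zero.mp h1 with h | h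
    · exact absurd (by exact_mod_cast h) hp
    · exact h
  intro j
  rw [hc j 0, h4]

/-- **periodic polynomial => constant** -/
theorem const_of_periodic {s : ℤ → ℤ} {p : ℕ} (hp : p ≠ 0)
    (hper : ∀ j, s (j + p) = s j) (k : ℕ) (h : ∀ j, del^[k] s j = 0) :
    ∀ i j, s i = s j := by
  induction k with
  | zero =>
    intro i j
    have h0 : ∀ j, s j = 0 := by simpa only [Function.iterate_zero, id_eq] using h
    rw [h0, h0]
  | succ k ih =>
    rcases k with _ | k
    · exact const_of_del_eq_zero (by simpa only [zero_add, Function.iterate_one] using h)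
    · apply ih
      rw [del_iter_succ]
      apply del_eq_zero_of_del_del hp (del_iter_periodic hper k)
      intro j
      have := h j
      rwa [del_iter_succ, del_iter_succ] at this

end Vale.Agent.P228.Kos
end
end

section

section

/-! Local actions of `ℤ_[p]` on a subset of a space and averages over `ℤ_[p]`. -/

namespace Vale.Agent.P228

open Set Topology MeasureTheory Metric
open scoped ENNReal

variable {p : ℕ} [Fact p.Prime]

/-- a continuous action of `ℤ_[p]` on the subset `W`, given by a total function `a`. -/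
structure LocAct (p : ℕ) [Fact p.Prime] {E : Type*} [TopologicalSpace E] (W : Set E)
    (a : ℤ_[p] → E → E) : Prop where
  maps : ∀ u, ∀ x ∈ W, a u x ∈ W
  zero : ∀ x ∈ W, a 0 x = x
  add : ∀ u v, ∀ x ∈ W, a (u + v) x = a u (a v x)
  cont : ContinuousOn (Function.uncurry a) (univ ×ˢ W)

/-- Borel sigma-algebra on `ℤ_[p]`. -/
@[reducible] noncomputable def msZ (p : ℕ) [Fact p.Prime] : MeasurableSpace ℤ_[p] := borel _

attribute [local instance] msZ

theorem bsZ (p : ℕ) [Fact p.Prime] : BorelSpace ℤ_[p] := ⟨rfl⟩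

attribute [local instance] bsZ

/-- Haar probability measure on `ℤ_[p]`. -/
noncomputable def muZ (p : ℕ) [Fact p.Prime] : Measure ℤ_[p] := Measure.addHaarMeasure ⊤

instance muZ_haar : (muZ p).IsAddHaarMeasure := by
  unfold muZ; infer_instance

instance muZ_prob : IsProbabilityMeasure (muZ p) := by
  constructor
  have := Measure.addHaarMeasure_self (K₀ := (⊤ : TopologicalSpace.PositiveCompacts ℤ_[p]))
  simpa [muZ] using this

variable {E : Type*} [NormedAddCommGroup E] [NormedSpace ℝ E]

/-- average over `ℤ_[p]`. -/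
noncomputable def avg (f : ℤ_[p] → E) : E := ∫ u, f u ∂(muZ p)

theorem integrable_of_continuous {f : ℤ_[p] → E} (hf : Continuous f) : Integrable f (muZ p) := by
  have h := hf.continuousOn (s := univ) |>.integrableOn_compact (μ := muZ p) isCompact_univ
  simpa only [integrableOn_univ] using h

theorem avg_const [CompleteSpace E] (x : E) : avg (fun _ : ℤ_[p] => x) = x := by
  simp [avg]

theorem avg_add_right (f : ℤ_[p] → E) (v : ℤ_[p]) : avg (fun u => f (u + v)) = avg f :=
  integral_add_right_eq_self f v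

theorem avg_sub {f g : ℤ_[p] → E} (hf : Continuous f) (hg : Continuous g) :
    avg (fun u => f u - g u) = avg f - avg g :=
  integral_sub (integrable_of_continuous hf) (integrable_of_continuous hg)

theorem norm_avg_le_avg_norm (f : ℤ_[p] → E) : ‖avg f‖ ≤ avg (fun u => ‖f u‖) :=
  norm_integral_le_integral_norm f

theorem avg_mono {f g : ℤ_[p] → ℝ} (hf : Continuous f) (hg : Continuous g) (h : ∀ u, f u ≤ g u) :
    avg f ≤ avg g :=
  integral_mono (integrable_of_continuous hf) (integrable_of_continuous hg) h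

theorem avg_nonneg {f : ℤ_[p] → ℝ} (h : ∀ u, 0 ≤ f u) : 0 ≤ avg f :=
  integral_nonneg h

theorem avg_add {f g : ℤ_[p] → E} (hf : Continuous f) (hg : Continuous g) :
    avg (fun u => f u + g u) = avg f + avg g :=
  integral_add (integrable_of_continuous hf) (integrable_of_continuous hg)

theorem norm_avg_le {f : ℤ_[p] → E} {C : ℝ} (h : ∀ u, ‖f u‖ ≤ C) : ‖avg f‖ ≤ C := by
  have := norm_integral_le_of_norm_le_const (μ := muZ p) (Filter.Eventually.of_forall h)
  simpa only [avg, ge_iff_le, probReal_univ, mul_one] using this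

theorem dist_avg_le [CompleteSpace E] {f : ℤ_[p] → E} (hf : Continuous f) {x : E} {C : ℝ}
    (h : ∀ u, ‖f u - x‖ ≤ C) : ‖avg f - x‖ ≤ C := by
  have h1 : avg f - x = avg (fun u => f u - x) := by
    rw [avg_sub hf continuous_const, avg_const]
  rw [h1]
  exact norm_avg_le h

/-- if the average of a nonnegative continuous function vanishes then the function does. -/
theorem eq_zero_of_avg_eq_zero {f : ℤ_[p] → ℝ} (hf : Continuous f) (h0 : ∀ u, 0 ≤ f u)
    (h : avg f = 0) : ∀ u, f u = 0 := by
  have h1 := (integral_eq_zero_iff_of_nonneg h0 (integrable_of_continuous hf)).1 h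
  have h2 : f = fun _ => (0 : ℝ) := by
    apply (Continuous.ae_eq_iff_eq (muZ p) hf continuous_const).1
    exact h1
  intro u
  exact congrFun h2 u

end Vale.Agent.P228
end
end

section

section

/-! The local Newman statement for actions of `ℤ_[p]`. -/

namespace Vale.Agent.P228.GR

open Set Metric

/-- the local statement: there is a constant `c > 0` such that every action of `ℤ_[p]` on an open
neighbourhood of the closed unit ball which moves the points of the ball by at most `c` fixes the
origin. -/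
def LocalNewman (p : ℕ) [Fact p.Prime] (n : ℕ) : Prop :=
  ∃ c > (0 : ℝ), ∀ (W : Set (EuclideanSpace ℝ (Fin n)))
    (a : ℤ_[p] → EuclideanSpace ℝ (Fin n) → EuclideanSpace ℝ (Fin n)),
    IsOpen W → LocAct p W a → closedBall (0 : EuclideanSpace ℝ (Fin n)) 1 ⊆ W →
    (∀ u, ∀ x ∈ closedBall (0 : EuclideanSpace ℝ (Fin n)) 1, ‖a u x - x‖ ≤ c) →
    ∀ u, a u 0 = 0

end Vale.Agent.P228.GR
end
end

section

section

/-! Acyclic carriers for based chain complexes over a field. -/

namespace Vale.Agent.P228.Cub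

open Finsupp

variable {k : Type*} [Field k] {B B' : Type*}

/-- all basis elements of `x` satisfy `P`. -/
def Sup (P : B → Prop) (x : B →₀ k) : Prop := ∀ b ∈ x.support, P b

theorem sup_zero (P : B → Prop) : Sup P (0 : B →₀ k) := by
  intro b hb; simp at hb

theorem sup_add {P : B → Prop} {x y : B →₀ k} (hx : Sup P x) (hy : Sup P y) : Sup P (x + y) := by
  classical
  intro b hb
  rcases Finset.mem_union.1 (Finsupp.support_add hb) with h | h
  · exact hx b h
  · exact hy b h

theorem sup_smul {P : B → Prop} {x : B →₀ k} (a : k) (hx : Sup P x) : Sup P (a • x) := by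
  intro b hb
  exact hx b (Finsupp.support_smul hb)

theorem sup_neg {P : B → Prop} {x : B →₀ k} (hx : Sup P x) : Sup P (-x) := by
  intro b hb
  exact hx b (by simpa only [mem_support_iff, ne_eq, support_neg] using hb)

theorem sup_sub {P : B → Prop} {x y : B →₀ k} (hx : Sup P x) (hy : Sup P y) : Sup P (x - y) := by
  rw [sub_eq_add_neg]; exact sup_add hx (sup_neg hy)

theorem sup_sum {ι : Type*} {P : B → Prop} (s : Finset ι) (f : ι → B →₀ k)
    (h : ∀ i ∈ s, Sup P (f i)) : Sup P (∑ i ∈ s, f i) := by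
  classical
  induction s using Finset.induction_on with
  | empty => simpa using sup_zero P
  | insert a s ha ih =>
    rw [Finset.sum_insert ha]
    exact sup_add (h a (Finset.mem_insert_self _ _))
      (ih fun i hi => h i (Finset.mem_insert_of_mem hi))

theorem sup_mono {P Q : B → Prop} (hPQ : ∀ b, P b → Q b) {x : B →₀ k} (hx : Sup P x) : Sup Q x :=
  fun b hb => hPQ b (hx b hb)

theorem sup_single {P : B → Prop} {b : B} {a : k} (h : P b) : Sup P (single b a) := by
  intro b' hb'
  have := Finsupp.support_single_subset hb'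
  rw [Finset.mem_singleton] at this
  rw [this]; exact h

/-- a linear map out of `B →₀ k` as a sum over the support. -/
theorem lin_apply {N : Type*} [AddCommMonoid N] [Module k N] (f : (B →₀ k) →ₗ[k] N)
    (x : B →₀ k) : f x = ∑ b ∈ x.support, x b • f (single b 1) := by
  conv_lhs => rw [← Finsupp.sum_single x]
  rw [Finsupp.sum, map_sum]
  refine Finset.sum_congr rfl fun b _ => ?_
  rw [← map_smul]
  simp only [smul_single, smul_eq_mul, mul_one]

theorem sup_lin {P : B' → Prop} (f : (B →₀ k) →ₗ[k] (B' →₀ k)) (x : B →₀ k)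
    (h : ∀ b ∈ x.support, Sup P (f (single b 1))) : Sup P (f x) := by
  rw [lin_apply]
  exact sup_sum _ _ fun b hb => sup_smul _ (h b hb)

/-- `y` is a primitive of `x` in the carrier `A`, homogeneous of degree `m`. -/
def Prim (deg' : B' → ℕ) (d' : (B' →₀ k) →ₗ[k] (B' →₀ k)) (A : B' → Prop) (m : ℕ)
    (x y : B' →₀ k) : Prop :=
  Sup (fun c => A c ∧ deg' c = m) y ∧ d' y = x

open Classical in
/-- a chosen primitive, or zero. -/
noncomputable def sel (deg' : B' → ℕ) (d' : (B' →₀ k) →ₗ[k] (B' →₀ k)) (A : B' → Prop) (m : ℕ)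
    (x : B' →₀ k) : B' →₀ k :=
  if h : ∃ y, Prim deg' d' A m x y then h.choose else 0

theorem sel_spec {deg' : B' → ℕ} {d' : (B' →₀ k) →ₗ[k] (B' →₀ k)} {A : B' → Prop} {m : ℕ}
    {x : B' →₀ k} (h : ∃ y, Prim deg' d' A m x y) : Prim deg' d' A m x (sel deg' d' A m x) := by
  unfold sel
  rw [dif_pos h]
  exact h.choose_spec

/-- recursion along the degree: a function `h` with `h b = step b (lin h (d b))`. -/
theorem exists_rec (deg : B → ℕ) (d : (B →₀ k) →ₗ[k] (B →₀ k))
    (hd : ∀ b, Sup (fun c => deg c + 1 = deg b) (d (single b 1)))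
    (step : B → (B' →₀ k) → (B' →₀ k)) :
    ∃ f : (B →₀ k) →ₗ[k] (B' →₀ k), ∀ b, f (single b 1) = step b (f (d (single b 1))) := by
  classical
  let wf := (measure deg).wf
  let G : (b : B) → ((c : B) → (measure deg).rel c b → (B' →₀ k)) → (B' →₀ k) :=
    fun b rec => step b (∑ c ∈ (d (single b 1)).support,
      (d (single b 1)) c • (if h : (measure deg).rel c b then rec c h else 0))
  let h : B → (B' →₀ k) := wf.fix G
  have hfix : ∀ b, h b = G b (fun c _ => h c) := fun b => wf.fix_eq G b
  refine ⟨Finsupp.linearCombination k h, fun b => ?_⟩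
  rw [Finsupp.linearCombination_single, one_smul, hfix b]
  show step b _ = _
  congr 1
  rw [Finsupp.linearCombination_apply, Finsupp.sum]
  refine Finset.sum_congr rfl fun c hc => ?_
  have hlt : (measure deg).rel c b := by
    have := hd b c hc
    show deg c < deg b
    simp only at this
    omega
  rw [dif_pos hlt]

/-- **Homotopy form of the acyclic carrier lemma.** A map `F` of degree `m` with
`d' F = s • F d`, carried by `A`, has the form `F = d' H + s • H d`. -/
theorem exists_homotopy {deg : B → ℕ} {deg' : B' → ℕ}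
    {d : (B →₀ k) →ₗ[k] (B →₀ k)} {d' : (B' →₀ k) →ₗ[k] (B' →₀ k)}
    (hd : ∀ b, Sup (fun c => deg c + 1 = deg b) (d (single b 1)))
    (hdd : ∀ x, d (d x) = 0)
    (A : B → B' → Prop)
    (mono : ∀ b, ∀ b' ∈ (d (single b 1)).support, ∀ c, A b' c → A b c)
    (m : ℕ) (s : k) (F : (B →₀ k) →ₗ[k] (B' →₀ k))
    (hF : ∀ x, d' (F x) = s • F (d x))
    (hFA : ∀ b, Sup (fun c => A b c ∧ deg' c = deg b + m) (F (single b 1)))
    (acyc : ∀ b, ∀ x : B' →₀ k, Sup (fun c => A b c ∧ deg' c = deg b + m) x → d' x = 0 →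
      (deg b + m = 0 → x = F (single b 1)) → ∃ y, Prim deg' d' (A b) (deg b + m + 1) x y) :
    ∃ H : (B →₀ k) →ₗ[k] (B' →₀ k),
      (∀ b, Sup (fun c => A b c ∧ deg' c = deg b + m + 1) (H (single b 1))) ∧
      ∀ x, F x = d' (H x) + s • H (d x) := by
  classical
  obtain ⟨H, hH⟩ := exists_rec (B' := B') deg d hd
    (fun b z => sel deg' d' (A b) (deg b + m + 1) (F (single b 1) - s • z))
  have key : ∀ N, ∀ b, deg b = N → Prim deg' d' (A b) (deg b + m + 1)
      (F (single b 1) - s • H (d (single b 1))) (H (single b 1)) := by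
    intro N
    induction N using Nat.strong_induction_on with
    | _ N ih =>
    intro b hb
    rw [hH b]
    -- properties of `H (d b)`
    have hHd : Sup (fun c => A b c ∧ deg' c = deg b + m) (H (d (single b 1))) := by
      refine sup_lin H _ fun c hc => ?_
      have hdeg : deg c + 1 = deg b := hd b c hc
      have := (ih (deg c) (by omega) c rfl).1
      refine sup_mono (fun e he => ⟨mono b c hc e he.1, ?_⟩) this
      rw [he.2]; omega
    have hdH : d' (H (d (single b 1))) = F (d (single b 1)) := by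
      have h1 : ∀ x : B →₀ k, (∀ c ∈ x.support, deg c < N) →
          d' (H x) = F x - s • H (d x) := by
        intro x hx
        have e2 : d' (H x) = ∑ c ∈ x.support, x c • d' (H (single c 1)) :=
          lin_apply (d' ∘ₗ H) x
        have e3 : F x - s • H (d x) =
            ∑ c ∈ x.support, x c • (F (single c 1) - s • H (d (single c 1))) :=
          lin_apply (F - s • (H ∘ₗ d)) x
        rw [e2, e3]
        refine Finset.sum_congr rfl fun c hc => ?_
        rw [(ih (deg c) (hx c hc) c rfl).2]
      have := h1 (d (single b 1)) (fun c hc => by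
        have hdeg : deg c + 1 = deg b := hd b c hc
        omega)
      rw [this, hdd]
      simp
    apply sel_spec
    refine acyc b _ ?_ ?_ ?_
    · exact sup_sub (hFA b) (sup_smul _ hHd)
    · rw [map_sub, map_smul, hdH, hF]; simp
    · intro h0
      have hd0 : d (single b 1) = 0 := by
        by_contra hne
        obtain ⟨c, hc⟩ := Finsupp.support_nonempty_iff.2 hne
        have hdeg : deg c + 1 = deg b := hd b c hc
        omega
      rw [hd0]; simp only [map_zero, smul_zero, sub_zero]
  refine ⟨H, fun b => (key _ b rfl).1, fun x => ?_⟩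
  have e : F - (d' ∘ₗ H + s • (H ∘ₗ d)) = 0 := by
    apply Finsupp.lhom_ext'
    intro b
    apply LinearMap.ext_ring
    have := (key _ b rfl).2
    simp only [LinearMap.comp_apply, lsingle_apply, LinearMap.sub_apply, LinearMap.add_apply, LinearMap.smul_apply, LinearMap.zero_apply]
    rw [this]; abel
  have := LinearMap.congr_fun e x
  simp only [LinearMap.sub_apply, LinearMap.add_apply, LinearMap.smul_apply,
    LinearMap.comp_apply, LinearMap.zero_apply] at this
  exact sub_eq_zero.1 this

/-- **Existence form of the acyclic carrier lemma**, relative to a set `S` of basis elements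
closed under the boundary on which the map is prescribed. -/
theorem exists_chainMap {deg : B → ℕ} {deg' : B' → ℕ}
    {d : (B →₀ k) →ₗ[k] (B →₀ k)} {d' : (B' →₀ k) →ₗ[k] (B' →₀ k)}
    (hd : ∀ b, Sup (fun c => deg c + 1 = deg b) (d (single b 1)))
    (hdd : ∀ x, d (d x) = 0)
    (e : (B →₀ k) →ₗ[k] k) (e' : (B' →₀ k) →ₗ[k] k)
    (hed : ∀ x, e (d x) = 0)
    (A : B → B' → Prop)
    (mono : ∀ b, ∀ b' ∈ (d (single b 1)).support, ∀ c, A b' c → A b c)
    (vert : ∀ b, deg b = 0 → ∃ y : B' →₀ k, Sup (fun c => A b c ∧ deg' c = 0) y ∧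
      e' y = e (single b 1) ∧ d' y = 0)
    (acyc : ∀ b, ∀ m, deg b = m + 1 → ∀ x : B' →₀ k, Sup (fun c => A b c ∧ deg' c = m) x →
      d' x = 0 → (m = 0 → e' x = 0) → ∃ y, Prim deg' d' (A b) (m + 1) x y)
    (S : B → Prop) (hS : ∀ b, S b → ∀ b' ∈ (d (single b 1)).support, S b')
    (f₀ : (B →₀ k) →ₗ[k] (B' →₀ k))
    (h₀ : ∀ b, S b → Sup (fun c => A b c ∧ deg' c = deg b) (f₀ (single b 1)) ∧
      d' (f₀ (single b 1)) = f₀ (d (single b 1)) ∧
      (deg b = 0 → e' (f₀ (single b 1)) = e (single b 1))) :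
    ∃ f : (B →₀ k) →ₗ[k] (B' →₀ k),
      (∀ b, Sup (fun c => A b c ∧ deg' c = deg b) (f (single b 1))) ∧
      (∀ x, d' (f x) = f (d x)) ∧
      (∀ b, deg b = 0 → e' (f (single b 1)) = e (single b 1)) ∧
      ∀ b, S b → f (single b 1) = f₀ (single b 1) := by
  classical
  obtain ⟨f, hf⟩ := exists_rec (B' := B') deg d hd
    (fun b z => if S b then f₀ (single b 1) else
      if h : deg b = 0 then (vert b h).choose else sel deg' d' (A b) (deg b) z)
  have hdzero : ∀ b, deg b = 0 → d (single b (1 : k)) = 0 := by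
    intro b h0
    by_contra hne
    obtain ⟨c, hc⟩ := Finsupp.support_nonempty_iff.2 hne
    have hdeg : deg c + 1 = deg b := hd b c hc
    omega
  have hfS : ∀ b, S b → f (single b 1) = f₀ (single b 1) := by
    intro b hb
    rw [hf b, if_pos hb]
  have key : ∀ N, ∀ b, deg b = N → Sup (fun c => A b c ∧ deg' c = deg b) (f (single b 1)) ∧
      d' (f (single b 1)) = f (d (single b 1)) ∧
      (deg b = 0 → e' (f (single b 1)) = e (single b 1)) := by
    intro N
    induction N using Nat.strong_induction_on with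
    | _ N ih =>
    intro b hb
    by_cases hSb : S b
    · obtain ⟨h1, h2, h3⟩ := h₀ b hSb
      rw [hfS b hSb]
      refine ⟨h1, ?_, h3⟩
      rw [h2, lin_apply f₀, lin_apply f]
      exact Finset.sum_congr rfl fun c hc => by rw [hfS c (hS b hSb c hc)]
    by_cases h0 : deg b = 0
    · have e1 : f (single b 1) = (vert b h0).choose := by
        rw [hf b, if_neg hSb, dif_pos h0]
      obtain ⟨h1, h2, h3⟩ := (vert b h0).choose_spec
      rw [e1]
      refine ⟨by simpa only [h0] using h1, ?_, fun _ => h2⟩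
      rw [h3, hdzero b h0, map_zero]
    · obtain ⟨m, hm⟩ := Nat.exists_eq_succ_of_ne_zero h0
      have e1 : f (single b 1) = sel deg' d' (A b) (deg b) (f (d (single b 1))) := by
        conv_lhs => rw [hf b, if_neg hSb, dif_neg h0]
      have hex : ∃ y, Prim deg' d' (A b) (m + 1) (f (d (single b 1))) y := by
        refine acyc b m hm _ ?_ ?_ ?_
        · refine sup_lin f _ fun c hc => ?_
          have hdeg : deg c + 1 = deg b := hd b c hc
          have := (ih (deg c) (by omega) c rfl).1
          refine sup_mono (fun e he => ⟨mono b c hc e he.1, ?_⟩) this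
          rw [he.2]; omega
        · have h1 : ∀ x : B →₀ k, (∀ c ∈ x.support, deg c < N) → d' (f x) = f (d x) := by
            intro x hx
            have e2 : d' (f x) = ∑ c ∈ x.support, x c • d' (f (single c 1)) :=
              lin_apply (d' ∘ₗ f) x
            have e3 : f (d x) = ∑ c ∈ x.support, x c • f (d (single c 1)) :=
              lin_apply (f ∘ₗ d) x
            rw [e2, e3]
            refine Finset.sum_congr rfl fun c hc => ?_
            rw [(ih (deg c) (hx c hc) c rfl).2.1]
          rw [h1 _ (fun c hc => by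
            have hdeg : deg c + 1 = deg b := hd b c hc
            omega), hdd, map_zero]
        · intro hm0
          have h1 : e' (f (d (single b 1))) = e (d (single b 1)) := by
            have e2 := lin_apply (e' ∘ₗ f) (d (single b (1 : k)))
            have e3 := lin_apply e (d (single b (1 : k)))
            simp only [LinearMap.comp_apply] at e2
            rw [e2, e3]
            refine Finset.sum_congr rfl fun c hc => ?_
            have hdeg : deg c + 1 = deg b := hd b c hc
            rw [(ih (deg c) (by omega) c rfl).2.2 (by omega)]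
          rw [h1, hed]
      have hs := sel_spec hex
      have hdeq : deg b = m + 1 := hm
      rw [e1]
      refine ⟨?_, ?_, fun h => absurd h h0⟩
      · rw [hdeq]; exact hs.1
      · rw [hdeq]; exact hs.2
  refine ⟨f, fun b => (key _ b rfl).1, fun x => ?_, fun b => (key _ b rfl).2.2, hfS⟩
  have h : d' ∘ₗ f - f ∘ₗ d = 0 := by
    apply Finsupp.lhom_ext'
    intro b
    apply LinearMap.ext_ring
    have := (key _ b rfl).2.1
    simp only [LinearMap.comp_apply, Finsupp.lsingle_apply, LinearMap.sub_apply,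
      LinearMap.zero_apply]
    rw [this]; abel
  have := LinearMap.congr_fun h x
  simp only [LinearMap.sub_apply, LinearMap.comp_apply, LinearMap.zero_apply] at this
  exact sub_eq_zero.1 this

end Vale.Agent.P228.Cub
end
end

section

section

/-! The cubical chain complex of `ℤ^ι`. -/

namespace Vale.Agent.P228.Cub

open Finsupp

variable {k : Type*} [Field k] {ι : Type*} [Fintype ι] [LinearOrder ι]

/-- a cell of the cubical decomposition: in each coordinate a vertex `(a, false)` or
an edge `(a, true) = [a, a+1]`. -/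
abbrev Cell (ι : Type*) := ι → ℤ × Bool

/-- dimension of a cell -/
def dg (c : Cell ι) : ℕ := (Finset.univ.filter (fun i => (c i).2 = true)).card

/-- a one dimensional operator acting on coordinate `i`. -/
noncomputable def lift (i : ι) (u : ℤ × Bool → (ℤ × Bool →₀ k)) :
    Module.End k (Cell ι →₀ k) :=
  Finsupp.linearCombination k (fun c => Finsupp.mapDomain (Function.update c i) (u (c i)))

theorem lift_single (i : ι) (u : ℤ × Bool → (ℤ × Bool →₀ k)) (c : Cell ι) :
    lift i u (single c 1) = Finsupp.mapDomain (Function.update c i) (u (c i)) := by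
  rw [lift, Finsupp.linearCombination_single, one_smul]

theorem lin_mapDomain {X Y N : Type*} [AddCommMonoid N] [Module k N]
    (L : (Y →₀ k) →ₗ[k] N) (g : X → Y) (x : X →₀ k) :
    L (Finsupp.mapDomain g x) = ∑ z ∈ x.support, x z • L (single (g z) 1) := by
  rw [Finsupp.mapDomain, Finsupp.sum, map_sum]
  refine Finset.sum_congr rfl fun z _ => ?_
  rw [← map_smul]
  simp

theorem mapDomain_eq_sum {X Y : Type*} (g : X → Y) (x : X →₀ k) :
    Finsupp.mapDomain g x = ∑ z ∈ x.support, x z • single (g z) (1 : k) := by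
  have := lin_mapDomain (LinearMap.id : (Y →₀ k) →ₗ[k] (Y →₀ k)) g x
  simpa only [smul_single, smul_eq_mul, mul_one, LinearMap.id_coe, id_eq] using this

/-- two linear maps agreeing on basis vectors are equal. -/
theorem lin_ext {X N : Type*} [AddCommMonoid N] [Module k N] {f g : (X →₀ k) →ₗ[k] N}
    (h : ∀ c, f (single c 1) = g (single c 1)) : f = g := by
  apply Finsupp.lhom_ext'
  intro c
  apply LinearMap.ext_ring
  exact h c

/-- composition of one dimensional operators -/
noncomputable def ucomp (u v : ℤ × Bool → (ℤ × Bool →₀ k)) : ℤ × Bool → (ℤ × Bool →₀ k) :=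
  fun z => ∑ w ∈ (v z).support, v z w • u w

theorem lift_comp (i : ι) (u v : ℤ × Bool → (ℤ × Bool →₀ k)) :
    (lift i u * lift i v : Module.End k (Cell ι →₀ k)) = lift i (ucomp u v) := by
  apply lin_ext
  intro c
  rw [Module.End.mul_apply, lift_single, lift_single, lin_mapDomain, ucomp,
    Finsupp.mapDomain_finsetSum]
  refine Finset.sum_congr rfl fun z _ => ?_
  rw [lift_single, Finsupp.mapDomain_smul]
  have e : Function.update (Function.update c i z) i = Function.update c i := by
    funext w; rw [Function.update_idem]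
  rw [e]
  simp

theorem lift_comm {i j : ι} (hij : i ≠ j) (u v : ℤ × Bool → (ℤ × Bool →₀ k)) :
    (lift i u * lift j v : Module.End k (Cell ι →₀ k)) = lift j v * lift i u := by
  apply lin_ext
  intro c
  rw [Module.End.mul_apply, Module.End.mul_apply, lift_single, lift_single, lin_mapDomain,
    lin_mapDomain]
  have e1 : ∀ z, lift i u (single (Function.update c j z) 1) =
      ∑ w ∈ (u (c i)).support, u (c i) w • single (Function.update (Function.update c i w) j z) (1 : k) := by
    intro z
    rw [lift_single, mapDomain_eq_sum, Function.update_of_ne hij]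
    refine Finset.sum_congr rfl fun w _ => ?_
    rw [Function.update_comm hij]
  have e2 : ∀ w, lift j v (single (Function.update c i w) 1) =
      ∑ z ∈ (v (c j)).support, v (c j) z • single (Function.update (Function.update c i w) j z) (1 : k) := by
    intro w
    rw [lift_single, mapDomain_eq_sum, Function.update_of_ne hij.symm]
  simp only [e1, e2, Finset.smul_sum]
  rw [Finset.sum_comm]
  refine Finset.sum_congr rfl fun w _ => Finset.sum_congr rfl fun z _ => ?_
  rw [smul_comm]

theorem lift_add (i : ι) (u v : ℤ × Bool → (ℤ × Bool →₀ k)) :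
    (lift i u + lift i v : Module.End k (Cell ι →₀ k)) = lift i (fun z => u z + v z) := by
  apply lin_ext
  intro c
  simp only [LinearMap.add_apply, lift_single, Finsupp.mapDomain_add]

theorem lift_zero (i : ι) : lift i (fun _ => (0 : ℤ × Bool →₀ k)) = 0 := by
  apply lin_ext
  intro c
  simp [lift_single]

theorem lift_id (i : ι) : lift i (fun z => single z (1 : k)) = (1 : Module.End k (Cell ι →₀ k)) := by
  apply lin_ext
  intro c
  simp only [lift_single, mapDomain_single, Function.update_eq_self, Module.End.one_apply]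

theorem lift_sub (i : ι) (u v : ℤ × Bool → (ℤ × Bool →₀ k)) :
    (lift i u - lift i v : Module.End k (Cell ι →₀ k)) = lift i (fun z => u z - v z) := by
  have : (lift i (fun z => u z - v z) + lift i v : Module.End k (Cell ι →₀ k)) = lift i u := by
    rw [lift_add]; simp
  rw [← this]; abel

/-- number of edge directions before `i` -/
def bef (i : ι) (c : Cell ι) : ℕ :=
  (Finset.univ.filter (fun j => j < i ∧ (c j).2 = true)).card

/-- the sign operator -/
noncomputable def sg (i : ι) : Module.End k (Cell ι →₀ k) :=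
  Finsupp.linearCombination k (fun c => (-1 : k) ^ bef i c • single c 1)

theorem sg_single (i : ι) (c : Cell ι) :
    sg i (single c (1 : k)) = (-1 : k) ^ bef i c • single c 1 := by
  rw [sg, Finsupp.linearCombination_single, one_smul]

theorem sg_sg (i : ι) : (sg i * sg i : Module.End k (Cell ι →₀ k)) = 1 := by
  apply lin_ext
  intro c
  rw [Module.End.mul_apply, sg_single, map_smul, sg_single, smul_smul, ← pow_add, ← two_mul,
    pow_mul]
  simp only [even_two, Even.neg_pow, one_pow, one_smul, Module.End.one_apply]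

theorem sg_comm (i j : ι) :
    (sg i * sg j : Module.End k (Cell ι →₀ k)) = sg j * sg i := by
  apply lin_ext
  intro c
  rw [Module.End.mul_apply, Module.End.mul_apply, sg_single, sg_single, map_smul, map_smul,
    sg_single, sg_single, smul_comm]

/-- parity changing operators -/
def OddU (u : ℤ × Bool → (ℤ × Bool →₀ k)) : Prop := ∀ z, ∀ w ∈ (u z).support, w.2 = !z.2

/-- parity preserving operators -/
def EvenU (u : ℤ × Bool → (ℤ × Bool →₀ k)) : Prop := ∀ z, ∀ w ∈ (u z).support, w.2 = z.2

theorem bef_update_ge {i j : ι} (h : ¬ j < i) (c : Cell ι) (w : ℤ × Bool) :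
    bef i (Function.update c j w) = bef i c := by
  unfold bef
  congr 1
  apply Finset.filter_congr
  intro l _
  by_cases hl : l = j
  · subst hl; simp [h]
  · rw [Function.update_of_ne hl]

theorem bef_update_even {i j : ι} (c : Cell ι) (w : ℤ × Bool) (hw : w.2 = (c j).2) :
    bef i (Function.update c j w) = bef i c := by
  unfold bef
  congr 1
  apply Finset.filter_congr
  intro l _
  by_cases hl : l = j
  · subst hl; simp [hw]
  · rw [Function.update_of_ne hl]

theorem pow_bef_update_odd {i j : ι} (h : j < i) (c : Cell ι) (w : ℤ × Bool)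
    (hw : w.2 = !(c j).2) :
    (-1 : k) ^ bef i (Function.update c j w) = - (-1 : k) ^ bef i c := by
  classical
  have key : ∀ c' : Cell ι, (c' j).2 = true →
      bef i c' = bef i (Function.update c' j (0, false)) + 1 := by
    intro c' hc'
    unfold bef
    have : (Finset.univ.filter (fun l => l < i ∧ (c' l).2 = true)) =
        insert j (Finset.univ.filter
          (fun l => l < i ∧ (Function.update c' j ((0 : ℤ), false) l).2 = true)) := by
      ext l
      simp only [Finset.mem_filter, Finset.mem_univ, true_and, Finset.mem_insert]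
      by_cases hl : l = j
      · subst hl; simp [h, hc']
      · rw [Function.update_of_ne hl]; simp [hl]
    rw [this, Finset.card_insert_of_notMem]
    simp only [Finset.mem_filter, Finset.mem_univ, Function.update_self, Bool.false_eq_true, and_false, not_false_eq_true]
  have key2 : ∀ c' : Cell ι, (c' j).2 = false →
      bef i c' = bef i (Function.update c' j (0, false)) := by
    intro c' hc'
    exact (bef_update_even c' (0, false) (by simp [hc'])).symm
  rcases hcj : (c j).2 with _ | _
  · have h1 := key (Function.update c j w) (by simp [hw, hcj])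
    have h2 := key2 c hcj
    rw [Function.update_idem] at h1
    rw [h1, h2, pow_succ]; ring
  · have h1 := key2 (Function.update c j w) (by simp [hw, hcj])
    have h2 := key c hcj
    rw [Function.update_idem] at h1
    rw [h1, h2, pow_succ]; ring

theorem sg_lift_ge {i j : ι} (h : ¬ j < i) (u : ℤ × Bool → (ℤ × Bool →₀ k)) :
    (sg i * lift j u : Module.End k (Cell ι →₀ k)) = lift j u * sg i := by
  apply lin_ext
  intro c
  rw [Module.End.mul_apply, Module.End.mul_apply, sg_single, map_smul, lift_single,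
    mapDomain_eq_sum, map_sum, Finset.smul_sum]
  refine Finset.sum_congr rfl fun w _ => ?_
  rw [map_smul, sg_single, bef_update_ge h, smul_comm]

theorem sg_lift_even {i j : ι} {u : ℤ × Bool → (ℤ × Bool →₀ k)} (hu : EvenU u) :
    (sg i * lift j u : Module.End k (Cell ι →₀ k)) = lift j u * sg i := by
  apply lin_ext
  intro c
  rw [Module.End.mul_apply, Module.End.mul_apply, sg_single, map_smul, lift_single,
    mapDomain_eq_sum, map_sum, Finset.smul_sum]
  refine Finset.sum_congr rfl fun w hw => ?_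
  rw [map_smul, sg_single, bef_update_even _ _ (hu _ w hw), smul_comm]

theorem sg_lift_odd {i j : ι} (h : j < i) {u : ℤ × Bool → (ℤ × Bool →₀ k)} (hu : OddU u) :
    (sg i * lift j u + lift j u * sg i : Module.End k (Cell ι →₀ k)) = 0 := by
  apply lin_ext
  intro c
  rw [LinearMap.add_apply, Module.End.mul_apply, Module.End.mul_apply, sg_single, map_smul,
    lift_single, mapDomain_eq_sum, map_sum, Finset.smul_sum, ← Finset.sum_add_distrib,
    LinearMap.zero_apply]
  refine Finset.sum_eq_zero fun w hw => ?_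
  rw [map_smul, sg_single, pow_bef_update_odd h _ _ (hu _ w hw), smul_comm, neg_smul]
  exact neg_add_cancel _

/-- odd operator in direction `i`, with the Koszul sign. -/
noncomputable def od (i : ι) (u : ℤ × Bool → (ℤ × Bool →₀ k)) :
    Module.End k (Cell ι →₀ k) := lift i u * sg i

theorem od_anti {i j : ι} (hij : i ≠ j) {u v : ℤ × Bool → (ℤ × Bool →₀ k)} (hu : OddU u)
    (hv : OddU v) : (od i u * od j v + od j v * od i u : Module.End k (Cell ι →₀ k)) = 0 := by
  have key : ∀ {i j : ι}, i < j → ∀ {u v : ℤ × Bool → (ℤ × Bool →₀ k)}, OddU u → OddU v →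
      (od i u * od j v + od j v * od i u : Module.End k (Cell ι →₀ k)) = 0 := by
    intro i j hij u v hu _
    unfold od
    have h1 : (sg i * lift j v : Module.End k (Cell ι →₀ k)) = lift j v * sg i :=
      sg_lift_ge (not_lt.2 hij.le) v
    have h2 : (sg j * lift i u + lift i u * sg j : Module.End k (Cell ι →₀ k)) = 0 :=
      sg_lift_odd hij hu
    have e1 : (lift i u * sg i : Module.End k (Cell ι →₀ k)) * (lift j v * sg j)
        = lift j v * (lift i u * sg j) * sg i := by
      calc (lift i u * sg i : Module.End k (Cell ι →₀ k)) * (lift j v * sg j)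
          = lift i u * (sg i * lift j v) * sg j := by simp only [mul_assoc]
        _ = (lift i u * lift j v) * (sg i * sg j) := by rw [h1]; simp only [mul_assoc]
        _ = (lift j v * lift i u) * (sg j * sg i) := by rw [lift_comm hij.ne, sg_comm]
        _ = _ := by simp only [mul_assoc]
    have e2 : (lift j v * sg j : Module.End k (Cell ι →₀ k)) * (lift i u * sg i) =
        lift j v * (sg j * lift i u) * sg i := by simp only [mul_assoc]
    rw [e1, e2, ← add_mul, ← mul_add, add_comm (lift i u * sg j), h2, mul_zero, zero_mul]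
  rcases lt_or_gt_of_ne hij with h | h
  · exact key h hu hv
  · rw [add_comm]; exact key h hv hu

theorem od_comp_self (i : ι) (u v : ℤ × Bool → (ℤ × Bool →₀ k)) :
    (od i u * od i v : Module.End k (Cell ι →₀ k)) = lift i (ucomp u v) := by
  unfold od
  have h1 : (sg i * lift i v : Module.End k (Cell ι →₀ k)) = lift i v * sg i :=
    sg_lift_ge (lt_irrefl i) v
  calc (lift i u * sg i : Module.End k (Cell ι →₀ k)) * (lift i v * sg i)
      = lift i u * (sg i * lift i v) * sg i := by simp only [mul_assoc]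
    _ = (lift i u * lift i v) * (sg i * sg i) := by
        rw [h1]; simp only [mul_assoc]
    _ = _ := by rw [sg_sg, mul_one, lift_comp]

theorem od_even {i j : ι} (hij : i ≠ j) {u v : ℤ × Bool → (ℤ × Bool →₀ k)}
    (hv : EvenU v) : (od i u * lift j v : Module.End k (Cell ι →₀ k)) = lift j v * od i u := by
  unfold od
  rw [mul_assoc, sg_lift_even hv, ← mul_assoc, lift_comm hij, mul_assoc]

end Vale.Agent.P228.Cub
end
end
namespace AFast7e0c08x5108a
theorem a0.{u1, u2} {x1 : Type u1} {x2 : Type u2} [x3 : Field x1] : AddMonoidHomClass (Module.End x1 (Vale.Agent.P228.Cub.Cell x2 →₀ x1)) (Vale.Agent.P228.Cub.Cell x2 →₀ x1) (Vale.Agent.P228.Cub.Cell x2 →₀ x1) := inferInstance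
theorem a1.{u1, u2} {x1 : Type u1} {x2 : Type u2} [x3 : Field x1] : DistribMulActionSemiHomClass (Module.End x1 (Vale.Agent.P228.Cub.Cell x2 →₀ x1)) (⇑(RingHom.id x1)) (Vale.Agent.P228.Cub.Cell x2 →₀ x1) (Vale.Agent.P228.Cub.Cell x2 →₀ x1) := inferInstance
end AFast7e0c08x5108a
attribute [local instance] AFast7e0c08x5108a.a0 AFast7e0c08x5108a.a1
namespace AFast7e0c08x5108b
@[reducible] noncomputable def a0.{u1, u2} {x1 : Type u1} {x2 : Type u2} [x3 : Field x1] : Semigroup (Module.End x1 (Vale.Agent.P228.Cub.Cell x2 →₀ x1)) := inferInstance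
@[reducible] noncomputable def a1.{u1, u2} {x1 : Type u1} {x2 : Type u2} [x3 : Field x1] : SemigroupWithZero (Module.End x1 (Vale.Agent.P228.Cub.Cell x2 →₀ x1)) := inferInstance
@[reducible] noncomputable def a2.{u1, u2} {x1 : Type u1} {x2 : Type u2} [x3 : Field x1] : NonUnitalSemiring (Module.End x1 (Vale.Agent.P228.Cub.Cell x2 →₀ x1)) := inferInstance
@[reducible] noncomputable def a3.{u1, u2} {x1 : Type u1} {x2 : Type u2} [x3 : Field x1] : NonUnitalNonAssocSemiring (Module.End x1 (Vale.Agent.P228.Cub.Cell x2 →₀ x1)) := inferInstance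
theorem a4.{u1, u2} {x1 : Type u1} [x2 : Field x1] {x3 : Type u2} : ZeroHomClass ((Vale.Agent.P228.Cub.Cell x3 →₀ x1) →ₗ[x1] x1) (Vale.Agent.P228.Cub.Cell x3 →₀ x1) x1 := inferInstance
end AFast7e0c08x5108b
attribute [local instance] AFast7e0c08x5108b.a0 AFast7e0c08x5108b.a1 AFast7e0c08x5108b.a2
  AFast7e0c08x5108b.a3 AFast7e0c08x5108b.a4

section

section

/-!
# P228, block [N]: coefficient tables of the slicing word of `J_2 ε` and of its inverse

`VT k s t` (resp. `WT k s t`) is eight times the coefficient of `w^k` in the `(s, t)` block of the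
word `v` at `x = 0` (resp. of `v⁻¹`); rows and columns are the four types of cells.
-/

namespace Vale.Agent.P228.Num

/-- eight times the coefficient of `w^k` in the word -/
def VT (k : ℤ) (s t : Bool) : Matrix (Fin 4) (Fin 4) GaussianInt :=
  match s, t with
  | false, false =>
    if k = 0 then !![8, 0, 0, 0; 0, 8, 0, 0; 0, 4, 0, 0; 0, 0, 0, 8]
    else if k = 1 then !![0, 0, 0, 0; 0, 0, 0, 0; 0, 0, -4, 0; 0, 0, 0, 0]
    else if k = -1 then !![0, 0, 0, 0; 0, 0, 0, 0; 0, 4, -4, 0; 0, 0, 0, 0]
    else !![0, 0, 0, 0; 0, 0, 0, 0; 0, 0, 0, 0; 0, 0, 0, 0]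
  | false, true =>
    if k = 1 then !![0, 0, 0, 0; 0, 0, 0, 0; 0, 0, ⟨0, -1⟩, 0; 0, 0, 0, 0]
    else if k = -1 then !![0, 0, 0, 0; 0, 0, 0, 0; 0, 0, ⟨0, 1⟩, 0; 0, 0, 0, 0]
    else !![0, 0, 0, 0; 0, 0, 0, 0; 0, 0, 0, 0; 0, 0, 0, 0]
  | true, false =>
    if k = 2 then !![0, 0, 0, 0; 0, 0, ⟨0, -8⟩, 0; 0, 0, ⟨0, 8⟩, 0; 0, 0, 0, 0]
    else if k = 1 then !![0, 0, 0, 0; 0, ⟨0, 8⟩, ⟨0, -8⟩, 0; 0, ⟨0, -8⟩, ⟨0, 16⟩, 0; 0, 0, 0, 0]
    else if k = 0 then !![0, 0, 0, 0; 0, 0, ⟨0, 8⟩, 0; 0, ⟨0, -8⟩, 0, 0; 0, 0, 0, 0]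
    else if k = -1 then !![0, 0, 0, 0; 0, ⟨0, -8⟩, ⟨0, 8⟩, 0; 0, ⟨0, 8⟩, ⟨0, -16⟩, 0; 0, 0, 0, 0]
    else if k = -2 then !![0, 0, 0, 0; 0, 0, 0, 0; 0, ⟨0, 8⟩, ⟨0, -8⟩, 0; 0, 0, 0, 0]
    else !![0, 0, 0, 0; 0, 0, 0, 0; 0, 0, 0, 0; 0, 0, 0, 0]
  | true, true =>
    if k = 2 then !![0, 0, 0, 0; 0, 0, 2, 0; 0, 0, -2, 0; 0, 0, 0, 0]
    else if k = 1 then !![0, 0, 0, 0; 0, 0, 2, 0; 0, 0, -4, 0; 0, 0, 0, 0]
    else if k = 0 then !![8, 0, 0, 0; 0, 8, 2, 0; 0, 0, 4, 0; 0, 0, 0, 8]
    else if k = -1 then !![0, 0, 0, 0; 0, 0, 2, 0; 0, 0, -4, 0; 0, 0, 0, 0]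
    else if k = -2 then !![0, 0, 0, 0; 0, 0, 0, 0; 0, 0, -2, 0; 0, 0, 0, 0]
    else !![0, 0, 0, 0; 0, 0, 0, 0; 0, 0, 0, 0; 0, 0, 0, 0]

/-- eight times the coefficient of `w^k` in the inverse of the word -/
def WT (k : ℤ) (s t : Bool) : Matrix (Fin 4) (Fin 4) GaussianInt :=
  match s, t with
  | false, false =>
    if k = 2 then !![0, 0, 0, 0; 0, 0, 0, 0; 0, 0, -2, 0; 0, 0, 0, 0]
    else if k = 1 then !![0, 0, 0, 0; 0, 0, 0, 0; 0, 2, -4, 0; 0, 0, 0, 0]
    else if k = 0 then !![8, 0, 0, 0; 0, 8, 0, 0; 0, 2, 4, 0; 0, 0, 0, 8]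
    else if k = -1 then !![0, 0, 0, 0; 0, 0, 0, 0; 0, 2, -4, 0; 0, 0, 0, 0]
    else if k = -2 then !![0, 0, 0, 0; 0, 0, 0, 0; 0, 2, -2, 0; 0, 0, 0, 0]
    else !![0, 0, 0, 0; 0, 0, 0, 0; 0, 0, 0, 0; 0, 0, 0, 0]
  | false, true =>
    if k = 1 then !![0, 0, 0, 0; 0, 0, 0, 0; 0, 0, ⟨0, 1⟩, 0; 0, 0, 0, 0]
    else if k = -1 then !![0, 0, 0, 0; 0, 0, 0, 0; 0, 0, ⟨0, -1⟩, 0; 0, 0, 0, 0]
    else !![0, 0, 0, 0; 0, 0, 0, 0; 0, 0, 0, 0; 0, 0, 0, 0]
  | true, false => -VT k true false
  | true, true =>
    if k = 0 then !![8, 0, 0, 0; 0, 8, 4, 0; 0, 0, 0, 0; 0, 0, 0, 8]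
    else if k = 1 then !![0, 0, 0, 0; 0, 0, 4, 0; 0, 0, -4, 0; 0, 0, 0, 0]
    else if k = -1 then !![0, 0, 0, 0; 0, 0, 0, 0; 0, 0, -4, 0; 0, 0, 0, 0]
    else !![0, 0, 0, 0; 0, 0, 0, 0; 0, 0, 0, 0; 0, 0, 0, 0]

/-- the relevant degrees -/
def rg : List ℤ := [-2, -1, 0, 1, 2]

end Vale.Agent.P228.Num
end
end

section

section

/-! Globalised maps of a local action: `glob a u x = x + lam x • (a u x - x)`. -/

namespace Vale.Agent.P228.Geo

open Set Metric Topology

variable {p : ℕ} [Fact p.Prime]
variable {E : Type*} [NormedAddCommGroup E] [NormedSpace ℝ E]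

/-- cut-off function, `1` on the ball of radius `3/4`, `0` outside the unit ball. -/
noncomputable def lam (x : E) : ℝ := max 0 (min 1 (4 - 4 * ‖x‖))

theorem lam_nonneg (x : E) : 0 ≤ lam x := le_max_left _ _

theorem lam_le_one (x : E) : lam x ≤ 1 := max_le zero_le_one (min_le_left _ _)

theorem lam_eq_one {x : E} (hx : ‖x‖ ≤ 3 / 4) : lam x = 1 := by
  unfold lam
  rw [min_eq_left (by linarith)]
  simp only [zero_le_one, sup_of_le_right]

theorem lam_eq_zero {x : E} (hx : 1 ≤ ‖x‖) : lam x = 0 := by
  unfold lam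
  apply max_eq_left
  exact (min_le_right _ _).trans (by linarith only [hx])

theorem continuous_lam : Continuous (lam : E → ℝ) := by
  unfold lam
  fun_prop

/-- globalised map -/
noncomputable def glob (a : ℤ_[p] → E → E) (u : ℤ_[p]) (x : E) : E := x + lam x • (a u x - x)

variable {W : Set E} {a : ℤ_[p] → E → E}

theorem glob_eq (a : ℤ_[p] → E → E) (u : ℤ_[p]) {x : E} (hx : ‖x‖ ≤ 3 / 4) :
    glob a u x = a u x := by
  unfold glob
  rw [lam_eq_one hx]
  simp only [one_smul, add_sub_cancel]

theorem norm_glob_sub_le {c : ℝ} (hc : 0 ≤ c)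
    (hd : ∀ u, ∀ x ∈ closedBall (0 : E) 1, ‖a u x - x‖ ≤ c) (u : ℤ_[p]) (x : E) :
    ‖glob a u x - x‖ ≤ c := by
  unfold glob
  rw [add_sub_cancel_left, norm_smul, Real.norm_of_nonneg (lam_nonneg x)]
  by_cases hx : ‖x‖ ≤ 1
  · have h1 := hd u x (by simpa only [mem_closedBall, dist_zero_right] using hx)
    calc lam x * ‖a u x - x‖ ≤ 1 * ‖a u x - x‖ :=
          mul_le_mul_of_nonneg_right (lam_le_one x) (norm_nonneg _)
      _ ≤ c := by rw [one_mul]; exact h1
  · rw [lam_eq_zero (le_of_lt (not_le.1 hx))]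
    simpa only [zero_mul] using hc

theorem continuous_aux (hW : IsOpen W) (act : LocAct p W a) (hB : closedBall (0 : E) 1 ⊆ W) :
    Continuous (fun q : ℤ_[p] × E => lam q.2 • (a q.1 q.2 - q.2)) := by
  rw [continuous_iff_continuousAt]
  rintro ⟨u, x⟩
  by_cases hx : ‖x‖ ≤ 1
  · have hxW : x ∈ W := hB (by simpa only [mem_closedBall, dist_zero_right] using hx)
    have hnb : (univ ×ˢ W : Set (ℤ_[p] × E)) ∈ 𝓝 (u, x) :=
      (isOpen_univ.prod hW).mem_nhds ⟨trivial, hxW⟩
    have h1 : ContinuousAt (Function.uncurry a) (u, x) := act.cont.continuousAt hnb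
    have h2 : ContinuousAt (fun q : ℤ_[p] × E => a q.1 q.2) (u, x) := h1
    have h3 : ContinuousAt (fun q : ℤ_[p] × E => lam q.2) (u, x) :=
      (continuous_lam.comp continuous_snd).continuousAt
    exact h3.smul (h2.sub continuous_snd.continuousAt)
  · have hopen : IsOpen {q : ℤ_[p] × E | 1 < ‖q.2‖} :=
      isOpen_lt continuous_const (continuous_norm.comp continuous_snd)
    have hev : (fun q : ℤ_[p] × E => lam q.2 • (a q.1 q.2 - q.2)) =ᶠ[𝓝 (u, x)]
        (fun _ => (0 : E)) := by
      filter_upwards [hopen.mem_nhds (show (u, x) ∈ {q : ℤ_[p] × E | 1 < ‖q.2‖} from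
        not_le.1 hx)] with q hq
      rw [lam_eq_zero (le_of_lt hq), zero_smul]
    exact continuousAt_const.congr hev.symm

/-- the globalised maps are uniformly equicontinuous. -/
theorem unif_glob [ProperSpace E] (hW : IsOpen W) (act : LocAct p W a)
    (hB : closedBall (0 : E) 1 ⊆ W) {ε : ℝ} (hε : 0 < ε) :
    ∃ δ > 0, ∀ u, ∀ x y : E, ‖x - y‖ ≤ δ → ‖glob a u x - glob a u y‖ ≤ ε := by
  have hc := continuous_aux hW act hB
  have hs : HasCompactSupport (fun q : ℤ_[p] × E => lam q.2 • (a q.1 q.2 - q.2)) := by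
    apply HasCompactSupport.intro (K := univ ×ˢ closedBall (0 : E) 1)
      (isCompact_univ.prod (isCompact_closedBall 0 1))
    rintro ⟨u, x⟩ hq
    have hx : 1 < ‖x‖ := by
      by_contra h
      exact hq ⟨trivial, by simpa only [mem_closedBall, dist_zero_right] using not_lt.1 h⟩
    show lam x • _ = 0
    rw [lam_eq_zero hx.le, zero_smul]
  have hu := hs.uniformContinuous_of_continuous hc
  rw [Metric.uniformContinuous_iff] at hu
  obtain ⟨δ, hδ, h⟩ := hu (ε / 2) (by positivity)
  refine ⟨min (δ / 2) (ε / 2), by positivity, fun u x y hxy => ?_⟩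
  have h1 : dist ((u, x) : ℤ_[p] × E) (u, y) < δ := by
    rw [Prod.dist_eq, dist_self, dist_eq_norm, max_lt_iff]
    refine ⟨hδ, ?_⟩
    have := hxy.trans (min_le_left _ _)
    show ‖x - y‖ < δ
    linarith only [hδ, this]
  have h2 := h h1
  rw [dist_eq_norm] at h2
  have h3 : glob a u x - glob a u y = (x - y) +
      (lam x • (a u x - x) - lam y • (a u y - y)) := by
    unfold glob; abel
  rw [h3]
  calc _ ≤ ‖x - y‖ + ‖lam x • (a u x - x) - lam y • (a u y - y)‖ := norm_add_le _ _
    _ ≤ ε / 2 + ε / 2 := add_le_add (hxy.trans (min_le_right _ _)) h2.le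
    _ = ε := by ring

theorem norm_le_of_toZModPow_eq {k : ℕ} {u v : ℤ_[p]}
    (h : PadicInt.toZModPow k u = PadicInt.toZModPow k v) : ‖u - v‖ ≤ (p : ℝ) ^ (-(k : ℤ)) := by
  rw [PadicInt.norm_le_pow_iff_mem_span_pow, ← PadicInt.ker_toZModPow, RingHom.mem_ker,
    map_sub, h, sub_self]

/-- elements with the same residue modulo a high power act in almost the same way. -/
theorem small_diff [ProperSpace E] (act : LocAct p W a)
    (hB : closedBall (0 : E) 1 ⊆ W) {ε : ℝ} (hε : 0 < ε) :
    ∃ k₀ : ℕ, ∀ k, k₀ ≤ k → ∀ u v : ℤ_[p], PadicInt.toZModPow k u = PadicInt.toZModPow k v →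
      ∀ x ∈ closedBall (0 : E) 1, ‖a u x - a v x‖ ≤ ε := by
  have hK : IsCompact ((univ : Set ℤ_[p]) ×ˢ closedBall (0 : E) 1) :=
    isCompact_univ.prod (isCompact_closedBall 0 1)
  have hu := hK.uniformContinuousOn_of_continuous
    (act.cont.mono (prod_mono (le_refl _) hB))
  rw [Metric.uniformContinuousOn_iff] at hu
  obtain ⟨δ, hδ, h⟩ := hu ε hε
  have hp : 1 < (p : ℝ) := by exact_mod_cast (Fact.out : p.Prime).one_lt
  obtain ⟨k₀, hk₀⟩ := exists_pow_lt_of_lt_one hδ (inv_lt_one_of_one_lt₀ hp)
  refine ⟨k₀, fun k hk u v huv x hx => ?_⟩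
  have h1 := norm_le_of_toZModPow_eq huv
  have h2 : ((p : ℝ)⁻¹) ^ k ≤ ((p : ℝ)⁻¹) ^ k₀ :=
    pow_le_pow_of_le_one (by (clear * - hp; positivity)) (inv_le_one_of_one_le₀ hp.le) hk
  have h3 : (p : ℝ) ^ (-(k : ℤ)) = ((p : ℝ)⁻¹) ^ k := by
    rw [zpow_neg, zpow_natCast, inv_pow]
  have h4 : dist ((u, x) : ℤ_[p] × E) (v, x) < δ := by
    rw [Prod.dist_eq, dist_self, dist_eq_norm, max_lt_iff]
    refine ⟨?_, hδ⟩
    rw [h3] at h1
    show ‖u - v‖ < δ
    linarith
  have h5 := h (u, x) ⟨trivial, hx⟩ (v, x) ⟨trivial, hx⟩ h4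
  rw [dist_eq_norm] at h5
  exact h5.le

end Vale.Agent.P228.Geo
end
end

section

section

namespace Vale.Agent.P228

open Set Topology MeasureTheory Metric
open scoped ENNReal

set_option linter.unusedSectionVars false

variable {p : ℕ} [Fact p.Prime]

/-- the subgroups `p ^ k ℤ_p` form a basis of neighbourhoods of zero. -/
theorem exists_pow_mul_mem {U : Set ℤ_[p]} (hU : U ∈ 𝓝 (0 : ℤ_[p])) :
    ∃ k₀ : ℕ, ∀ k ≥ k₀, ∀ u : ℤ_[p], (p : ℤ_[p]) ^ k * u ∈ U := by
  obtain ⟨ε, hε, hεU⟩ := Metric.mem_nhds_iff.1 hU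
  have hp1 : (1 : ℝ) < p := by exact_mod_cast (Fact.out : p.Prime).one_lt
  have hp0 : (0 : ℝ) < p := by linarith only [hp1]
  obtain ⟨k₀, hk₀⟩ := exists_pow_lt_of_lt_one hε (inv_lt_one_of_one_lt₀ hp1)
  refine ⟨k₀, fun k hk u => hεU ?_⟩
  rw [mem_ball, dist_zero_right, norm_mul, norm_pow, PadicInt.norm_p]
  calc ((p : ℝ)⁻¹) ^ k * ‖u‖ ≤ ((p : ℝ)⁻¹) ^ k * 1 :=
        mul_le_mul_of_nonneg_left (PadicInt.norm_le_one u) (by positivity)
    _ = ((p : ℝ)⁻¹) ^ k := mul_one _
    _ ≤ ((p : ℝ)⁻¹) ^ k₀ := pow_le_pow_of_le_one (by positivity) (inv_lt_one_of_one_lt₀ hp1).le hk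
    _ < ε := hk₀

/-- tube lemma for small subgroups. -/
theorem exists_pow_tube {X : Type*} [TopologicalSpace X] {C : Set X} (hC : IsCompact C)
    {O : Set (ℤ_[p] × X)} (hO : ∀ x ∈ C, O ∈ 𝓝 ((0 : ℤ_[p]), x)) :
    ∃ k₀ : ℕ, ∀ k ≥ k₀, ∀ u : ℤ_[p], ∀ x ∈ C, ((p : ℤ_[p]) ^ k * u, x) ∈ O := by
  have h1 : ∀ x ∈ C, (∃ U ∈ 𝓝 (0 : ℤ_[p]), ∃ V ∈ 𝓝[C] x, U ×ˢ V ⊆ O) := by
    intro x hx
    obtain ⟨U, hU, V, hV, hUV⟩ := mem_nhds_prod_iff.1 (hO x hx)
    exact ⟨U, hU, V, mem_nhdsWithin_of_mem_nhds hV, hUV⟩
  have h2 : ∃ U ∈ 𝓝 (0 : ℤ_[p]), U ×ˢ C ⊆ O := by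
    refine hC.induction_on (p := fun S => ∃ U ∈ 𝓝 (0 : ℤ_[p]), U ×ˢ S ⊆ O) ?_ ?_ ?_ ?_
    · exact ⟨univ, Filter.univ_mem, by simp only [prod_empty, empty_subset]⟩
    · rintro s t hst ⟨U, hU, hUt⟩
      exact ⟨U, hU, (prod_mono_right hst).trans hUt⟩
    · rintro s t ⟨U, hU, hUs⟩ ⟨U', hU', hUt⟩
      refine ⟨U ∩ U', Filter.inter_mem hU hU', ?_⟩
      rintro ⟨u, x⟩ ⟨hu, hx⟩
      rcases hx with hx | hx
      · exact hUs ⟨hu.1, hx⟩
      · exact hUt ⟨hu.2, hx⟩
    · intro x hx
      obtain ⟨U, hU, V, hV, hUV⟩ := h1 x hx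
      exact ⟨V, hV, U, hU, hUV⟩
  obtain ⟨U, hU, hUC⟩ := h2
  obtain ⟨k₀, hk₀⟩ := exists_pow_mul_mem hU
  exact ⟨k₀, fun k hk u x hx => hUC ⟨hk₀ k hk u, hx⟩⟩

/-- uniform tube lemma over all of `ℤ_[p]`. -/
theorem exists_nhds_tube {X : Type*} [TopologicalSpace X] {x₀ : X}
    {O : Set (ℤ_[p] × X)} (hO : ∀ u : ℤ_[p], O ∈ 𝓝 (u, x₀)) :
    ∃ V ∈ 𝓝 x₀, ∀ u : ℤ_[p], ∀ x ∈ V, (u, x) ∈ O := by
  have h2 : ∃ V ∈ 𝓝 x₀, (univ : Set ℤ_[p]) ×ˢ V ⊆ O := by
    refine isCompact_univ.induction_on (p := fun S => ∃ V ∈ 𝓝 x₀, S ×ˢ V ⊆ O) ?_ ?_ ?_ ?_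
    · exact ⟨univ, Filter.univ_mem, by simp only [empty_prod, empty_subset]⟩
    · rintro s t hst ⟨U, hU, hUt⟩
      exact ⟨U, hU, (prod_mono_left hst).trans hUt⟩
    · rintro s t ⟨U, hU, hUs⟩ ⟨U', hU', hUt⟩
      refine ⟨U ∩ U', Filter.inter_mem hU hU', ?_⟩
      rintro ⟨u, x⟩ ⟨hu, hx⟩
      rcases hu with hu | hu
      · exact hUs ⟨hu, hx.1⟩
      · exact hUt ⟨hu, hx.2⟩
    · intro u _
      obtain ⟨U, hU, V, hV, hUV⟩ := mem_nhds_prod_iff.1 (hO u)
      exact ⟨U, mem_nhdsWithin_of_mem_nhds hU, V, hV, hUV⟩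
  obtain ⟨V, hV, hVO⟩ := h2
  exact ⟨V, hV, fun u x hx => hVO ⟨trivial, hx⟩⟩

section Charts

variable {M E : Type*} [TopologicalSpace M] [TopologicalSpace E]
  [AddAction ℤ_[p] M] [ContinuousVAdd ℤ_[p] M]

/-- the element `g` read in the chart `e`. -/
noncomputable def chartMap (e : OpenPartialHomeomorph M E) (g : ℤ_[p]) (x : E) : E := e (g +ᵥ e.symm x)

/-- the action of `p ^ k ℤ_p` read in the chart `e`. -/
noncomputable def chartAct (e : OpenPartialHomeomorph M E) (k : ℕ) (u : ℤ_[p]) (x : E) : E :=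
  chartMap e ((p : ℤ_[p]) ^ k * u) x

theorem locAct_chartAct (e : OpenPartialHomeomorph M E) (k : ℕ) {N : Set M}
    (hNs : N ⊆ e.source) (hinv : ∀ u : ℤ_[p], ∀ m ∈ N, ((p : ℤ_[p]) ^ k * u) +ᵥ m ∈ N) :
    LocAct p (e '' N) (chartAct (p := p) e k) where
  maps := by
    rintro u _ ⟨m, hm, rfl⟩
    refine ⟨((p : ℤ_[p]) ^ k * u) +ᵥ m, hinv u m hm, ?_⟩
    simp only [chartAct, chartMap, e.left_inv (hNs hm)]
  zero := by
    rintro _ ⟨m, hm, rfl⟩
    simp only [chartAct, chartMap, e.left_inv (hNs hm), mul_zero, zero_vadd]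
  add := by
    rintro u v _ ⟨m, hm, rfl⟩
    simp only [chartAct, chartMap, mul_add, e.left_inv (hNs hm), add_vadd, e.left_inv (hNs (hinv v m hm))]
  cont := by
    have h1 : ContinuousOn (fun z : ℤ_[p] × E => e.symm z.2) (univ ×ˢ (e '' N)) := by
      refine e.continuousOn_symm.comp continuousOn_snd ?_
      rintro ⟨u, _⟩ ⟨-, ⟨m, hm, rfl⟩⟩
      exact e.map_source (hNs hm)
    have h2 : ContinuousOn (fun z : ℤ_[p] × E => ((p : ℤ_[p]) ^ k * z.1) +ᵥ e.symm z.2)
        (univ ×ˢ (e '' N)) := by
      have h3 : ContinuousOn (fun z : ℤ_[p] × E => (p : ℤ_[p]) ^ k * z.1)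
          (univ ×ˢ (e '' N)) := (continuous_const.mul continuous_fst).continuousOn
      exact h3.vadd h1
    refine e.continuousOn.comp h2 ?_
    rintro ⟨u, _⟩ ⟨-, ⟨m, hm, rfl⟩⟩
    simp only [e.left_inv (hNs hm)]
    exact hNs (hinv u m hm)

theorem isOpen_chart_image (e : OpenPartialHomeomorph M E) {N : Set M} (hN : IsOpen N)
    (hNs : N ⊆ e.source) : IsOpen (e '' N) :=
  e.isOpen_image_of_subset_source hN hNs

/-- the saturation of a set under `p ^ k ℤ_p`. -/
def saturate (k : ℕ) (B : Set M) : Set M := ⋃ u : ℤ_[p], (fun m => ((p : ℤ_[p]) ^ k * u) +ᵥ m) '' B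

theorem isOpen_saturate (k : ℕ) {B : Set M} (hB : IsOpen B) : IsOpen (saturate (p := p) k B) :=
  isOpen_iUnion fun u => (Homeomorph.vadd ((p : ℤ_[p]) ^ k * u)).isOpenMap B hB

theorem subset_saturate (k : ℕ) (B : Set M) : B ⊆ saturate (p := p) k B := by
  intro m hm
  exact mem_iUnion.2 ⟨0, m, hm, by simp only [mul_zero, zero_vadd]⟩

theorem saturate_inv (k : ℕ) (B : Set M) (u : ℤ_[p]) {m : M} (hm : m ∈ saturate (p := p) k B) :
    ((p : ℤ_[p]) ^ k * u) +ᵥ m ∈ saturate (p := p) k B := by
  obtain ⟨v, b, hb, rfl⟩ := mem_iUnion.1 hm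
  refine mem_iUnion.2 ⟨u + v, b, hb, ?_⟩
  simp only [mul_add, add_vadd]

theorem saturate_subset (k : ℕ) {B S : Set M}
    (h : ∀ u : ℤ_[p], ∀ m ∈ B, ((p : ℤ_[p]) ^ k * u) +ᵥ m ∈ S) : saturate (p := p) k B ⊆ S := by
  intro m hm
  obtain ⟨v, b, hb, rfl⟩ := mem_iUnion.1 hm
  exact h v b hb

end Charts

end Vale.Agent.P228
end
end

section

section

/-! A staircase function adapted to a relation. -/

namespace Vale.Agent.P228.GRL

open Set Topology Metric

/-- a staircase: continuous monotone, `0` near `(-∞, ε']`, `N` from `ε` on, moving by at most one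
along the relation `r`. -/
theorem exists_stair (r : ℝ → ℝ → Prop) (hsymm : ∀ t t', r t t' → r t' t)
    (H : ∀ ε > 0, ∃ δ > 0, ∀ t t', r t t' → t ≤ δ → t' ≤ ε) (N : ℕ) :
    ∀ ε > 0, ∃ f : ℝ → ℝ, Continuous f ∧ Monotone f ∧ (∃ ε' > 0, ε' ≤ ε ∧ ∀ t ≤ ε', f t = 0) ∧
      (∀ t, ε ≤ t → f t = N) ∧ (∀ t, f t ≤ N) ∧ ∀ t t', r t t' → |f t - f t'| ≤ 1 := by
  induction N with
  | zero =>
    intro ε hε
    exact ⟨fun _ => 0, continuous_const, monotone_const, ⟨ε, hε, le_rfl, fun _ _ => rfl⟩,
      fun _ _ => by simp, fun _ => by simp, fun _ _ _ => by simp only [sub_self, abs_zero, zero_le_one]⟩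
  | succ N ih =>
    intro ε hε
    obtain ⟨f, hfc, hfm, ⟨ε', hε', hε'ε, hf0⟩, hfN, hfle, hfr⟩ := ih ε hε
    obtain ⟨δ, hδ, hδr⟩ := H ε' hε'
    set β := min δ ε' with hβ
    have hβ0 : 0 < β := lt_min hδ hε'
    have hβε' : β ≤ ε' := min_le_right _ _
    -- the ramp from `β / 2` to `β`
    let g : ℝ → ℝ := fun t => max 0 (min 1 ((t - β / 2) / (β / 2)))
    have hgc : Continuous g := by (clear * -; fun_prop)
    have hgm : Monotone g := by
      intro s t hst
      have : (s - β / 2) / (β / 2) ≤ (t - β / 2) / (β / 2) := by (clear * - hst hδ hε'; gcongr)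
      exact max_le_max le_rfl (min_le_min le_rfl this)
    have hg0 : ∀ t ≤ β / 2, g t = 0 := by
      intro t ht
      have : (t - β / 2) / (β / 2) ≤ 0 := div_nonpos_of_nonpos_of_nonneg (by linarith) (by linarith only [hβ0])
      exact max_eq_left ((min_le_right _ _).trans this)
    have hg1 : ∀ t, β ≤ t → g t = 1 := by
      intro t ht
      have : 1 ≤ (t - β / 2) / (β / 2) := by rw [le_div_iff₀ (by linarith)]; linarith only [ht]
      change max 0 (min 1 _) = 1
      rw [min_eq_left this]; norm_num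
    have hgnn : ∀ t, 0 ≤ g t := fun t => le_max_left _ _
    have hgle : ∀ t, g t ≤ 1 := fun t => max_le (by norm_num) (min_le_left _ _)
    refine ⟨fun t => f t + g t, hfc.add hgc, hfm.add hgm, ⟨β / 2, by linarith only [hβ0], by linarith only [hε, hε'ε, hβε'], ?_⟩,
      ?_, ?_, ?_⟩
    · intro t ht
      change f t + g t = 0
      rw [hf0 t (by linarith), hg0 t ht, add_zero]
    · intro t ht
      change f t + g t = _
      rw [hfN t ht, hg1 t (by linarith only [hε'ε, hβε', ht])]
      push_cast; ring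
    · intro t
      change f t + g t ≤ _
      have h1 := hfle t
      have h2 := hgle t
      push_cast; linarith only [h1, h2]
    · intro t t' h
      change |f t + g t - (f t' + g t')| ≤ 1
      by_cases h1 : t ≤ ε' ∧ t' ≤ ε'
      · rw [hf0 t h1.1, hf0 t' h1.2, zero_add, zero_add, abs_le]
        constructor <;> linarith only [hgnn t', hgle t, hgnn t, hgle t']
      · have h2 : β ≤ t := by
          by_contra hcon
          push Not at hcon
          exact h1 ⟨by linarith only [hβε', hcon], hδr t t' h (hcon.le.trans (min_le_left _ _))⟩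
        have h3 : β ≤ t' := by
          by_contra hcon
          push Not at hcon
          exact h1 ⟨hδr t' t (hsymm _ _ h) (hcon.le.trans (min_le_left _ _)), by linarith only [hβε', hcon]⟩
        rw [hg1 t h2, hg1 t' h3]
        have := hfr t t' h
        rwa [add_sub_add_right_eq_sub]

end Vale.Agent.P228.GRL
end
end

section

section

section

/-! Sets of zero content with respect to a distance-like function and null images. -/

namespace Vale.Agent.P228

open Set Topology MeasureTheory Metric
open scoped ENNReal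

/-- `A` has zero `r`-dimensional content with respect to the distance-like function `D`. -/
def NullContent {E : Type*} (r : ℝ) (D : E → E → ℝ) (A : Set E) : Prop :=
  ∀ ε : ℝ, 0 < ε → ∃ (N : ℕ) (P : Fin N → Set E) (δ : Fin N → ℝ),
    (A ⊆ ⋃ j, P j) ∧ (∀ j, 0 ≤ δ j) ∧ (∀ j, ∀ x ∈ P j ∩ A, ∀ y ∈ P j ∩ A, D x y ≤ δ j) ∧
    ∑ j, (δ j) ^ r ≤ ε

theorem NullContent.mono {E : Type*} {r : ℝ} {D : E → E → ℝ} {A B : Set E}
    (h : NullContent r D A) (hBA : B ⊆ A) : NullContent r D B := by
  intro ε hε
  obtain ⟨N, P, δ, h1, h2, h3, h4⟩ := h ε hε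
  exact ⟨N, P, δ, hBA.trans h1, h2,
    fun j x hx y hy => h3 j x ⟨hx.1, hBA hx.2⟩ y ⟨hy.1, hBA hy.2⟩, h4⟩

/-- transport along a map, with a Lipschitz bound on the distance-like functions. -/
theorem NullContent.image {E E' : Type*} {r C : ℝ} {D : E → E → ℝ}
    {D' : E' → E' → ℝ} {A : Set E} {B : Set E'} (h : NullContent r D A) (g : E → E')
    (hB : B ⊆ g '' A) (hC : 0 ≤ C)
    (hD : ∀ x ∈ A, ∀ y ∈ A, D' (g x) (g y) ≤ C * D x y) : NullContent r D' B := by
  intro ε hε
  have hpos : 0 < ε / (C ^ r + 1) := by (clear * - hε hC; positivity)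
  obtain ⟨N, P, δ, h1, h2, h3, h4⟩ := h _ hpos
  refine ⟨N, fun j => g '' (P j ∩ A), fun j => C * δ j, ?_, fun j => mul_nonneg hC (h2 j), ?_, ?_⟩
  · intro y hy
    obtain ⟨x, hx, rfl⟩ := hB hy
    obtain ⟨j, hj⟩ := mem_iUnion.1 (h1 hx)
    exact mem_iUnion.2 ⟨j, x, ⟨hj, hx⟩, rfl⟩
  · rintro j _ ⟨⟨x, hx, rfl⟩, -⟩ _ ⟨⟨y, hy, rfl⟩, -⟩
    exact (hD x hx.2 y hy.2).trans (mul_le_mul_of_nonneg_left (h3 j x hx y hy) hC)
  · have h5 : ∑ j, (C * δ j) ^ r = C ^ r * ∑ j, (δ j) ^ r := by
      rw [Finset.mul_sum]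
      exact Finset.sum_congr rfl fun j _ => Real.mul_rpow hC (h2 j)
    rw [h5]
    have h6 : 0 ≤ C ^ r := Real.rpow_nonneg hC r
    calc C ^ r * ∑ j, (δ j) ^ r ≤ C ^ r * (ε / (C ^ r + 1)) := mul_le_mul_of_nonneg_left h4 h6
      _ ≤ (C ^ r + 1) * (ε / (C ^ r + 1)) := by
          apply mul_le_mul_of_nonneg_right _ hpos.le
          linarith only []
      _ = ε := by field_simp

/-- a set with zero content of dimension `dim V` has null image under a Lipschitz map into `V`. -/
theorem NullContent.measure_image_eq_zero {E V : Type*} [NormedAddCommGroup V] [NormedSpace ℝ V]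
    [FiniteDimensional ℝ V] [MeasurableSpace V] [BorelSpace V] (μ : Measure V)
    [μ.IsAddHaarMeasure] {D : E → E → ℝ} {A : Set E}
    (h : NullContent (Module.finrank ℝ V : ℝ) D A) (f : E → V) {C : ℝ} (hC : 0 ≤ C)
    (hf : ∀ x ∈ A, ∀ y ∈ A, ‖f x - f y‖ ≤ C * D x y) : μ (f '' A) = 0 := by
  classical
  set d := Module.finrank ℝ V with hd
  have key : ∀ ε : ℝ, 0 < ε → μ (f '' A) ≤ ENNReal.ofReal (C ^ d * ε) * μ (ball 0 1) := by
    intro ε hε
    obtain ⟨N, P, δ, h1, h2, h3, h4⟩ := h ε hε
    have hsub : f '' A ⊆ ⋃ j : Fin N, f '' (P j ∩ A) := by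
      rintro _ ⟨x, hx, rfl⟩
      obtain ⟨j, hj⟩ := mem_iUnion.1 (h1 hx)
      exact mem_iUnion.2 ⟨j, x, ⟨hj, hx⟩, rfl⟩
    have hj : ∀ j : Fin N, μ (f '' (P j ∩ A)) ≤ ENNReal.ofReal ((C * δ j) ^ d) * μ (ball 0 1) := by
      intro j
      rcases (P j ∩ A).eq_empty_or_nonempty with he | ⟨x, hx⟩
      · rw [he]; simp only [image_empty, measure_empty, zero_le]
      · have hs : f '' (P j ∩ A) ⊆ closedBall (f x) (C * δ j) := by
          rintro _ ⟨y, hy, rfl⟩
          rw [mem_closedBall, dist_eq_norm]
          exact (hf y hy.2 x hx.2).trans (mul_le_mul_of_nonneg_left (h3 j y hy x hx) hC)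
        refine (measure_mono hs).trans ?_
        rw [Measure.addHaar_closedBall μ _ (mul_nonneg hC (h2 j))]
    calc μ (f '' A) ≤ μ (⋃ j : Fin N, f '' (P j ∩ A)) := measure_mono hsub
      _ ≤ ∑ j : Fin N, μ (f '' (P j ∩ A)) := measure_iUnion_fintype_le _ _
      _ ≤ ∑ j : Fin N, ENNReal.ofReal ((C * δ j) ^ d) * μ (ball 0 1) :=
          Finset.sum_le_sum fun j _ => hj j
      _ = ENNReal.ofReal (∑ j : Fin N, (C * δ j) ^ d) * μ (ball 0 1) := by
          rw [← Finset.sum_mul, ENNReal.ofReal_sum_of_nonneg]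
          intro j _
          exact pow_nonneg (mul_nonneg hC (h2 j)) _
      _ ≤ ENNReal.ofReal (C ^ d * ε) * μ (ball 0 1) := by
          gcongr
          have : ∑ j : Fin N, (C * δ j) ^ d = C ^ d * ∑ j : Fin N, (δ j) ^ (d : ℝ) := by
            rw [Finset.mul_sum]
            refine Finset.sum_congr rfl fun j _ => ?_
            rw [mul_pow, Real.rpow_natCast]
          rw [this]
          exact mul_le_mul_of_nonneg_left h4 (by (clear * - hC; positivity))
  have hfin : μ (ball (0 : V) 1) < ⊤ := measure_ball_lt_top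
  have hlim : Filter.Tendsto (fun ε : ℝ => ENNReal.ofReal (C ^ d * ε) * μ (ball (0 : V) 1))
      (𝓝[>] 0) (𝓝 0) := by
    have h1 : Filter.Tendsto (fun ε : ℝ => ENNReal.ofReal (C ^ d * ε)) (𝓝[>] 0) (𝓝 0) := by
      have : Filter.Tendsto (fun ε : ℝ => C ^ d * ε) (𝓝[>] 0) (𝓝 0) := by
        have h0 : Filter.Tendsto (fun ε : ℝ => C ^ d * ε) (𝓝 0) (𝓝 (C ^ d * 0)) :=
          (continuous_const.mul continuous_id).tendsto 0
        rw [mul_zero] at h0
        exact h0.mono_left nhdsWithin_le_nhds
      have h2 := ENNReal.tendsto_ofReal this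
      rwa [ENNReal.ofReal_zero] at h2
    have h3 := ENNReal.Tendsto.mul_const (b := μ (ball (0 : V) 1)) h1 (Or.inr hfin.ne)
    rwa [zero_mul] at h3
  refine le_antisymm ?_ bot_le
  refine ge_of_tendsto hlim ?_
  filter_upwards [self_mem_nhdsWithin] with ε hε
  exact key ε hε

end Vale.Agent.P228
end
end
end

section

section

section

/-! Dyadic cells of a cube in Euclidean space. -/

namespace Vale.Agent.P228

open Set Topology MeasureTheory
open scoped ENNReal

variable {n : ℕ}

/-- dyadic index of level `k` of a point of the cube of centre `c` and half side `ρ`. -/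
noncomputable def idx (c : EuclideanSpace ℝ (Fin n)) (ρ : ℝ) (k : ℕ)
    (x : EuclideanSpace ℝ (Fin n)) : Fin n → ℤ :=
  fun i => ⌊(2 : ℝ) ^ k * ((x i - c i + ρ) / (2 * ρ))⌋

/-- dyadic cell. -/
def cell (c : EuclideanSpace ℝ (Fin n)) (ρ : ℝ) (k : ℕ) (v : Fin n → ℤ) :
    Set (EuclideanSpace ℝ (Fin n)) := {x | idx c ρ k x = v}

variable {c : EuclideanSpace ℝ (Fin n)} {ρ : ℝ}

theorem mem_cell_idx (k : ℕ) (x : EuclideanSpace ℝ (Fin n)) : x ∈ cell c ρ k (idx c ρ k x) := rfl

theorem mem_cell_iff (hρ : 0 < ρ) {k : ℕ} {v : Fin n → ℤ} {x : EuclideanSpace ℝ (Fin n)} :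
    x ∈ cell c ρ k v ↔ ∀ i, c i - ρ + v i * (2 * ρ / 2 ^ k) ≤ x i ∧
      x i < c i - ρ + (v i + 1) * (2 * ρ / 2 ^ k) := by
  have h2 : (0 : ℝ) < 2 ^ k := by positivity
  unfold cell idx
  rw [mem_ofPred_eq, funext_iff]
  refine forall_congr' fun i => ?_
  rw [Int.floor_eq_iff]
  have h1 : (2 : ℝ) ^ k * ((x i - c i + ρ) / (2 * ρ)) = (x i - c i + ρ) / (2 * ρ / 2 ^ k) := by
    field_simp
  have h3 : 0 < 2 * ρ / 2 ^ k := by positivity
  rw [h1, le_div_iff₀ h3, div_lt_iff₀ h3]
  constructor
  · rintro ⟨h4, h5⟩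
    exact ⟨by linarith only [h4], by linarith only [h5]⟩
  · rintro ⟨h4, h5⟩
    exact ⟨by linarith only [h4], by linarith only [h5]⟩

theorem measurableSet_cell (hρ : 0 < ρ) (k : ℕ) (v : Fin n → ℤ) :
    MeasurableSet (cell c ρ k v) := by
  have : cell c ρ k v = ⋂ i, {x | c i - ρ + v i * (2 * ρ / 2 ^ k) ≤ x i ∧
      x i < c i - ρ + (v i + 1) * (2 * ρ / 2 ^ k)} := by
    ext x
    rw [mem_cell_iff hρ]
    simp only [mem_iInter, mem_ofPred_eq]
  rw [this]
  refine MeasurableSet.iInter fun i => ?_
  have h1 : Measurable fun x : EuclideanSpace ℝ (Fin n) => x i := by fun_prop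
  exact (measurableSet_le measurable_const h1).inter (measurableSet_lt h1 measurable_const)

theorem volume_cell (hρ : 0 < ρ) (k : ℕ) (v : Fin n → ℤ) :
    volume (cell c ρ k v) = ENNReal.ofReal ((2 * ρ / 2 ^ k) ^ n) := by
  have h1 : (WithLp.toLp 2 : (Fin n → ℝ) → EuclideanSpace ℝ (Fin n)) ⁻¹' (cell c ρ k v) =
      Set.pi univ fun i => Ico (c i - ρ + v i * (2 * ρ / 2 ^ k))
        (c i - ρ + (v i + 1) * (2 * ρ / 2 ^ k)) := by
    ext x
    rw [mem_preimage, mem_cell_iff hρ]
    simp only [mem_pi, mem_univ, mem_Ico, forall_const]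
  rw [← (PiLp.volume_preserving_toLp (Fin n)).measure_preimage
    (measurableSet_cell hρ k v).nullMeasurableSet, h1, Real.volume_pi_Ico]
  have h3 : (0 : ℝ) < 2 * ρ / 2 ^ k := by positivity
  have h2 : ∀ i, ENNReal.ofReal (c i - ρ + (v i + 1) * (2 * ρ / 2 ^ k) -
      (c i - ρ + v i * (2 * ρ / 2 ^ k))) = ENNReal.ofReal (2 * ρ / 2 ^ k) := by
    intro i
    congr 1
    ring
  simp only [h2]
  rw [Finset.prod_const, Finset.card_univ, Fintype.card_fin, ENNReal.ofReal_pow h3.le]

theorem idx_succ {k : ℕ} {x z : EuclideanSpace ℝ (Fin n)}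
    (h : idx c ρ (k + 1) x = idx c ρ (k + 1) z) : idx c ρ k x = idx c ρ k z := by
  have key : ∀ a b : ℝ, ⌊2 * a⌋ = ⌊2 * b⌋ → ⌊a⌋ ≤ ⌊b⌋ := by
    intro a b hab
    rw [Int.le_floor]
    have h1 : ((⌊a⌋ : ℤ) : ℝ) ≤ a := Int.floor_le a
    have h2 : 2 * ⌊a⌋ ≤ ⌊2 * a⌋ := by
      rw [Int.le_floor]; push_cast; linarith only [h1]
    rw [hab] at h2
    have h3 : ((⌊2 * b⌋ : ℤ) : ℝ) ≤ 2 * b := Int.floor_le _
    have h4 : ((2 * ⌊a⌋ : ℤ) : ℝ) ≤ ((⌊2 * b⌋ : ℤ) : ℝ) := by exact_mod_cast h2
    push_cast at h4
    linarith only [h3, h4]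
  funext i
  have h1 := congrFun h i
  simp only [idx, pow_succ'] at h1
  rw [mul_assoc, mul_assoc] at h1
  exact le_antisymm (key _ _ h1) (key _ _ h1.symm)

theorem cell_anti {k j : ℕ} (hkj : k ≤ j) (x : EuclideanSpace ℝ (Fin n)) :
    cell c ρ j (idx c ρ j x) ⊆ cell c ρ k (idx c ρ k x) := by
  induction j, hkj using Nat.le_induction with
  | base => exact le_rfl
  | succ j _ ih =>
    refine Subset.trans ?_ ih
    intro z hz
    exact idx_succ hz

/-- the open cube -/
def ocube (c : EuclideanSpace ℝ (Fin n)) (ρ : ℝ) : Set (EuclideanSpace ℝ (Fin n)) :=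
  {x | ∀ i, |x i - c i| < ρ}

/-- the closed cube -/
def ccube (c : EuclideanSpace ℝ (Fin n)) (ρ : ℝ) : Set (EuclideanSpace ℝ (Fin n)) :=
  {x | ∀ i, |x i - c i| ≤ ρ}

theorem idx_zero_of_mem (hρ : 0 < ρ) {x : EuclideanSpace ℝ (Fin n)} (hx : x ∈ ocube c ρ) :
    idx c ρ 0 x = 0 := by
  funext i
  have h := abs_lt.1 (hx i)
  simp only [idx, pow_zero, one_mul, Pi.zero_apply]
  rw [Int.floor_eq_zero_iff]
  constructor
  · apply div_nonneg <;> linarith only [h, hρ]
  · rw [div_lt_one (by linarith)]; linarith only [h]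

theorem cell_zero_subset (hρ : 0 < ρ) : cell c ρ 0 0 ⊆ ccube c ρ := by
  intro x hx i
  have h := (mem_cell_iff hρ).1 hx i
  simp only [Pi.zero_apply, Int.cast_zero, zero_mul, add_zero, pow_zero, div_one, zero_add,
    one_mul] at h
  rw [abs_le]
  constructor <;> linarith

theorem cell_subset_ccube (hρ : 0 < ρ) {x : EuclideanSpace ℝ (Fin n)} (hx : x ∈ ocube c ρ)
    (k : ℕ) : cell c ρ k (idx c ρ k x) ⊆ ccube c ρ := by
  refine (cell_anti (Nat.zero_le k) x).trans ?_
  rw [idx_zero_of_mem hρ hx]
  exact cell_zero_subset hρ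

theorem abs_sub_lt_of_cell (hρ : 0 < ρ) {k : ℕ} {v : Fin n → ℤ}
    {x z : EuclideanSpace ℝ (Fin n)} (hx : x ∈ cell c ρ k v) (hz : z ∈ cell c ρ k v) (i : Fin n) :
    |x i - z i| < 2 * ρ / 2 ^ k := by
  have h1 := (mem_cell_iff hρ).1 hx i
  have h2 := (mem_cell_iff hρ).1 hz i
  have h3 : c i - ρ + ((v i : ℝ) + 1) * (2 * ρ / 2 ^ k) =
    c i - ρ + (v i : ℝ) * (2 * ρ / 2 ^ k) + 2 * ρ / 2 ^ k := by ring
  rw [abs_lt]
  constructor <;> linarith only [h1, h2]

theorem norm_sub_le_of_cell (hρ : 0 < ρ) {k : ℕ} {v : Fin n → ℤ}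
    {x z : EuclideanSpace ℝ (Fin n)} (hx : x ∈ cell c ρ k v) (hz : z ∈ cell c ρ k v) :
    ‖x - z‖ ≤ Real.sqrt n * (2 * ρ / 2 ^ k) := by
  have h0 : (0 : ℝ) ≤ 2 * ρ / 2 ^ k := by positivity
  rw [EuclideanSpace.norm_eq]
  have h2 : ∑ i, ‖(x - z) i‖ ^ 2 ≤ n * (2 * ρ / 2 ^ k) ^ 2 := by
    calc ∑ i, ‖(x - z) i‖ ^ 2 ≤ ∑ _i : Fin n, (2 * ρ / 2 ^ k) ^ 2 := by
          apply Finset.sum_le_sum
          intro i _
          rw [Real.norm_eq_abs]
          exact pow_le_pow_left₀ (abs_nonneg _) (abs_sub_lt_of_cell hρ hx hz i).le 2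
      _ = n * (2 * ρ / 2 ^ k) ^ 2 := by simp only [Finset.sum_const, Finset.card_univ, Fintype.card_fin, nsmul_eq_mul]
  calc Real.sqrt (∑ i, ‖(x - z) i‖ ^ 2) ≤ Real.sqrt (n * (2 * ρ / 2 ^ k) ^ 2) :=
        Real.sqrt_le_sqrt h2
    _ = Real.sqrt n * (2 * ρ / 2 ^ k) := by
        rw [Real.sqrt_mul (Nat.cast_nonneg n), Real.sqrt_sq h0]

/-- index range for points of the open cube -/
theorem idx_range (hρ : 0 < ρ) {x : EuclideanSpace ℝ (Fin n)} (hx : x ∈ ocube c ρ) (k : ℕ)
    (i : Fin n) : ∃ m : Fin (2 ^ k), idx c ρ k x i = ((m : ℕ) : ℤ) := by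
  have h := abs_lt.1 (hx i)
  have h1 : 0 ≤ (x i - c i + ρ) / (2 * ρ) := by apply div_nonneg <;> linarith
  have h2 : (x i - c i + ρ) / (2 * ρ) < 1 := by
    rw [div_lt_one (by linarith only [hρ])]; linarith only [h]
  have h3 : (0 : ℝ) < 2 ^ k := by positivity
  have h4 : 0 ≤ idx c ρ k x i := Int.floor_nonneg.2 (by (clear * - h1; positivity))
  have h5 : idx c ρ k x i < 2 ^ k := by
    unfold idx
    rw [Int.floor_lt]
    push_cast
    nlinarith only [h2, h3]
  obtain ⟨m, hm⟩ := Int.eq_ofNat_of_zero_le h4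
  rw [hm] at h5
  have h6 : m < 2 ^ k := by exact_mod_cast h5
  exact ⟨⟨m, h6⟩, hm⟩

end Vale.Agent.P228
end
end
end

section

section

end
end

section

section

section

set_option linter.unusedSectionVars false

open Set Topology Bornology MeasureTheory

namespace Vale.Agent.P228

variable {p : ℕ} [Fact p.Prime]

/-- the standard character of order `p` of `ℤ_[p]` -/
noncomputable def chi (p : ℕ) [Fact p.Prime] (u : ℤ_[p]) : ℂ :=
  ZMod.stdAddChar (PadicInt.toZMod u)

lemma chi_add (u v : ℤ_[p]) : chi p (u + v) = chi p u * chi p v := by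
  simp [chi, AddChar.map_add_eq_mul]

lemma chi_zero : chi p 0 = 1 := by simp [chi]

lemma chi_ne_zero (u : ℤ_[p]) : chi p u ≠ 0 := by
  intro h
  have := chi_add (p := p) u (-u)
  rw [add_neg_cancel, chi_zero, h, zero_mul] at this
  exact one_ne_zero this

lemma norm_chi (u : ℤ_[p]) : ‖chi p u‖ = 1 := by
  rw [chi, ZMod.stdAddChar_apply]
  exact Circle.norm_coe _

lemma chi_one : chi p 1 = Complex.exp (2 * Real.pi * Complex.I / p) := by
  have h := ZMod.stdAddChar_coe (N := p) 1
  simp only [chi, map_one]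
  have e : ((1 : ℤ) : ZMod p) = 1 := by simp
  rw [e] at h
  rw [h]
  congr 1
  push_cast
  ring

lemma chi_pow (u : ℤ_[p]) : chi p u ^ p = 1 := by
  have h1 : ∀ n : ℕ, chi p u ^ n = chi p (n • u) := by
    intro n
    induction n with
    | zero => simp [chi_zero]
    | succ n ih => rw [pow_succ, ih, succ_nsmul, chi_add]
  rw [h1]
  simp [chi]

lemma continuous_chi : Continuous (chi p) := by
  have h1 : IsLocallyConstant (fun u : ℤ_[p] => PadicInt.toZMod u) := by
    rw [IsLocallyConstant.iff_eventually_eq]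
    intro u
    filter_upwards [Metric.ball_mem_nhds u one_pos] with v hv
    have h2 : v - u ∈ RingHom.ker (PadicInt.toZMod : ℤ_[p] →+* ZMod p) := by
      rw [PadicInt.ker_toZMod, IsLocalRing.mem_maximalIdeal, PadicInt.mem_nonunits]
      rwa [← dist_eq_norm]
    rw [RingHom.mem_ker, map_sub, sub_eq_zero] at h2
    exact h2
  exact (h1.comp (fun z => (ZMod.stdAddChar z : ℂ))).continuous

lemma continuous_act {E : Type*} [TopologicalSpace E] {W : Set E} {a : ℤ_[p] → E → E}
    (act : LocAct p W a) {x : E} (hx : x ∈ W) : Continuous fun u => a u x := by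
  rw [← continuousOn_univ]
  have h1 : ContinuousOn (fun u : ℤ_[p] => (u, x)) univ := by fun_prop
  exact act.cont.comp h1 (fun u _ => ⟨mem_univ _, hx⟩)

lemma continuousOn_act {E : Type*} [TopologicalSpace E] {W : Set E} {a : ℤ_[p] → E → E}
    (act : LocAct p W a) (u : ℤ_[p]) : ContinuousOn (a u) W := by
  have h1 : ContinuousOn (fun x : E => (u, x)) W := by fun_prop
  exact act.cont.comp h1 (fun x hx => ⟨mem_univ _, hx⟩)

lemma injOn_act {E : Type*} [TopologicalSpace E] {W : Set E} {a : ℤ_[p] → E → E}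
    (act : LocAct p W a) (u : ℤ_[p]) : InjOn (a u) W := by
  intro x hx y hy h
  have h1 := act.add (-u) u x hx
  have h2 := act.add (-u) u y hy
  rw [neg_add_cancel, act.zero x hx] at h1
  rw [neg_add_cancel, act.zero y hy] at h2
  rw [h1, h2, h]

/-- two continuous functions on `ℤ_[p]` agreeing on `ℕ` agree -/
lemma eq_of_nat {X : Type*} [TopologicalSpace X] [T2Space X] {f g : ℤ_[p] → X} (hf : Continuous f)
    (hg : Continuous g) (h : ∀ n : ℕ, f n = g n) (u : ℤ_[p]) : f u = g u := by
  have := PadicInt.denseRange_natCast (p := p).equalizer hf hg (funext h)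
  exact congrFun this u

attribute [local instance] msZ bsZ

/-- Extension of an equivariant function from a closed invariant set. -/
theorem exists_equivariant {E : Type*} [NormedAddCommGroup E] [NormedSpace ℝ E]
    [FiniteDimensional ℝ E] {W : Set E}
    {a : ℤ_[p] → E → E} (act : LocAct p W a) {K : Set E} (hK : IsClosed K)
    (hKW : K ⊆ W) (hKa : ∀ u, ∀ x ∈ K, a u x ∈ K) {γ : E → ℂ} (hγ : ContinuousOn γ K)
    (hγe : ∀ x ∈ K, γ (a 1 x) = chi p 1 * γ x) :
    ∃ Γ : E → ℂ, ContinuousOn Γ W ∧ (∀ u, ∀ x ∈ W, Γ (a u x) = chi p u * Γ x) ∧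
      ∀ x ∈ K, Γ x = γ x := by
  -- equivariance on `K`
  have h1 : ∀ u, ∀ x ∈ K, γ (a u x) = chi p u * γ x := by
    intro u x hx
    have hc1 : Continuous fun u => γ (a u x) := by
      rw [← continuousOn_univ]
      exact hγ.comp (continuous_act act (hKW hx)).continuousOn (fun u _ => hKa u x hx)
    have hc2 : Continuous fun u => chi p u * γ x := continuous_chi.mul continuous_const
    refine eq_of_nat hc1 hc2 (fun n => ?_) u
    induction n with
    | zero => simp [act.zero x (hKW hx), chi_zero]
    | succ n ih =>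
      have e : ((n + 1 : ℕ) : ℤ_[p]) = 1 + n := by push_cast; ring
      rw [e, act.add _ _ x (hKW hx), hγe _ (hKa _ x hx), ih, chi_add, mul_assoc]
  -- Tietze
  obtain ⟨g, hg⟩ := ContinuousMap.exists_restrict_eq hK
    (⟨fun x : K => γ x, continuousOn_iff_continuous_domRestrict.1 hγ⟩ : C(K, ℂ))
  have hg' : ∀ x ∈ K, g x = γ x := by
    intro x hx
    exact congrArg (fun f : C(K, ℂ) => f ⟨x, hx⟩) hg
  have hcont : ContinuousOn (fun q : E × ℤ_[p] => chi p (-q.2) * g (a q.2 q.1)) (W ×ˢ univ) := by
    have h2 : ContinuousOn (fun q : E × ℤ_[p] => a q.2 q.1) (W ×ˢ univ) := by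
      have h3 : ContinuousOn (fun q : E × ℤ_[p] => (q.2, q.1)) (W ×ˢ univ) := by fun_prop
      exact act.cont.comp h3 (fun q hq => ⟨mem_univ _, hq.1⟩)
    have h4 : Continuous (fun q : E × ℤ_[p] => chi p (-q.2)) := by
      exact continuous_chi.comp (by (clear W a act hKW hKa γ hγ hγe h1 g hg hg' h2; fun_prop))
    exact h4.continuousOn.mul (g.continuous.comp_continuousOn h2)
  refine ⟨fun x => avg (fun u => chi p (-u) * g (a u x)), ?_, ?_, ?_⟩
  · exact continuousOn_integral_of_compact_support (μ := muZ p)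
      (f := fun x u => chi p (-u) * g (a u x)) isCompact_univ hcont
      (fun _ u _ hu => absurd (mem_univ u) hu)
  · intro v x hx
    have h2 : (fun u => chi p (-u) * g (a u (a v x)))
        = fun u => (fun u' => chi p v * (chi p (-u') * g (a u' x))) (u + v) := by
      funext u
      simp only []
      rw [act.add u v x hx, ← mul_assoc, ← chi_add]
      congr 2
      ring
    show avg (fun u => chi p (-u) * g (a u (a v x))) = _
    rw [h2, avg_add_right (fun u' => chi p v * (chi p (-u') * g (a u' x))) v]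
    exact integral_const_mul _ _
  · intro x hx
    have h2 : (fun u => chi p (-u) * g (a u x)) = fun _ => γ x := by
      funext u
      rw [hg' _ (hKa u x hx), h1 u x hx, ← mul_assoc, ← chi_add, neg_add_cancel, chi_zero, one_mul]
    show avg (fun u => chi p (-u) * g (a u x)) = _
    rw [h2, avg_const]

end Vale.Agent.P228
end
end
end

section

section

section

namespace Vale.Agent.P228

open Set Topology MeasureTheory Metric
open scoped ENNReal

set_option linter.unusedSectionVars false

variable {p : ℕ} [Fact p.Prime]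
variable {n : ℕ} {M : Type*} [TopologicalSpace M] [AddAction ℤ_[p] M] [ContinuousVAdd ℤ_[p] M]

/-- an action with a trivially acting open subgroup is not faithful. -/
theorem not_faithful_of_trivial {k : ℕ}
    (h : ∀ (u : ℤ_[p]) (m : M), ((p : ℤ_[p]) ^ k * u) +ᵥ m = m) : ¬ FaithfulVAdd ℤ_[p] M := by
  intro hf
  have h1 : (p : ℤ_[p]) ^ k * 1 = 0 := by
    apply hf.eq_of_vadd_eq_vadd
    intro m
    rw [h, zero_vadd]
  rw [mul_one] at h1
  have h2 : (p : ℤ_[p]) ≠ 0 := by exact_mod_cast (Fact.out : p.Prime).ne_zero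
  exact pow_ne_zero k h2 h1

end Vale.Agent.P228
end
end
end

section

section

/-!
P228, block [S]: the slicing operator of a product `A * B`, `B` commuting with everything.
-/

open Matrix

set_option linter.unusedSectionVars false
set_option linter.unusedSimpArgs false

noncomputable section

namespace Vale.Agent.P228.Inv

variable {R : Type*} [Ring R]

section

variable {P Q A A' B B' : R}

private theorem comm_inv (h1 : B * B' = 1) (h2 : B' * B = 1) {X : R} (h : X * B = B * X) :
    X * B' = B' * X := by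
  calc X * B' = B' * B * X * B' := by rw [h2, one_mul]
    _ = B' * (X * B) * B' := by rw [h]; noncomm_ring
    _ = B' * X := by rw [mul_assoc, mul_assoc, h1, mul_one]

theorem vop_prod (h1 : B * B' = 1) (h2 : B' * B = 1) (hP : P * B = B * P)
    (hA : A * B = B * A) (hA' : A' * B = B * A') :
    vop P (A * B) (A' * B') = m2 1 0 0 B * vop P A A' * m2 1 0 0 B' := by
  have hP' := comm_inv h1 h2 hP
  have e1 : m2 (1 : R) 0 0 B' * m2 1 0 0 B = 1 := by rw [m2_mul]; simp [h2, m2_one]
  have f1 : Vl (2 * (P * (A * B) * P)) = m2 1 0 0 B * Vl (2 * (P * A * P)) * m2 1 0 0 B' := by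
    unfold Vl; rw [m2_mul, m2_mul]
    congr 1
    · simp
    · simp
    · have : P * (A * B) * P = B * (P * A * P) := by
        calc P * (A * B) * P = P * (B * A) * P := by rw [hA]
          _ = (P * B) * A * P := by noncomm_ring
          _ = _ := by rw [hP]; noncomm_ring
      rw [this]
      simp only [mul_one, one_mul, mul_zero, zero_mul, add_zero, zero_add]
      noncomm_ring
    · simp [h1]
  have f2 : Uu (-(P * (A' * B') * P)) = m2 1 0 0 B * Uu (-(P * A' * P)) * m2 1 0 0 B' := by
    unfold Uu; rw [m2_mul, m2_mul]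
    congr 1
    · simp
    · have : P * (A' * B') * P = (P * A' * P) * B' := by
        calc P * (A' * B') * P = P * A' * (B' * P) := by noncomm_ring
          _ = _ := by rw [← hP']; noncomm_ring
      rw [this]
      simp only [mul_one, one_mul, mul_zero, zero_mul, add_zero, zero_add]
      noncomm_ring
    · simp
    · simp [h1]
  have f3 : Dg (1 - 2 * P) = m2 1 0 0 B * Dg (1 - 2 * P) * m2 1 0 0 B' := by
    unfold Dg; rw [m2_mul, m2_mul]
    congr 1
    · simp
    · simp
    · simp
    · simp only [mul_one, one_mul, mul_zero, zero_mul, add_zero, zero_add]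
      calc 1 - 2 * P = (1 - 2 * P) * (B * B') := by rw [h1, mul_one]
        _ = (B - 2 * (P * B)) * B' := by noncomm_ring
        _ = _ := by rw [hP]; noncomm_ring
  unfold vop
  rw [f1, f2]
  nth_rewrite 1 [f3]
  set E := m2 (1 : R) 0 0 B
  set E' := m2 (1 : R) 0 0 B'
  set D := Dg (1 - 2 * P)
  set X := Vl (2 * (P * A * P))
  set Y := Uu (-(P * A' * P))
  calc E * D * E' * (E * X * E' * (E * Y * E') * (E * X * E' * (E * Y * E')))
      = E * D * (E' * E) * X * (E' * E) * Y * (E' * E) * X * (E' * E) * Y * E' := by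
        noncomm_ring
    _ = _ := by rw [e1]; noncomm_ring

theorem vinv_prod (hPP : P * P = P) (h1 : B * B' = 1) (h2 : B' * B = 1) (hP : P * B = B * P)
    (hA : A * B = B * A) (hA' : A' * B = B * A') :
    vinv P (A * B) (A' * B') = m2 1 0 0 B * vinv P A A' * m2 1 0 0 B' := by
  have e1 : m2 (1 : R) 0 0 B' * m2 1 0 0 B = 1 := by rw [m2_mul]; simp [h2, m2_one]
  have e2 : m2 (1 : R) 0 0 B * m2 1 0 0 B' = 1 := by rw [m2_mul]; simp [h1, m2_one]
  have hv := vop_prod h1 h2 hP hA hA'
  have a1 : vop P (A * B) (A' * B') * (m2 1 0 0 B * vinv P A A' * m2 1 0 0 B') = 1 := by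
    rw [hv]
    calc m2 1 0 0 B * vop P A A' * m2 1 0 0 B' * (m2 1 0 0 B * vinv P A A' * m2 1 0 0 B')
        = m2 1 0 0 B * vop P A A' * (m2 1 0 0 B' * m2 1 0 0 B) * vinv P A A' *
          m2 1 0 0 B' := by noncomm_ring
      _ = m2 1 0 0 B * (vop P A A' * vinv P A A') * m2 1 0 0 B' := by
          rw [e1]; noncomm_ring
      _ = 1 := by rw [vop_mul_vinv hPP, Matrix.mul_one, e2]
  calc vinv P (A * B) (A' * B') = vinv P (A * B) (A' * B') *
        (vop P (A * B) (A' * B') * (m2 1 0 0 B * vinv P A A' * m2 1 0 0 B')) := by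
        rw [a1, Matrix.mul_one]
    _ = _ := by rw [← Matrix.mul_assoc, vinv_mul_vop hPP, Matrix.one_mul]

variable [Algebra ℂ R]

theorem refl_prod (hPP : P * P = P) (h1 : B * B' = 1) (h2 : B' * B = 1) (hP : P * B = B * P)
    (hQ : Q * B = B * Q) (hA : A * B = B * A) (hA' : A' * B = B * A') :
    refl P Q (A * B) (A' * B') = m2 1 0 0 B * refl P Q A A' * m2 1 0 0 B' := by
  have e1 : m2 (1 : R) 0 0 B' * m2 1 0 0 B = 1 := by rw [m2_mul]; simp [h2, m2_one]
  have e2 : m2 (1 : R) 0 0 B * m2 1 0 0 B' = 1 := by rw [m2_mul]; simp [h1, m2_one]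
  have hQE : Dg Q * m2 1 0 0 B = m2 1 0 0 B * Dg Q := by
    unfold Dg; rw [m2_mul, m2_mul]; simp [hQ]
  unfold refl
  rw [vop_prod h1 h2 hP hA hA', vinv_prod hPP h1 h2 hP hA hA']
  set E := m2 (1 : R) 0 0 B
  set E' := m2 (1 : R) 0 0 B'
  set v := vop P A A'
  set w := vinv P A A'
  calc 2 * (E * v * E' * Dg Q * (E * w * E')) - 1
      = 2 * (E * v * E' * (Dg Q * E) * w * E') - 1 := by noncomm_ring
    _ = 2 * (E * v * (E' * E) * Dg Q * w * E') - E * E' := by rw [hQE, e2]; noncomm_ring
    _ = _ := by rw [e1]; noncomm_ring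

/-- entries of `S` of a product -/
theorem Sop_prod (hPP : P * P = P) (h1 : B * B' = 1) (h2 : B' * B = 1) (hP : P * B = B * P)
    (hQ : Q * B = B * Q) (hA : A * B = B * A) (hA' : A' * B = B * A') :
    Sop P Q (A * B) (A' * B') =
      m2 B 0 0 1 * Sop P Q A A' * m2 1 0 0 B' := by
  unfold Sop
  rw [refl_prod hPP h1 h2 hP hQ hA hA', ← Matrix.mul_assoc, ← Matrix.mul_assoc,
    ← Matrix.mul_assoc]
  congr 2
  unfold K0 Om
  rw [smul_mul_assoc, mul_smul_comm, m2_mul, m2_mul]
  simp

end

end Vale.Agent.P228.Inv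
end
end
end

section

section

end
end

section

section

/-! # P228, block K: the algebra of the Koszul step in an abstract ring

`a = P H P`, `b = (1/2) P K P`.  The Koszul form is
`F = U2 U1 diag(K,-h) U1* U2*` with `U1 = [1,0;a,1]`, `U2 = [1,-b;0,1]`. -/

set_option linter.all false

namespace Vale.Agent.P228.Kos

section Deep

variable {R : Type*} [Ring R]

/-- entries of the Koszul form -/
def F11 (h K a b : R) : R := (1 - b * a) * (K * (1 - a * b)) - b * (h * b)
def F12 (h K a b : R) : R := (1 - b * a) * (K * a) + b * h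
def F21 (h K a b : R) : R := a * (K * (1 - a * b)) + h * b
def F22 (h K a b : R) : R := a * (K * a) - h

/-- entries of its inverse -/
def G11 (k H a b : R) : R := H - a * (k * a)
def G12 (k H a b : R) : R := H * b + a * (k * (1 - a * b))
def G21 (k H a b : R) : R := b * H + (1 - b * a) * (k * a)
def G22 (k H a b : R) : R := b * (H * b) - (1 - b * a) * (k * (1 - a * b))

/-- a chain of projections `e4 ⊂ e3 ⊂ e2 ⊂ e1 ⊂ P` such that the operators move by one step -/
structure Chain (P h H K e1 e2 e3 e4 : R) : Prop where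
  PhP : P * h * P = P * H * P
  e1P : e1 * P = e1
  e2P : e2 * P = e2
  e3P : e3 * P = e3
  e4P : e4 * P = e4
  h1 : e1 * h = e1 * h * P
  H1 : e1 * H = e1 * H * P
  K1 : e1 * K = e1 * K * P
  h2 : e2 * h = e2 * h * e1
  H2 : e2 * H = e2 * H * e1
  K2 : e2 * K = e2 * K * e1
  h3 : e3 * h = e3 * h * e2
  H3 : e3 * H = e3 * H * e2
  K3 : e3 * K = e3 * K * e2
  h4 : e4 * h = e4 * h * e3
  H4 : e4 * H = e4 * H * e3
  K4 : e4 * K = e4 * K * e3

variable {P h k H K e1 e2 e3 e4 c : R}

/-- basic rewriting: `e (P T P) = e T` if `e T = e T e'` and `e' P = e'`. -/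
theorem cut_eq {e e' T P : R} (heP : e * P = e) (heT : e * T = e * T * e') (he' : e' * P = e') :
    e * (P * T * P) = e * T := by
  calc e * (P * T * P) = (e * P) * T * P := by simp only [mul_assoc]
    _ = e * T * P := by rw [heP]
    _ = e * T * e' * P := by rw [← heT]
    _ = e * T * (e' * P) := by simp only [mul_assoc]
    _ = e * T := by rw [he', ← heT]

theorem row_mul {e e' A A' B B' : R} (hA : e * A = e * A') (hl : e * A' = e * A' * e')
    (hB : e' * B = e' * B') : e * (A * B) = e * (A' * B') := by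
  calc e * (A * B) = e * A * B := by simp only [mul_assoc]
    _ = e * A' * e' * B := by rw [hA, ← hl]
    _ = e * A' * (e' * B) := by simp only [mul_assoc]
    _ = e * A' * e' * B' := by rw [hB]; simp only [mul_assoc]
    _ = e * (A' * B') := by rw [← hl]; simp only [mul_assoc]

theorem row_cmul {e A B B' c : R} (hc : ∀ x : R, c * x = x * c) (hA : e * A = e * c)
    (hB : e * B = e * B') : e * (A * B) = e * (c * B') := by
  calc e * (A * B) = e * A * B := by simp only [mul_assoc]
    _ = c * (e * B) := by rw [hA, ← hc]; simp only [mul_assoc]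
    _ = c * (e * B') := by rw [hB]
    _ = e * (c * B') := by rw [← mul_assoc, hc, mul_assoc]

theorem loc_cmul {e e' K c : R} (hc : ∀ x : R, c * x = x * c) (hK : e * K = e * K * e') :
    e * (c * K) = e * (c * K) * e' := by
  calc e * (c * K) = c * (e * K) := by rw [← mul_assoc, ← hc, mul_assoc]
    _ = c * (e * K * e') := by rw [← hK]
    _ = e * (c * K) * e' := by
        rw [← mul_assoc, ← mul_assoc, hc e]; simp only [mul_assoc]

theorem Chain.main (C : Chain P h H K e1 e2 e3 e4) (hPP : P * P = P) (hKH : K * H = 1)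
    (hHK : H * K = 1) (hc : ∀ x : R, c * x = x * c) (hcc : c + c = 1) :
    e4 * F11 h K (P * H * P) (c * (P * K * P)) = 0 ∧
    e4 * F12 h K (P * H * P) (c * (P * K * P)) = e4 ∧
    e4 * F21 h K (P * H * P) (c * (P * K * P)) = e4 ∧
    e4 * F22 h K (P * H * P) (c * (P * K * P)) = 0 := by
  set a := P * H * P with ha
  set b := c * (P * K * P) with hb
  have a4 : e4 * a = e4 * H := cut_eq C.e4P C.H4 C.e3P
  have a3 : e3 * a = e3 * H := cut_eq C.e3P C.H3 C.e2P
  have a2 : e2 * a = e2 * H := cut_eq C.e2P C.H2 C.e1P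
  have a1 : e1 * a = e1 * H := cut_eq C.e1P C.H1 hPP
  have bgen : ∀ {e e' : R}, e * P = e → e * K = e * K * e' → e' * P = e' →
      e * b = e * (c * K) := by
    intro e e' h1 h2 h3
    rw [hb, ← mul_assoc, ← hc e, mul_assoc, cut_eq h1 h2 h3, ← mul_assoc, hc e, mul_assoc]
  have b4 : e4 * b = e4 * (c * K) := bgen C.e4P C.K4 C.e3P
  have b3 : e3 * b = e3 * (c * K) := bgen C.e3P C.K3 C.e2P
  have b2 : e2 * b = e2 * (c * K) := bgen C.e2P C.K2 C.e1P
  have b1 : e1 * b = e1 * (c * K) := bgen C.e1P C.K1 hPP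
  have hgen : ∀ {e e' : R}, e * P = e → e * h = e * h * e' → e * H = e * H * e' →
      e' * P = e' → e * h = e * H := by
    intro e e' h1 h2 h3 h4
    rw [← cut_eq h1 h2 h4, C.PhP, cut_eq h1 h3 h4]
  have hh4 : e4 * h = e4 * H := hgen C.e4P C.h4 C.H4 C.e3P
  have hh3 : e3 * h = e3 * H := hgen C.e3P C.h3 C.H3 C.e2P
  have hh2 : e2 * h = e2 * H := hgen C.e2P C.h2 C.H2 C.e1P
  -- locality of `c K`
  have L4 := loc_cmul hc C.K4
  have L3 := loc_cmul hc C.K3
  have L2 := loc_cmul hc C.K2
  have hcKH : c * K * H = c := by rw [mul_assoc, hKH, mul_one]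
  have hHcK : H * (c * K) = c := by rw [← mul_assoc, ← hc H, mul_assoc, hHK, mul_one]
  have h1c : (1 : R) - c = c := by rw [← hcc]; abel
  -- products
  have ba4 : e4 * (1 - b * a) = e4 * c := by
    rw [mul_sub, mul_one, row_mul b4 L4 a3, hcKH]
    nth_rewrite 1 [← mul_one e4]
    rw [← mul_sub, h1c]
  have ab3 : e3 * (1 - a * b) = e3 * c := by
    rw [mul_sub, mul_one, row_mul a3 C.H3 b2, hHcK]
    nth_rewrite 1 [← mul_one e3]
    rw [← mul_sub, h1c]
  have ab2 : e2 * (1 - a * b) = e2 * c := by
    rw [mul_sub, mul_one, row_mul a2 C.H2 b1, hHcK]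
    nth_rewrite 1 [← mul_one e2]
    rw [← mul_sub, h1c]
  have hb3 : e3 * (h * b) = e3 * c := by
    rw [row_mul hh3 C.H3 b2, hHcK]
  have hb4 : e4 * (h * b) = e4 * c := by
    rw [row_mul hh4 C.H4 b3, hHcK]
  have Kab4 : e4 * (K * (1 - a * b)) = e4 * (K * c) := row_mul rfl C.K4 ab3
  have Kab3 : e3 * (K * (1 - a * b)) = e3 * (K * c) := row_mul rfl C.K3 ab2
  refine ⟨?_, ?_, ?_, ?_⟩
  · rw [F11, mul_sub, row_cmul hc ba4 Kab4, row_mul b4 L4 hb3, mul_assoc c K c, sub_self]
  · have : e4 * (K * a) = e4 * 1 := by rw [row_mul rfl C.K4 a3, hKH]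
    rw [F12, mul_add, row_cmul hc ba4 this, row_mul b4 L4 hh3, hcKH, mul_one, ← mul_add, hcc,
      mul_one]
  · rw [F21, mul_add, row_mul a4 C.H4 Kab3, hb4, ← mul_assoc H K c, hHK, one_mul, ← mul_add, hcc,
      mul_one]
  · have : e3 * (K * a) = e3 * 1 := by rw [row_mul rfl C.K3 a2, hKH]
    rw [F22, mul_sub, row_mul a4 C.H4 this, mul_one, hh4, sub_self]

end Deep

end Vale.Agent.P228.Kos
end
end

section

section

/-!
P228, block [S]: algebra of deleting an isotropic dual pair by unipotent congruences.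
-/

open Matrix

set_option linter.unusedSectionVars false
set_option linter.unusedSimpArgs false

noncomputable section

namespace Vale.Agent.P228.Inv

variable {R : Type*} [Ring R] [StarRing R] [Algebra ℂ R] [StarModule ℂ R]

/-- the coefficient `X` -/
def dX (p z a : R) : R := -(star z * ((1 / 2 : ℂ) • (p * a * p) + p * a * (1 - p)))
/-- the coefficient `Y` -/
def dY (p z b : R) : R := -(star z * (p * b * (1 - p)))

/-- the unipotent -/
def dW (X Y : R) : Matrix Bool Bool R := m2 1 0 X (1 + Y)
section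

variable {p z a b c : R}

theorem dX_p (hzp : p * star z = star z * p) (hp : p * p = p) : p * dX p z a = dX p z a := by
  unfold dX
  rw [mul_neg, ← mul_assoc, hzp, mul_assoc, mul_add, mul_smul_comm]
  have e1 : p * (p * a * p) = p * a * p := by rw [← mul_assoc, ← mul_assoc, hp]
  have e2 : p * (p * a * (1 - p)) = p * a * (1 - p) := by rw [← mul_assoc, ← mul_assoc, hp]
  rw [e1, e2]

theorem dY_p (hzp : p * star z = star z * p) (hp : p * p = p) : p * dY p z b = dY p z b := by
  unfold dY
  rw [mul_neg, ← mul_assoc, hzp, mul_assoc]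
  have e2 : p * (p * b * (1 - p)) = p * b * (1 - p) := by rw [← mul_assoc, ← mul_assoc, hp]
  rw [e2]

theorem dY_p' (hp : p * p = p) : dY p z b * p = 0 := by
  unfold dY
  have : (1 - p) * p = 0 := by rw [sub_mul, one_mul, hp, sub_self]
  rw [neg_mul, mul_assoc, mul_assoc (p * b), this, mul_zero, mul_zero, neg_zero]

/-- the decoupled form -/
theorem dW_congr (hp : p * p = p) (hps : star p = p) (hz : z * star z = 1)
    (hz' : star z * z = 1) (hzp : p * z = z * p) (ha : star a = a) (hc : star c = c)
    (hb : b * p = z * p) (hcp : c * p = 0) :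
    star (dW (dX p z a) (dY p z b)) * m2 a b (star b) c * dW (dX p z a) (dY p z b) =
      m2 ((1 - p) * a * (1 - p)) (z * p + (1 - p) * b * (1 - p))
        (star (z * p + (1 - p) * b * (1 - p))) c := by
  have hpc : p * c = 0 := by
    have := congrArg star hcp
    rwa [star_mul, hc, hps, star_zero] at this
  have hzps : p * star z = star z * p := by
    have := congrArg star hzp
    rw [star_mul, star_mul, hps] at this
    exact this.symm
  set X := dX p z a with hX
  set Y := dY p z b with hY
  have pX : p * X = X := dX_p hzps hp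
  have pY : p * Y = Y := dY_p hzps hp
  have cX : c * X = 0 := by rw [← pX, ← mul_assoc, hcp, zero_mul]
  have cY : c * Y = 0 := by rw [← pY, ← mul_assoc, hcp, zero_mul]
  have Xc : star X * c = 0 := by
    have := congrArg star cX
    rwa [star_mul, hc, star_zero] at this
  have Yc : star Y * c = 0 := by
    have := congrArg star cY
    rwa [star_mul, hc, star_zero] at this
  have bX : b * X = -((1 / 2 : ℂ) • (p * a * p) + p * a * (1 - p)) := by
    rw [← pX, ← mul_assoc, hb, mul_assoc, pX, hX]
    unfold dX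
    rw [mul_neg, ← mul_assoc, hz, one_mul]
  have bY : b * Y = -(p * b * (1 - p)) := by
    rw [← pY, ← mul_assoc, hb, mul_assoc, pY, hY]
    unfold dY
    rw [mul_neg, ← mul_assoc, hz, one_mul]
  have Xb : star X * star b = -((1 / 2 : ℂ) • (p * a * p) + (1 - p) * a * p) := by
    rw [← star_mul, bX, star_neg, star_add, star_smul]
    simp only [star_mul, star_sub, star_one, hps, ha]
    have : star (1 / 2 : ℂ) = 1 / 2 := by
      rw [Complex.star_def, map_div₀, map_one, Complex.conj_ofNat]
    rw [this]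
    simp only [mul_assoc]
  have key1 : a + b * X + star X * star b = (1 - p) * a * (1 - p) := by
    rw [bX, Xb]
    have h2 : (1 / 2 : ℂ) • (p * a * p) + (1 / 2 : ℂ) • (p * a * p) = p * a * p := by
      rw [← add_smul]; norm_num
    calc a + -((1 / 2 : ℂ) • (p * a * p) + p * a * (1 - p)) +
          -((1 / 2 : ℂ) • (p * a * p) + (1 - p) * a * p)
        = a - ((1 / 2 : ℂ) • (p * a * p) + (1 / 2 : ℂ) • (p * a * p)) - p * a * (1 - p)
          - (1 - p) * a * p := by abel
      _ = _ := by rw [h2]; noncomm_ring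
  have bsplit : b + b * Y = z * p + (1 - p) * b * (1 - p) := by
    rw [bY]
    calc b + -(p * b * (1 - p)) = b * p + (1 - p) * b * (1 - p) := by noncomm_ring
      _ = _ := by rw [hb]
  unfold dW
  rw [m2_star, m2_mul, m2_mul]
  have g1 : (star (1 : R) * a + star X * star b) * 1 + (star 1 * b + star X * c) * X =
      (1 - p) * a * (1 - p) := by
    rw [Xc, star_one, ← key1]
    noncomm_ring
  have g2 : (star (1 : R) * a + star X * star b) * 0 + (star 1 * b + star X * c) * (1 + Y) =
      z * p + (1 - p) * b * (1 - p) := by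
    rw [Xc, star_one, ← bsplit]
    noncomm_ring
  have hY1 : star (1 + Y) * c = c := by
    rw [star_add, star_one, add_mul, Yc, one_mul, add_zero]
  have g3 : (star (0 : R) * a + star (1 + Y) * star b) * 1 + (star 0 * b + star (1 + Y) * c) * X =
      star (z * p + (1 - p) * b * (1 - p)) := by
    have h5 : star (b + b * Y) = star (1 + Y) * star b := by
      rw [← star_mul, mul_add, mul_one]
    rw [← bsplit, h5, hY1, star_zero, zero_mul, zero_mul, zero_add, zero_add, cX, mul_one,
      add_zero]
  have g4 : (star (0 : R) * a + star (1 + Y) * star b) * 0 +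
      (star 0 * b + star (1 + Y) * c) * (1 + Y) = c := by
    rw [hY1, star_zero, zero_mul, zero_mul, zero_add, zero_add, mul_zero, zero_add, mul_add,
      cY, mul_one, add_zero]
  rw [g1, g2, g3, g4]

end

end Vale.Agent.P228.Inv
end
end
end

section

section

/-!
P228, block [S]: algebra of the last path of the product formula.  On the range of `q = 1 - p`
the form is `[[-5B, rτ],[rτ*, -B'/4]]`, on the range of `p` it is `[[0,z],[z*,0]]`.
-/

open Matrix

set_option linter.unusedSectionVars false
set_option linter.unusedSimpArgs false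

noncomputable section

namespace Vale.Agent.P228.Inv

variable {R : Type*} [Ring R] [StarRing R] [Algebra ℂ R] [StarModule ℂ R]

/-- the data of the corner -/
structure TwoDat (p z τ B B' : R) : Prop where
  pp : p * p = p
  ps : star p = p
  zz : z * star z = 1
  zz' : star z * z = 1
  zp : p * z = z * p
  pt : p * τ = 0
  tp : τ * p = 0
  tt : τ * star τ = (1 / 4 : ℂ) • (1 - p)
  tt' : star τ * τ = (1 / 4 : ℂ) • (1 - p)
  bb : B * B' = 1
  bb' : B' * B = 1
  Bs : star B = B
  Bs' : star B' = B'
  Bp : B * p = p * B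
  Bt : B * τ = τ * B

/-- the family of forms -/
def hD (p z τ B B' : R) (r : ℂ) : Matrix Bool Bool R :=
  m2 ((-5 : ℂ) • ((1 - p) * B)) (z * p + r • τ) (star z * p + r • star τ)
    ((-1 / 4 : ℂ) • ((1 - p) * B'))

/-- the family of the inverses -/
def kD (p z τ B B' : R) (r c : ℂ) : Matrix Bool Bool R :=
  m2 ((-c) • ((1 - p) * B')) (z * p - (4 * r * c) • τ) (star z * p - (4 * r * c) • star τ)
    ((-20 * c) • ((1 - p) * B))

namespace TwoDat

variable {p z τ B B' : R}

theorem B'p (h : TwoDat p z τ B B') : B' * p = p * B' := by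
  calc B' * p = B' * p * (B * B') := by rw [h.bb, mul_one]
    _ = B' * (p * B) * B' := by noncomm_ring
    _ = B' * B * p * B' := by rw [← h.Bp]; noncomm_ring
    _ = p * B' := by rw [h.bb', one_mul]

theorem B't (h : TwoDat p z τ B B') : B' * τ = τ * B' := by
  calc B' * τ = B' * τ * (B * B') := by rw [h.bb, mul_one]
    _ = B' * (τ * B) * B' := by noncomm_ring
    _ = B' * B * τ * B' := by rw [← h.Bt]; noncomm_ring
    _ = τ * B' := by rw [h.bb', one_mul]

theorem B'ts (h : TwoDat p z τ B B') : star τ * B' = B' * star τ := by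
  have := congrArg star h.B't
  rwa [star_mul, star_mul, h.Bs'] at this

theorem pts (h : TwoDat p z τ B B') : star τ * p = 0 := by
  have := congrArg star h.pt
  rwa [star_mul, h.ps, star_zero] at this

theorem tsp (h : TwoDat p z τ B B') : p * star τ = 0 := by
  have := congrArg star h.tp
  rwa [star_mul, h.ps, star_zero] at this

theorem zsp (h : TwoDat p z τ B B') : p * star z = star z * p := by
  have := congrArg star h.zp
  rw [star_mul, star_mul, h.ps] at this
  exact this.symm

theorem hD_mul_kD (h : TwoDat p z τ B B') {r c : ℂ} (hc : c * (5 - r ^ 2) = 1) :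
    hD p z τ B B' r * kD p z τ B B' r c = 1 := by
  have q2 : (1 - p) * (1 - p) = 1 - p := by
    calc (1 - p) * (1 - p) = 1 - p - p + p * p := by noncomm_ring
      _ = _ := by rw [h.pp]; noncomm_ring
  have qp : (1 - p) * p = 0 := by rw [sub_mul, one_mul, h.pp, sub_self]
  have pq : p * (1 - p) = 0 := by rw [mul_sub, mul_one, h.pp, sub_self]
  have qt : (1 - p) * τ = τ := by rw [sub_mul, one_mul, h.pt, sub_zero]
  have tq : τ * (1 - p) = τ := by rw [mul_sub, mul_one, h.tp, sub_zero]
  have qts : (1 - p) * star τ = star τ := by rw [sub_mul, one_mul, h.tsp, sub_zero]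
  have tsq : star τ * (1 - p) = star τ := by rw [mul_sub, mul_one, h.pts, sub_zero]
  have e1 : ((1 - p) * B) * ((1 - p) * B') = 1 - p := by
    calc (1 - p) * B * ((1 - p) * B') = (1 - p) * (B - B * p) * B' := by noncomm_ring
      _ = (1 - p) * (1 - p) * (B * B') := by rw [h.Bp]; noncomm_ring
      _ = _ := by rw [q2, h.bb, mul_one]
  have e2 : ((1 - p) * B') * ((1 - p) * B) = 1 - p := by
    calc (1 - p) * B' * ((1 - p) * B) = (1 - p) * (B' - B' * p) * B := by noncomm_ring
      _ = (1 - p) * (1 - p) * (B' * B) := by rw [h.B'p]; noncomm_ring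
      _ = _ := by rw [q2, h.bb', mul_one]
  have zpzp : (z * p) * (star z * p) = p := by
    calc z * p * (star z * p) = z * (p * star z) * p := by noncomm_ring
      _ = (z * star z) * (p * p) := by rw [h.zsp]; noncomm_ring
      _ = p := by rw [h.zz, h.pp, one_mul]
  have zpzp' : (star z * p) * (z * p) = p := by
    calc star z * p * (z * p) = star z * (p * z) * p := by noncomm_ring
      _ = (star z * z) * (p * p) := by rw [h.zp]; noncomm_ring
      _ = p := by rw [h.zz', h.pp, one_mul]
  have z1 : (z * p) * star τ = 0 := by rw [mul_assoc, h.tsp, mul_zero]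
  have z2 : τ * (star z * p) = 0 := by rw [← h.zsp, ← mul_assoc, h.tp, zero_mul]
  have z3 : (star z * p) * τ = 0 := by rw [mul_assoc, h.pt, mul_zero]
  have z4 : star τ * (z * p) = 0 := by rw [← h.zp, ← mul_assoc, h.pts, zero_mul]
  have z5 : ((1 - p) * B) * (z * p) = 0 := by
    rw [← h.zp]
    calc (1 - p) * B * (p * z) = (1 - p) * (B * p) * z := by noncomm_ring
      _ = ((1 - p) * p) * B * z := by rw [h.Bp]; noncomm_ring
      _ = 0 := by rw [qp]; simp
  have z6 : (z * p) * ((1 - p) * B) = 0 := by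
    calc z * p * ((1 - p) * B) = z * (p * (1 - p)) * B := by noncomm_ring
      _ = 0 := by rw [pq]; simp
  have z7 : (star z * p) * ((1 - p) * B') = 0 := by
    calc star z * p * ((1 - p) * B') = star z * (p * (1 - p)) * B' := by noncomm_ring
      _ = 0 := by rw [pq]; simp only [mul_zero, zero_mul]
  have z8 : ((1 - p) * B') * (star z * p) = 0 := by
    rw [← h.zsp]
    calc (1 - p) * B' * (p * star z) = (1 - p) * (B' * p) * star z := by noncomm_ring
      _ = ((1 - p) * p) * B' * star z := by rw [h.B'p]; noncomm_ring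
      _ = 0 := by rw [qp]; simp only [zero_mul]
  have t1 : ((1 - p) * B) * τ = τ * B := by rw [mul_assoc, h.Bt, ← mul_assoc, qt]
  have t2 : τ * ((1 - p) * B) = τ * B := by rw [← mul_assoc, tq]
  have t3 : star τ * ((1 - p) * B') = star τ * B' := by rw [← mul_assoc, tsq]
  have t4 : ((1 - p) * B') * star τ = star τ * B' := by
    rw [mul_assoc, ← h.B'ts, ← mul_assoc, qts]
  have hpq : p + (1 - p) = 1 := by abel
  unfold hD kD
  generalize hq : (1 - p : R) = q at *
  have htt := h.tt
  have htt' := h.tt'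
  rw [hq] at htt htt'
  rw [m2_mul, m2_one]
  have k3 : (5 * c : ℂ) - r ^ 2 * c = 1 := by rw [← hc]; ring
  congr 1
  · simp only [add_mul, mul_sub, smul_mul_assoc, mul_smul_comm, smul_smul, e1, zpzp, z1, z2, htt,
      smul_zero, sub_zero, zero_add, add_zero, zero_sub]
    calc _ = p + (5 * c - r ^ 2 * c) • q := by module
      _ = 1 := by rw [k3, one_smul, hpq]
  · simp only [mul_sub, smul_mul_assoc, z5, smul_zero, mul_smul_comm, t1, smul_smul, zero_sub, add_mul, z6, t2, zero_add]
    module
  · simp only [add_mul, mul_sub, smul_mul_assoc, mul_smul_comm, smul_smul, z7, z8, t3, t4,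
      smul_zero, sub_zero, zero_add, add_zero, zero_sub]
    module
  · simp only [mul_sub, add_mul, zpzp', smul_mul_assoc, z4, smul_zero, add_zero, mul_smul_comm, z3, htt', smul_smul, zero_add, e2]
    calc _ = p + (5 * c - r ^ 2 * c) • q := by module
      _ = 1 := by rw [k3, one_smul, hpq]

theorem star_hD (h : TwoDat p z τ B B') (r : ℝ) :
    star (hD p z τ B B' (r : ℂ)) = hD p z τ B B' (r : ℂ) := by
  have e1 : star ((1 - p) * B) = (1 - p) * B := by
    rw [star_mul, star_sub, star_one, h.ps, h.Bs, mul_sub, sub_mul, mul_one, one_mul, h.Bp]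
  have e2 : star ((1 - p) * B') = (1 - p) * B' := by
    rw [star_mul, star_sub, star_one, h.ps, h.Bs', mul_sub, sub_mul, mul_one, one_mul, h.B'p]
  have e3 : star (z * p) = star z * p := by rw [star_mul, h.ps, h.zsp]
  have e4 : star (star z * p) = z * p := by rw [star_mul, h.ps, star_star, h.zp]
  have c1 : star (-5 : ℂ) = -5 := by
    rw [Complex.star_def, map_neg, Complex.conj_ofNat]
  have c2 : star (-1 / 4 : ℂ) = -1 / 4 := by
    rw [Complex.star_def, map_div₀, map_neg, map_one, Complex.conj_ofNat]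
  have c3 : star (r : ℂ) = r := by rw [Complex.star_def, Complex.conj_ofReal]
  unfold hD
  rw [m2_star]
  simp only [star_add, star_smul, e1, e2, e3, e4, star_star, c1, c2, c3]

theorem star_kD (h : TwoDat p z τ B B') (r c : ℝ) :
    star (kD p z τ B B' (r : ℂ) (c : ℂ)) = kD p z τ B B' (r : ℂ) (c : ℂ) := by
  have e1 : star ((1 - p) * B) = (1 - p) * B := by
    rw [star_mul, star_sub, star_one, h.ps, h.Bs, mul_sub, sub_mul, mul_one, one_mul, h.Bp]
  have e2 : star ((1 - p) * B') = (1 - p) * B' := by
    rw [star_mul, star_sub, star_one, h.ps, h.Bs', mul_sub, sub_mul, mul_one, one_mul, h.B'p]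
  have e3 : star (z * p) = star z * p := by rw [star_mul, h.ps, h.zsp]
  have e4 : star (star z * p) = z * p := by rw [star_mul, h.ps, star_star, h.zp]
  have c1 : star (-20 * (c : ℂ)) = -20 * c := by
    rw [Complex.star_def, map_mul, map_neg, Complex.conj_ofNat, Complex.conj_ofReal]
  have c2 : star (-(c : ℂ)) = -c := by
    rw [Complex.star_def, map_neg, Complex.conj_ofReal]
  have c3 : star (4 * (r : ℂ) * c) = 4 * r * c := by
    rw [Complex.star_def, map_mul, map_mul, Complex.conj_ofNat, Complex.conj_ofReal,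
      Complex.conj_ofReal]
  unfold kD
  rw [m2_star]
  simp only [star_sub, star_smul, e1, e2, e3, e4, star_star, c1, c2, c3]

theorem kD_mul_hD (h : TwoDat p z τ B B') {r c : ℝ} (hc : c * (5 - r ^ 2) = 1) :
    kD p z τ B B' (r : ℂ) (c : ℂ) * hD p z τ B B' (r : ℂ) = 1 := by
  have h1 := h.hD_mul_kD (r := (r : ℂ)) (c := (c : ℂ)) (by exact_mod_cast hc)
  have h2 := congrArg star h1
  rwa [star_mul, star_hD h, star_kD h, star_one] at h2

end TwoDat

end Vale.Agent.P228.Inv
end
end
end

section

section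

/-! Supports of the standard self-dual complex of `ℤ^(2m)`. -/

namespace Vale.Agent.P228.Std

open LMat Matrix

/-- neighbours in `ℤ²`. -/
def Near2 (x y : ℤ × ℤ) : Prop := |x.1 - y.1| ≤ 1 ∧ |x.2 - y.2| ≤ 1

/-- Laurent polynomials with exponents in `{-1,0,1}²`. -/
def Sm (x : Lau) : Prop := ∀ a b : ℤ × ℤ, lauHom x a b ≠ 0 → Near2 a b

theorem Sm.zero : Sm 0 := by
  intro a b h
  rw [map_zero] at h
  exact absurd rfl h

theorem Sm.add {x y : Lau} (hx : Sm x) (hy : Sm y) : Sm (x + y) := by
  intro a b h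
  rw [map_add, LMat.add_apply] at h
  by_cases h1 : lauHom x a b = 0
  · rw [h1, zero_add] at h; exact hy a b h
  · exact hx a b h1

theorem Sm.neg {x : Lau} (hx : Sm x) : Sm (-x) := by
  intro a b h
  rw [map_neg, LMat.neg_apply] at h
  exact hx a b (fun h1 => h (by rw [h1, neg_zero]))

theorem Sm.sub {x y : Lau} (hx : Sm x) (hy : Sm y) : Sm (x - y) := by
  rw [sub_eq_add_neg]; exact hx.add hy.neg

theorem Sm.single {g : ℤ × ℤ} (h1 : |g.1| ≤ 1) (h2 : |g.2| ≤ 1) (c : ℂ) :
    Sm (AddMonoidAlgebra.single g c) := by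
  intro a b h
  rw [lauHom_single, LMat.smul_apply] at h
  have : shift ℂ g a b ≠ 0 := fun h0 => h (by rw [h0, smul_zero])
  have hab := eq_of_shift_ne_zero this
  subst hab
  refine ⟨?_, ?_⟩
  · simpa only [Prod.fst_add, add_sub_cancel_left] using h1
  · simpa only [Prod.snd_add, add_sub_cancel_left] using h2

theorem Sm.one : Sm 1 := Sm.single (g := 0) (by simp only [Prod.fst_zero, abs_zero, zero_le_one]) (by simp only [Prod.snd_zero, abs_zero, zero_le_one]) 1

theorem Sm.aI_mul {x : Lau} (hx : Sm x) : Sm (aI * x) := by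
  intro a b h
  have e : aI * x = Complex.I • x := by
    rw [Algebra.smul_def]; rfl
  rw [e, _root_.map_smul, LMat.smul_apply] at h
  exact hx a b (fun h0 => h (by rw [h0, smul_zero]))

theorem Sm.mono {g : ℤ × ℤ} (h1 : |g.1| ≤ 1) (h2 : |g.2| ≤ 1) : Sm (mono g) :=
  Sm.single h1 h2 1

theorem Sm.mono_mul {g h : ℤ × ℤ} (h1 : |g.1 + h.1| ≤ 1) (h2 : |g.2 + h.2| ≤ 1) :
    Sm (Std.mono g * Std.mono h) := by
  rw [Std.mono_mul]; exact Sm.mono h1 h2

theorem Sm.aI : Sm aI := by
  have := Sm.aI_mul Sm.one
  rwa [mul_one] at this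

theorem Sm.two_mul {x : Lau} (hx : Sm x) : Sm (2 * x) := by
  rw [_root_.two_mul]; exact hx.add hx

theorem sm_J (i j : Fin 4) : Sm (JM i j) := by
  fin_cases i <;> fin_cases j <;> simp [JL] <;>
    repeat' (first
      | with_reducible exact Sm.zero | with_reducible exact Sm.one | with_reducible exact Sm.aI
      | with_reducible apply Sm.add | with_reducible apply Sm.sub | with_reducible apply Sm.neg
      | with_reducible apply Sm.two_mul | with_reducible apply Sm.aI_mul
      | with_reducible apply Sm.mono_mul | with_reducible apply Sm.mono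
      | decide)

theorem sm_Ji (i j : Fin 4) : Sm (JiM i j) := by
  fin_cases i <;> fin_cases j <;> simp [JiL] <;>
    repeat' (first
      | with_reducible exact Sm.zero | with_reducible exact Sm.one | with_reducible exact Sm.aI
      | with_reducible apply Sm.add | with_reducible apply Sm.sub | with_reducible apply Sm.neg
      | with_reducible apply Sm.two_mul | with_reducible apply Sm.aI_mul
      | with_reducible apply Sm.mono_mul | with_reducible apply Sm.mono
      | decide)

theorem near2_of_conv {M : Matrix (Fin 4) (Fin 4) Lau} (hM : ∀ i j, Sm (M i j)) {x y : Cell2}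
    (h : conv M x y ≠ 0) : Near2 x.1 y.1 := hM x.2 y.2 x.1 y.1 h

theorem dual2_J_supp {x y : Cell2} (h : dual2.J x y ≠ 0) : Near2 x.1 y.1 :=
  near2_of_conv sm_J h

theorem dual2_Ji_supp {x y : Cell2} (h : dual2.Ji x y ≠ 0) : Near2 x.1 y.1 := by
  refine near2_of_conv sm_Ji (fun h0 => h ?_)
  show (4⁻¹ : ℂ) • conv JiM x y = 0
  rw [h0, smul_zero]

theorem dual2_e_diag : dual2.e = diag (fun x : Cell2 => (eL x.2 x.2 : ℂ)) := by
  classical
  ext x y
  show lauHom (eL x.2 y.2) x.1 y.1 = _
  obtain ⟨a, i⟩ := x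
  obtain ⟨b, j⟩ := y
  by_cases hij : i = j
  · subst hij
    by_cases hab : a = b
    · subst hab
      rw [diag_apply_self]
      fin_cases i <;> simp [eL]
    · rw [diag_apply_ne _ (by intro h; exact hab (Prod.ext_iff.1 h).1)]
      fin_cases i <;> simp [eL, LMat.one_apply_ne hab]
  · rw [diag_apply_ne _ (by intro h; exact hij (Prod.ext_iff.1 h).2)]
    have : (eL i j : Lau) = 0 := by
      fin_cases i <;> fin_cases j <;> simp_all [eL]
    simp only [this, map_zero, LMat.zero_apply]

theorem nearR_succ {m : ℕ} {x y : Cell2 × CellR m} (h1 : Near2 x.1.1 y.1.1)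
    (h2 : NearR m x.2 y.2) : NearR (m + 1) x y := ⟨h1.1, h1.2, h2⟩

theorem dualR_J_supp : ∀ (m : ℕ) (x y : CellR m), (dualR m).J x y ≠ 0 → NearR m x y
  | 0, _, _, _ => trivial
  | m + 1, x, y, h => by
    have h' : dual2.J x.1 y.1 * (dualR m).J x.2 y.2 ≠ 0 := h
    exact nearR_succ (dual2_J_supp (left_ne_zero_of_mul h'))
      (dualR_J_supp m x.2 y.2 (right_ne_zero_of_mul h'))

theorem dualR_Ji_supp : ∀ (m : ℕ) (x y : CellR m), (dualR m).Ji x y ≠ 0 → NearR m x y
  | 0, _, _, _ => trivial
  | m + 1, x, y, h => by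
    have h' : dual2.Ji x.1 y.1 * (dualR m).Ji x.2 y.2 ≠ 0 := h
    exact nearR_succ (dual2_Ji_supp (left_ne_zero_of_mul h'))
      (dualR_Ji_supp m x.2 y.2 (right_ne_zero_of_mul h'))

theorem dualR_e_supp : ∀ (m : ℕ) (x y : CellR m), (dualR m).e x y ≠ 0 → x = y
  | 0, _, _, _ => rfl
  | m + 1, x, y, h => by
    have h' : dual2.e x.1 y.1 * (dualR m).e x.2 y.2 ≠ 0 := h
    refine Prod.ext ?_ (dualR_e_supp m x.2 y.2 (right_ne_zero_of_mul h'))
    by_contra hne
    apply left_ne_zero_of_mul h'
    rw [dual2_e_diag, diag_apply_ne _ hne]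

end Vale.Agent.P228.Std
end
end

section

section

/-! The cubical boundary, augmentation, and acyclicity of boxes. -/

namespace Vale.Agent.P228.Cub

open Finsupp

variable {k : Type*} [Field k] {ι : Type*} [Fintype ι] [LinearOrder ι]

/-- one dimensional boundary -/
noncomputable def bd : ℤ × Bool → (ℤ × Bool →₀ k) := fun z =>
  if z.2 then single (z.1 + 1, false) 1 - single (z.1, false) 1 else 0

/-- one dimensional path from `a` -/
noncomputable def pth (a : ℤ) : ℤ × Bool → (ℤ × Bool →₀ k) := fun z =>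
  if z.2 then 0 else
    (∑ y ∈ Finset.Ico a z.1, single (y, true) 1) - ∑ y ∈ Finset.Ico z.1 a, single (y, true) 1

/-- one dimensional retraction to the vertex `a` -/
noncomputable def rho (a : ℤ) : ℤ × Bool → (ℤ × Bool →₀ k) := fun z =>
  if z.2 then 0 else single (a, false) 1

theorem bd_mem {z w : ℤ × Bool} (h : w ∈ (bd z : ℤ × Bool →₀ k).support) :
    z.2 = true ∧ w.2 = false ∧ (w.1 = z.1 ∨ w.1 = z.1 + 1) := by
  classical
  rcases z with ⟨x, _ | _⟩
  · simp [bd] at h
  · simp only [bd, if_true] at h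
    rw [sub_eq_add_neg] at h
    rcases Finset.mem_union.1 (Finsupp.support_add h) with h | h
    · have := Finset.mem_singleton.1 (Finsupp.support_single_subset h)
      subst this; simp
    · rw [Finsupp.support_neg] at h
      have := Finset.mem_singleton.1 (Finsupp.support_single_subset h)
      subst this; simp

theorem bd_odd : OddU (bd : ℤ × Bool → (ℤ × Bool →₀ k)) := by
  intro z w h
  obtain ⟨h1, h2, _⟩ := bd_mem h
  rw [h1, h2]; rfl

theorem pth_mem {a : ℤ} {z w : ℤ × Bool} (h : w ∈ (pth a z : ℤ × Bool →₀ k).support) :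
    z.2 = false ∧ w.2 = true ∧ ((a ≤ w.1 ∧ w.1 < z.1) ∨ (z.1 ≤ w.1 ∧ w.1 < a)) := by
  classical
  rcases z with ⟨x, _ | _⟩
  · simp only [pth, Bool.false_eq_true, if_false] at h
    rw [sub_eq_add_neg] at h
    rcases Finset.mem_union.1 (Finsupp.support_add h) with h | h
    · obtain ⟨y, hy, hw⟩ := Finset.mem_biUnion.1 (Finsupp.support_finsetSum h)
      have := Finset.mem_singleton.1 (Finsupp.support_single_subset hw)
      subst this
      have := Finset.mem_Ico.1 hy
      exact ⟨rfl, rfl, Or.inl this⟩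
    · rw [Finsupp.support_neg] at h
      obtain ⟨y, hy, hw⟩ := Finset.mem_biUnion.1 (Finsupp.support_finsetSum h)
      have := Finset.mem_singleton.1 (Finsupp.support_single_subset hw)
      subst this
      have := Finset.mem_Ico.1 hy
      exact ⟨rfl, rfl, Or.inr this⟩
  · simp [pth] at h

theorem pth_odd (a : ℤ) : OddU (pth a : ℤ × Bool → (ℤ × Bool →₀ k)) := by
  intro z w h
  obtain ⟨h1, h2, _⟩ := pth_mem h
  rw [h1, h2]; rfl

theorem rho_mem {a : ℤ} {z w : ℤ × Bool} (h : w ∈ (rho a z : ℤ × Bool →₀ k).support) :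
    z.2 = false ∧ w = (a, false) := by
  classical
  rcases z with ⟨x, _ | _⟩
  · simp only [rho, Bool.false_eq_true, if_false] at h
    exact ⟨rfl, Finset.mem_singleton.1 (Finsupp.support_single_subset h)⟩
  · simp [rho] at h

theorem rho_even (a : ℤ) : EvenU (rho a : ℤ × Bool → (ℤ × Bool →₀ k)) := by
  intro z w h
  obtain ⟨h1, h2⟩ := rho_mem h
  rw [h1, h2]

/-- extension of a one dimensional operator to chains -/
noncomputable def ulin (u : ℤ × Bool → (ℤ × Bool →₀ k)) :
    (ℤ × Bool →₀ k) →ₗ[k] (ℤ × Bool →₀ k) := Finsupp.linearCombination k u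

theorem ucomp_eq (u v : ℤ × Bool → (ℤ × Bool →₀ k)) (z : ℤ × Bool) :
    ucomp u v z = ulin u (v z) := by
  rw [ulin, Finsupp.linearCombination_apply, ucomp, Finsupp.sum]

theorem ulin_single (u : ℤ × Bool → (ℤ × Bool →₀ k)) (z : ℤ × Bool) :
    ulin u (single z 1) = u z := by
  rw [ulin, Finsupp.linearCombination_single, one_smul]

theorem ucomp_bd_bd : ucomp bd bd = (fun _ => (0 : ℤ × Bool →₀ k)) := by
  funext z
  rw [ucomp_eq]
  rcases z with ⟨x, _ | _⟩
  · simp [bd]
  · rw [bd, if_pos rfl, map_sub, ulin_single, ulin_single]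
    simp [bd]

theorem ucomp_bd_rho (a : ℤ) : ucomp bd (rho a) = (fun _ => (0 : ℤ × Bool →₀ k)) := by
  funext z
  rw [ucomp_eq]
  rcases z with ⟨x, _ | _⟩
  · simp only [rho, Bool.false_eq_true, if_false]
    rw [ulin_single]; simp [bd]
  · simp only [rho, ↓reduceIte, map_zero]

theorem ucomp_rho_bd (a : ℤ) : ucomp (rho a) bd = (fun _ => (0 : ℤ × Bool →₀ k)) := by
  funext z
  rw [ucomp_eq]
  rcases z with ⟨x, _ | _⟩
  · simp only [bd, Bool.false_eq_true, ↓reduceIte, map_zero]
  · rw [bd, if_pos rfl, map_sub, ulin_single, ulin_single]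
    simp [rho]

theorem ulin_bd_sum_Ico {a b : ℤ} (h : a ≤ b) :
    ulin bd (∑ y ∈ Finset.Ico a b, single (y, true) (1 : k)) =
      single (b, false) 1 - single (a, false) 1 := by
  induction b, h using Int.leInduction with
  | base => simp only [Std.le_refl, Finset.Ico_eq_empty_of_le, Finset.sum_empty, map_zero, sub_self]
  | succ b hab ih =>
    have : Finset.Ico a (b + 1) = insert b (Finset.Ico a b) := by
      ext y; simp only [Finset.mem_Ico, Finset.mem_insert]; omega
    rw [this, Finset.sum_insert (by simp only [Finset.mem_Ico, lt_self_iff_false, and_false, not_false_eq_true]), map_add, ih, ulin_single, bd, if_pos rfl]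
    abel

theorem homotopy_one (a : ℤ) (z : ℤ × Bool) :
    ucomp bd (pth a) z + ucomp (pth a) bd z = (single z 1 - rho a z : ℤ × Bool →₀ k) := by
  rw [ucomp_eq, ucomp_eq]
  rcases z with ⟨x, _ | _⟩
  · have e1 : (bd (x, false) : ℤ × Bool →₀ k) = 0 := by simp [bd]
    rw [e1, map_zero, add_zero]
    simp only [pth, Bool.false_eq_true, if_false, rho]
    rw [map_sub]
    rcases le_total a x with h | h
    · rw [ulin_bd_sum_Ico h, Finset.Ico_eq_empty (by omega)]; simp
    · rw [ulin_bd_sum_Ico h, Finset.Ico_eq_empty (by omega)]; simp only [Finset.sum_empty, map_zero, zero_sub, neg_sub]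
  · have e1 : (pth a (x, true) : ℤ × Bool →₀ k) = 0 := by simp [pth]
    have e2 : (rho a (x, true) : ℤ × Bool →₀ k) = 0 := by simp [rho]
    rw [e1, e2, map_zero, zero_add, sub_zero, bd, if_pos rfl, map_sub, ulin_single, ulin_single]
    simp only [pth, Bool.false_eq_true, if_false]
    rcases le_or_gt a x with h | h
    · have h1 : Finset.Ico a (x + 1) = insert x (Finset.Ico a x) := by
        ext y; simp only [Finset.mem_Ico, Finset.mem_insert]; omega
      rw [h1, Finset.sum_insert (by simp only [Finset.mem_Ico, lt_self_iff_false, and_false, not_false_eq_true]), Finset.Ico_eq_empty (show ¬ x + 1 < a by omega),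
        Finset.Ico_eq_empty (show ¬ x < a by omega)]
      simp only [Finset.sum_empty, sub_zero, add_sub_cancel_right]
    · have h1 : Finset.Ico x a = insert x (Finset.Ico (x + 1) a) := by
        ext y; simp only [Finset.mem_Ico, Finset.mem_insert]; omega
      rw [h1, Finset.sum_insert (by simp only [Finset.mem_Ico, add_le_iff_nonpos_right, Int.reduceLE, false_and, not_false_eq_true]), Finset.Ico_eq_empty (show ¬ a < x + 1 by omega),
        Finset.Ico_eq_empty (show ¬ a < x by omega)]
      simp only [Finset.sum_empty, zero_sub, neg_add_rev, sub_add_cancel_left, neg_neg]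

/-- anticommuting square-zero families have a square-zero sum. -/
theorem sq_sum_zero {R : Type*} [Ring R] {κ : Type*} (s : Finset κ) (x : κ → R)
    (h1 : ∀ i ∈ s, x i * x i = 0)
    (h2 : ∀ i ∈ s, ∀ j ∈ s, i ≠ j → x i * x j + x j * x i = 0) :
    (∑ i ∈ s, x i) * (∑ i ∈ s, x i) = 0 := by
  classical
  induction s using Finset.induction_on with
  | empty => simp
  | insert a s ha ih =>
    have ih' := ih (fun i hi => h1 i (Finset.mem_insert_of_mem hi))
      (fun i hi j hj => h2 i (Finset.mem_insert_of_mem hi) j (Finset.mem_insert_of_mem hj))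
    rw [Finset.sum_insert ha]
    have e : x a * (∑ i ∈ s, x i) + (∑ i ∈ s, x i) * x a = 0 := by
      rw [Finset.mul_sum, Finset.sum_mul, ← Finset.sum_add_distrib]
      exact Finset.sum_eq_zero fun j hj => h2 a (Finset.mem_insert_self _ _) j
        (Finset.mem_insert_of_mem hj) (fun h => ha (h ▸ hj))
    have e2 := h1 a (Finset.mem_insert_self _ _)
    calc (x a + ∑ i ∈ s, x i) * (x a + ∑ i ∈ s, x i)
        = x a * x a + (x a * (∑ i ∈ s, x i) + (∑ i ∈ s, x i) * x a)
          + (∑ i ∈ s, x i) * (∑ i ∈ s, x i) := by noncomm_ring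
      _ = 0 := by rw [e, e2, ih']; simp

/-- the cubical boundary -/
noncomputable def bdry : Module.End k (Cell ι →₀ k) := ∑ i, od i bd

theorem bdry_sq : (bdry * bdry : Module.End k (Cell ι →₀ k)) = 0 := by
  unfold bdry
  refine sq_sum_zero (Finset.univ : Finset ι) (fun i => (od i bd : Module.End k (Cell ι →₀ k)))
    ?_ ?_
  · intro i _
    rw [od_comp_self, ucomp_bd_bd, lift_zero]
  · intro i _ j _ hij
    exact od_anti hij bd_odd bd_odd

theorem bdry_bdry (x : Cell ι →₀ k) : bdry (bdry x) = 0 := by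
  have := LinearMap.congr_fun (bdry_sq (k := k) (ι := ι)) x
  simpa only [Module.End.mul_apply, LinearMap.zero_apply] using this

theorem bdry_homotopy (i : ι) (a : ℤ) :
    (bdry * od i (pth a) + od i (pth a) * bdry : Module.End k (Cell ι →₀ k)) =
      1 - lift i (rho a) := by
  classical
  rw [bdry, Finset.sum_mul, Finset.mul_sum, ← Finset.sum_add_distrib,
    Finset.sum_eq_single i, od_comp_self, od_comp_self, lift_add]
  · have : (fun z => ucomp bd (pth a) z + ucomp (pth a) bd z) =
        fun z => (single z 1 - rho a z : ℤ × Bool →₀ k) := by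
      funext z; exact homotopy_one a z
    rw [this, ← lift_sub, lift_id]
  · intro j _ hji
    exact od_anti hji bd_odd (pth_odd a)
  · intro h; exact absurd (Finset.mem_univ i) h

theorem bdry_rho (i : ι) (a : ℤ) :
    (bdry * lift i (rho a) : Module.End k (Cell ι →₀ k)) = lift i (rho a) * bdry := by
  classical
  rw [bdry, Finset.sum_mul, Finset.mul_sum]
  refine Finset.sum_congr rfl fun j _ => ?_
  by_cases hj : j = i
  · subst hj
    unfold od
    have h1 : (sg j * lift j (rho a) : Module.End k (Cell ι →₀ k)) = lift j (rho a) * sg j :=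
      sg_lift_ge (lt_irrefl j) _
    rw [mul_assoc, h1, ← mul_assoc, lift_comp, ucomp_bd_rho, lift_zero, zero_mul, ← mul_assoc,
      lift_comp, ucomp_rho_bd, lift_zero, zero_mul]
  · exact od_even hj (rho_even a)

/-- the augmentation -/
noncomputable def aug : (Cell ι →₀ k) →ₗ[k] k :=
  Finsupp.linearCombination k (fun c => if dg c = 0 then (1 : k) else 0)

theorem aug_single (c : Cell ι) : aug (single c (1 : k)) = if dg c = 0 then 1 else 0 := by
  rw [aug, Finsupp.linearCombination_single, one_smul]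

theorem dg_update (i : ι) (c : Cell ι) (w : ℤ × Bool) :
    dg (Function.update c i w) + (if (c i).2 then 1 else 0) = dg c + (if w.2 then 1 else 0) := by
  classical
  have key : ∀ c' : Cell ι, dg c' =
      (Finset.univ.filter (fun l => l ≠ i ∧ (c' l).2 = true)).card +
        (if (c' i).2 then 1 else 0) := by
    intro c'
    unfold dg
    by_cases h : (c' i).2 = true
    · have : (Finset.univ.filter (fun l => (c' l).2 = true)) =
          insert i (Finset.univ.filter (fun l => l ≠ i ∧ (c' l).2 = true)) := by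
        ext l
        simp only [Finset.mem_filter, Finset.mem_univ, true_and, Finset.mem_insert]
        by_cases hl : l = i
        · subst hl; simp [h]
        · simp [hl]
      rw [this, Finset.card_insert_of_notMem (by simp only [ne_eq, Finset.mem_filter, Finset.mem_univ, not_true_eq_false, false_and, and_false, not_false_eq_true]), if_pos h]
    · have : (Finset.univ.filter (fun l => (c' l).2 = true)) =
          Finset.univ.filter (fun l => l ≠ i ∧ (c' l).2 = true) := by
        ext l
        simp only [Finset.mem_filter, Finset.mem_univ, true_and]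
        by_cases hl : l = i
        · subst hl; simp [h]
        · simp [hl]
      rw [this, if_neg h, add_zero]
  have e : (Finset.univ.filter (fun l => l ≠ i ∧ ((Function.update c i w) l).2 = true)) =
      Finset.univ.filter (fun l => l ≠ i ∧ (c l).2 = true) := by
    apply Finset.filter_congr
    intro l _
    by_cases hl : l = i
    · simp [hl]
    · rw [Function.update_of_ne hl]
  rw [key c, key (Function.update c i w), e, Function.update_self]
  omega

theorem dg_update_same {i : ι} {c : Cell ι} {w : ℤ × Bool} (h : w.2 = (c i).2) :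
    dg (Function.update c i w) = dg c := by
  have := dg_update i c w
  rw [h] at this
  omega

theorem od_single (i : ι) (u : ℤ × Bool → (ℤ × Bool →₀ k)) (c : Cell ι) :
    od i u (single c 1) = (-1 : k) ^ bef i c • Finsupp.mapDomain (Function.update c i) (u (c i)) := by
  rw [od, Module.End.mul_apply, sg_single, map_smul, lift_single]

theorem aug_bdry (x : Cell ι →₀ k) : aug (bdry x) = 0 := by
  have h : (aug ∘ₗ (bdry : Module.End k (Cell ι →₀ k)) : (Cell ι →₀ k) →ₗ[k] k) = 0 := by
    apply lin_ext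
    intro c
    rw [LinearMap.comp_apply, bdry, LinearMap.sum_apply, map_sum, LinearMap.zero_apply]
    refine Finset.sum_eq_zero fun i _ => ?_
    rw [od_single, map_smul]
    rcases hc : (c i).2 with _ | _
    · have : (bd (c i) : ℤ × Bool →₀ k) = 0 := by simp [bd, hc]
      rw [this]; simp only [mapDomain_zero, map_zero, smul_eq_mul, mul_zero]
    · have : (bd (c i) : ℤ × Bool →₀ k) = single ((c i).1 + 1, false) 1
          - single ((c i).1, false) 1 := by simp [bd, hc]
      rw [this, sub_eq_add_neg, Finsupp.mapDomain_add, ← Finsupp.single_neg,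
        Finsupp.mapDomain_single, Finsupp.mapDomain_single, map_add, Finsupp.single_neg, map_neg,
        aug_single, aug_single]
      have h1 := dg_update i c ((c i).1 + 1, false)
      have h2 := dg_update i c ((c i).1, false)
      rw [hc] at h1 h2
      have h3 : dg (Function.update c i ((c i).1 + 1, false)) =
          dg (Function.update c i ((c i).1, false)) := by simp only [↓reduceIte, Bool.false_eq_true, add_zero] at h1 h2; omega
      rw [h3]; simp only [add_neg_cancel, smul_eq_mul, mul_zero]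
  have := LinearMap.congr_fun h x
  simpa only [LinearMap.coe_comp, Function.comp_apply, LinearMap.zero_apply] using this

theorem aug_rho (i : ι) (a : ℤ) (x : Cell ι →₀ k) : aug (lift i (rho a) x) = aug x := by
  have h : (aug ∘ₗ (lift i (rho a) : Module.End k (Cell ι →₀ k)) : (Cell ι →₀ k) →ₗ[k] k)
      = aug := by
    apply lin_ext
    intro c
    rw [LinearMap.comp_apply, lift_single, aug_single]
    rcases hc : (c i).2 with _ | _
    · have : (rho a (c i) : ℤ × Bool →₀ k) = single (a, false) 1 := by simp [rho, hc]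
      rw [this, Finsupp.mapDomain_single, aug_single, dg_update_same (by simp [hc])]
    · have : (rho a (c i) : ℤ × Bool →₀ k) = 0 := by simp [rho, hc]
      have h2 : dg c ≠ 0 := by
        unfold dg
        exact Finset.card_ne_zero_of_mem (Finset.mem_filter.2 ⟨Finset.mem_univ i, hc⟩)
      rw [this, if_neg h2]; simp
  exact LinearMap.congr_fun h x

end Vale.Agent.P228.Cub
end
end

section

section

/-!
P228, block C4: the dictionary between `LMat B K` (row- and column-finite matrices) and
row-finite endomorphisms of `B →₀ K`, parity projections, and the boundary matrix.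
-/

namespace Vale.Agent.P228

open Finsupp

namespace LMat

section Dict

variable {B K : Type*} [CommRing K]

/-- the `j`-th column of a matrix, as a finitely supported vector -/
noncomputable def col (a : LMat B K) (j : B) : B →₀ K :=
  Finsupp.ofSupportFinite (fun i => a i j) (a.col_finite j)

@[simp] theorem col_apply (a : LMat B K) (i j : B) : a.col j i = a i j := rfl

/-- the endomorphism of finitely supported column vectors given by a matrix -/
noncomputable def ofLfun (a : LMat B K) : Module.End K (B →₀ K) :=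
  Finsupp.linearCombination K (fun j => a.col j)

theorem ofLfun_single (a : LMat B K) (j : B) : ofLfun a (single j 1) = a.col j := by
  rw [ofLfun, Finsupp.linearCombination_single, one_smul]

theorem ofLfun_apply (a : LMat B K) (x : B →₀ K) (i : B) :
    ofLfun a x i = ∑ j ∈ x.support, a i j * x j := by
  rw [ofLfun, Finsupp.linearCombination_apply, Finsupp.sum, Finsupp.finsetSum_apply]
  refine Finset.sum_congr rfl fun j _ => ?_
  rw [Finsupp.smul_apply, col_apply, smul_eq_mul, mul_comm]

theorem lin_ext' {N : Type*} [AddCommMonoid N] [Module K N] {f g : (B →₀ K) →ₗ[K] N}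
    (h : ∀ c, f (single c 1) = g (single c 1)) : f = g := by
  apply Finsupp.lhom_ext'
  intro c
  apply LinearMap.ext_ring
  exact h c

/-- the ring homomorphism from matrices to endomorphisms of column vectors -/
noncomputable def ofL : LMat B K →+* Module.End K (B →₀ K) where
  toFun := ofLfun
  map_one' := by
    classical
    apply lin_ext'
    intro c
    rw [ofLfun_single]
    ext i
    rw [col_apply, one_apply, Module.End.one_apply, Finsupp.single_apply]
    by_cases h : i = c
    · simp [h]
    · rw [if_neg h, if_neg (fun e => h e.symm)]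
  map_mul' a b := by
    apply lin_ext'
    intro c
    rw [ofLfun_single, Module.End.mul_apply, ofLfun_single]
    ext i
    rw [col_apply, ofLfun_apply, mul_apply_of a b i c (b.col c).support]
    · rfl
    · intro k _ hk
      rw [Finsupp.mem_support_iff, col_apply]
      exact hk
  map_zero' := by
    apply lin_ext'
    intro c
    rw [ofLfun_single]
    ext i
    simp
  map_add' a b := by
    apply lin_ext'
    intro c
    rw [LinearMap.add_apply, ofLfun_single, ofLfun_single, ofLfun_single]
    ext i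
    simp

theorem ofL_single (a : LMat B K) (j : B) : ofL a (single j 1) = a.col j := ofLfun_single a j

@[simp] theorem ofL_single_apply (a : LMat B K) (i j : B) : ofL a (single j 1) i = a i j := by
  rw [ofL_single, col_apply]

theorem ofL_injective : Function.Injective (ofL : LMat B K →+* Module.End K (B →₀ K)) := by
  intro a b h
  ext i j
  rw [← ofL_single_apply a, ← ofL_single_apply b, h]

@[simp] theorem ofL_smul (r : K) (a : LMat B K) : ofL (r • a) = r • ofL a := by
  apply lin_ext'
  intro c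
  ext i
  simp only [ofL_single_apply, smul_apply, smul_eq_mul, LinearMap.smul_apply, coe_smul, Pi.smul_apply]

/-- an endomorphism whose matrix has finite rows -/
def RowFin (f : Module.End K (B →₀ K)) : Prop := ∀ i, {j | f (single j 1) i ≠ 0}.Finite

/-- the matrix of a row-finite endomorphism -/
noncomputable def toL (f : Module.End K (B →₀ K)) (hf : RowFin f) : LMat B K where
  toFun i j := f (single j 1) i
  row_finite := hf
  col_finite j := by
    refine (f (single j 1)).support.finite_toSet.subset ?_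
    intro i hi
    rw [Finset.mem_coe, Finsupp.mem_support_iff]
    exact hi

@[simp] theorem toL_apply (f : Module.End K (B →₀ K)) (hf : RowFin f) (i j : B) :
    toL f hf i j = f (single j 1) i := rfl

@[simp] theorem ofL_toL (f : Module.End K (B →₀ K)) (hf : RowFin f) : ofL (toL f hf) = f := by
  apply lin_ext'
  intro c
  ext i
  rw [ofL_single_apply, toL_apply]

theorem rowFin_ofL (a : LMat B K) : RowFin (ofL a) := by
  intro i
  refine (a.row_finite i).subset ?_
  intro j hj
  simpa using hj

@[simp] theorem toL_ofL (a : LMat B K) (h : RowFin (ofL a)) : toL (ofL a) h = a :=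
  ofL_injective (ofL_toL _ _)

theorem rowFin_iff {f : Module.End K (B →₀ K)} : RowFin f ↔ ∃ a : LMat B K, ofL a = f :=
  ⟨fun h => ⟨toL f h, ofL_toL f h⟩, fun ⟨a, h⟩ => h ▸ rowFin_ofL a⟩

theorem RowFin.add {f g : Module.End K (B →₀ K)} (hf : RowFin f) (hg : RowFin g) :
    RowFin (f + g) := by
  obtain ⟨a, rfl⟩ := rowFin_iff.1 hf
  obtain ⟨b, rfl⟩ := rowFin_iff.1 hg
  rw [← map_add]; exact rowFin_ofL _

/-- row finiteness from a relation with finite fibres -/
theorem RowFin.of_rel {f : Module.End K (B →₀ K)} (P : B → B → Prop)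
    (hP : ∀ i, {j | P i j}.Finite) (h : ∀ i j, f (single j 1) i ≠ 0 → P i j) : RowFin f :=
  fun i => (hP i).subset fun j hj => h i j hj

@[simp] theorem toL_inj {f g : Module.End K (B →₀ K)} {hf : RowFin f} {hg : RowFin g} :
    toL f hf = toL g hg ↔ f = g := by
  constructor
  · intro h
    have := congrArg ofL h
    simpa only [ofL_toL] using this
  · intro h; subst h; rfl

end Dict

/-! ### parity -/

section Parity

variable {B K : Type*} [Ring K]

open Classical in
/-- the sign involution `(-1)^deg` -/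
noncomputable def epsD (deg : B → ℕ) : LMat B K := diag fun c => (-1 : K) ^ deg c

theorem epsD_mul_apply (deg : B → ℕ) (a : LMat B K) (i j : B) :
    (epsD deg * a : LMat B K) i j = (-1) ^ deg i * a i j := by
  rw [epsD, diag_mul_apply]

theorem mul_epsD_apply (deg : B → ℕ) (a : LMat B K) (i j : B) :
    (a * epsD deg : LMat B K) i j = a i j * (-1) ^ deg j := by
  rw [epsD, mul_diag_apply]

variable (K) in
theorem neg_one_pow_mul_self (n : ℕ) : ((-1 : K)) ^ n * (-1) ^ n = 1 := by
  rw [← (Commute.refl (-1 : K)).mul_pow]; simp only [mul_neg, mul_one, neg_neg, one_pow]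

theorem neg_one_pow_of_odd_add {m n : ℕ} (h : Odd (m + n)) : (-1 : K) ^ m = -(-1) ^ n := by
  have h1 : (-1 : K) ^ (m + n) = -1 := h.neg_one_pow
  have h2 : (-1 : K) ^ n * (-1) ^ n = 1 := neg_one_pow_mul_self K n
  calc (-1 : K) ^ m = (-1) ^ m * ((-1) ^ n * (-1) ^ n) := by rw [h2, mul_one]
    _ = (-1) ^ (m + n) * (-1) ^ n := by rw [pow_add, mul_assoc]
    _ = _ := by rw [h1, neg_one_mul]

theorem neg_one_pow_of_even_add {m n : ℕ} (h : Even (m + n)) : (-1 : K) ^ m = (-1) ^ n := by
  have h1 : (-1 : K) ^ (m + n) = 1 := h.neg_one_pow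
  have h2 : (-1 : K) ^ n * (-1) ^ n = 1 := neg_one_pow_mul_self K n
  calc (-1 : K) ^ m = (-1) ^ m * ((-1) ^ n * (-1) ^ n) := by rw [h2, mul_one]
    _ = (-1) ^ (m + n) * (-1) ^ n := by rw [pow_add, mul_assoc]
    _ = _ := by rw [h1, one_mul]

/-- even matrices commute with `epsD` -/
theorem mul_epsD_of_even {deg : B → ℕ} {a : LMat B K}
    (h : ∀ i j, a i j ≠ 0 → Even (deg i + deg j)) : (a * epsD deg : LMat B K) = epsD deg * a := by
  ext i j
  rw [epsD_mul_apply, mul_epsD_apply]
  by_cases h0 : a i j = 0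
  · simp only [h0, zero_mul, mul_zero]
  · rw [neg_one_pow_of_even_add (h i j h0)]
    exact ((Commute.neg_one_right (a i j)).pow_right _).eq

/-- odd matrices anticommute with `epsD` -/
theorem mul_epsD_of_odd {deg : B → ℕ} {a : LMat B K}
    (h : ∀ i j, a i j ≠ 0 → Odd (deg i + deg j)) : (a * epsD deg : LMat B K) = -(epsD deg * a) := by
  ext i j
  rw [neg_apply, epsD_mul_apply, mul_epsD_apply]
  by_cases h0 : a i j = 0
  · simp only [h0, zero_mul, mul_zero, neg_zero]
  · rw [neg_one_pow_of_odd_add (h i j h0), neg_mul, neg_neg]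
    exact ((Commute.neg_one_right (a i j)).pow_right _).eq

end Parity

end LMat

namespace Cub

open LMat

variable {ι : Type*} [Fintype ι] [LinearOrder ι]

/-- position of a cell: the lower corner -/
def pos (c : Cell ι) : ι → ℤ := fun i => (c i).1

/-- coordinatewise distance of two cells at most `r` -/
def Cl (r : ℤ) (c c' : Cell ι) : Prop := ∀ i, |(c i).1 - (c' i).1| ≤ r

omit [LinearOrder ι] in
/-- boxes of cells are finite -/
theorem finite_box (lo hi : ι → ℤ) :
    {c : Cell ι | ∀ i, lo i ≤ (c i).1 ∧ (c i).1 ≤ hi i}.Finite := by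
  have h : ({c : Cell ι | ∀ i, lo i ≤ (c i).1 ∧ (c i).1 ≤ hi i}) ⊆
      Set.pi Set.univ (fun i => (Set.Icc (lo i) (hi i)) ×ˢ (Set.univ : Set Bool)) := by
    intro c hc i _
    exact ⟨⟨(hc i).1, (hc i).2⟩, Set.mem_univ _⟩
  refine Set.Finite.subset (Set.Finite.pi fun i => ?_) h
  exact (Set.finite_Icc _ _).prod Set.finite_univ

omit [LinearOrder ι] in
theorem finite_Cl (r : ℤ) (c : Cell ι) : {c' : Cell ι | Cl r c c'}.Finite := by
  refine (finite_box (fun i => (c i).1 - r) (fun i => (c i).1 + r)).subset ?_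
  intro c' hc' i
  have := abs_le.1 (hc' i)
  constructor <;> linarith only [this]

variable {K : Type*} [CommRing K]

omit [LinearOrder ι] in
/-- an endomorphism with bounded displacement is row-finite -/
theorem rowFin_of_Cl {f : Module.End K (Cell ι →₀ K)} (r : ℤ)
    (h : ∀ i j, f (single j 1) i ≠ 0 → Cl r i j) : RowFin f :=
  RowFin.of_rel (Cl r) (finite_Cl r) h

section Bdry

variable {k : Type*} [Field k]

/-- `c'` is a face of `c` of codimension one -/
def IsFace (c' c : Cell ι) : Prop :=
  ∃ i, (c i).2 = true ∧ (c' = Function.update c i ((c i).1, false) ∨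
    c' = Function.update c i ((c i).1 + 1, false))

theorem bdry_face {c c' : Cell ι} (h : bdry (single c (1 : k)) c' ≠ 0) : IsFace c' c := by
  classical
  rw [bdry, LinearMap.sum_apply, Finsupp.finsetSum_apply] at h
  obtain ⟨i, _, hi⟩ := Finset.exists_ne_zero_of_sum_ne_zero h
  rw [od_single, Finsupp.smul_apply] at hi
  have hi2 : Finsupp.mapDomain (Function.update c i) (bd (c i) : ℤ × Bool →₀ k) c' ≠ 0 := by
    intro h0; exact hi (by rw [h0, smul_zero])
  have hm : c' ∈ (Finsupp.mapDomain (Function.update c i) (bd (c i) : ℤ × Bool →₀ k)).support :=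
    Finsupp.mem_support_iff.2 hi2
  have := Finsupp.mapDomain_support hm
  obtain ⟨w, hw, rfl⟩ := Finset.mem_image.1 this
  obtain ⟨h1, h2, h3⟩ := bd_mem hw
  refine ⟨i, h1, ?_⟩
  rcases w with ⟨w1, w2⟩
  simp only at h2 h3
  subst h2
  rcases h3 with rfl | rfl
  · exact Or.inl rfl
  · exact Or.inr rfl

theorem IsFace.dg {c c' : Cell ι} (h : IsFace c' c) : dg c' + 1 = dg c := by
  obtain ⟨i, h1, h2 | h2⟩ := h
  · have := dg_update i c ((c i).1, false)
    rw [h1] at this
    subst h2
    simpa only [↓reduceIte, Bool.false_eq_true, add_zero] using this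
  · have := dg_update i c ((c i).1 + 1, false)
    rw [h1] at this
    subst h2
    simpa only [↓reduceIte, Bool.false_eq_true, add_zero] using this

omit [Fintype ι] in
theorem IsFace.cl {c c' : Cell ι} (h : IsFace c' c) : Cl 1 c' c := by
  obtain ⟨i, h1, h3⟩ := h
  intro j
  by_cases hj : j = i
  · subst hj
    rcases h3 with h3 | h3 <;> rw [h3] <;> simp
  · rcases h3 with h3 | h3 <;> rw [h3, Function.update_of_ne hj] <;> simp only [sub_self, abs_zero, zero_le_one]

theorem bdry_rowFin : RowFin (bdry : Module.End k (Cell ι →₀ k)) :=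
  rowFin_of_Cl 1 fun _ _ h => (bdry_face h).cl

/-- the boundary matrix -/
noncomputable def dL (k : Type*) [Field k] (ι : Type*) [Fintype ι] [LinearOrder ι] :
    LMat (Cell ι) k := toL bdry bdry_rowFin

@[simp] theorem ofL_dL : ofL (dL k ι) = bdry := ofL_toL _ _

theorem dL_face {c c' : Cell ι} (h : dL k ι c' c ≠ 0) : IsFace c' c := bdry_face h

end Bdry

end Cub

end Vale.Agent.P228
end
end

section

section

/-! The standard self-dual complex on the cells of the cubical structure of `ℤ^(2m)`. -/

namespace Vale.Agent.P228.Std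

open LMat Cub Finsupp

section Cons

variable {n : ℕ}

/-- a cell of `ℤ^(n+1)` from a one dimensional cell and a cell of `ℤ^n`. -/
abbrev ccons (z : ℤ × Bool) (c : Cell (Fin n)) : Cell (Fin (n + 1)) :=
  Fin.cons (α := fun _ => ℤ × Bool) z c

theorem ccons_inj {z w : ℤ × Bool} {c c' : Cell (Fin n)} (h : ccons z c = ccons w c') :
    z = w ∧ c = c' := Fin.cons_inj.1 h

/-- parity of a one dimensional cell -/
def pb (z : ℤ × Bool) : ℕ := if z.2 then 1 else 0

theorem bef_zero (c : Cell (Fin (n + 1))) : bef 0 c = 0 := by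
  unfold bef
  rw [Finset.card_eq_zero, Finset.filter_eq_empty_iff]
  intro j _
  simp

theorem bef_succ (z : ℤ × Bool) (c : Cell (Fin n)) (j : Fin n) :
    bef j.succ (ccons z c) = pb z + bef j c := by
  unfold bef pb
  rw [Finset.card_filter, Finset.card_filter, Fin.sum_univ_succ]
  simp only [Fin.succ_pos, Fin.cons_zero, true_and, Fin.succ_lt_succ_iff, Fin.cons_succ, Finset.sum_boole, Nat.cast_id, Nat.add_left_cancel_iff]

theorem dg_ccons (z : ℤ × Bool) (c : Cell (Fin n)) : dg (ccons z c) = pb z + dg c := by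
  unfold dg pb
  rw [Finset.card_filter, Finset.card_filter, Fin.sum_univ_succ]
  simp only [Fin.cons_zero, Fin.cons_succ, Finset.sum_boole, Nat.cast_id, Nat.add_left_cancel_iff]

theorem bdry_ccons (z : ℤ × Bool) (c : Cell (Fin n)) :
    bdry (single (ccons z c) (1 : ℂ)) =
      Finsupp.mapDomain (fun w => ccons w c) (bd z) +
        (-1 : ℂ) ^ pb z • Finsupp.mapDomain (ccons z) (bdry (single c (1 : ℂ))) := by
  unfold bdry
  rw [LinearMap.sum_apply, Fin.sum_univ_succ, LinearMap.sum_apply]
  congr 1
  · rw [od_single, bef_zero, pow_zero, one_smul]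
    congr 1
    funext w
    exact Fin.update_cons_zero _ _ _
  · rw [Finsupp.mapDomain_finsetSum, Finset.smul_sum]
    refine Finset.sum_congr rfl fun j _ => ?_
    rw [od_single, od_single, bef_succ, pow_add, mul_smul, Finsupp.mapDomain_smul,
      ← Finsupp.mapDomain_comp]
    congr 3
    funext w
    exact (Fin.cons_update _ _ _ _).symm

theorem mapDomain_cons_left (c c' : Cell (Fin n)) (w : ℤ × Bool) (f : ℤ × Bool →₀ ℂ) :
    Finsupp.mapDomain (fun w => ccons w c') f (ccons w c) = if c = c' then f w else 0 := by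
  classical
  have hinj : Function.Injective (fun w : ℤ × Bool => ccons w c') :=
    fun a b h => (ccons_inj h).1
  by_cases h : c = c'
  · rw [if_pos h, h]
    exact Finsupp.mapDomain_apply hinj f w
  · rw [if_neg h]
    apply Finsupp.mapDomain_of_notMem_range
    rintro ⟨z, hz⟩
    exact h (ccons_inj hz).2.symm

theorem mapDomain_cons_right (z w : ℤ × Bool) (c : Cell (Fin n)) (f : Cell (Fin n) →₀ ℂ) :
    Finsupp.mapDomain (ccons z) f (ccons w c) = if w = z then f c else 0 := by
  classical
  have hinj : Function.Injective (ccons z : Cell (Fin n) → Cell (Fin (n + 1))) :=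
    fun a b h => (ccons_inj h).2
  by_cases h : w = z
  · rw [if_pos h, h]
    exact Finsupp.mapDomain_apply hinj f c
  · rw [if_neg h]
    apply Finsupp.mapDomain_of_notMem_range
    rintro ⟨a, ha⟩
    exact h (ccons_inj ha).1.symm

/-- the boundary matrix of a product with an interval -/
theorem dL_ccons (w z : ℤ × Bool) (c c' : Cell (Fin n)) :
    Cub.dL ℂ (Fin (n + 1)) (ccons w c) (ccons z c') =
      (if c = c' then (bd z : ℤ × Bool →₀ ℂ) w else 0) +
        (-1 : ℂ) ^ pb z * (if w = z then Cub.dL ℂ (Fin n) c c' else 0) := by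
  have h : ∀ (N : ℕ) (a b : Cell (Fin N)), Cub.dL ℂ (Fin N) a b = bdry (single b (1 : ℂ)) a := by
    intro N a b
    rw [Cub.dL, toL_apply]
  rw [h, bdry_ccons, Finsupp.add_apply, Finsupp.smul_apply, mapDomain_cons_left,
    mapDomain_cons_right, smul_eq_mul, h]

theorem dL_zero (a b : Cell (Fin 0)) : Cub.dL ℂ (Fin 0) a b = 0 := by
  rw [Cub.dL, toL_apply, bdry, Finset.univ_eq_empty, Finset.sum_empty]
  rfl

end Cons

section Cells2

/-- is the cell extended in the first direction? -/
def t1 : Fin 4 → Bool := ![false, true, false, true]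

/-- is the cell extended in the second direction? -/
def t2 : Fin 4 → Bool := ![false, false, true, true]

/-- type from the two directions -/
def tt (a b : Bool) : Fin 4 := (if a then 1 else 0) + (if b then 2 else 0)

theorem tt_t (i : Fin 4) : tt (t1 i) (t2 i) = i := by
  revert i; decide

theorem t1_tt (a b : Bool) : t1 (tt a b) = a := by
  revert a b; decide

theorem t2_tt (a b : Bool) : t2 (tt a b) = b := by
  revert a b; decide

/-- first coordinate of a cell of `ℤ²` -/
def c1 (x : Cell2) : ℤ × Bool := (x.1.1, t1 x.2)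

/-- second coordinate of a cell of `ℤ²` -/
def c2 (x : Cell2) : ℤ × Bool := (x.1.2, t2 x.2)

theorem cell2_ext {x y : Cell2} (h1 : c1 x = c1 y) (h2 : c2 x = c2 y) : x = y := by
  obtain ⟨⟨a, b⟩, i⟩ := x
  obtain ⟨⟨a', b'⟩, j⟩ := y
  simp only [c1, c2, Prod.mk.injEq] at h1 h2
  have : i = j := by rw [← tt_t i, ← tt_t j, h1.2, h2.2]
  rw [h1.1, h2.1, this]

theorem dual2_d_apply (x y : Cell2) : dual2.d x y =
    (if c2 x = c2 y then (bd (c1 y) : ℤ × Bool →₀ ℂ) (c1 x) else 0) +
      (-1 : ℂ) ^ pb (c1 y) * (if c1 x = c1 y then (bd (c2 y) : ℤ × Bool →₀ ℂ) (c2 x) else 0) := by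
  obtain ⟨⟨a, b⟩, i⟩ := x
  obtain ⟨⟨a', b'⟩, j⟩ := y
  show lauHom (Std.dL (mono (1, 0)) (mono (0, 1)) i j) (a, b) (a', b') = _
  fin_cases i <;> fin_cases j <;>
    simp [Std.dL, c1, c2, t1, t2, bd, pb, lauHom_mono, shift_apply, Finsupp.single_apply,
      LMat.one_apply]
  all_goals grind

theorem dual2_e_apply (x y : Cell2) : dual2.e x y =
    if x = y then (-1 : ℂ) ^ (pb (c1 y) + pb (c2 y)) else 0 := by
  by_cases h : x = y
  · subst h
    rw [if_pos rfl, dual2_e_diag, diag_apply_self]
    obtain ⟨⟨a, b⟩, i⟩ := x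
    fin_cases i <;> simp [eL, c1, c2, t1, t2, pb]
  · rw [if_neg h, dual2_e_diag, diag_apply_ne _ h]

theorem conv_pb {M : Matrix (Fin 4) (Fin 4) Lau}
    (hM : ∀ i j, M i j ≠ 0 → pb (0, t1 i) + pb (0, t2 i) + (pb (0, t1 j) + pb (0, t2 j)) = 2)
    {x y : Cell2} (h : conv M x y ≠ 0) : pb (c1 x) + pb (c2 x) + (pb (c1 y) + pb (c2 y)) = 2 := by
  apply hM x.2 y.2
  intro h0
  apply h
  rw [conv_apply, h0, map_zero]
  rfl

theorem dual2_J_pb {x y : Cell2} (h : dual2.J x y ≠ 0) :
    pb (c1 x) + pb (c2 x) + (pb (c1 y) + pb (c2 y)) = 2 := by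
  refine conv_pb ?_ h
  intro i j
  fin_cases i <;> fin_cases j <;> simp [JL, t1, t2, pb]

theorem dual2_Ji_pb {x y : Cell2} (h : dual2.Ji x y ≠ 0) :
    pb (c1 x) + pb (c2 x) + (pb (c1 y) + pb (c2 y)) = 2 := by
  refine conv_pb (M := JiM) ?_ (fun h0 => h ?_)
  · intro i j
    fin_cases i <;> fin_cases j <;> simp [JiL, t1, t2, pb]
  · show (4⁻¹ : ℂ) • conv JiM x y = 0
    rw [h0, smul_zero]

end Cells2

section Main

/-- the cells of the product model as cells of `ℤ^(2m)` -/
def toCell : (m : ℕ) → CellR m → Cell (Fin (2 * m))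
  | 0, _ => fun i => (0, false)
  | m + 1, x => ccons (c1 x.1) (ccons (c2 x.1) (toCell m x.2))

/-- the inverse -/
def ofCell : (m : ℕ) → Cell (Fin (2 * m)) → CellR m
  | 0, _ => ()
  | m + 1, f => ((((f 0).1, (f 1).1), tt (f 0).2 (f 1).2), ofCell m (fun i => f i.succ.succ))

theorem ofCell_toCell : ∀ (m : ℕ) (x : CellR m), ofCell m (toCell m x) = x
  | 0, _ => rfl
  | m + 1, x => by
    refine Prod.ext ?_ ?_
    · exact Prod.ext rfl (tt_t x.1.2)
    · exact ofCell_toCell m x.2

theorem toCell_ofCell : ∀ (m : ℕ) (f : Cell (Fin (2 * m))), toCell m (ofCell m f) = f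
  | 0, f => by
    funext i
    exact Fin.elim0 i
  | m + 1, f => by
    funext i
    refine Fin.cases ?_ (fun i => ?_) i
    · show ((f 0).1, t1 (tt (f 0).2 (f 1).2)) = f 0
      rw [t1_tt]
    · refine Fin.cases ?_ (fun i => ?_) i
      · show ((f 1).1, t2 (tt (f 0).2 (f 1).2)) = f 1
        rw [t2_tt]
      · exact congrFun (toCell_ofCell m (fun i => f i.succ.succ)) i

/-- the cells of the product model are the cells of `ℤ^(2m)` -/
def cellR (m : ℕ) : CellR m ≃ Cell (Fin (2 * m)) :=
  ⟨toCell m, ofCell m, ofCell_toCell m, toCell_ofCell m⟩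

theorem toCell_inj (m : ℕ) {x y : CellR m} (h : toCell m x = toCell m y) : x = y :=
  (cellR m).injective h

theorem dL_toCell : ∀ (m : ℕ) (x y : CellR m),
    Cub.dL ℂ (Fin (2 * m)) (toCell m x) (toCell m y) = (dualR m).d x y
  | 0, _, _ => dL_zero _ _
  | m + 1, x, y => by
    classical
    have h1 : (dualR (m + 1)).d x y = dual2.d x.1 y.1 * (1 : LMat (CellR m) ℂ) x.2 y.2
        + dual2.e x.1 y.1 * (dualR m).d x.2 y.2 := rfl
    have h2 : Cub.dL ℂ (Fin (2 * (m + 1))) (toCell (m + 1) x) (toCell (m + 1) y) =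
      Cub.dL ℂ (Fin (2 * m + 1 + 1)) (ccons (c1 x.1) (ccons (c2 x.1) (toCell m x.2)))
        (ccons (c1 y.1) (ccons (c2 y.1) (toCell m y.2))) := rfl
    rw [h1, h2, dL_ccons, dL_ccons, dL_toCell m x.2 y.2, dual2_d_apply, dual2_e_apply]
    have e1 : ccons (c2 x.1) (toCell m x.2) = ccons (c2 y.1) (toCell m y.2) ↔
        c2 x.1 = c2 y.1 ∧ x.2 = y.2 := by
      constructor
      · intro h
        exact ⟨(ccons_inj h).1, toCell_inj m (ccons_inj h).2⟩
      · rintro ⟨h, h'⟩
        rw [h, h']
    have e2 : toCell m x.2 = toCell m y.2 ↔ x.2 = y.2 :=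
      ⟨fun h => toCell_inj m h, fun h => by rw [h]⟩
    have e3 : x.1 = y.1 ↔ c1 x.1 = c1 y.1 ∧ c2 x.1 = c2 y.1 :=
      ⟨fun h => by rw [h]; exact ⟨rfl, rfl⟩, fun h => cell2_ext h.1 h.2⟩
    simp only [e1, e2, LMat.one_apply, e3]
    by_cases ha : c1 x.1 = c1 y.1 <;> by_cases hb : c2 x.1 = c2 y.1 <;>
      by_cases hc : x.2 = y.2 <;> simp [ha, hb, hc, pow_add] <;> ring

theorem dg_toCell_succ (m : ℕ) (x : CellR (m + 1)) :
    dg (toCell (m + 1) x) = pb (c1 x.1) + pb (c2 x.1) + dg (toCell m x.2) := by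
  have : dg (toCell (m + 1) x) = dg (ccons (c1 x.1) (ccons (c2 x.1) (toCell m x.2))) := rfl
  rw [this, dg_ccons, dg_ccons, add_assoc]

theorem eps_toCell : ∀ (m : ℕ) (x y : CellR m),
    (epsD dg : LMat (Cell (Fin (2 * m))) ℂ) (toCell m x) (toCell m y) = (dualR m).e x y
  | 0, x, y => by
    have h : x = y := rfl
    subst h
    have h1 : (dualR 0).e x x = 1 := LMat.one_apply_self _
    rw [h1, epsD, diag_apply_self]
    have : dg (toCell 0 x) = 0 := by
      unfold dg
      rw [Finset.card_eq_zero, Finset.filter_eq_empty_iff]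
      intro i
      exact Fin.elim0 i
    rw [this, pow_zero]
  | m + 1, x, y => by
    classical
    have h1 : (dualR (m + 1)).e x y = dual2.e x.1 y.1 * (dualR m).e x.2 y.2 := rfl
    rw [h1, ← eps_toCell m x.2 y.2, dual2_e_apply, epsD, epsD, diag_apply, diag_apply]
    have e2 : toCell m x.2 = toCell m y.2 ↔ x.2 = y.2 :=
      ⟨fun h => toCell_inj m h, fun h => by rw [h]⟩
    have e3 : toCell (m + 1) x = toCell (m + 1) y ↔ x.1 = y.1 ∧ x.2 = y.2 :=
      ⟨fun h => by rw [toCell_inj (m + 1) h]; exact ⟨rfl, rfl⟩, fun h => by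
        have : x = y := Prod.ext h.1 h.2
        rw [this]⟩
    rw [dg_toCell_succ]
    simp only [e3, e2]
    by_cases ha : x.1 = y.1 <;> by_cases hb : x.2 = y.2 <;> simp [ha, hb, pow_add]

theorem dg_J : ∀ (m : ℕ) (x y : CellR m), (dualR m).J x y ≠ 0 →
    dg (toCell m x) + dg (toCell m y) = 2 * m
  | 0, x, y, _ => by
    have h : ∀ x : CellR 0, dg (toCell 0 x) = 0 := by
      intro x
      unfold dg
      rw [Finset.card_eq_zero, Finset.filter_eq_empty_iff]
      intro i
      exact Fin.elim0 i
    rw [h, h]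
  | m + 1, x, y, h => by
    have h' : dual2.J x.1 y.1 * (dualR m).J x.2 y.2 ≠ 0 := h
    have h1 := dual2_J_pb (left_ne_zero_of_mul h')
    have h2 := dg_J m x.2 y.2 (right_ne_zero_of_mul h')
    rw [dg_toCell_succ, dg_toCell_succ]
    omega

theorem dg_Ji : ∀ (m : ℕ) (x y : CellR m), (dualR m).Ji x y ≠ 0 →
    dg (toCell m x) + dg (toCell m y) = 2 * m
  | 0, x, y, _ => by
    have h : ∀ x : CellR 0, dg (toCell 0 x) = 0 := by
      intro x
      unfold dg
      rw [Finset.card_eq_zero, Finset.filter_eq_empty_iff]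
      intro i
      exact Fin.elim0 i
    rw [h, h]
  | m + 1, x, y, h => by
    have h' : dual2.Ji x.1 y.1 * (dualR m).Ji x.2 y.2 ≠ 0 := h
    have h1 := dual2_Ji_pb (left_ne_zero_of_mul h')
    have h2 := dg_Ji m x.2 y.2 (right_ne_zero_of_mul h')
    rw [dg_toCell_succ, dg_toCell_succ]
    omega

theorem close_of_nearR : ∀ (m : ℕ) (x y : CellR m), NearR m x y →
    ∀ i, |(toCell m x i).1 - (toCell m y i).1| ≤ 1
  | 0, _, _, _, i => Fin.elim0 i
  | m + 1, x, y, h, i => by
    obtain ⟨h1, h2, h3⟩ := h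
    refine Fin.cases ?_ (fun i => ?_) i
    · exact h1
    · refine Fin.cases ?_ (fun i => ?_) i
      · exact h2
      · exact close_of_nearR m x.2 y.2 h3 i

/-- the standard strictly self-dual complex on the cells of `ℤ^(2m)` -/
noncomputable def cubDual (m : ℕ) : Alg.Dual (LMat (Cell (Fin (2 * m))) ℂ) :=
  (dualR m).map (LMat.reindex (cellR m)).toRingHom (LMat.reindex_star (cellR m))

theorem cubDual_d (m : ℕ) : (cubDual m).d = Cub.dL ℂ (Fin (2 * m)) := by
  ext f g
  show (dualR m).d ((cellR m).symm f) ((cellR m).symm g) = _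
  rw [← dL_toCell]
  exact congrArg₂ _ (toCell_ofCell m f) (toCell_ofCell m g)

theorem cubDual_e (m : ℕ) : (cubDual m).e = epsD dg := by
  ext f g
  show (dualR m).e ((cellR m).symm f) ((cellR m).symm g) = _
  rw [← eps_toCell]
  exact congrArg₂ _ (toCell_ofCell m f) (toCell_ofCell m g)

theorem cubDual_J_supp (m : ℕ) {f g : Cell (Fin (2 * m))} (h : (cubDual m).J f g ≠ 0) :
    (∀ i, |(f i).1 - (g i).1| ≤ 1) ∧ dg f + dg g = 2 * m := by
  have h' : (dualR m).J (ofCell m f) (ofCell m g) ≠ 0 := h
  have h1 := close_of_nearR m _ _ (dualR_J_supp m _ _ h')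
  have h2 := dg_J m _ _ h'
  rw [toCell_ofCell, toCell_ofCell] at h1 h2
  exact ⟨h1, h2⟩

theorem cubDual_Ji_supp (m : ℕ) {f g : Cell (Fin (2 * m))} (h : (cubDual m).Ji f g ≠ 0) :
    (∀ i, |(f i).1 - (g i).1| ≤ 1) ∧ dg f + dg g = 2 * m := by
  have h' : (dualR m).Ji (ofCell m f) (ofCell m g) ≠ 0 := h
  have h1 := close_of_nearR m _ _ (dualR_Ji_supp m _ _ h')
  have h2 := dg_Ji m _ _ h'
  rw [toCell_ofCell, toCell_ofCell] at h1 h2
  exact ⟨h1, h2⟩

theorem cubDual_Je (m : ℕ) : (cubDual m).J * (cubDual m).e =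
    LMat.reindex (cellR m) ((dualR m).J * (dualR m).e) := by
  rw [map_mul]; rfl

theorem cubDual_eJi (m : ℕ) : (cubDual m).e * (cubDual m).Ji =
    LMat.reindex (cellR m) ((dualR m).e * (dualR m).Ji) := by
  rw [map_mul]; rfl

end Main

end Vale.Agent.P228.Std
end
end

section

section

section

open MeasureTheory Matrix Set Topology

namespace Vale.Agent.P228

/-- The determinant as a continuous multilinear function of the rows. -/
noncomputable def detC (n : ℕ) : ContinuousMultilinearMap ℝ (fun _ : Fin n => (Fin n → ℝ)) ℝ :=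
  { toMultilinearMap := (Matrix.detRowAlternating : (Fin n → ℝ) [⋀^Fin n]→ₗ[ℝ] ℝ).toMultilinearMap
    cont := by
      have : Continuous fun a : Fin n → (Fin n → ℝ) => Matrix.det (Matrix.of a) := by
        apply Continuous.matrix_det
        exact continuous_id
      exact this }

lemma detC_apply (n : ℕ) (a : Fin n → (Fin n → ℝ)) : detC n a = Matrix.det (Matrix.of a) := rfl

lemma detC_swap {n : ℕ} (a : Fin n → (Fin n → ℝ)) {i j : Fin n} (hij : i ≠ j) :
    detC n (a ∘ Equiv.swap i j) = - detC n a :=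
  (Matrix.detRowAlternating : (Fin n → ℝ) [⋀^Fin n]→ₗ[ℝ] ℝ).map_swap a hij

variable {n : ℕ}

/-- rows of the (transposed) Jacobian matrix -/
noncomputable def rows (f : (Fin n → ℝ) → (Fin n → ℝ)) (x : Fin n → ℝ) : Fin n → (Fin n → ℝ) :=
  fun j => fderiv ℝ f x (Pi.single j 1)

lemma det_fderiv_eq (f : (Fin n → ℝ) → (Fin n → ℝ)) (x : Fin n → ℝ) :
    (fderiv ℝ f x).det = detC n (rows f x) := by
  rw [detC_apply, ContinuousLinearMap.det, ← LinearMap.det_toMatrix', ← Matrix.det_transpose]
  congr 1

lemma cramer_rows (a : Fin n → (Fin n → ℝ)) (u : Fin n → ℝ) :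
    ∑ j, detC n (Function.update a j u) • a j = detC n a • u := by
  have h := Matrix.mulVec_cramer (Matrix.of a)ᵀ u
  rw [Matrix.det_transpose] at h
  ext k
  have hk := congrFun h k
  simp only [mulVec, dotProduct, transpose_apply, of_apply, cramer_transpose_apply] at hk
  simp only [Finset.sum_apply, Pi.smul_apply, smul_eq_mul, detC_apply]
  rw [Pi.smul_apply, smul_eq_mul] at hk
  rw [← hk]
  refine Finset.sum_congr rfl fun j _ => ?_
  rw [mul_comm]
  rfl

lemma hasFDerivAt_rows {f : (Fin n → ℝ) → (Fin n → ℝ)} (hf : ContDiff ℝ 2 f) (x : Fin n → ℝ)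
    (i : Fin n) :
    HasFDerivAt (fun y => rows f y i)
      ((ContinuousLinearMap.apply ℝ (Fin n → ℝ) (Pi.single i (1 : ℝ))).comp
        (fderiv ℝ (fderiv ℝ f) x)) x := by
  have h1 : HasFDerivAt (fderiv ℝ f) (fderiv ℝ (fderiv ℝ f) x) x := by
    have : ContDiff ℝ 1 (fderiv ℝ f) := hf.fderiv_right (by norm_num)
    exact (this.differentiable (by norm_num) x).hasFDerivAt
  exact (ContinuousLinearMap.apply ℝ (Fin n → ℝ) (Pi.single i (1 : ℝ))).hasFDerivAt.comp x h1

/-- antisymmetric double sums vanish -/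
lemma sum_antisymm {T : Fin n → Fin n → ℝ} (hT : ∀ i j, i ≠ j → T i j = - T j i) :
    ∑ j, ∑ i, (if i = j then 0 else T i j) = 0 := by
  have h1 : ∑ j, ∑ i, (if i = j then 0 else T i j) = ∑ j, ∑ i, (if i = j then 0 else T j i) := by
    rw [Finset.sum_comm]
    refine Finset.sum_congr rfl fun i _ => Finset.sum_congr rfl fun j _ => ?_
    by_cases h : i = j
    · simp [h]
    · simp [h, Ne.symm h]
  have h2 : ∑ j, ∑ i, (if i = j then 0 else T j i) = - ∑ j, ∑ i, (if i = j then 0 else T i j) := by
    rw [← Finset.sum_neg_distrib]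
    refine Finset.sum_congr rfl fun i _ => ?_
    rw [← Finset.sum_neg_distrib]
    refine Finset.sum_congr rfl fun j _ => ?_
    by_cases h : j = i
    · simp only [h, ↓reduceIte, neg_zero]
    · simp [h, hT i j (Ne.symm h)]
  linarith only [h1, h2]

lemma hasFDerivAt_upd {f u : (Fin n → ℝ) → (Fin n → ℝ)} (hf : ContDiff ℝ 2 f) {x : Fin n → ℝ}
    {u' : (Fin n → ℝ) →L[ℝ] (Fin n → ℝ)}
    (hu : HasFDerivAt u u' x) (j : Fin n) :
    HasFDerivAt (fun y => Function.update (rows f y) j (u y))
      (ContinuousLinearMap.pi fun i => if i = j then u' else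
        ((ContinuousLinearMap.apply ℝ (Fin n → ℝ) (Pi.single i (1 : ℝ))).comp
        (fderiv ℝ (fderiv ℝ f) x))) x := by
  rw [hasFDerivAt_pi]
  intro i
  by_cases h : i = j
  · subst h
    simpa only [Function.update_self, ↓reduceIte, hasFDerivAt_pi'] using hu
  · simpa only [ne_eq, h, not_false_eq_true, Function.update_of_ne, ↓reduceIte,
      hasFDerivAt_pi'] using hasFDerivAt_rows hf x i

lemma swap_update {a : Fin n → (Fin n → ℝ)} {u b : Fin n → ℝ} {i j : Fin n} (h : i ≠ j) :
    (Function.update (Function.update a j u) i b) ∘ Equiv.swap i j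
      = Function.update (Function.update a i u) j b := by
  funext k
  simp only [Function.comp_apply]
  by_cases hi : k = i
  · subst hi
    rw [Equiv.swap_apply_left]
    simp [h, h.symm]
  · by_cases hj : k = j
    · subst hj
      rw [Equiv.swap_apply_right]
      simp
    · rw [Equiv.swap_apply_of_ne_of_ne hi hj]
      simp only [ne_eq, hi, not_false_eq_true, Function.update_of_ne, hj]

/-- **Piola identity** -/
lemma piola {f u : (Fin n → ℝ) → (Fin n → ℝ)} (hf : ContDiff ℝ 2 f) {x : Fin n → ℝ}
    {u' : (Fin n → ℝ) →L[ℝ] (Fin n → ℝ)} (hu : HasFDerivAt u u' x) :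
    ∑ j, fderiv ℝ (fun y => detC n (Function.update (rows f y) j (u y))) x (Pi.single j 1)
      = ∑ j, detC n (Function.update (rows f x) j (u' (Pi.single j 1))) := by
  set B : Fin n → Fin n → (Fin n → ℝ) := fun i j =>
    fderiv ℝ (fderiv ℝ f) x (Pi.single j 1) (Pi.single i 1) with hB
  have hBs : ∀ i j, B i j = B j i := by
    intro i j
    have := (hf.contDiffAt (x := x)).isSymmSndFDerivAt (by simp)
    exact this _ _
  set a := rows f x with ha
  have key : ∀ j, fderiv ℝ (fun y => detC n (Function.update (rows f y) j (u y))) x (Pi.single j 1)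
      = detC n (Function.update a j (u' (Pi.single j 1))) +
        ∑ i, (if i = j then 0 else detC n (Function.update (Function.update a j (u x)) i (B i j))) := by
    intro j
    have h1 := ((detC n).hasFDerivAt (Function.update (rows f x) j (u x))).comp x
      (hasFDerivAt_upd hf hu j)
    have h2 : fderiv ℝ (fun y => detC n (Function.update (rows f y) j (u y))) x = _ :=
      h1.fderiv
    rw [h2]
    simp only [ContinuousLinearMap.comp_apply, ContinuousMultilinearMap.linearDeriv_apply,
      ContinuousLinearMap.pi_apply]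
    rw [← Finset.add_sum_erase Finset.univ _ (Finset.mem_univ j)]
    congr 1
    · simp only [↓reduceIte, Function.update_idem, ha]
    · rw [← Finset.add_sum_erase Finset.univ (fun i => if i = j then 0 else _) (Finset.mem_univ j)]
      simp only [if_true, zero_add]
      refine Finset.sum_congr rfl fun i hi => ?_
      have hij : i ≠ j := Finset.ne_of_mem_erase hi
      simp only [if_neg hij]
      rfl
  rw [Finset.sum_congr rfl fun j _ => key j, Finset.sum_add_distrib]
  rw [sum_antisymm (T := fun i j => detC n (Function.update (Function.update a j (u x)) i (B i j)))]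
  · simp only [add_zero]
  · intro i j hij
    have h3 := detC_swap (Function.update (Function.update a j (u x)) i (B i j)) hij
    rw [swap_update hij] at h3
    rw [hBs j i, h3]
    simp only [neg_neg]

lemma contDiff_rows {f : (Fin n → ℝ) → (Fin n → ℝ)} {m k : WithTop ℕ∞} (hf : ContDiff ℝ m f)
    (hk : k + 1 ≤ m) : ContDiff ℝ k (rows f) := by
  rw [contDiff_pi]
  intro i
  exact (hf.fderiv_right hk).clm_apply contDiff_const

lemma differentiable_upd {f u : (Fin n → ℝ) → (Fin n → ℝ)} (hf : ContDiff ℝ 2 f)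
    (hu : Differentiable ℝ u) (j : Fin n) :
    Differentiable ℝ (fun y => detC n (Function.update (rows f y) j (u y))) := by
  intro x
  exact (((detC n).hasFDerivAt (Function.update (rows f x) j (u x))).comp x
      (hasFDerivAt_upd hf (hu x).hasFDerivAt j)).differentiableAt

lemma div_eq {f u : (Fin n → ℝ) → (Fin n → ℝ)} {φ : (Fin n → ℝ) → ℝ} (hf : ContDiff ℝ 2 f)
    (hu : Differentiable ℝ u) (hφ : Differentiable ℝ φ) (x : Fin n → ℝ) :
    ∑ j, fderiv ℝ (fun y => φ (f y) * detC n (Function.update (rows f y) j (u y))) x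
        (Pi.single j 1)
      = fderiv ℝ φ (f x) (u x) * detC n (rows f x)
        + φ (f x) * ∑ j, detC n (Function.update (rows f x) j (rows u x j)) := by
  have hfd : Differentiable ℝ f := hf.differentiable (by norm_num)
  have h1 : ∀ j, fderiv ℝ (fun y => φ (f y) * detC n (Function.update (rows f y) j (u y))) x
      (Pi.single j 1) = fderiv ℝ φ (f x) (detC n (Function.update (rows f x) j (u x)) • rows f x j)
        + φ (f x) * fderiv ℝ (fun y => detC n (Function.update (rows f y) j (u y))) x
          (Pi.single j 1) := by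
    intro j
    have hφf : HasFDerivAt (fun y => φ (f y)) ((fderiv ℝ φ (f x)).comp (fderiv ℝ f x)) x :=
      (hφ (f x)).hasFDerivAt.comp x (hfd x).hasFDerivAt
    have h2 : HasFDerivAt (fun y => φ (f y) * detC n (Function.update (rows f y) j (u y))) _ x :=
      hφf.mul (differentiable_upd hf hu j x).hasFDerivAt
    rw [h2.fderiv]
    simp only [_root_.add_apply, _root_.smul_apply, smul_eq_mul, ContinuousLinearMap.comp_apply, rows, map_smul]
    ring
  rw [Finset.sum_congr rfl fun j _ => h1 j, Finset.sum_add_distrib, ← map_sum, cramer_rows,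
    ← Finset.mul_sum, piola hf (hu x).hasFDerivAt]
  simp only [map_smul, smul_eq_mul, rows]
  ring

lemma rows_add_smul {f u : (Fin n → ℝ) → (Fin n → ℝ)} (hf : Differentiable ℝ f)
    (hu : Differentiable ℝ u) (t : ℝ) (x : Fin n → ℝ) :
    rows (fun y => f y + t • u y) x = rows f x + t • rows u x := by
  funext j
  simp only [rows, Pi.add_apply, Pi.smul_apply]
  have h : HasFDerivAt (fun y => f y + t • u y) (fderiv ℝ f x + t • fderiv ℝ u x) x :=
    (hf x).hasFDerivAt.add ((hu x).hasFDerivAt.const_smul t)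
  rw [h.fderiv]
  rfl

lemma hasDerivAt_time {f u : (Fin n → ℝ) → (Fin n → ℝ)} {φ : (Fin n → ℝ) → ℝ}
    (hf : Differentiable ℝ f)
    (hu : Differentiable ℝ u) (hφ : Differentiable ℝ φ) (x : Fin n → ℝ) (t : ℝ) :
    HasDerivAt (fun s : ℝ => φ (f x + s • u x) * detC n (rows (fun y => f y + s • u y) x))
      (fderiv ℝ φ (f x + t • u x) (u x) * detC n (rows (fun y => f y + t • u y) x)
        + φ (f x + t • u x) *
          ∑ j, detC n (Function.update (rows (fun y => f y + t • u y) x) j (rows u x j))) t := by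
  have h0 : HasDerivAt (fun s : ℝ => f x + s • u x) (u x) t := by
    simpa using ((hasDerivAt_id t).smul_const (u x)).const_add (f x)
  have h1 : HasDerivAt (fun s : ℝ => φ (f x + s • u x)) (fderiv ℝ φ (f x + t • u x) (u x)) t :=
    (hφ (f x + t • u x)).hasFDerivAt.comp_hasDerivAt t h0
  have h2 : HasDerivAt (fun s : ℝ => rows f x + s • rows u x) (rows u x) t := by
    simpa using ((hasDerivAt_id t).smul_const (rows u x)).const_add (rows f x)
  have h3 : HasDerivAt (fun s : ℝ => detC n (rows f x + s • rows u x))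
      (∑ j, detC n (Function.update (rows f x + t • rows u x) j (rows u x j))) t := by
    have := ((detC n).hasFDerivAt (rows f x + t • rows u x)).comp_hasDerivAt t h2
    rwa [ContinuousMultilinearMap.linearDeriv_apply] at this
  simp only [rows_add_smul hf hu]
  exact h1.mul h3

end Vale.Agent.P228
end
end
end

section

section

section

open MeasureTheory Matrix Set Topology

namespace Vale.Agent.P228

variable {n : ℕ}

lemma continuous_detC : Continuous (detC n) := (detC n).cont

/-- time derivative of the integrand -/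
noncomputable def tder (φ : (Fin n → ℝ) → ℝ) (f u : (Fin n → ℝ) → (Fin n → ℝ)) (t : ℝ)
    (x : Fin n → ℝ) : ℝ :=
  fderiv ℝ φ (f x + t • u x) (u x) * detC n (rows f x + t • rows u x)
    + φ (f x + t • u x) *
      ∑ j, detC n (Function.update (rows f x + t • rows u x) j (rows u x j))

lemma continuous_tder {φ : (Fin n → ℝ) → ℝ} {f u : (Fin n → ℝ) → (Fin n → ℝ)}
    (hφ : ContDiff ℝ 1 φ) (hf : ContDiff ℝ 2 f) (hu : ContDiff ℝ 2 u) :
    Continuous (fun q : ℝ × (Fin n → ℝ) => tder φ f u q.1 q.2) := by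
  have h1 : Continuous (rows f) := (contDiff_rows (k := 1) hf (by norm_num)).continuous
  have h2 : Continuous (rows u) := (contDiff_rows (k := 1) hu (by norm_num)).continuous
  have h3 : Continuous f := hf.continuous
  have h4 : Continuous u := hu.continuous
  have h5 : Continuous φ := hφ.continuous
  have h6 : Continuous (fderiv ℝ φ) := hφ.continuous_fderiv (by norm_num)
  have h7 : Continuous (detC n) := continuous_detC
  unfold tder
  refine Continuous.add (Continuous.mul ?_ ?_) (Continuous.mul ?_ ?_)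
  · exact (h6.comp (by fun_prop)).clm_apply (by fun_prop)
  · exact h7.comp (by fun_prop)
  · exact h5.comp (by fun_prop)
  · refine continuous_finsetSum _ fun j _ => h7.comp ?_
    refine Continuous.update (by fun_prop) j ?_
    exact (continuous_apply j).comp (h2.comp continuous_snd)

lemma integral_const_in_time {φ χ : (Fin n → ℝ) → ℝ} {f u : (Fin n → ℝ) → (Fin n → ℝ)}
    (hφ : ContDiff ℝ 1 φ) (hf : ContDiff ℝ 2 f) (hu : ContDiff ℝ 2 u)
    (hχ : ContDiff ℝ 1 χ) (hχc : HasCompactSupport χ)
    (h : ∀ t ∈ Icc (0:ℝ) 1, ∀ x, φ (f x + t • u x) ≠ 0 → fderiv ℝ χ x = 0) :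
    ∫ x, χ x * (φ (f x + u x) * detC n (rows (fun y => f y + u y) x))
      = ∫ x, χ x * (φ (f x) * detC n (rows f x)) := by
  have hfd : Differentiable ℝ f := hf.differentiable (by norm_num)
  have hud : Differentiable ℝ u := hu.differentiable (by norm_num)
  have hφd : Differentiable ℝ φ := hφ.differentiable (by norm_num)
  have c1 : Continuous (rows f) := (contDiff_rows (k := 1) hf (by norm_num)).continuous
  have c2 : Continuous (rows u) := (contDiff_rows (k := 1) hu (by norm_num)).continuous
  have c3 : Continuous f := hf.continuous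
  have c4 : Continuous u := hu.continuous
  have c5 : Continuous φ := hφ.continuous
  have c7 : Continuous (detC n) := continuous_detC
  have c8 : Continuous χ := hχ.continuous
  set G : ℝ → (Fin n → ℝ) → ℝ := fun t x =>
    χ x * (φ (f x + t • u x) * detC n (rows (fun y => f y + t • u y) x)) with hG
  set G' : ℝ → (Fin n → ℝ) → ℝ := fun t x => χ x * tder φ f u t x with hG'
  have hGcont : ∀ t, Continuous (G t) := by
    intro t
    simp only [hG, rows_add_smul hfd hud]
    exact c8.mul ((c5.comp (by fun_prop)).mul (c7.comp (by fun_prop)))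
  have hG'cont : Continuous (fun q : ℝ × (Fin n → ℝ) => G' q.1 q.2) :=
    (c8.comp continuous_snd).mul (continuous_tder hφ hf hu)
  have hderiv : ∀ t x, HasDerivAt (fun s => G s x) (G' t x) t := by
    intro t x
    have := (hasDerivAt_time hfd hud hφd x t).const_mul (χ x)
    simp only [hG, hG', tder]
    simpa only [rows_add_smul hfd hud] using this
  have hD : ∀ t, HasDerivAt (fun s => ∫ x, G s x) (∫ x, G' t x) t := by
    intro t
    have hK : IsCompact (Icc (t - 1) (t + 1) ×ˢ tsupport χ) := isCompact_Icc.prod hχc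
    obtain ⟨C, hC⟩ := hK.exists_bound_of_continuousOn hG'cont.continuousOn
    refine (hasDerivAt_integral_of_dominated_loc_of_deriv_le (μ := volume) (F := G) (F' := G')
      (bound := (tsupport χ).indicator (fun _ => C)) (s := Icc (t - 1) (t + 1)) (x₀ := t)
      (Icc_mem_nhds (by linarith only []) (by linarith only [])) ?_ ?_ ?_ ?_ ?_ ?_).2
    · exact Filter.Eventually.of_forall fun s => (hGcont s).aestronglyMeasurable
    · exact (hGcont t).integrable_of_hasCompactSupport (hχc.mul_right)
    · exact (hG'cont.comp (Continuous.prodMk_right t)).aestronglyMeasurable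
    · refine Filter.Eventually.of_forall fun x s hs => ?_
      by_cases hx : x ∈ tsupport χ
      · rw [indicator_of_mem hx]
        exact hC (s, x) ⟨hs, hx⟩
      · rw [indicator_of_notMem hx]
        simp [hG', image_eq_zero_of_notMem_tsupport hx]
    · rw [integrable_indicator_iff (isClosed_tsupport χ).measurableSet]
      exact integrableOn_const hχc.measure_lt_top.ne
    · exact Filter.Eventually.of_forall fun x s _ => hderiv s x
  have hzero : ∀ t ∈ Icc (0:ℝ) 1, ∫ x, G' t x = 0 := by
    intro t ht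
    set ft : (Fin n → ℝ) → (Fin n → ℝ) := fun y => f y + t • u y with hft
    have hftC : ContDiff ℝ 2 ft := hf.add (hu.const_smul t)
    set hj : Fin n → (Fin n → ℝ) → ℝ := fun j y =>
      φ (ft y) * detC n (Function.update (rows ft y) j (u y)) with hhj
    have hjC : ∀ j, ContDiff ℝ 1 (hj j) := by
      intro j
      refine (hφ.comp (hftC.of_le (by norm_num))).mul ?_
      refine (detC n).contDiff.comp ?_
      rw [contDiff_pi]
      intro i
      by_cases hij : i = j
      · subst hij
        simpa only [Function.update_self] using hu.of_le (by norm_num)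
      · simp only [Function.update_of_ne hij]
        exact contDiff_pi.1 (contDiff_rows (k := 1) hftC (by norm_num)) i
    have e1 : ∀ x, G' t x = ∑ j, χ x * fderiv ℝ (hj j) x (Pi.single j 1) := by
      intro x
      rw [← Finset.mul_sum]
      simp only [hG', hhj]
      rw [div_eq hftC hud hφd x]
      simp only [tder, hft, rows_add_smul hfd hud]
    have hint : ∀ j, Integrable (fun x => χ x * fderiv ℝ (hj j) x (Pi.single j 1)) := by
      intro j
      refine Continuous.integrable_of_hasCompactSupport ?_ hχc.mul_right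
      exact c8.mul (((hjC j).continuous_fderiv (by norm_num)).clm_apply continuous_const)
    rw [integral_congr_ae (Filter.Eventually.of_forall e1), integral_finsetSum _ fun j _ => hint j]
    refine Finset.sum_eq_zero fun j _ => ?_
    have hz : ∀ x, fderiv ℝ χ x (Pi.single j 1) * hj j x = 0 := by
      intro x
      by_cases hx : φ (ft x) = 0
      · simp only [hhj, hx, zero_mul, mul_zero]
      · rw [h t ht x hx]
        simp
    rw [integral_mul_fderiv_eq_neg_fderiv_mul_of_integrable]
    · simp [hz]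
    · simp only [hz, integrable_fun_zero]
    · exact hint j
    · exact Continuous.integrable_of_hasCompactSupport (c8.mul (hjC j).continuous) hχc.mul_right
    · exact fun x _ => (hχ.differentiable (by norm_num)) x
    · exact fun x _ => ((hjC j).differentiable (by norm_num)) x
  have hconst := constant_of_has_deriv_right_zero (f := fun s => ∫ x, G s x) (a := 0) (b := 1)
    (fun s _ => (hD s).continuousAt.continuousWithinAt) (fun s hs => by
      have := (hD s).hasDerivWithinAt (s := Ici s)
      rwa [hzero s ⟨hs.1, hs.2.le⟩] at this) 1 (by simp only [mem_Icc, zero_le_one, Std.le_refl, and_self])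
  simpa only [hG, one_smul, zero_smul, add_zero] using hconst

end Vale.Agent.P228
end
end
end

section

section

section

open MeasureTheory Matrix Set Topology Bornology
open scoped ContDiff Manifold

namespace Vale.Agent.P228

variable {n : ℕ}

lemma two_le_infty : (2 : WithTop ℕ∞) ≤ ∞ := WithTop.coe_le_coe.2 le_top

lemma exists_smooth_approx {f : (Fin n → ℝ) → (Fin n → ℝ)} {K : Set (Fin n → ℝ)}
    (hK : IsCompact K) (hf : ContinuousOn f K) {ε : ℝ} (hε : 0 < ε) :
    ∃ g : (Fin n → ℝ) → (Fin n → ℝ), ContDiff ℝ ∞ g ∧ ∀ x ∈ K, ‖g x - f x‖ < ε := by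
  obtain ⟨F, hF⟩ := ContinuousMap.exists_restrict_eq hK.isClosed
    (⟨K.domRestrict f, continuousOn_iff_continuous_domRestrict.1 hf⟩ : C(K, Fin n → ℝ))
  have hFf : ∀ x ∈ K, F x = f x := by
    intro x hx
    exact congrArg (fun G : C(K, Fin n → ℝ) => G ⟨x, hx⟩) hF
  have hd := ContinuousMap.dense_setOfPred_contDiff (E := Fin n → ℝ) (F := Fin n → ℝ) F
  rw [mem_closure_iff_nhds_basis
    (nhds_basis_uniformity Metric.uniformity_basis_dist.compactConvergenceUniformity)] at hd
  obtain ⟨g, hg1, hg2⟩ := hd (K, ε) ⟨hK, hε⟩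
  refine ⟨g, hg1, fun x hx => ?_⟩
  have := hg2 x hx
  rw [← hFf x hx, ← dist_eq_norm]
  exact this

lemma exists_cutoff {C W : Set (Fin n → ℝ)} (hC : IsCompact C) (hW : IsOpen W)
    (hWb : IsBounded W) (hCW : C ⊆ W) :
    ∃ χ : (Fin n → ℝ) → ℝ, ContDiff ℝ ∞ χ ∧ HasCompactSupport χ ∧ tsupport χ ⊆ W ∧
      ∀ x ∈ C, χ =ᶠ[𝓝 x] fun _ => 1 := by
  obtain ⟨χ, h0, h1, -⟩ := exists_contMDiffMap_zero_one_nhds_of_isClosed (n := ⊤)
    𝓘(ℝ, Fin n → ℝ) (s := Wᶜ) (t := C) hW.isClosed_compl hC.isClosed
    (disjoint_left.2 fun x hx hx' => hx (hCW hx'))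
  have hts : tsupport χ ⊆ W := by
    rw [Filter.eventually_iff_exists_mem] at h0
    obtain ⟨U, hU, hU0⟩ := h0
    rw [mem_nhdsSet_iff_exists] at hU
    obtain ⟨U', hU'o, hU'1, hU'2⟩ := hU
    have h2 : tsupport χ ⊆ U'ᶜ := by
      apply closure_minimal _ hU'o.isClosed_compl
      intro x hx hxU
      exact hx (hU0 x (hU'2 hxU))
    intro x hx
    by_contra hxW
    exact h2 hx (hU'1 hxW)
  refine ⟨χ, χ.contMDiff.contDiff, ?_, hts, ?_⟩
  · exact Metric.isCompact_of_isClosed_isBounded (isClosed_tsupport _) (hWb.subset hts)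
  · intro x hx
    exact (eventually_nhdsSet_iff_forall.1 h1) x hx

/-- A fixed smooth bump function on `ℝⁿ`, supported in the unit ball, with integral one. -/
noncomputable def bumpFun (n : ℕ) : ContDiffBump (0 : Fin n → ℝ) := ⟨1 / 2, 1, by norm_num, by norm_num⟩

noncomputable def phi (n : ℕ) : (Fin n → ℝ) → ℝ := (bumpFun n).normed volume

lemma phi_contDiff : ContDiff ℝ ∞ (phi n) := (bumpFun n).contDiff_normed

lemma phi_integral : ∫ x, phi n x = 1 := (bumpFun n).integral_normed

lemma phi_zero {x : Fin n → ℝ} (hx : 1 ≤ ‖x‖) : phi n x = 0 := by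
  have h : Function.support (phi n) = Metric.ball 0 1 := (bumpFun n).support_normed_eq
  by_contra h'
  have : x ∈ Function.support (phi n) := h'
  rw [h, mem_ball_zero_iff] at this
  linarith

lemma phi_ne_zero {x : Fin n → ℝ} (hx : phi n x ≠ 0) : ‖x‖ < 1 := by
  by_contra h
  exact hx (phi_zero (not_lt.1 h))

/-- The smooth degree integral -/
noncomputable def J (f : (Fin n → ℝ) → (Fin n → ℝ)) (W : Set (Fin n → ℝ)) : ℝ :=
  ∫ x in W, phi n (f x) * detC n (rows f x)

lemma J_eq_cutoff {f : (Fin n → ℝ) → (Fin n → ℝ)} {W : Set (Fin n → ℝ)} (hW : IsOpen W)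
    {χ : (Fin n → ℝ) → ℝ} (h1 : tsupport χ ⊆ W) (h2 : ∀ x ∈ W, ‖f x‖ < 1 → χ x = 1) :
    J f W = ∫ x, χ x * (phi n (f x) * detC n (rows f x)) := by
  rw [J, ← integral_indicator hW.measurableSet]
  refine integral_congr_ae (Filter.Eventually.of_forall fun x => ?_)
  by_cases hx : x ∈ W
  · simp only [indicator_of_mem hx]
    by_cases hf : phi n (f x) = 0
    · simp [hf]
    · rw [h2 x hx (phi_ne_zero hf), one_mul]
  · simp only [indicator_of_notMem hx]
    rw [image_eq_zero_of_notMem_tsupport (fun h => hx (h1 h)), zero_mul]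

lemma frontier_compact {W : Set (Fin n → ℝ)} (hWb : IsBounded W) : IsCompact (frontier W) :=
  Metric.isCompact_of_isClosed_isBounded isClosed_frontier
    (hWb.closure.subset frontier_subset_closure)

lemma closure_compact {W : Set (Fin n → ℝ)} (hWb : IsBounded W) : IsCompact (closure W) :=
  Metric.isCompact_of_isClosed_isBounded isClosed_closure hWb.closure

/-- homotopy invariance for smooth maps -/
lemma J_homotopy {f g : (Fin n → ℝ) → (Fin n → ℝ)} {W : Set (Fin n → ℝ)} (hW : IsOpen W)
    (hWb : IsBounded W) (hf : ContDiff ℝ ∞ f) (hg : ContDiff ℝ ∞ g)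
    (h : ∀ x ∈ frontier W, ∀ t ∈ Icc (0:ℝ) 1, 1 < ‖(1 - t) • f x + t • g x‖) :
    J f W = J g W := by
  set F : ℝ × (Fin n → ℝ) → (Fin n → ℝ) := fun q => (1 - q.1) • f q.2 + q.1 • g q.2 with hF
  have hFc : Continuous F := by
    have := hf.continuous
    have := hg.continuous
    (clear W hW hWb h hF; fun_prop)
  set C0 : Set (ℝ × (Fin n → ℝ)) := (Icc (0:ℝ) 1 ×ˢ closure W) ∩ {q | ‖F q‖ ≤ 1} with hC0
  have hC0c : IsCompact C0 :=
    (isCompact_Icc.prod (closure_compact hWb)).inter_right
      (isClosed_le hFc.norm continuous_const)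
  set C := Prod.snd '' C0 with hC
  have hCc : IsCompact C := hC0c.image continuous_snd
  have hCW : C ⊆ W := by
    rintro x ⟨⟨t, y⟩, ⟨⟨ht, hy⟩, hq⟩, rfl⟩
    simp only at ht hy hq ⊢
    by_contra hyW
    have hyf : y ∈ frontier W := by
      rw [hW.frontier_eq]
      exact ⟨hy, hyW⟩
    have := h y hyf t ht
    simp only [hF, mem_ofPred_eq] at hq
    linarith only [this, hq]
  obtain ⟨χ, hχ1, hχ2, hχ3, hχ4⟩ := exists_cutoff hCc hW hWb hCW
  have e : ∀ t ∈ Icc (0:ℝ) 1, ∀ x ∈ closure W, ‖(1 - t) • f x + t • g x‖ ≤ 1 → x ∈ C := by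
    intro t ht x hx hn
    exact ⟨(t, x), ⟨⟨ht, hx⟩, hn⟩, rfl⟩
  rw [J_eq_cutoff hW hχ3 (f := f), J_eq_cutoff hW hχ3 (f := g)]
  · have := integral_const_in_time (φ := phi n) (χ := χ) (f := f) (u := fun x => g x - f x)
      (phi_contDiff.of_le (by exact_mod_cast le_top)) (hf.of_le two_le_infty)
      ((hg.sub hf).of_le two_le_infty)
      (hχ1.of_le (by exact_mod_cast le_top)) hχ2 ?_
    · simpa using this.symm
    · intro t ht x hx
      by_cases hxW : x ∈ closure W
      · have hxC : x ∈ C := by
          apply e t ht x hxW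
          have h1 : f x + t • (g x - f x) = (1 - t) • f x + t • g x := by
            rw [smul_sub, sub_smul, one_smul]; abel
          rw [← h1]
          exact (phi_ne_zero hx).le
        have h2 := hχ4 x hxC
        rw [h2.fderiv_eq]
        simp only [fderiv_fun_const, Pi.zero_apply]
      · have h3 : χ =ᶠ[𝓝 x] fun _ => 0 := by
          have : (tsupport χ)ᶜ ∈ 𝓝 x :=
            (isClosed_tsupport χ).isOpen_compl.mem_nhds
              (fun h' => hxW (subset_closure (hχ3 h')))
          filter_upwards [this] with y hy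
          exact image_eq_zero_of_notMem_tsupport hy
        rw [h3.fderiv_eq]
        simp only [fderiv_fun_const, Pi.zero_apply]
  · intro x hx hn
    have := hχ4 x (e 1 (by simp only [mem_Icc, zero_le_one, Std.le_refl, and_self]) x (subset_closure hx) (by simpa only [sub_self, zero_smul, one_smul, zero_add] using hn.le))
    exact this.eq_of_nhds
  · intro x hx hn
    have := hχ4 x (e 0 (by simp only [mem_Icc, Std.le_refl, zero_le_one, and_self]) x (subset_closure hx) (by simpa only [sub_zero, one_smul, zero_smul, add_zero] using hn.le))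
    exact this.eq_of_nhds

end Vale.Agent.P228
end
end
end

section

section

/-!
P228: signature: reductions (deletion of an isotropic dual pair, doubling), restriction to subsets,
diagonal forms, Kronecker products, periodic functions with vanishing differences.
-/

open Matrix QuadraticForm QuadraticMap Topology

noncomputable section

namespace Vale.Agent.P228.Sgn

variable {m n k l : Type*} [Fintype m] [Fintype n] [Fintype k] [Fintype l]
variable [DecidableEq m] [DecidableEq n] [DecidableEq k] [DecidableEq l]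

omit [DecidableEq n] in
/-- positive definite forms -/
theorem sgn_posDef {A : Matrix n n ℂ} (hA : ∀ x, x ≠ 0 → 0 < hq A x) :
    sgn A = 2 * Fintype.card n := by
  have h1 : 2 * Fintype.card n ≤ sigPos (hq A) := by
    have := le_sigPos_of_posDef (Q := hq A) (V := ⊤) (by
      intro x hx
      rw [QuadraticMap.restrict_apply]
      exact hA _ (fun h => hx (Subtype.ext h)))
    rwa [finrank_top, finrank_fun] at this
  have h2 := sigPos_add_sigNeg_add_radical (Q := hq A)
  rw [finrank_fun] at h2
  unfold sgn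
  omega

theorem hq_one (x : n → ℂ) : hq (1 : Matrix n n ℂ) x = ∑ i, ‖x i‖ ^ 2 := by
  rw [hq_apply, one_mulVec]
  simp only [dotProduct, Pi.star_apply, Complex.re_sum]
  refine Finset.sum_congr rfl fun i _ => ?_
  rw [Complex.star_def, ← Complex.normSq_eq_conj_mul_self, Complex.ofReal_re,
    Complex.normSq_eq_norm_sq]

theorem sgn_one : sgn (1 : Matrix n n ℂ) = 2 * Fintype.card n := by
  apply sgn_posDef
  intro x hx
  rw [hq_one]
  obtain ⟨i, hi⟩ := Function.ne_iff.mp hx
  exact Finset.sum_pos' (fun i _ => by (clear * -; positivity))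
    ⟨i, Finset.mem_univ _, pow_pos (norm_pos_iff.mpr hi) 2⟩

omit [DecidableEq m] [DecidableEq n] in
theorem sgn_submatrix_equiv (e : m ≃ n) (A : Matrix n n ℂ) : sgn (A.submatrix e e) = sgn A :=
  sgn_reindex e.symm A

end Vale.Agent.P228.Sgn
end
end
end

section

section

/-!
P228, blocks [S]/[N]: the star homomorphism
`uncurry : LMat ι (LMat κ K) → LMat (ι × κ) K`, its image, and naturality of
`vop`, `Sop`, `SopInv` through it.
-/

set_option linter.unusedSectionVars false
set_option linter.unusedSimpArgs false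

namespace Vale.Agent.P228

namespace LMat

variable {ι κ σ ι' κ' K L : Type*}

section Ring

variable [Ring K]

/-- Uncurrying as a ring homomorphism. -/
noncomputable def uncurry : LMat ι (LMat κ K) →+* LMat (ι × κ) K where
  toFun a := ⟨fun p q => a p.1 q.1 p.2 q.2,
    fun p => by
      refine (((a.row_finite p.1).biUnion (t := fun j => (fun y => (j, y)) ''
        {y | (a p.1 j).toFun p.2 y ≠ 0}) (fun j _ =>
          (((a p.1 j).row_finite p.2).image (fun y => (j, y)))))).subset ?_
      rintro ⟨j, y⟩ h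
      simp only [Set.mem_ofPred_eq] at h
      have h0 : a p.1 j ≠ 0 := fun h0 => h (by rw [h0]; rfl)
      exact Set.mem_biUnion (show j ∈ {j | a.toFun p.1 j ≠ 0} from h0) ⟨y, h, rfl⟩,
    fun q => by
      refine (((a.col_finite q.1).biUnion (t := fun i => (fun x => (i, x)) ''
        {x | (a i q.1).toFun x q.2 ≠ 0}) (fun i _ =>
          (((a i q.1).col_finite q.2).image (fun x => (i, x)))))).subset ?_
      rintro ⟨i, x⟩ h
      simp only [Set.mem_ofPred_eq] at h
      have h0 : a i q.1 ≠ 0 := fun h0 => h (by rw [h0]; rfl)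
      exact Set.mem_biUnion (show i ∈ {i | a.toFun i q.1 ≠ 0} from h0) ⟨x, h, rfl⟩⟩
  map_one' := by
    classical
    ext ⟨i, x⟩ ⟨j, y⟩
    by_cases h : i = j
    · subst h
      by_cases h' : x = y
      · subst h'; simp
      · rw [one_apply_ne (fun e => h' (Prod.ext_iff.1 e).2)]
        simp [one_apply_ne h']
    · rw [one_apply_ne (fun e => h (Prod.ext_iff.1 e).1)]
      simp [one_apply_ne h]
  map_mul' a b := by
    classical
    ext ⟨i, x⟩ ⟨j, y⟩
    set T : Finset κ := (a.rowF i).biUnion (fun k => (a i k).rowF x) with hT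
    rw [mul_apply_of _ _ (i, x) (j, y) (a.rowF i ×ˢ T)]
    · rw [Finset.sum_product]
      simp only [mk_apply]
      rw [mul_apply, sum_apply]
      apply Finset.sum_congr rfl
      intro k hk
      rw [mul_apply_of (a i k) (b k j) x y T]
      intro z hz _
      rw [hT, Finset.mem_biUnion]
      exact ⟨k, hk, by simpa using hz⟩
    · rintro ⟨k, z⟩ hk _
      simp only [mk_apply] at hk
      have h0 : a i k ≠ 0 := fun h0 => hk (by rw [h0]; rfl)
      rw [Finset.mem_product]
      refine ⟨by simpa using h0, ?_⟩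
      rw [hT, Finset.mem_biUnion]
      exact ⟨k, by simpa using h0, by simpa using hk⟩
  map_zero' := by ext p q; rfl
  map_add' a b := by ext p q; rfl

@[simp] theorem uncurry_apply (a : LMat ι (LMat κ K)) (p q : ι × κ) :
    uncurry a p q = a p.1 q.1 p.2 q.2 := rfl

theorem uncurry_smul {S : Type*} [Semiring S] [Module S K] (r : S) (a : LMat ι (LMat κ K)) :
    uncurry (r • a) = r • uncurry a := rfl

/-- Uncurrying as an algebra homomorphism. -/
noncomputable def uncurryAlg (S : Type*) [CommSemiring S] [Algebra S K] :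
    LMat ι (LMat κ K) →ₐ[S] LMat (ι × κ) K :=
  AlgHom.mk' uncurry (fun r a => uncurry_smul r a)

@[simp] theorem uncurryAlg_apply {S : Type*} [CommSemiring S] [Algebra S K]
    (a : LMat ι (LMat κ K)) : uncurryAlg S a = uncurry a := rfl

/-- The elements with finite `ι`-bands are uncurried. -/
noncomputable def curryOf (a : LMat (ι × κ) K)
    (hr : ∀ i, {j | ∃ x y, a (i, x) (j, y) ≠ 0}.Finite)
    (hc : ∀ j, {i | ∃ x y, a (i, x) (j, y) ≠ 0}.Finite) : LMat ι (LMat κ K) where
  toFun i j := ⟨fun x y => a (i, x) (j, y),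
    fun x => ((a.row_finite (i, x)).preimage (Prod.mk_right_injective j).injOn),
    fun y => ((a.col_finite (j, y)).preimage (Prod.mk_right_injective i).injOn)⟩
  row_finite i := (hr i).subset (by
    intro j hj
    by_contra h
    apply hj
    ext x y
    simp only [Set.mem_ofPred_eq, not_exists, not_not] at h
    exact h x y)
  col_finite j := (hc j).subset (by
    intro i hi
    by_contra h
    apply hi
    ext x y
    simp only [Set.mem_ofPred_eq, not_exists, not_not] at h
    exact h x y)

@[simp] theorem curryOf_apply (a : LMat (ι × κ) K) (hr hc) (i j : ι) (x y : κ) :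
    curryOf a hr hc i j x y = a (i, x) (j, y) := rfl

section Star

variable [StarRing K]

end Star

/-- `LMat (ι × (κ × σ)) ≃ LMat ((ι × κ) × σ)`. -/
noncomputable def assocL : LMat (ι × κ × σ) K ≃+* LMat ((ι × κ) × σ) K :=
  reindex (Equiv.prodAssoc ι κ σ).symm

@[simp] theorem assocL_apply (a : LMat (ι × κ × σ) K) (p q : (ι × κ) × σ) :
    assocL a p q = a (p.1.1, p.1.2, p.2) (q.1.1, q.1.2, q.2) := rfl

end Ring

section Kron

variable [CommRing K]

end Kron

end LMat

namespace Inv

open LMat

/-! ### naturality for arbitrary ring homomorphisms (no algebra structure) -/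

section RingHom

variable {R R' : Type*} [Ring R] [Ring R']

end RingHom

/-! ### naturality through `uncurry` -/

variable {ι κ K : Type*} [Ring K]

end Inv

end Vale.Agent.P228
end
end
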