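import Vale.Agent.P228.MathlibUsed
import Vale.Agent.P228.Bdl.B1

set_option linter.all false

section

section

/-!
# P228, interface between the blocks [S], [K] and [E]

Forms over a set `B` of positions (`base : ι → B`), relations `E : B → B → Prop`, and the
properties of the integer invariant `s` used by the Koszul block and by the final assembly.
-/

namespace Vale.Agent.P228.Top

open Vale.Agent.P228

/-- the entries of `a` are supported in the relation `E` (through the positions `base`) -/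
def Supp {ι B K : Type} [Zero K] (base : ι → B) (E : B → B → Prop) (a : LMat ι K) : Prop :=
  ∀ x y, a x y ≠ 0 → E (base x) (base y)

/-- a form over `B`: hermitian, with explicit inverse, both supported in `E` -/
structure Form {ι B : Type} (base : ι → B) (E : B → B → Prop) (h k : LMat ι ℂ) : Prop where
  herm : star h = h
  mul : h * k = 1
  mul' : k * h = 1
  supp : Supp base E h
  supp' : Supp base E k

/-- integer functions of pairs `(h, k)` on all index types over `B` -/
abbrev IntInv (B : Type) : Type 1 := ∀ {ι : Type}, (ι → B) → LMat ι ℂ → LMat ι ℂ → ℤ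

/-- `k`-fold composition of a relation -/
def Reach {B : Type} (E : B → B → Prop) : ℕ → B → B → Prop
  | 0, x, y => x = y
  | k + 1, x, z => ∃ y, Reach E k x y ∧ E y z

/-- the wall `w` is not constant on the `E^K`-neighbourhood of `x` -/
def Crosses {B : Type} (E : B → B → Prop) (K : ℕ) (w : Set B) (x : B) : Prop :=
  (∃ y, Reach E K x y ∧ y ∈ w) ∧ (∃ y, Reach E K x y ∧ y ∉ w)

/-- the corner set of the list of walls `ws` -/
def Corner {B : Type} (E : B → B → Prop) (K : ℕ) (ws : List (Set B)) : Set B :=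
  {y | ∃ x, (∀ w ∈ ws, Crosses E K w x) ∧ Reach E K x y}

/-- base-diagonal rows over a set `C` of positions -/
def BaseDiagOn {ι B K : Type} [Zero K] (base : ι → B) (C : Set B) (a : LMat ι K) : Prop :=
  ∀ x y, base x ∈ C → a x y ≠ 0 → base x = base y

/-- path invariance of `s` on forms supported in `E` -/
def PathInv {B : Type} (E : B → B → Prop) (s : IntInv B) : Prop :=
  ∀ {ι : Type} (base : ι → B), (∀ b, {x | base x = b}.Finite) →
    ∀ (h k : ℝ → LMat ι ℂ), (∀ x y, Continuous fun t => h t x y) →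
      (∀ x y, Continuous fun t => k t x y) →
      (∀ t ∈ Set.Icc (0 : ℝ) 1, Form base E (h t) (k t)) →
      s base (h 0) (k 0) = s base (h 1) (k 1)

/-- the properties of the invariant `s` for forms supported in the symmetric relation `E`;
`Crn` is the corner set -/
structure SProps {B : Type} (E : B → B → Prop) (Crn : Set B) (s : IntInv B) : Prop where
  add : ∀ {ι : Type} (base : ι → B), (∀ b, {x | base x = b}.Finite) →
    ∀ h k h' k' : LMat ι ℂ, Form base E h k → Form base E h' k' →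
      s (fun x : ι × Bool => base x.1) (LMat.blk h 0 0 h') (LMat.blk k 0 0 k') =
        s base h k + s base h' k'
  neg : ∀ {ι : Type} (base : ι → B), (∀ b, {x | base x = b}.Finite) →
    ∀ h k : LMat ι ℂ, Form base E h k → s base (-h) (-k) = - s base h k
  path : PathInv E s
  vanish : ∀ {ι : Type} (base : ι → B), (∀ b, {x | base x = b}.Finite) →
    ∀ h k : LMat ι ℂ, Form base E h k → BaseDiagOn base Crn h → BaseDiagOn base Crn k →
      s base h k = 0

end Vale.Agent.P228.Top
end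
end

section

section

/-!
# P228, block [N]: the first wall for tridiagonal translation invariant forms

For `θ = tri c1 c0 cm` (entries `c1` below, `c0` on, `cm` above the diagonal, coefficients in an
arbitrary ring `K`) with tridiagonal inverse, the slicing word `v` is diagonal in `x`, equal to `1`
for `x ≠ 0`.
-/

namespace Vale.Agent.P228.Num

open Vale.Agent.P228.Inv Vale.Agent.P228.LMat

section closed

variable {R : Type*} [Ring R]

/-- closed form of the slicing word -/
theorem vop_closed {P th th' k k' : R} (hP : P * P = P) (h1 : th * th' = 1) (h2 : th' * th = 1)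
    (hk : P * th * (1 - P) * th' * P = k) (hk' : P * th' * (1 - P) * th * P = k') :
    vop P th th' = m2 (1 - 2 * k') (2 * (P * th' * P * k)) (-(4 * (k * (P * th * P))))
      (1 + 2 * k - 4 * (k * k)) := by
  set b := P * th * P with hb
  set a := P * th' * P with ha
  have e1 : b * a = P - k := by
    rw [← hk, hb, ha]
    linear_combination (norm := noncomm_ring) P * th * hP * th' * P + P * h1 * P + hP
  have e2 : a * b = P - k' := by
    rw [← hk', hb, ha]
    linear_combination (norm := noncomm_ring) P * th' * hP * th * P + P * h2 * P + hP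
  have aP : a * P = a := by rw [ha]; linear_combination (norm := noncomm_ring) P * th' * hP
  have Pa : P * a = a := by rw [ha]; linear_combination (norm := noncomm_ring) hP * th' * P
  have Pb : P * b = b := by rw [hb]; linear_combination (norm := noncomm_ring) hP * th * P
  have Pk : P * k = k := by
    rw [← hk]; linear_combination (norm := noncomm_ring) hP * th * (1 - P) * th' * P
  have kP : k * P = k := by
    rw [← hk]; linear_combination (norm := noncomm_ring) P * th * (1 - P) * th' * hP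
  have Pk' : P * k' = k' := by
    rw [← hk']; linear_combination (norm := noncomm_ring) hP * th' * (1 - P) * th * P
  unfold vop
  rw [← hb, ← ha]
  have hW : Vl (2 * b) * Uu (-a) = m2 1 (-a) (2 * b) (1 - 2 * P + 2 * k) := by
    unfold Vl Uu
    rw [m2_mul]
    congr 1
    · simp
    · simp only [mul_neg, one_mul, mul_one, add_zero]
    · simp
    · linear_combination (norm := noncomm_ring) -2 * e1
  rw [hW, m2_mul]
  unfold Dg
  rw [m2_mul]
  congr 1
  · linear_combination (norm := noncomm_ring) -2 * (1 - 2 * P) * e2 + 4 * hP + (-4 : ℤ) • Pk'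
  · linear_combination (norm := noncomm_ring) 2 * (1 - 2 * P) * aP + 4 * Pa * k
  · linear_combination (norm := noncomm_ring) -4 * (1 - 2 * P) * Pb - 8 * Pk * b
  · linear_combination (norm := noncomm_ring) 4 * hP + 4 * Pk - 8 * Pk * k
      + (1 - 2 * P) * (-2 * e1 + 4 * hP - 4 * Pk - 4 * kP)

end closed

section tri

variable {K : Type*} [Ring K]

/-- tridiagonal translation invariant matrix: `c1` below, `c0` on, `cm` above the diagonal -/
def tri (c1 c0 cm : K) : LMat ℤ K where
  toFun x y := if x = y + 1 then c1 else if x = y then c0 else if x + 1 = y then cm else 0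
  row_finite x := by
    refine (Set.toFinite ({x - 1, x, x + 1} : Set ℤ)).subset ?_
    intro y hy
    simp only [Set.mem_insert_iff, Set.mem_singleton_iff]
    by_contra h
    push Not at h
    apply hy
    show (if x = y + 1 then c1 else if x = y then c0 else if x + 1 = y then cm else 0) = 0
    rw [if_neg (by omega), if_neg (by omega), if_neg (by omega)]
  col_finite y := by
    refine (Set.toFinite ({y - 1, y, y + 1} : Set ℤ)).subset ?_
    intro x hx
    simp only [Set.mem_insert_iff, Set.mem_singleton_iff]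
    by_contra h
    push Not at h
    apply hx
    show (if x = y + 1 then c1 else if x = y then c0 else if x + 1 = y then cm else 0) = 0
    rw [if_neg (by omega), if_neg (by omega), if_neg (by omega)]

theorem tri_apply (c1 c0 cm : K) (x y : ℤ) : tri c1 c0 cm x y =
    if x = y + 1 then c1 else if x = y then c0 else if x + 1 = y then cm else 0 := rfl

theorem tri_mul_apply (c1 c0 cm d1 d0 dm : K) (x y : ℤ) :
    (tri c1 c0 cm * tri d1 d0 dm) x y =
      c1 * tri d1 d0 dm (x - 1) y + c0 * tri d1 d0 dm x y + cm * tri d1 d0 dm (x + 1) y := by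
  rw [mul_apply_of _ _ x y {x - 1, x, x + 1}]
  · rw [Finset.sum_insert (by simp only [Finset.mem_insert, sub_eq_self, one_ne_zero, Finset.mem_singleton, false_or]; omega), Finset.sum_insert (by simp), Finset.sum_singleton]
    have h1 : tri c1 c0 cm x (x - 1) = c1 := by simp [tri_apply]
    have h2 : tri c1 c0 cm x x = c0 := by simp only [tri_apply, left_eq_add, one_ne_zero, ↓reduceIte]
    have h3 : tri c1 c0 cm x (x + 1) = cm := by
      rw [tri_apply, if_neg (by omega), if_neg (by omega), if_pos rfl]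
    rw [h1, h2, h3, add_assoc]
  · intro z hz _
    simp only [Finset.mem_insert, Finset.mem_singleton]
    by_contra h
    push Not at h
    apply hz
    rw [tri_apply, if_neg (by omega), if_neg (by omega), if_neg (by omega)]

/-- the wall `x ≥ 0` -/
noncomputable def Pw (K : Type*) [Ring K] : LMat ℤ K := diag (fun x => if 0 ≤ x then 1 else 0)

theorem Pw_mul_Pw : Pw K * Pw K = Pw K := by
  unfold Pw
  rw [diag_mul_diag]
  congr 1
  funext x
  split_ifs <;> simp

theorem Pw_mul_apply (a : LMat ℤ K) (x y : ℤ) : (Pw K * a) x y = if 0 ≤ x then a x y else 0 := by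
  unfold Pw
  rw [diag_mul_apply]
  split_ifs <;> simp

theorem mul_Pw_apply (a : LMat ℤ K) (x y : ℤ) : (a * Pw K) x y = if 0 ≤ y then a x y else 0 := by
  unfold Pw
  rw [mul_diag_apply]
  split_ifs <;> simp

/-- the element with value `u` at `x = 0` and `e` elsewhere -/
noncomputable def atz (u e : K) : LMat ℤ K := diag (fun x => if x = 0 then u else e)

theorem atz_apply (u e : K) (x y : ℤ) :
    atz u e x y = if x = y then (if x = 0 then u else e) else 0 := by
  unfold atz
  rw [diag_apply]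

theorem kk_eq (c1 c0 cm d1 d0 dm : K) :
    Pw K * tri c1 c0 cm * (1 - Pw K) * tri d1 d0 dm * Pw K = atz (c1 * dm) 0 := by
  have hX : ∀ x z, (Pw K * tri c1 c0 cm * (1 - Pw K)) x z = if x = 0 ∧ z = -1 then c1 else 0 := by
    intro x z
    rw [mul_sub, mul_one, LMat.sub_apply, mul_Pw_apply, Pw_mul_apply, tri_apply]
    split_ifs <;> first | rfl | (exfalso; omega) | simp
  ext x y
  rw [mul_Pw_apply, atz_apply, mul_apply_of _ _ x y {-1}]
  · rw [Finset.sum_singleton, hX, tri_apply]
    split_ifs <;> first | rfl | (exfalso; omega) | simp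
  · intro z hz _
    rw [hX] at hz
    simp only [Finset.mem_singleton]
    by_contra h
    apply hz
    rw [if_neg (fun h' => h h'.2)]

theorem Pt_atz (d1 d0 dm u : K) (h : d1 * u = 0) :
    Pw K * tri d1 d0 dm * Pw K * atz u 0 = atz (d0 * u) 0 := by
  ext x y
  unfold atz
  rw [mul_diag_apply, diag_apply, mul_Pw_apply, Pw_mul_apply, tri_apply]
  by_cases hy : y = 0
  · subst hy
    by_cases h0 : x = 0
    · subst h0; simp only [Std.le_refl, ↓reduceIte, zero_add, zero_ne_one]
    · by_cases h1 : x = 1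
      · subst h1; simp only [Std.le_refl, ↓reduceIte, zero_le_one, zero_add, h, one_ne_zero]
      · have e1 : ¬ (x = 0 + 1) := by omega
        by_cases h2 : 0 ≤ x
        · have e2 : ¬ (x + 1 = 0) := by omega
          simp [h0, h1, h2, e2]
        · simp only [Std.le_refl, ↓reduceIte, h2, zero_mul, h0]
  · by_cases hxy : x = y
    · subst hxy; simp only [left_eq_add, one_ne_zero, ↓reduceIte, hy, mul_zero]
    · simp only [hxy, ↓reduceIte, hy, mul_zero]

theorem atz_Pt (c1 c0 cm u : K) (h : u * cm = 0) :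
    atz u 0 * (Pw K * tri c1 c0 cm * Pw K) = atz (u * c0) 0 := by
  ext x y
  unfold atz
  rw [diag_mul_apply, diag_apply, mul_Pw_apply, Pw_mul_apply, tri_apply]
  by_cases hx : x = 0
  · subst hx
    by_cases h0 : 0 = y
    · subst h0; simp only [↓reduceIte, Std.le_refl, zero_add, zero_ne_one]
    · by_cases h1 : y = 1
      · subst h1; simp [h]
      · have e1 : ¬ ((0 : ℤ) = y + 1) ∨ ¬ (0 ≤ y) := by omega
        rcases e1 with e1 | e1
        · have e2 : ¬ ((0:ℤ) + 1 = y) := by omega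
          simp [h0, Ne.symm h1, e1]
        · simp [e1, h0]
  · by_cases hxy : x = y
    · subst hxy; simp [hx]
    · simp only [hx, ↓reduceIte, hxy, mul_ite, zero_mul, mul_zero, ite_self]

theorem two_eq : (2 : LMat ℤ K) = diag (fun _ => 2) := by
  have : (2 : LMat ℤ K) = 1 + 1 := by norm_num
  rw [this, one_def, add_diag]
  congr 1; funext; norm_num

theorem four_eq : (4 : LMat ℤ K) = diag (fun _ => 4) := by
  have : (4 : LMat ℤ K) = 2 + 2 := by norm_num
  rw [this, two_eq, add_diag]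
  congr 1; funext; norm_num

/-- the value of the word at `x = 0` -/
def v00 (c1 c0 d1 d0 cm dm : K) : Matrix Bool Bool K :=
  m2 (1 - 2 * (d1 * cm)) (2 * (d0 * (c1 * dm))) (-(4 * (c1 * dm * c0)))
    (1 + 2 * (c1 * dm) - 4 * (c1 * dm * (c1 * dm)))

/-- **the slicing word is diagonal in `x`** -/
theorem vop_tri {c1 c0 cm d1 d0 dm : K} (h1 : tri c1 c0 cm * tri d1 d0 dm = 1)
    (h2 : tri d1 d0 dm * tri c1 c0 cm = 1) (s t : Bool) :
    vop (Pw K) (tri c1 c0 cm) (tri d1 d0 dm) s t =
      atz (v00 c1 c0 d1 d0 cm dm s t) ((1 : Matrix Bool Bool K) s t) := by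
  have r1 : d1 * c1 = 0 := by
    have := congrArg (fun a : LMat ℤ K => a 2 0) h2
    simp only [tri_mul_apply] at this
    rw [one_apply_ne (by norm_num)] at this
    simpa only [Int.reduceSub, tri_apply, zero_add, ↓reduceIte, OfNat.ofNat_ne_one, OfNat.ofNat_ne_zero,     Int.reduceAdd, mul_zero, add_zero] using this
  have r2 : dm * cm = 0 := by
    have := congrArg (fun a : LMat ℤ K => a 0 2) h2
    simp only [tri_mul_apply] at this
    rw [one_apply_ne (by norm_num)] at this
    simpa only [zero_sub, Int.reduceNeg, tri_apply, Int.reduceAdd, reduceCtorEq, ↓reduceIte, neg_add_cancel,     OfNat.zero_ne_ofNat, mul_zero, zero_add, OfNat.one_ne_ofNat, add_zero] using this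
  have hk := kk_eq c1 c0 cm d1 d0 dm
  have hk' := kk_eq d1 d0 dm c1 c0 cm
  rw [vop_closed Pw_mul_Pw h1 h2 hk hk', Pt_atz _ _ _ _ (by rw [← mul_assoc, r1, zero_mul]),
    atz_Pt _ _ _ _ (by rw [mul_assoc, r2, mul_zero])]
  unfold v00 atz
  rw [two_eq, four_eq]
  cases s <;> cases t
  · rw [m2_ff, m2_ff, m2_one, m2_ff, diag_mul_diag, one_def, sub_diag]
    congr 1; funext x; split_ifs <;> simp
  · rw [m2_ft, m2_ft, m2_one, m2_ft, diag_mul_diag]
    congr 1; funext x; split_ifs <;> simp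
  · rw [m2_tf, m2_tf, m2_one, m2_tf, diag_mul_diag, neg_diag]
    congr 1; funext x; split_ifs <;> simp
  · rw [m2_tt, m2_tt, m2_one, m2_tt, diag_mul_diag, diag_mul_diag, diag_mul_diag, one_def, add_diag,
      sub_diag]
    congr 1; funext x; split_ifs <;> simp

/-- block matrices which are diagonal in `x`, `A` at `x = 0` and `E` elsewhere -/
noncomputable def atzM (A E : Matrix Bool Bool K) : Matrix Bool Bool (LMat ℤ K) :=
  fun s t => atz (A s t) (E s t)

theorem atz_mul (u e u' e' : K) : atz u e * atz u' e' = atz (u * u') (e * e') := by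
  unfold atz
  rw [diag_mul_diag]
  congr 1; funext x; split_ifs <;> rfl

theorem atz_add (u e u' e' : K) : atz u e + atz u' e' = atz (u + u') (e + e') := by
  unfold atz
  rw [add_diag]
  congr 1; funext x; split_ifs <;> rfl

theorem atz_sub (u e u' e' : K) : atz u e - atz u' e' = atz (u - u') (e - e') := by
  unfold atz
  rw [sub_diag]
  congr 1; funext x; split_ifs <;> rfl

theorem atz_const (u : K) : atz u u = diag (fun _ => u) := by
  unfold atz
  congr 1; funext x; split_ifs <;> rfl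

theorem atzM_mul (A E B F : Matrix Bool Bool K) : atzM A E * atzM B F = atzM (A * B) (E * F) := by
  apply m2_ext <;>
  simp only [Matrix.mul_apply, Fintype.univ_bool, atzM, atz_mul, Finset.mem_singleton, Bool.true_eq_false, not_false_eq_true, Finset.sum_insert, Finset.sum_singleton, atz_add]

theorem atzM_add (A E B F : Matrix Bool Bool K) : atzM A E + atzM B F = atzM (A + B) (E + F) := by
  apply m2_ext <;> simp [Matrix.add_apply, atzM, atz_add]

theorem atzM_sub (A E B F : Matrix Bool Bool K) : atzM A E - atzM B F = atzM (A - B) (E - F) := by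
  apply m2_ext <;> simp [Matrix.sub_apply, atzM, atz_sub]

theorem atzM_one : atzM (1 : Matrix Bool Bool K) 1 = 1 := by
  have h0 : atz (0 : K) 0 = 0 := by rw [atz_const]; exact diag_zero
  have h1 : atz (1 : K) 1 = 1 := by rw [atz_const]; rfl
  apply m2_ext <;> simp [atzM, h0, h1]

theorem atzM_two : atzM (2 : Matrix Bool Bool K) 2 = 2 := by
  have e1 : (2 : Matrix Bool Bool K) = 1 + 1 := by norm_num
  have e2 : (2 : Matrix Bool Bool (LMat ℤ K)) = 1 + 1 := by norm_num
  rw [e1, e2, ← atzM_add, atzM_one]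

theorem atzM_Dg (q : K) : atzM (Dg q) (Dg q) = Dg (diag fun _ => q) := by
  apply m2_ext <;> simp [atzM, Dg, atz_const]

theorem vop_tri' {c1 c0 cm d1 d0 dm : K} (h1 : tri c1 c0 cm * tri d1 d0 dm = 1)
    (h2 : tri d1 d0 dm * tri c1 c0 cm = 1) :
    vop (Pw K) (tri c1 c0 cm) (tri d1 d0 dm) = atzM (v00 c1 c0 d1 d0 cm dm) 1 := by
  ext1 s t
  exact vop_tri h1 h2 s t

theorem vinv_tri {c1 c0 cm d1 d0 dm : K} (h1 : tri c1 c0 cm * tri d1 d0 dm = 1)
    (h2 : tri d1 d0 dm * tri c1 c0 cm = 1) {V : Matrix Bool Bool K}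
    (hV : v00 c1 c0 d1 d0 cm dm * V = 1) :
    vinv (Pw K) (tri c1 c0 cm) (tri d1 d0 dm) = atzM V 1 := by
  have e : vop (Pw K) (tri c1 c0 cm) (tri d1 d0 dm) * atzM V 1 = 1 := by
    rw [vop_tri' h1 h2, atzM_mul, hV, Matrix.mul_one, atzM_one]
  calc vinv (Pw K) (tri c1 c0 cm) (tri d1 d0 dm)
      = vinv (Pw K) (tri c1 c0 cm) (tri d1 d0 dm) *
        (vop (Pw K) (tri c1 c0 cm) (tri d1 d0 dm) * atzM V 1) := by rw [e, Matrix.mul_one]
    _ = _ := by rw [← Matrix.mul_assoc, vinv_mul_vop Pw_mul_Pw, Matrix.one_mul]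

variable [Algebra ℂ K]

theorem atzM_K0 : atzM (K0 K) (K0 K) = K0 (LMat ℤ K) := by
  have h0 : atz (0 : K) 0 = 0 := by rw [atz_const]; exact diag_zero
  have h2 : ∀ c : ℂ, atz (c • (1 : K)) (c • (1 : K)) = c • 1 := by
    intro c; rw [atz_const, one_def, smul_diag]
  apply m2_ext
  · simp [atzM, K0, Om, h0]
  · simp only [atzM, K0, Om, Matrix.smul_apply, m2_ft, h2]
  · simp only [atzM, K0, Om, Matrix.smul_apply, m2_tf, smul_neg, ← neg_smul, h2]
  · simp only [atzM, K0, Om, Matrix.smul_apply, m2_tt, smul_zero, h0]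

/-- **the slicing operator is diagonal in `x`, standard for `x ≠ 0`** -/
theorem Sop_tri {c1 c0 cm d1 d0 dm : K} (h1 : tri c1 c0 cm * tri d1 d0 dm = 1)
    (h2 : tri d1 d0 dm * tri c1 c0 cm = 1) {V : Matrix Bool Bool K}
    (hV : v00 c1 c0 d1 d0 cm dm * V = 1) (q : K) :
    Sop (Pw K) (diag fun _ => q) (tri c1 c0 cm) (tri d1 d0 dm) =
      atzM (K0 K * (2 * (v00 c1 c0 d1 d0 cm dm * Dg q * V) - 1)) (Sstd q) := by
  unfold Sop Inv.refl
  rw [vop_tri' h1 h2, vinv_tri h1 h2 hV, ← atzM_Dg, ← atzM_K0, atzM_mul, atzM_mul, ← atzM_two,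
    atzM_mul, ← atzM_one, atzM_sub, atzM_mul]
  congr 1
  rw [Matrix.one_mul, Matrix.mul_one, two_Dg]
  rfl

end tri

end Vale.Agent.P228.Num
end
end

section

section

section

/-! The regularity class used in the hand-ins for P228. -/

namespace Vale.Agent.P228

open MeasureTheory Metric
open scoped ENNReal

variable {E : Type*} [NormedAddCommGroup E] [NormedSpace ℝ E] [MeasureSpace E]

/-- The Gagliardo energy of order `s` and exponent `q` of a map `f` on a subset `U` of a space `E`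
of dimension `n`, that is, the `q`-th power of the Sobolev-Slobodeckij `W^{s,q}` seminorm: the
double integral over `U × U` of `‖f x - f y‖ ^ q / ‖x - y‖ ^ (n + s q)`. -/
noncomputable def gEnergy (n : ℕ) (s q : ℝ) (f : E → E) (U : Set E) : ℝ≥0∞ :=
  ∫⁻ x in U, ∫⁻ y in U, ENNReal.ofReal (‖f x - f y‖ ^ q / ‖x - y‖ ^ (n + s * q))

/-- `G` is the weak (distributional) derivative of `f` on the open set `U`: `G` is locally
integrable on `U`, and integration by parts holds against every smooth function with compact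
support in `U`. -/
def IsWeakDeriv (f : E → E) (G : E → E →L[ℝ] E) (U : Set E) : Prop :=
  LocallyIntegrableOn G U ∧
    ∀ η : E → ℝ, ContDiff ℝ (⊤ : ℕ∞) η → HasCompactSupport η → tsupport η ⊆ U → ∀ v : E,
      ∫ x, (fderiv ℝ η x v) • f x = - ∫ x, η x • G x v

/-- The map `f` of the `n`-dimensional space `E` is supercritical at the point `a`: on some ball
about `a` it is of Sobolev-Slobodeckij class `W^{s,q}` with `0 < s < 1 ≤ q` and
`s * min q (n+1) > n - 1`, or Hoelder continuous with an exponent larger than `(n-1)/(n+1)`,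
or of Sobolev class `W^{1,q}` with `q ≥ 1` and `q > n - 1`. -/
def SupercriticalAt (n : ℕ) (f : E → E) (a : E) : Prop :=
  (∃ s q r : ℝ, 0 < s ∧ s < 1 ∧ 1 ≤ q ∧ n - 1 < s * min q (n + 1) ∧ 0 < r ∧
    gEnergy n s q f (ball a r) < ∞) ∨
  (∃ α C r : ℝ, 0 < α ∧ ((n : ℝ) - 1) / (n + 1) < α ∧ 0 < r ∧
    ∀ x ∈ ball a r, ∀ y ∈ ball a r, ‖f x - f y‖ ≤ C * ‖x - y‖ ^ α) ∨
  (∃ q r : ℝ, 1 ≤ q ∧ n - 1 < q ∧ 0 < r ∧ ∃ G : E → E →L[ℝ] E,
    IsWeakDeriv f G (ball a r) ∧ ∫⁻ x in ball a r, ENNReal.ofReal (‖G x‖ ^ q) < ∞)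

end Vale.Agent.P228
end
end
end

section

section

section

/-! Dyadic chain estimates for a pseudo-distance. -/

namespace Vale.Agent.P228

open Set Topology MeasureTheory
open scoped ENNReal

theorem jensen_prob {α : Type*} [MeasurableSpace α] (μ : Measure α) [IsProbabilityMeasure μ]
    {f : α → ℝ≥0∞} (hf : AEMeasurable f μ) {q : ℝ} (hq : 1 ≤ q) :
    (∫⁻ a, f a ∂μ) ^ q ≤ ∫⁻ a, f a ^ q ∂μ := by
  have hq0 : 0 < q := by linarith
  have h := eLpNorm'_le_eLpNorm'_of_exponent_le (p := 1) (q := q) one_pos hq μ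
    hf.aestronglyMeasurable
  rw [eLpNorm'_eq_lintegral_enorm, eLpNorm'_eq_lintegral_enorm] at h
  simp only [enorm_eq_self, ENNReal.rpow_one, one_div, inv_one] at h
  calc (∫⁻ a, f a ∂μ) ^ q ≤ ((∫⁻ a, f a ^ q ∂μ) ^ q⁻¹) ^ q := ENNReal.rpow_le_rpow h hq0.le
    _ = ∫⁻ a, f a ^ q ∂μ := by
        rw [← ENNReal.rpow_mul, inv_mul_cancel₀ hq0.ne', ENNReal.rpow_one]

theorem jensen_set {α : Type*} [MeasurableSpace α] {μ : Measure α} {Q : Set α} (h0 : μ Q ≠ 0)
    (h1 : μ Q ≠ ∞) {f : α → ℝ≥0∞} (hf : AEMeasurable f (μ.restrict Q)) {q : ℝ} (hq : 1 ≤ q) :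
    ((μ Q)⁻¹ * ∫⁻ a in Q, f a ∂μ) ^ q ≤ (μ Q)⁻¹ * ∫⁻ a in Q, f a ^ q ∂μ := by
  have hprob : IsProbabilityMeasure ((μ Q)⁻¹ • μ.restrict Q) := by
    constructor
    rw [Measure.smul_apply, Measure.restrict_apply_univ, smul_eq_mul, ENNReal.inv_mul_cancel h0 h1]
  have h2 := jensen_prob ((μ Q)⁻¹ • μ.restrict Q) (hf.smul_measure _) hq
  rwa [lintegral_smul_measure, lintegral_smul_measure, smul_eq_mul, smul_eq_mul] at h2

theorem tsum_rpow_le (a : ℕ → ℝ≥0∞) {q : ℝ} (hq : 0 < q) {w : ℝ≥0∞} (hw0 : w ≠ 0)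
    (hw1 : w < 1) :
    (∑' j, a j) ^ q ≤ ((1 - w)⁻¹) ^ q * ∑' j, (w⁻¹ ^ j * a j) ^ q := by
  have hwt : w ≠ ∞ := ne_top_of_lt hw1
  set S := ∑' j, (w⁻¹ ^ j * a j) ^ q with hS
  have h1 : ∀ j, a j ≤ w ^ j * S ^ (1 / q) := by
    intro j
    have h2 : (w⁻¹ ^ j * a j) ^ q ≤ S := ENNReal.le_tsum j
    have h3 : w⁻¹ ^ j * a j ≤ S ^ (1 / q) := by
      calc w⁻¹ ^ j * a j = ((w⁻¹ ^ j * a j) ^ q) ^ (1 / q) := by
            rw [← ENNReal.rpow_mul, mul_one_div_cancel hq.ne', ENNReal.rpow_one]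
        _ ≤ S ^ (1 / q) := ENNReal.rpow_le_rpow h2 (by positivity)
    calc a j = w ^ j * (w⁻¹ ^ j * a j) := by
          rw [← mul_assoc, ← mul_pow, ENNReal.mul_inv_cancel hw0 hwt, one_pow, one_mul]
      _ ≤ w ^ j * S ^ (1 / q) := by gcongr
  have h4 : ∑' j, a j ≤ (1 - w)⁻¹ * S ^ (1 / q) := by
    calc ∑' j, a j ≤ ∑' j, w ^ j * S ^ (1 / q) := ENNReal.tsum_le_tsum h1
      _ = (1 - w)⁻¹ * S ^ (1 / q) := by rw [ENNReal.tsum_mul_right, ENNReal.tsum_geometric]
  calc (∑' j, a j) ^ q ≤ ((1 - w)⁻¹ * S ^ (1 / q)) ^ q := ENNReal.rpow_le_rpow h4 hq.le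
    _ = ((1 - w)⁻¹) ^ q * S := by
        rw [ENNReal.mul_rpow_of_nonneg _ _ hq.le, ← ENNReal.rpow_mul, one_div,
          inv_mul_cancel₀ hq.ne', ENNReal.rpow_one]

variable {n : ℕ}

/-- pseudo-distance on a set -/
structure PDist (D : EuclideanSpace ℝ (Fin n) → EuclideanSpace ℝ (Fin n) → ℝ)
    (K : Set (EuclideanSpace ℝ (Fin n))) : Prop where
  cont : ContinuousOn (fun z : EuclideanSpace ℝ (Fin n) × EuclideanSpace ℝ (Fin n) => D z.1 z.2)
      (K ×ˢ K)
  self : ∀ x ∈ K, D x x = 0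
  nonneg : ∀ x ∈ K, ∀ y ∈ K, 0 ≤ D x y
  symm : ∀ x ∈ K, ∀ y ∈ K, D x y = D y x
  tri : ∀ x ∈ K, ∀ y ∈ K, ∀ z ∈ K, D x z ≤ D x y + D y z

variable {D : EuclideanSpace ℝ (Fin n) → EuclideanSpace ℝ (Fin n) → ℝ}
  {c : EuclideanSpace ℝ (Fin n)} {ρ : ℝ}

theorem PDist.cont_left {K : Set (EuclideanSpace ℝ (Fin n))} (h : PDist D K)
    {x : EuclideanSpace ℝ (Fin n)} (hx : x ∈ K) : ContinuousOn (fun z => D z x) K := by
  have h1 : ContinuousOn (fun z : EuclideanSpace ℝ (Fin n) => (z, x)) K := by fun_prop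
  exact h.cont.comp h1 (fun z hz => ⟨hz, hx⟩)

theorem PDist.cont_right {K : Set (EuclideanSpace ℝ (Fin n))} (h : PDist D K)
    {x : EuclideanSpace ℝ (Fin n)} (hx : x ∈ K) : ContinuousOn (fun z => D x z) K := by
  have h1 : ContinuousOn (fun z : EuclideanSpace ℝ (Fin n) => (x, z)) K := by fun_prop
  exact h.cont.comp h1 (fun z hz => ⟨hx, hz⟩)

/-- average distance to the cell of level `k`. -/
noncomputable def avB (D : EuclideanSpace ℝ (Fin n) → EuclideanSpace ℝ (Fin n) → ℝ)
    (c : EuclideanSpace ℝ (Fin n)) (ρ : ℝ) (k : ℕ) (x : EuclideanSpace ℝ (Fin n)) : ℝ≥0∞ :=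
  (volume (cell c ρ k (idx c ρ k x)))⁻¹ *
    ∫⁻ z in cell c ρ k (idx c ρ k x), ENNReal.ofReal (D z x)

/-- average distance in a cell. -/
noncomputable def avA (D : EuclideanSpace ℝ (Fin n) → EuclideanSpace ℝ (Fin n) → ℝ)
    (c : EuclideanSpace ℝ (Fin n)) (ρ : ℝ) (k : ℕ) (v : Fin n → ℤ) : ℝ≥0∞ :=
  (volume (cell c ρ k v))⁻¹ * ∫⁻ z in cell c ρ k v, ((volume (cell c ρ k v))⁻¹ *
    ∫⁻ z' in cell c ρ k v, ENNReal.ofReal (D z z'))

theorem volume_cell_ne_zero (hρ : 0 < ρ) (k : ℕ) (v : Fin n → ℤ) :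
    volume (cell c ρ k v) ≠ 0 := by
  rw [volume_cell hρ]
  have : (0 : ℝ) < (2 * ρ / 2 ^ k) ^ n := by positivity
  exact (ENNReal.ofReal_pos.2 this).ne'

theorem volume_cell_ne_top (hρ : 0 < ρ) (k : ℕ) (v : Fin n → ℤ) :
    volume (cell c ρ k v) ≠ ∞ := by
  rw [volume_cell hρ]
  exact ENNReal.ofReal_ne_top

theorem volume_cell_succ (hρ : 0 < ρ) (k : ℕ) (v v' : Fin n → ℤ) :
    (volume (cell c ρ (k + 1) v'))⁻¹ = 2 ^ n * (volume (cell c ρ k v))⁻¹ := by
  rw [volume_cell hρ, volume_cell hρ]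
  have h1 : (0 : ℝ) < (2 * ρ / 2 ^ k) ^ n := by positivity
  have h2 : (0 : ℝ) < (2 * ρ / 2 ^ (k + 1)) ^ n := by positivity
  rw [← ENNReal.ofReal_inv_of_pos h1, ← ENNReal.ofReal_inv_of_pos h2]
  have h3 : (2 : ℝ≥0∞) ^ n = ENNReal.ofReal (2 ^ n) := by
    rw [ENNReal.ofReal_pow (by norm_num)]; norm_num
  rw [h3, ← ENNReal.ofReal_mul (by positivity)]
  congr 1
  rw [pow_succ]
  rw [← inv_pow, ← inv_pow, ← mul_pow]
  congr 1
  field_simp

theorem avB_le (hρ : 0 < ρ) (hD : PDist D (ccube c ρ)) {x : EuclideanSpace ℝ (Fin n)}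
    (hx : x ∈ ocube c ρ) (k : ℕ) :
    avB D c ρ k x ≤ 2 ^ n * avA D c ρ k (idx c ρ k x) + avB D c ρ (k + 1) x := by
  set Q := cell c ρ k (idx c ρ k x) with hQ
  set Q' := cell c ρ (k + 1) (idx c ρ (k + 1) x) with hQ'
  have hQ'Q : Q' ⊆ Q := cell_anti (Nat.le_succ k) x
  have hQK : Q ⊆ ccube c ρ := cell_subset_ccube hρ hx k
  have hQ'K : Q' ⊆ ccube c ρ := hQ'Q.trans hQK
  have hxK : x ∈ ccube c ρ := hQK (mem_cell_idx k x)
  have hV0 := volume_cell_ne_zero (c := c) hρ k (idx c ρ k x)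
  have hVt := volume_cell_ne_top (c := c) hρ k (idx c ρ k x)
  have hV0' := volume_cell_ne_zero (c := c) hρ (k + 1) (idx c ρ (k + 1) x)
  have hVt' := volume_cell_ne_top (c := c) hρ (k + 1) (idx c ρ (k + 1) x)
  rw [← hQ] at hV0 hVt
  rw [← hQ'] at hV0' hVt'
  have hmQ : MeasurableSet Q := measurableSet_cell hρ k _
  have hmQ' : MeasurableSet Q' := measurableSet_cell hρ (k + 1) _
  have h1 : ∀ z ∈ Q, ENNReal.ofReal (D z x) ≤
      (volume Q')⁻¹ * (∫⁻ z' in Q', ENNReal.ofReal (D z z')) + avB D c ρ (k + 1) x := by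
    intro z hz
    have h2 : ∫⁻ _z' in Q', ENNReal.ofReal (D z x) ≤
        (∫⁻ z' in Q', ENNReal.ofReal (D z z')) + ∫⁻ z' in Q', ENNReal.ofReal (D z' x) := by
      rw [← lintegral_add_left']
      · apply setLIntegral_mono' hmQ'
        intro z' hz'
        rw [← ENNReal.ofReal_add (hD.nonneg _ (hQK hz) _ (hQ'K hz'))
          (hD.nonneg _ (hQ'K hz') _ hxK)]
        exact ENNReal.ofReal_le_ofReal (hD.tri _ (hQK hz) _ (hQ'K hz') _ hxK)
      · apply AEMeasurable.ennreal_ofReal
        exact ((hD.cont_right (hQK hz)).mono hQ'K).aemeasurable hmQ'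
    rw [setLIntegral_const] at h2
    calc ENNReal.ofReal (D z x) = (volume Q')⁻¹ * (ENNReal.ofReal (D z x) * volume Q') := by
          rw [mul_comm (ENNReal.ofReal (D z x)), ← mul_assoc, ENNReal.inv_mul_cancel hV0' hVt',
            one_mul]
      _ ≤ (volume Q')⁻¹ * ((∫⁻ z' in Q', ENNReal.ofReal (D z z')) +
          ∫⁻ z' in Q', ENNReal.ofReal (D z' x)) := by (clear * - h2; gcongr)
      _ = _ := by rw [mul_add]; rfl
  calc avB D c ρ k x = (volume Q)⁻¹ * ∫⁻ z in Q, ENNReal.ofReal (D z x) := rfl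
    _ ≤ (volume Q)⁻¹ * ∫⁻ z in Q, ((volume Q')⁻¹ * (∫⁻ z' in Q', ENNReal.ofReal (D z z')) +
        avB D c ρ (k + 1) x) := by
        gcongr 1
        exact setLIntegral_mono' hmQ h1
    _ = (volume Q)⁻¹ * (∫⁻ z in Q, ((volume Q')⁻¹ * ∫⁻ z' in Q', ENNReal.ofReal (D z z'))) +
        avB D c ρ (k + 1) x := by
        rw [lintegral_add_right _ measurable_const, setLIntegral_const, mul_add]
        congr 1
        rw [mul_comm (avB D c ρ (k + 1) x), ← mul_assoc, ENNReal.inv_mul_cancel hV0 hVt, one_mul]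
    _ ≤ 2 ^ n * avA D c ρ k (idx c ρ k x) + avB D c ρ (k + 1) x := by
        gcongr ?_ + _
        have h5 : (volume Q')⁻¹ = 2 ^ n * (volume Q)⁻¹ := volume_cell_succ hρ k _ _
        have h6 : (2 : ℝ≥0∞) ^ n ≠ ∞ := by finiteness
        calc (volume Q)⁻¹ * ∫⁻ z in Q, ((volume Q')⁻¹ * ∫⁻ z' in Q', ENNReal.ofReal (D z z'))
            ≤ (volume Q)⁻¹ * ∫⁻ z in Q, 2 ^ n * ((volume Q)⁻¹ *
              ∫⁻ z' in Q, ENNReal.ofReal (D z z')) := by
              gcongr 1
              apply lintegral_mono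
              intro z
              simp only
              rw [h5, mul_assoc]
              gcongr 2
              exact lintegral_mono_set hQ'Q
          _ = 2 ^ n * avA D c ρ k (idx c ρ k x) := by
              rw [lintegral_const_mul' _ _ h6]
              unfold avA
              rw [← hQ]
              ring

theorem avB_tendsto (hρ : 0 < ρ) (hD : PDist D (ccube c ρ)) {x : EuclideanSpace ℝ (Fin n)}
    (hx : x ∈ ocube c ρ) :
    Filter.Tendsto (fun k => avB D c ρ k x) Filter.atTop (𝓝 0) := by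
  have hxK : x ∈ ccube c ρ := fun i => (hx i).le
  rw [ENNReal.tendsto_atTop_zero]
  intro ε hε
  rcases eq_or_ne ε ∞ with rfl | hεt
  · exact ⟨0, fun k _ => le_top⟩
  have hε' : 0 < ε.toReal := ENNReal.toReal_pos hε.ne' hεt
  have h1 : ContinuousWithinAt (fun z => D z x) (ccube c ρ) x := hD.cont_left hxK x hxK
  rw [Metric.continuousWithinAt_iff] at h1
  obtain ⟨δ, hδ, hδε⟩ := h1 _ hε'
  have h2 : Filter.Tendsto (fun k : ℕ => Real.sqrt n * (2 * ρ / 2 ^ k)) Filter.atTop (𝓝 0) := by
    have h3 : Filter.Tendsto (fun k : ℕ => ((1 : ℝ) / 2) ^ k) Filter.atTop (𝓝 0) :=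
      tendsto_pow_atTop_nhds_zero_of_lt_one (by norm_num) (by norm_num)
    have h4 := h3.const_mul (Real.sqrt n * (2 * ρ))
    rw [mul_zero] at h4
    refine h4.congr fun k => ?_
    rw [one_div, inv_pow]
    ring
  obtain ⟨N, hN⟩ := Filter.eventually_atTop.1 (h2.eventually (Iio_mem_nhds hδ))
  refine ⟨N, fun k hk => ?_⟩
  have hQK := cell_subset_ccube hρ hx k
  have h5 : ∀ z ∈ cell c ρ k (idx c ρ k x), ENNReal.ofReal (D z x) ≤ ε := by
    intro z hz
    have h6 : dist z x < δ := by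
      rw [dist_eq_norm]
      exact (norm_sub_le_of_cell hρ hz (mem_cell_idx k x)).trans_lt (hN k hk)
    have h7 := hδε (hQK hz) h6
    rw [hD.self x hxK, Real.dist_eq, sub_zero] at h7
    exact ENNReal.ofReal_le_of_le_toReal ((le_abs_self _).trans h7.le)
  calc avB D c ρ k x ≤ (volume (cell c ρ k (idx c ρ k x)))⁻¹ *
        ∫⁻ _z in cell c ρ k (idx c ρ k x), ε := by
        unfold avB
        gcongr 1
        exact setLIntegral_mono' (measurableSet_cell hρ k _) h5
    _ = ε := by
        rw [setLIntegral_const, mul_comm ε, ← mul_assoc,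
          ENNReal.inv_mul_cancel (volume_cell_ne_zero hρ k _) (volume_cell_ne_top hρ k _), one_mul]

theorem avB_le_tsum (hρ : 0 < ρ) (hD : PDist D (ccube c ρ)) {x : EuclideanSpace ℝ (Fin n)}
    (hx : x ∈ ocube c ρ) (k : ℕ) :
    avB D c ρ k x ≤ 2 ^ n * ∑' j, avA D c ρ (k + j) (idx c ρ (k + j) x) := by
  have h1 : ∀ m : ℕ, avB D c ρ k x ≤
      2 ^ n * (∑ j ∈ Finset.range m, avA D c ρ (k + j) (idx c ρ (k + j) x)) +
        avB D c ρ (k + m) x := by
    intro m
    induction m with
    | zero => simp only [Finset.range_zero, Finset.sum_empty, mul_zero, add_zero, zero_add, Std.le_refl]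
    | succ m ih =>
      refine ih.trans ?_
      rw [Finset.sum_range_succ, mul_add, add_assoc]
      gcongr ?_ + ?_
      · exact le_rfl
      · exact avB_le hρ hD hx (k + m)
  have h2 : ∀ m : ℕ, avB D c ρ k x ≤
      2 ^ n * (∑' j, avA D c ρ (k + j) (idx c ρ (k + j) x)) + avB D c ρ (k + m) x := by
    intro m
    refine (h1 m).trans ?_
    gcongr
    exact ENNReal.sum_le_tsum _
  have h3 : Filter.Tendsto (fun m : ℕ => 2 ^ n * (∑' j, avA D c ρ (k + j) (idx c ρ (k + j) x)) +
      avB D c ρ (k + m) x) Filter.atTop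
      (𝓝 (2 ^ n * (∑' j, avA D c ρ (k + j) (idx c ρ (k + j) x)) + 0)) := by
    apply Filter.Tendsto.const_add
    have h4 := avB_tendsto hρ hD hx
    have h5 : Filter.Tendsto (fun m : ℕ => k + m) Filter.atTop Filter.atTop :=
      Filter.tendsto_atTop_mono (fun m => Nat.le_add_left m k) Filter.tendsto_id
    exact h4.comp h5
  rw [add_zero] at h3
  exact ge_of_tendsto' h3 h2

theorem ofReal_le_avB (hρ : 0 < ρ) (hD : PDist D (ccube c ρ)) {x y : EuclideanSpace ℝ (Fin n)}
    (hx : x ∈ ocube c ρ) (hy : y ∈ ocube c ρ) {k : ℕ} (hxy : idx c ρ k x = idx c ρ k y) :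
    ENNReal.ofReal (D x y) ≤ avB D c ρ k x + avB D c ρ k y := by
  have hQK := cell_subset_ccube hρ hx k
  have hxK : x ∈ ccube c ρ := fun i => (hx i).le
  have hyK : y ∈ ccube c ρ := fun i => (hy i).le
  unfold avB
  rw [← hxy]
  set Q := cell c ρ k (idx c ρ k x) with hQ
  have hV0 : volume Q ≠ 0 := volume_cell_ne_zero (c := c) hρ k (idx c ρ k x)
  have hVt : volume Q ≠ ∞ := volume_cell_ne_top (c := c) hρ k (idx c ρ k x)
  have hmQ : MeasurableSet Q := measurableSet_cell hρ k _
  have h2 : ∫⁻ _z in Q, ENNReal.ofReal (D x y) ≤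
      (∫⁻ z in Q, ENNReal.ofReal (D z x)) + ∫⁻ z in Q, ENNReal.ofReal (D z y) := by
    rw [← lintegral_add_left']
    · apply setLIntegral_mono' hmQ
      intro z hz
      rw [← ENNReal.ofReal_add (hD.nonneg _ (hQK hz) _ hxK) (hD.nonneg _ (hQK hz) _ hyK)]
      apply ENNReal.ofReal_le_ofReal
      have := hD.tri x hxK z (hQK hz) y hyK
      rwa [hD.symm x hxK z (hQK hz)] at this
    · apply AEMeasurable.ennreal_ofReal
      exact ((hD.cont_left hxK).mono hQK).aemeasurable hmQ
  rw [setLIntegral_const] at h2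
  calc ENNReal.ofReal (D x y) = (volume Q)⁻¹ * (ENNReal.ofReal (D x y) * volume Q) := by
        rw [mul_comm (ENNReal.ofReal (D x y)), ← mul_assoc, ENNReal.inv_mul_cancel hV0 hVt,
          one_mul]
    _ ≤ (volume Q)⁻¹ * ((∫⁻ z in Q, ENNReal.ofReal (D z x)) +
        ∫⁻ z in Q, ENNReal.ofReal (D z y)) := by (clear * - h2; gcongr)
    _ = _ := by rw [mul_add]

end Vale.Agent.P228
end
end
end

section

section

section

namespace Vale.Agent.P228

open Set Topology MeasureTheory
open scoped ENNReal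

variable {n : ℕ} {D : EuclideanSpace ℝ (Fin n) → EuclideanSpace ℝ (Fin n) → ℝ}
  {c : EuclideanSpace ℝ (Fin n)} {ρ : ℝ}

/-- energy kernel -/
noncomputable def kern (D : EuclideanSpace ℝ (Fin n) → EuclideanSpace ℝ (Fin n) → ℝ) (s q : ℝ)
    (x y : EuclideanSpace ℝ (Fin n)) : ℝ≥0∞ :=
  ENNReal.ofReal (D x y ^ q / ‖x - y‖ ^ ((n : ℝ) + s * q))

theorem avA_rpow_le (hρ : 0 < ρ) (hD : PDist D (ccube c ρ)) {s q : ℝ} (hq : 1 ≤ q)
    (hns : 0 < (n : ℝ) + s * q) {k : ℕ} {v : Fin n → ℤ} (hQK : cell c ρ k v ⊆ ccube c ρ) :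
    avA D c ρ k v ^ q ≤ (volume (cell c ρ k v))⁻¹ * (volume (cell c ρ k v))⁻¹ *
      ENNReal.ofReal ((Real.sqrt n * (2 * ρ / 2 ^ k)) ^ ((n : ℝ) + s * q)) *
      ∫⁻ x in cell c ρ k v, ∫⁻ y in cell c ρ k v, kern D s q x y := by
  have hq0 : 0 < q := by linarith only [hq]
  have hV0 := volume_cell_ne_zero (c := c) hρ k v
  have hVt := volume_cell_ne_top (c := c) hρ k v
  have hmQ := measurableSet_cell (c := c) hρ k v
  set Q := cell c ρ k v with hQ
  set Λ := ENNReal.ofReal ((Real.sqrt n * (2 * ρ / 2 ^ k)) ^ ((n : ℝ) + s * q)) with hΛ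
  have hVi : (volume Q)⁻¹ ≠ ∞ := ENNReal.inv_ne_top.2 hV0
  have hmeas : AEMeasurable (fun z : EuclideanSpace ℝ (Fin n) × EuclideanSpace ℝ (Fin n) =>
      ENNReal.ofReal (D z.1 z.2)) ((volume.restrict Q).prod (volume.restrict Q)) := by
    apply AEMeasurable.ennreal_ofReal
    rw [Measure.prod_restrict]
    exact (hD.cont.mono (prod_mono hQK hQK)).aemeasurable (hmQ.prod hmQ)
  have hpt : ∀ z ∈ Q, ∀ z' ∈ Q, ENNReal.ofReal (D z z') ^ q ≤ Λ * kern D s q z z' := by
    intro z hz z' hz'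
    have h0 := hD.nonneg z (hQK hz) z' (hQK hz')
    rw [ENNReal.ofReal_rpow_of_nonneg h0 hq0.le, hΛ, kern, ← ENNReal.ofReal_mul (by (clear * - hρ; (clear * - hρ; positivity)))]
    apply ENNReal.ofReal_le_ofReal
    rcases eq_or_ne z z' with rfl | hne
    · rw [hD.self z (hQK hz), Real.zero_rpow hq0.ne']
      simp only [sub_self, norm_zero, zero_div, mul_zero, Std.le_refl]
    · have h1 : 0 < ‖z - z'‖ := norm_pos_iff.2 (sub_ne_zero.2 hne)
      have h2 : ‖z - z'‖ ^ ((n : ℝ) + s * q) ≤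
          (Real.sqrt n * (2 * ρ / 2 ^ k)) ^ ((n : ℝ) + s * q) :=
        Real.rpow_le_rpow h1.le (norm_sub_le_of_cell hρ hz hz') hns.le
      have h3 : 0 < ‖z - z'‖ ^ ((n : ℝ) + s * q) := Real.rpow_pos_of_pos h1 _
      rw [mul_div_assoc', le_div_iff₀ h3, mul_comm]
      exact mul_le_mul_of_nonneg_right h2 (Real.rpow_nonneg h0 _)
  calc avA D c ρ k v ^ q
      ≤ (volume Q)⁻¹ * ∫⁻ z in Q, ((volume Q)⁻¹ * ∫⁻ z' in Q, ENNReal.ofReal (D z z')) ^ q := by
        apply jensen_set hV0 hVt _ hq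
        exact hmeas.lintegral_prod_right'.const_mul _
    _ ≤ (volume Q)⁻¹ * ∫⁻ z in Q, (volume Q)⁻¹ * ∫⁻ z' in Q, Λ * kern D s q z z' := by
        gcongr 1
        apply setLIntegral_mono' hmQ
        intro z hz
        refine (jensen_set hV0 hVt ?_ hq).trans ?_
        · apply AEMeasurable.ennreal_ofReal
          exact ((hD.cont_right (hQK hz)).mono hQK).aemeasurable hmQ
        · gcongr 1
          apply setLIntegral_mono' hmQ
          intro z' hz'
          exact hpt z hz z' hz'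
    _ = (volume Q)⁻¹ * (volume Q)⁻¹ * Λ * ∫⁻ x in Q, ∫⁻ y in Q, kern D s q x y := by
        simp_rw [lintegral_const_mul' Λ _ ENNReal.ofReal_ne_top]
        rw [lintegral_const_mul' _ _ hVi, lintegral_const_mul' _ _ ENNReal.ofReal_ne_top]
        ring

/-- slab around a coordinate hyperplane -/
def slab (ρ : ℝ) (i : Fin n) (j : ℕ) (t : ℝ) : Set (EuclideanSpace ℝ (Fin n)) :=
  {z | |z i - t| ≤ 2 * ρ / 2 ^ j}

theorem measurableSet_slab_prod (ρ : ℝ) (i : Fin n) (j : ℕ) :
    MeasurableSet {w : ℝ × EuclideanSpace ℝ (Fin n) | |w.2 i - w.1| ≤ 2 * ρ / 2 ^ j} := by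
  apply IsClosed.measurableSet
  exact isClosed_le (by (clear * -; fun_prop)) continuous_const

theorem measurableSet_slab (ρ : ℝ) (i : Fin n) (j : ℕ) (t : ℝ) :
    MeasurableSet (slab (n := n) ρ i j t) := by
  apply IsClosed.measurableSet
  exact isClosed_le (by (clear * -; fun_prop)) continuous_const

theorem measurable_measure_slab (ρ : ℝ) (i : Fin n) (j : ℕ)
    (ν : Measure (EuclideanSpace ℝ (Fin n))) [SFinite ν] :
    Measurable fun t => ν (slab ρ i j t) :=
  measurable_measure_prodMk_left (measurableSet_slab_prod ρ i j)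

theorem lintegral_measure_slab (ρ : ℝ) (i : Fin n) (j : ℕ)
    (ν : Measure (EuclideanSpace ℝ (Fin n))) [SFinite ν] :
    ∫⁻ t : ℝ, ν (slab ρ i j t) = ENNReal.ofReal (2 * (2 * ρ / 2 ^ j)) * ν univ := by
  have h1 := Measure.prod_apply (μ := (volume : Measure ℝ)) (ν := ν) (measurableSet_slab_prod ρ i j)
  have h2 := Measure.prod_apply_symm (μ := (volume : Measure ℝ)) (ν := ν)
    (measurableSet_slab_prod ρ i j)
  have h3 : ∫⁻ t : ℝ, ν (slab ρ i j t) = ∫⁻ t : ℝ, ν (Prod.mk t ⁻¹'
      {w : ℝ × EuclideanSpace ℝ (Fin n) | |w.2 i - w.1| ≤ 2 * ρ / 2 ^ j}) := rfl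
  rw [h3, ← h1, h2]
  have h4 : ∀ z : EuclideanSpace ℝ (Fin n), volume ((fun t : ℝ => (t, z)) ⁻¹'
      {w : ℝ × EuclideanSpace ℝ (Fin n) | |w.2 i - w.1| ≤ 2 * ρ / 2 ^ j}) =
      ENNReal.ofReal (2 * (2 * ρ / 2 ^ j)) := by
    intro z
    have h5 : (fun t : ℝ => (t, z)) ⁻¹'
      {w : ℝ × EuclideanSpace ℝ (Fin n) | |w.2 i - w.1| ≤ 2 * ρ / 2 ^ j} =
      Icc (z i - 2 * ρ / 2 ^ j) (z i + 2 * ρ / 2 ^ j) := by
      ext t
      simp only [mem_preimage, mem_ofPred_eq, mem_Icc, abs_le]
      constructor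
      · rintro ⟨h6, h7⟩; constructor <;> linarith only [h6, h7]
      · rintro ⟨h6, h7⟩; constructor <;> linarith
    rw [h5, Real.volume_Icc]
    congr 1
    ring
  simp only [h4]
  rw [lintegral_const]

/-- main slice estimate, abstract form -/
theorem avB_rpow_le (hρ : 0 < ρ) (hD : PDist D (ccube c ρ)) {s q : ℝ} (hq : 1 ≤ q)
    (hns : 0 < (n : ℝ) + s * q) {w : ℝ≥0∞} (hw0 : w ≠ 0) (hw1 : w < 1)
    {ν : Measure (EuclideanSpace ℝ (Fin n))}
    (hν : ν = (volume.restrict (ccube c ρ)).withDensity fun x =>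
      ∫⁻ y in ccube c ρ, kern D s q x y)
    {x : EuclideanSpace ℝ (Fin n)} (hx : x ∈ ocube c ρ) (i : Fin n) (k : ℕ) :
    avB D c ρ k x ^ q ≤ (2 ^ n) ^ q * ((1 - w)⁻¹) ^ q * ∑' j, (w⁻¹ ^ j) ^ q *
      (ENNReal.ofReal ((2 * ρ / 2 ^ (k + j)) ^ n))⁻¹ *
      (ENNReal.ofReal ((2 * ρ / 2 ^ (k + j)) ^ n))⁻¹ *
      ENNReal.ofReal ((Real.sqrt n * (2 * ρ / 2 ^ (k + j))) ^ ((n : ℝ) + s * q)) *
      ν (cell c ρ k (idx c ρ k x) ∩ slab ρ i (k + j) (x i)) := by
  have hq0 : 0 < q := by linarith only [hq]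
  calc avB D c ρ k x ^ q ≤ (2 ^ n * ∑' j, avA D c ρ (k + j) (idx c ρ (k + j) x)) ^ q :=
        ENNReal.rpow_le_rpow (avB_le_tsum hρ hD hx k) hq0.le
    _ = (2 ^ n) ^ q * (∑' j, avA D c ρ (k + j) (idx c ρ (k + j) x)) ^ q :=
        ENNReal.mul_rpow_of_nonneg _ _ hq0.le
    _ ≤ (2 ^ n) ^ q * (((1 - w)⁻¹) ^ q *
        ∑' j, (w⁻¹ ^ j * avA D c ρ (k + j) (idx c ρ (k + j) x)) ^ q) := by
        gcongr
        exact tsum_rpow_le _ hq0 hw0 hw1
    _ ≤ _ := by
        rw [mul_assoc ((2 ^ n) ^ q)]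
        gcongr _ * (_ * ?_)
        apply ENNReal.tsum_le_tsum
        intro j
        rw [ENNReal.mul_rpow_of_nonneg _ _ hq0.le, mul_assoc, mul_assoc, mul_assoc]
        gcongr _ * ?_
        have hQK := cell_subset_ccube hρ hx (k + j)
        refine (avA_rpow_le hρ hD hq hns hQK).trans ?_
        rw [volume_cell hρ, mul_assoc, mul_assoc]
        gcongr _ * (_ * (_ * ?_))
        have hmQ := measurableSet_cell (c := c) hρ (k + j) (idx c ρ (k + j) x)
        have h1 : cell c ρ (k + j) (idx c ρ (k + j) x) ⊆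
            cell c ρ k (idx c ρ k x) ∩ slab ρ i (k + j) (x i) := by
          intro z hz
          refine ⟨cell_anti (Nat.le_add_right k j) x hz, ?_⟩
          exact (abs_sub_lt_of_cell hρ hz (mem_cell_idx (k + j) x) i).le
        refine le_trans ?_ (measure_mono h1)
        rw [hν, withDensity_apply _ hmQ, Measure.restrict_restrict hmQ,
          inter_eq_self_of_subset_left hQK]
        apply lintegral_mono
        intro z
        exact lintegral_mono_set hQK

/-- `A` has zero `r`-content along the dyadic cells of all small scales. -/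
def CellNull (r : ℝ) (D : EuclideanSpace ℝ (Fin n) → EuclideanSpace ℝ (Fin n) → ℝ)
    (c : EuclideanSpace ℝ (Fin n)) (ρ : ℝ) (A : Set (EuclideanSpace ℝ (Fin n))) : Prop :=
  ∀ ε : ℝ, 0 < ε → ∀ᶠ k : ℕ in Filter.atTop, ∃ δ : (Fin n → Fin (2 ^ k)) → ℝ, (∀ m, 0 ≤ δ m) ∧
    (∀ m, ∀ x ∈ A, ∀ y ∈ A, idx c ρ k x = (fun i => ((m i : ℕ) : ℤ)) →
      idx c ρ k y = (fun i => ((m i : ℕ) : ℤ)) → D x y ≤ δ m) ∧ ∑ m, δ m ^ r ≤ ε

theorem CellNull.nullContent {r : ℝ} (hρ : 0 < ρ) {A : Set (EuclideanSpace ℝ (Fin n))}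
    (h : CellNull r D c ρ A) (hA : A ⊆ ocube c ρ) : NullContent r D A := by
  intro ε hε
  obtain ⟨k, δ, hδ0, hδD, hδs⟩ := (h ε hε).exists
  let T := Fin n → Fin (2 ^ k)
  let e : Fin (Fintype.card T) ≃ T := (Fintype.equivFin T).symm
  refine ⟨Fintype.card T, fun m => cell c ρ k (fun i => ((e m i : ℕ) : ℤ)), fun m => δ (e m),
    ?_, fun m => hδ0 _, ?_, ?_⟩
  · intro x hx
    choose m hm using fun i => idx_range hρ (hA hx) k i
    refine mem_iUnion.2 ⟨e.symm m, ?_⟩
    rw [e.apply_symm_apply]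
    funext i
    exact hm i
  · rintro m x ⟨hxc, hx⟩ y ⟨hyc, hy⟩
    exact hδD (e m) x hx y hy hxc hyc
  · calc ∑ m : Fin (Fintype.card T), δ (e m) ^ r = ∑ m : T, δ m ^ r :=
          Equiv.sum_comp e (fun m => δ m ^ r)
      _ ≤ ε := hδs

theorem CellNull.zero {r : ℝ} (hr : 0 < r) {A : Set (EuclideanSpace ℝ (Fin n))} :
    CellNull r (fun _ _ => 0) c ρ A := by
  intro ε hε
  refine Filter.Eventually.of_forall fun k => ⟨fun _ => 0, fun _ => le_rfl,
    fun _ _ _ _ _ _ _ => le_rfl, ?_⟩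
  simp only [Real.zero_rpow hr.ne', Finset.sum_const_zero, hε.le]

theorem CellNull.add {r : ℝ} (hr : 0 < r)
    {D' : EuclideanSpace ℝ (Fin n) → EuclideanSpace ℝ (Fin n) → ℝ}
    {A : Set (EuclideanSpace ℝ (Fin n))} (h : CellNull r D c ρ A) (h' : CellNull r D' c ρ A) :
    CellNull r (fun x y => D x y + D' x y) c ρ A := by
  intro ε hε
  have h2r : (0 : ℝ) < 2 ^ r := by positivity
  have hpos : 0 < ε / (2 ^ r * 2) := by (clear * - hε; positivity)
  filter_upwards [h _ hpos, h' _ hpos] with k hk hk'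
  obtain ⟨δ, hδ0, hδD, hδs⟩ := hk
  obtain ⟨δ', hδ0', hδD', hδs'⟩ := hk'
  refine ⟨fun m => δ m + δ' m, fun m => add_nonneg (hδ0 m) (hδ0' m),
    fun m x hx y hy hxm hym => add_le_add (hδD m x hx y hy hxm hym) (hδD' m x hx y hy hxm hym), ?_⟩
  have h3 : ∀ m, (δ m + δ' m) ^ r ≤ 2 ^ r * (δ m ^ r + δ' m ^ r) := by
    intro m
    have ha := hδ0 m
    have hb := hδ0' m
    have h4 : δ m + δ' m ≤ 2 * max (δ m) (δ' m) := by
      have h5 := le_max_left (δ m) (δ' m)
      have h6 := le_max_right (δ m) (δ' m)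
      linarith only [h5, h6]
    have h7 : 0 ≤ max (δ m) (δ' m) := le_max_of_le_left ha
    calc (δ m + δ' m) ^ r ≤ (2 * max (δ m) (δ' m)) ^ r :=
          Real.rpow_le_rpow (add_nonneg ha hb) h4 hr.le
      _ = 2 ^ r * max (δ m) (δ' m) ^ r := Real.mul_rpow (by norm_num) h7
      _ ≤ 2 ^ r * (δ m ^ r + δ' m ^ r) := by
          apply mul_le_mul_of_nonneg_left _ h2r.le
          rcases max_choice (δ m) (δ' m) with h8 | h8
          · rw [h8]; exact le_add_of_nonneg_right (Real.rpow_nonneg hb r)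
          · rw [h8]; exact le_add_of_nonneg_left (Real.rpow_nonneg ha r)
  calc ∑ m, (δ m + δ' m) ^ r ≤ ∑ m, 2 ^ r * (δ m ^ r + δ' m ^ r) :=
        Finset.sum_le_sum fun m _ => h3 m
    _ = 2 ^ r * (∑ m, δ m ^ r + ∑ m, δ' m ^ r) := by
        rw [← Finset.mul_sum, Finset.sum_add_distrib]
    _ ≤ 2 ^ r * (ε / (2 ^ r * 2) + ε / (2 ^ r * 2)) := by
        apply mul_le_mul_of_nonneg_left _ h2r.le
        exact add_le_add hδs hδs'
    _ = ε := by field_simp; ring

theorem CellNull.sum {r : ℝ} (hr : 0 < r)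
    {Ds : ℕ → EuclideanSpace ℝ (Fin n) → EuclideanSpace ℝ (Fin n) → ℝ}
    {A : Set (EuclideanSpace ℝ (Fin n))} {N : ℕ} (h : ∀ a < N, CellNull r (Ds a) c ρ A) :
    CellNull r (fun x y => ∑ a ∈ Finset.range N, Ds a x y) c ρ A := by
  induction N with
  | zero => simpa using CellNull.zero hr
  | succ N ih =>
    have h1 := (ih fun a ha => h a (Nat.lt_succ_of_lt ha)).add hr (h N (Nat.lt_succ_self N))
    simpa only [Finset.sum_range_succ] using h1

theorem cellNull_slices {n : ℕ} (D : EuclideanSpace ℝ (Fin n) → EuclideanSpace ℝ (Fin n) → ℝ)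
    (c : EuclideanSpace ℝ (Fin n)) (ρ : ℝ) (hρ : 0 < ρ) (s q r : ℝ) (hs : 0 < s) (hq : 1 ≤ q)
    (hsq : (n : ℝ) - 1 < s * q) (hqr : q ≤ r)
    (hcont : ContinuousOn (fun z : EuclideanSpace ℝ (Fin n) × EuclideanSpace ℝ (Fin n) => D z.1 z.2)
      ({x | ∀ i, |x i - c i| ≤ ρ} ×ˢ {x | ∀ i, |x i - c i| ≤ ρ}))
    (hD0 : ∀ x, (∀ i, |x i - c i| ≤ ρ) → D x x = 0)
    (hDnn : ∀ x y, (∀ i, |x i - c i| ≤ ρ) → (∀ i, |y i - c i| ≤ ρ) → 0 ≤ D x y)
    (hDsymm : ∀ x y, (∀ i, |x i - c i| ≤ ρ) → (∀ i, |y i - c i| ≤ ρ) → D x y = D y x)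
    (hDtri : ∀ x y z, (∀ i, |x i - c i| ≤ ρ) → (∀ i, |y i - c i| ≤ ρ) → (∀ i, |z i - c i| ≤ ρ) →
      D x z ≤ D x y + D y z)
    (hE : ∫⁻ x in {x | ∀ i, |x i - c i| ≤ ρ}, ∫⁻ y in {x | ∀ i, |x i - c i| ≤ ρ},
      ENNReal.ofReal (D x y ^ q / ‖x - y‖ ^ ((n : ℝ) + s * q)) < ∞) :
    ∀ i : Fin n, ∀ᵐ t : ℝ, CellNull r D c ρ {x | (∀ j, |x j - c j| < ρ) ∧ x i = t} := by
  intro i
  have hD : PDist D (ccube c ρ) := ⟨hcont, fun x hx => hD0 x hx,
    fun x hx y hy => hDnn x y hx hy, fun x hx y hy => hDsymm x y hx hy,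
    fun x hx y hy z hz => hDtri x y z hx hy hz⟩
  have hq0 : 0 < q := by linarith only [hq]
  have hr0 : 0 < r := by linarith only [hq, hqr]
  have hn0 : 0 < n := i.pos
  have hnR : (0 : ℝ) < n := by exact_mod_cast hn0
  have hns : 0 < (n : ℝ) + s * q := by (clear * - hn0 hs hq; positivity)
  -- the finite measure
  set ν : Measure (EuclideanSpace ℝ (Fin n)) := (volume.restrict (ccube c ρ)).withDensity fun x =>
      ∫⁻ y in ccube c ρ, kern D s q x y with hν
  have hνfin : ν univ < ∞ := by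
    rw [hν, withDensity_apply _ MeasurableSet.univ, Measure.restrict_univ]
    exact hE
  have hνF : IsFiniteMeasure ν := ⟨hνfin⟩
  -- parameters
  set κ := s * q - (n - 1) with hκ
  have hκ0 : 0 < κ := by rw [hκ]; linarith only [hsq]
  set θ : ℝ := 2 ^ (-(κ / 2)) with hθ
  have hθ0 : 0 < θ := by positivity
  have hθ1 : θ < 1 := Real.rpow_lt_one_of_one_lt_of_neg (by norm_num) (by linarith only [hsq])
  set w : ℝ≥0∞ := ENNReal.ofReal (θ ^ (1 / q)) with hw
  have hwr0 : 0 < θ ^ (1 / q) := Real.rpow_pos_of_pos hθ0 _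
  have hwr1 : θ ^ (1 / q) < 1 := Real.rpow_lt_one hθ0.le hθ1 (by (clear * - hq; positivity))
  have hw0 : w ≠ 0 := (ENNReal.ofReal_pos.2 hwr0).ne'
  have hw1 : w < 1 := by rw [hw, ENNReal.ofReal_lt_one]; exact hwr1
  have hwt : w ≠ ∞ := ENNReal.ofReal_ne_top
  set Λ : ℕ → ℝ≥0∞ := fun j => (ENNReal.ofReal ((2 * ρ / 2 ^ j) ^ n))⁻¹ *
      (ENNReal.ofReal ((2 * ρ / 2 ^ j) ^ n))⁻¹ *
      ENNReal.ofReal ((Real.sqrt n * (2 * ρ / 2 ^ j)) ^ ((n : ℝ) + s * q)) with hΛ
  -- the function `h`
  set h : ℝ → ℝ≥0∞ := fun t => ∑' j, (w⁻¹ ^ j) ^ q * Λ j * ν (slab ρ i j t) with hh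
  have hterm : ∀ j : ℕ, (w⁻¹ ^ j) ^ q * Λ j * ENNReal.ofReal (2 * (2 * ρ / 2 ^ j)) =
      ENNReal.ofReal ((Real.sqrt n) ^ ((n : ℝ) + s * q) * 2 * (2 * ρ) ^ κ) *
        ENNReal.ofReal θ ^ j := by
    intro j
    have hl : 0 < 2 * ρ / 2 ^ j := by positivity
    set l : ℝ := 2 * ρ / 2 ^ j with hldef
    have h1 : (w⁻¹ ^ j) ^ q = ENNReal.ofReal (θ⁻¹ ^ j) := by
      rw [hw, ← ENNReal.ofReal_inv_of_pos hwr0, ← ENNReal.ofReal_pow (by positivity),
        ENNReal.ofReal_rpow_of_nonneg (by positivity) hq0.le]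
      congr 1
      rw [← Real.rpow_natCast, ← Real.rpow_mul (by positivity), mul_comm (j : ℝ) q,
        Real.rpow_mul (by positivity), Real.rpow_natCast, Real.inv_rpow hwr0.le,
        ← Real.rpow_mul hθ0.le, one_div, inv_mul_cancel₀ hq0.ne', Real.rpow_one]
    have h2 : Λ j = ENNReal.ofReal ((l ^ n)⁻¹ * (l ^ n)⁻¹ *
        (Real.sqrt n * l) ^ ((n : ℝ) + s * q)) := by
      rw [hΛ]
      simp only [← hldef]
      rw [← ENNReal.ofReal_inv_of_pos (by positivity), ← ENNReal.ofReal_mul (by positivity),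
        ← ENNReal.ofReal_mul (by positivity)]
    rw [h1, h2, ← ENNReal.ofReal_mul (by positivity), ← ENNReal.ofReal_mul (by (clear * - hρ hn0; positivity)),
      ← ENNReal.ofReal_pow hθ0.le, ← ENNReal.ofReal_mul (by (clear * - hn0 hρ; positivity))]
    congr 1
    rw [Real.mul_rpow (Real.sqrt_nonneg _) hl.le]
    have h3 : l ^ ((n : ℝ) + s * q) * l = l ^ κ * l ^ n * l ^ n := by
      have h4 : l ^ ((n : ℝ) + s * q) * l ^ (1 : ℝ) = l ^ κ * l ^ (n : ℝ) * l ^ (n : ℝ) := by
        rw [← Real.rpow_add hl, ← Real.rpow_add hl, ← Real.rpow_add hl]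
        congr 1
        rw [hκ]; ring
      rwa [Real.rpow_one, Real.rpow_natCast] at h4
    have h5 : l ^ κ = (2 * ρ) ^ κ * (θ ^ j * θ ^ j) := by
      have h6 : ((2 : ℝ) ^ j) ^ κ * (θ ^ j * θ ^ j) = 1 := by
        have h7 : ((2 : ℝ) ^ j) ^ κ = ((2 : ℝ) ^ κ) ^ j := by
          rw [← Real.rpow_natCast, ← Real.rpow_natCast, ← Real.rpow_mul (by norm_num),
            ← Real.rpow_mul (by norm_num), mul_comm]
        have h8 : (2 : ℝ) ^ κ * (θ * θ) = 1 := by
          rw [hθ, ← Real.rpow_add (by norm_num), ← Real.rpow_add (by norm_num)]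
          have : κ + (-(κ / 2) + -(κ / 2)) = 0 := by ring
          rw [this, Real.rpow_zero]
        rw [h7, ← mul_pow, ← mul_pow, h8, one_pow]
      have h9 : (2 * ρ) ^ κ = l ^ κ * ((2 : ℝ) ^ j) ^ κ := by
        rw [← Real.mul_rpow hl.le (by positivity)]
        congr 1
        rw [hldef]; (clear * - hρ; field_simp)
      rw [h9, mul_assoc, h6, mul_one]
    have hθj : θ ^ j ≠ 0 := by positivity
    have hln : l ^ n ≠ 0 := by (clear * - hρ; positivity)
    calc θ⁻¹ ^ j * ((l ^ n)⁻¹ * (l ^ n)⁻¹ * (Real.sqrt n ^ ((n : ℝ) + s * q) *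
          l ^ ((n : ℝ) + s * q))) * (2 * l)
        = θ⁻¹ ^ j * (l ^ n)⁻¹ * (l ^ n)⁻¹ * Real.sqrt n ^ ((n : ℝ) + s * q) * 2 *
          (l ^ ((n : ℝ) + s * q) * l) := by ring
      _ = θ⁻¹ ^ j * (l ^ n)⁻¹ * (l ^ n)⁻¹ * Real.sqrt n ^ ((n : ℝ) + s * q) * 2 *
          ((2 * ρ) ^ κ * (θ ^ j * θ ^ j) * l ^ n * l ^ n) := by rw [h3, h5]
      _ = Real.sqrt n ^ ((n : ℝ) + s * q) * 2 * (2 * ρ) ^ κ * θ ^ j := by
          rw [inv_pow]
          (clear * - hln hρ hn0 hθj; field_simp)
  have hhm : Measurable h := by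
    apply Measurable.tsum
    intro j
    exact (measurable_measure_slab ρ i j ν).const_mul _
  have hhint : ∫⁻ t, h t ≠ ∞ := by
    have h1 : ∫⁻ t, h t = ∑' j, (w⁻¹ ^ j) ^ q * Λ j * ∫⁻ t, ν (slab ρ i j t) := by
      rw [hh, lintegral_tsum]
      · congr 1
        funext j
        rw [lintegral_const_mul _ (measurable_measure_slab ρ i j ν)]
      · intro j
        exact ((measurable_measure_slab ρ i j ν).const_mul _).aemeasurable
    rw [h1]
    simp_rw [lintegral_measure_slab, ← mul_assoc, hterm]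
    rw [ENNReal.tsum_mul_right, ENNReal.tsum_mul_left, ENNReal.tsum_geometric]
    apply ENNReal.mul_ne_top _ hνfin.ne
    apply ENNReal.mul_ne_top ENNReal.ofReal_ne_top
    rw [ENNReal.inv_ne_top]
    have : ENNReal.ofReal θ < 1 := by rw [ENNReal.ofReal_lt_one]; exact hθ1
    exact (tsub_pos_of_lt this).ne'
  filter_upwards [ae_lt_top hhm hhint] with t ht
  intro ε hε
  -- constants
  set C1 : ℝ≥0∞ := (2 ^ n) ^ q * ((1 - w)⁻¹) ^ q with hC1
  have hC1t : C1 ≠ ∞ := by
    apply ENNReal.mul_ne_top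
    · exact ENNReal.rpow_ne_top_of_nonneg hq0.le (by finiteness)
    · apply ENNReal.rpow_ne_top_of_nonneg hq0.le
      rw [ENNReal.inv_ne_top]
      exact (tsub_pos_of_lt hw1).ne'
  -- the bound for cells
  set Z : ℕ → (Fin n → ℤ) → ℝ≥0∞ := fun k v => ∑' j, (w⁻¹ ^ j) ^ q * Λ (k + j) *
    ν (cell c ρ k v ∩ slab ρ i (k + j) t) with hZ
  have hsumZ : ∀ k : ℕ, ∑ m : Fin n → Fin (2 ^ k), Z k (fun i => ((m i : ℕ) : ℤ)) ≤
      (w ^ k) ^ q * h t := by
    intro k
    have hmeas : ∀ m : Fin n → Fin (2 ^ k), MeasurableSet (cell c ρ k (fun i => ((m i : ℕ) : ℤ))) :=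
      fun m => measurableSet_cell hρ k _
    have h1 : ∀ S : Set (EuclideanSpace ℝ (Fin n)), MeasurableSet S →
        ∑ m : Fin n → Fin (2 ^ k), ν (cell c ρ k (fun i => ((m i : ℕ) : ℤ)) ∩ S) ≤ ν S := by
      intro S hS
      rw [← measure_biUnion_finset]
      · apply measure_mono
        intro x hx
        simp only [mem_iUnion] at hx
        obtain ⟨m, _, hm⟩ := hx
        exact hm.2
      · intro m _ m' _ hmm
        rw [Function.onFun, Set.disjoint_left]
        rintro x ⟨hx, -⟩ ⟨hx', -⟩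
        apply hmm
        have h2 : (fun i => ((m i : ℕ) : ℤ)) = fun i => ((m' i : ℕ) : ℤ) := by
          rw [← (show idx c ρ k x = _ from hx), ← (show idx c ρ k x = _ from hx')]
        funext i
        have h3 := congrFun h2 i
        simp only [Nat.cast_inj] at h3
        exact Fin.ext h3
      · intro m _
        exact (hmeas m).inter hS
    calc ∑ m : Fin n → Fin (2 ^ k), Z k (fun i => ((m i : ℕ) : ℤ))
        = ∑' j, ∑ m : Fin n → Fin (2 ^ k), (w⁻¹ ^ j) ^ q * Λ (k + j) *
          ν (cell c ρ k (fun i => ((m i : ℕ) : ℤ)) ∩ slab ρ i (k + j) t) := by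
          rw [Summable.tsum_finsetSum (fun _ _ => ENNReal.summable)]
      _ ≤ ∑' j, (w ^ k) ^ q * ((w⁻¹ ^ (k + j)) ^ q * Λ (k + j) * ν (slab ρ i (k + j) t)) := by
          apply ENNReal.tsum_le_tsum
          intro j
          rw [← Finset.mul_sum]
          have h4 : (w ^ k) ^ q * (w⁻¹ ^ (k + j)) ^ q = (w⁻¹ ^ j) ^ q := by
            rw [← ENNReal.mul_rpow_of_nonneg _ _ hq0.le, pow_add, ← mul_assoc, ← mul_pow,
              ENNReal.mul_inv_cancel hw0 hwt, one_pow, one_mul]
          calc (w⁻¹ ^ j) ^ q * Λ (k + j) * ∑ m : Fin n → Fin (2 ^ k),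
                ν (cell c ρ k (fun i => ((m i : ℕ) : ℤ)) ∩ slab ρ i (k + j) t)
              ≤ (w⁻¹ ^ j) ^ q * Λ (k + j) * ν (slab ρ i (k + j) t) := by
                gcongr
                exact h1 _ (measurableSet_slab ρ i (k + j) t)
            _ = (w ^ k) ^ q * ((w⁻¹ ^ (k + j)) ^ q * Λ (k + j) * ν (slab ρ i (k + j) t)) := by
                rw [← h4, mul_assoc ((w ^ k) ^ q), mul_assoc ((w ^ k) ^ q)]
      _ = (w ^ k) ^ q * ∑' j, ((w⁻¹ ^ (k + j)) ^ q * Λ (k + j) * ν (slab ρ i (k + j) t)) :=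
          ENNReal.tsum_mul_left
      _ ≤ (w ^ k) ^ q * h t := by
          gcongr
          exact ENNReal.tsum_comp_le_tsum_of_injective (add_right_injective k)
            (fun j => (w⁻¹ ^ j) ^ q * Λ j * ν (slab ρ i j t))
  have hBZ : ∀ k : ℕ, ∀ x ∈ ocube c ρ, x i = t →
      avB D c ρ k x ^ q ≤ C1 * Z k (idx c ρ k x) := by
    intro k x hx hxt
    have h1 := avB_rpow_le hρ hD hq hns hw0 hw1 hν hx i k
    rw [hxt] at h1
    refine h1.trans (le_of_eq ?_)
    rw [hC1, hZ, hΛ]
    simp only [← mul_assoc]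
  -- choice of the level
  have hlev : ∀ᶠ k : ℕ in Filter.atTop,
      2 ^ q * C1 * ((w ^ k) ^ q * h t) ≤ ENNReal.ofReal (min ε 1) := by
    have h1 : ∀ k : ℕ, 2 ^ q * C1 * ((w ^ k) ^ q * h t) = (w ^ q) ^ k * (2 ^ q * C1 * h t) := by
      intro k
      have h2 : (w ^ k) ^ q = (w ^ q) ^ k := by
        rw [← ENNReal.rpow_natCast, ← ENNReal.rpow_natCast, ← ENNReal.rpow_mul,
          ← ENNReal.rpow_mul, mul_comm]
      rw [h2]; ring
    have h3 : w ^ q < 1 := ENNReal.rpow_lt_one hw1 hq0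
    have h4 : Filter.Tendsto (fun k : ℕ => (w ^ q) ^ k * (2 ^ q * C1 * h t)) Filter.atTop
        (𝓝 (0 * (2 ^ q * C1 * h t))) := by
      apply ENNReal.Tendsto.mul_const (ENNReal.tendsto_pow_atTop_nhds_zero_of_lt_one h3)
      right
      exact ENNReal.mul_ne_top (ENNReal.mul_ne_top
        (ENNReal.rpow_ne_top_of_nonneg hq0.le (by norm_num)) hC1t) ht.ne
    rw [zero_mul] at h4
    have h5 : (0 : ℝ≥0∞) < ENNReal.ofReal (min ε 1) := ENNReal.ofReal_pos.2 (lt_min hε one_pos)
    filter_upwards [h4.eventually (Iic_mem_nhds h5)] with k hk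
    rw [h1]
    exact hk
  filter_upwards [hlev] with k hk
  -- conclusion
  have hfinal : ∑ m : Fin n → Fin (2 ^ k), (2 ^ q * (C1 * Z k (fun i => ((m i : ℕ) : ℤ)))) ≤
      ENNReal.ofReal (min ε 1) := by
    refine le_trans ?_ hk
    simp_rw [← mul_assoc]
    rw [← Finset.mul_sum, mul_assoc (2 ^ q * C1)]
    gcongr
    exact hsumZ k
  have hfin : ∀ m : Fin n → Fin (2 ^ k), 2 ^ q * (C1 * Z k (fun i => ((m i : ℕ) : ℤ))) ≠ ∞ := by
    intro m
    have h1 := (Finset.single_le_sum (f := fun m : Fin n → Fin (2 ^ k) =>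
      2 ^ q * (C1 * Z k (fun i => ((m i : ℕ) : ℤ)))) (fun _ _ => bot_le)
      (Finset.mem_univ m)).trans hfinal
    exact ne_top_of_le_ne_top ENNReal.ofReal_ne_top h1
  set δ : (Fin n → Fin (2 ^ k)) → ℝ := fun m =>
    (2 * (C1 * Z k (fun i => ((m i : ℕ) : ℤ))) ^ (1 / q)).toReal with hδ
  have hδ0 : ∀ m, 0 ≤ δ m := fun m => ENNReal.toReal_nonneg
  have hδq : ∀ m, δ m ^ q = (2 ^ q * (C1 * Z k (fun i => ((m i : ℕ) : ℤ)))).toReal := by
    intro m
    rw [hδ]
    simp only
    rw [ENNReal.toReal_rpow, ENNReal.mul_rpow_of_nonneg _ _ hq0.le, ← ENNReal.rpow_mul, one_div,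
      inv_mul_cancel₀ hq0.ne', ENNReal.rpow_one]
  have hsum : ∑ m, δ m ^ q ≤ min ε 1 := by
    simp_rw [hδq]
    rw [← ENNReal.toReal_sum (fun m _ => hfin m)]
    exact ENNReal.toReal_le_of_le_ofReal (lt_min hε one_pos).le hfinal
  have hδ1 : ∀ m, δ m ≤ 1 := by
    intro m
    by_contra hcon
    have h1 : 1 < δ m ^ q := Real.one_lt_rpow (not_le.1 hcon) hq0
    have h2 : δ m ^ q ≤ ∑ m, δ m ^ q :=
      Finset.single_le_sum (f := fun m => δ m ^ q) (fun m _ => Real.rpow_nonneg (hδ0 m) q)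
        (Finset.mem_univ m)
    have h3 : min ε 1 ≤ 1 := min_le_right _ _
    linarith only [hsum, h1, h2, h3]
  refine ⟨δ, hδ0, ?_, ?_⟩
  · rintro m x ⟨hx, hxt⟩ y ⟨hy, hyt⟩ hxi hyi
    have h1 := ofReal_le_avB hρ hD (show x ∈ ocube c ρ from hx) (show y ∈ ocube c ρ from hy)
      (k := k) (by rw [hxi, hyi])
    have h2 : ∀ z : EuclideanSpace ℝ (Fin n), z ∈ ocube c ρ → z i = t →
        idx c ρ k z = (fun i => ((m i : ℕ) : ℤ)) →
        avB D c ρ k z ≤ (C1 * Z k (fun i => ((m i : ℕ) : ℤ))) ^ (1 / q) := by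
      intro z hz hzt hzi
      have h3 := hBZ k z hz hzt
      rw [hzi] at h3
      calc avB D c ρ k z = (avB D c ρ k z ^ q) ^ (1 / q) := by
            rw [← ENNReal.rpow_mul, mul_one_div_cancel hq0.ne', ENNReal.rpow_one]
        _ ≤ _ := ENNReal.rpow_le_rpow h3 (by positivity)
    have h4 : ENNReal.ofReal (D x y) ≤ 2 * (C1 * Z k (fun i => ((m i : ℕ) : ℤ))) ^ (1 / q) := by
      refine h1.trans ?_
      rw [two_mul]
      exact add_le_add (h2 x hx hxt hxi) (h2 y hy hyt hyi)
    have h5 : 2 * (C1 * Z k (fun i => ((m i : ℕ) : ℤ))) ^ (1 / q) ≠ ∞ := by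
      intro hcon
      have h6 := hfin m
      apply h6
      have h7 : 2 ^ q * (C1 * Z k (fun i => ((m i : ℕ) : ℤ))) =
          (2 * (C1 * Z k (fun i => ((m i : ℕ) : ℤ))) ^ (1 / q)) ^ q := by
        rw [ENNReal.mul_rpow_of_nonneg _ _ hq0.le, ← ENNReal.rpow_mul, one_div,
          inv_mul_cancel₀ hq0.ne', ENNReal.rpow_one]
      rw [h7, hcon, ENNReal.top_rpow_of_pos hq0]
    exact (ENNReal.ofReal_le_iff_le_toReal h5).1 h4
  · calc ∑ m, δ m ^ r ≤ ∑ m, δ m ^ q := by
          apply Finset.sum_le_sum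
          intro m _
          exact Real.rpow_le_rpow_of_exponent_ge' (hδ0 m) (hδ1 m) hq0.le hqr
      _ ≤ min ε 1 := hsum
      _ ≤ ε := min_le_left _ _

theorem nullContent_slices {n : ℕ} (D : EuclideanSpace ℝ (Fin n) → EuclideanSpace ℝ (Fin n) → ℝ)
    (c : EuclideanSpace ℝ (Fin n)) (ρ : ℝ) (hρ : 0 < ρ) (s q r : ℝ) (hs : 0 < s) (hq : 1 ≤ q)
    (hsq : (n : ℝ) - 1 < s * q) (hqr : q ≤ r)
    (hcont : ContinuousOn (fun z : EuclideanSpace ℝ (Fin n) × EuclideanSpace ℝ (Fin n) => D z.1 z.2)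
      ({x | ∀ i, |x i - c i| ≤ ρ} ×ˢ {x | ∀ i, |x i - c i| ≤ ρ}))
    (hD0 : ∀ x, (∀ i, |x i - c i| ≤ ρ) → D x x = 0)
    (hDnn : ∀ x y, (∀ i, |x i - c i| ≤ ρ) → (∀ i, |y i - c i| ≤ ρ) → 0 ≤ D x y)
    (hDsymm : ∀ x y, (∀ i, |x i - c i| ≤ ρ) → (∀ i, |y i - c i| ≤ ρ) → D x y = D y x)
    (hDtri : ∀ x y z, (∀ i, |x i - c i| ≤ ρ) → (∀ i, |y i - c i| ≤ ρ) → (∀ i, |z i - c i| ≤ ρ) →
      D x z ≤ D x y + D y z)
    (hE : ∫⁻ x in {x | ∀ i, |x i - c i| ≤ ρ}, ∫⁻ y in {x | ∀ i, |x i - c i| ≤ ρ},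
      ENNReal.ofReal (D x y ^ q / ‖x - y‖ ^ ((n : ℝ) + s * q)) < ∞) :
    ∀ i : Fin n, ∀ᵐ t : ℝ, NullContent r D {x | (∀ j, |x j - c j| < ρ) ∧ x i = t} := by
  intro i
  filter_upwards [cellNull_slices D c ρ hρ s q r hs hq hsq hqr hcont hD0 hDnn hDsymm hDtri hE i]
    with t ht
  exact ht.nullContent hρ (fun x hx => hx.1)

end Vale.Agent.P228
end
end
end

section

section

/-!
P228, block [N]: the corner data of the slicing operator of the first factor of a product
(the interface between the explicit tables and the product formula).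
-/

open Matrix

noncomputable section

namespace Vale.Agent.P228.Inv

open LMat

/-- The corner data of a form `(A, A')` for the pair of walls `w`: two indices `l₁ ≠ l₂` such that
the slicing operator `s` has, in the columns `l ≠ l₁, l₂`, the standard columns `z_l δ_l` in the
block `01` and zero in the block `11`, and explicit values on `{l₁, l₂}`; `s` is location-diagonal
outside the finite set `EA`. -/
structure CorData {ι B : Type} (base : ι → B) (w : Wall B) (A A' : LMat ι ℂ) where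
  l₁ : ι
  l₂ : ι
  ne : l₁ ≠ l₂
  EA : Finset B
  c01 : ∀ l, l ≠ l₁ → l ≠ l₂ → ∀ x, x ≠ l →
    Sop (prj w.1 base) (prj w.2 base) A A' false true x l = 0
  c01' : ∀ l, l ≠ l₁ → l ≠ l₂ →
    Sop (prj w.1 base) (prj w.2 base) A A' false true l l =
      Complex.I * (2 * ind w.2 base l - 1)
  c11 : ∀ l, l ≠ l₁ → l ≠ l₂ → ∀ x,
    Sop (prj w.1 base) (prj w.2 base) A A' true true x l = 0
  v00_11 : Sop (prj w.1 base) (prj w.2 base) A A' false false l₁ l₁ = -5
  v00_22 : Sop (prj w.1 base) (prj w.2 base) A A' false false l₂ l₂ = -5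
  v00_12 : Sop (prj w.1 base) (prj w.2 base) A A' false false l₁ l₂ = 0
  v00_21 : Sop (prj w.1 base) (prj w.2 base) A A' false false l₂ l₁ = 0
  v01_11 : Sop (prj w.1 base) (prj w.2 base) A A' false true l₁ l₁ = 0
  v01_22 : Sop (prj w.1 base) (prj w.2 base) A A' false true l₂ l₂ = 0
  v01_12 : Sop (prj w.1 base) (prj w.2 base) A A' false true l₁ l₂ = Complex.I / 2
  v01_21 : Sop (prj w.1 base) (prj w.2 base) A A' false true l₂ l₁ = -(Complex.I / 2)
  v11_11 : Sop (prj w.1 base) (prj w.2 base) A A' true true l₁ l₁ = -(1 / 4)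
  v11_22 : Sop (prj w.1 base) (prj w.2 base) A A' true true l₂ l₂ = -(1 / 4)
  v11_12 : Sop (prj w.1 base) (prj w.2 base) A A' true true l₁ l₂ = 0
  v11_21 : Sop (prj w.1 base) (prj w.2 base) A A' true true l₂ l₁ = 0
  supp : ∀ a b x y, Sop (prj w.1 base) (prj w.2 base) A A' a b x y ≠ 0 →
    base x = base y ∨ (base x ∈ EA ∧ base y ∈ EA)

end Vale.Agent.P228.Inv
end
end
end

section

section

/-!
# P228, block [N]: the slicing word of `J_2 ε` over a commutative ring

`a` imaginary unit, `w w' = 1`, `8 h = 1`.  The `z`-components of `J_2 ε` and of its inverse are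
`C1 z + C0 + CM z⁻¹` and `D1 z + D0 + DM z⁻¹`.
-/

namespace Vale.Agent.P228.Num

open Matrix Vale.Agent.P228.Inv

section poly

variable {R : Type*} [CommRing R]

def C1 (a w' : R) : Matrix (Fin 4) (Fin 4) R :=
  !![0, 0, 0, 0; 0, a, 0, 0; 0, -(a * (1 + w')), 0, 0; 0, 0, 0, 0]
def C0 (a w w' : R) : Matrix (Fin 4) (Fin 4) R :=
  !![0, 0, 0, 2 * a; 0, 0, a * (w - 1), 0; 0, a * (1 - w'), a * (w' - w), 0; -(2 * a), 0, 0, 0]
def CM (a w : R) : Matrix (Fin 4) (Fin 4) R :=
  !![0, 0, 0, 0; 0, -a, a * (1 + w), 0; 0, 0, 0, 0; 0, 0, 0, 0]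
def D1 (a w' h : R) : Matrix (Fin 4) (Fin 4) R :=
  !![0, 0, 0, 0; 0, 0, 0, 0; 0, -(2 * h * a * (1 + w')), -(2 * h * a), 0; 0, 0, 0, 0]
def D0 (a w w' h : R) : Matrix (Fin 4) (Fin 4) R :=
  !![0, 0, 0, 4 * h * a; 0, 2 * h * a * (w - w'), 2 * h * a * (w - 1), 0;
     0, 2 * h * a * (1 - w'), 0, 0; -(4 * h * a), 0, 0, 0]
def DM (a w h : R) : Matrix (Fin 4) (Fin 4) R :=
  !![0, 0, 0, 0; 0, 0, 2 * h * a * (1 + w), 0; 0, 0, 2 * h * a, 0; 0, 0, 0, 0]

/-- the value of a Gaussian integer -/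
def gz (a : R) (z : GaussianInt) : R := z.re + a * z.im

/-- Laurent polynomial with coefficients `T k / 8` -/
def evG (a w w' h : R) (T : ℤ → GaussianInt) : R :=
  h * (gz a (T (-2)) * (w' * w') + gz a (T (-1)) * w' + gz a (T 0) + gz a (T 1) * w
    + gz a (T 2) * (w * w))

/-- the word -/
def VP (a w w' h : R) : Matrix Bool Bool (Matrix (Fin 4) (Fin 4) R) :=
  fun s t => Matrix.of fun i j => evG a w w' h (fun k => VT k s t i j)

/-- its inverse -/
def WP (a w w' h : R) : Matrix Bool Bool (Matrix (Fin 4) (Fin 4) R) :=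
  fun s t => Matrix.of fun i j => evG a w w' h (fun k => WT k s t i j)

variable {a w w' h : R}

theorem twoM (X : Matrix (Fin 4) (Fin 4) R) : 2 * X = X + X := two_mul X

theorem fourM (X : Matrix (Fin 4) (Fin 4) R) : 4 * X = X + X + X + X := by noncomm_ring

section blocks

variable (a w w' h)

/-- `(x, x+1)`-block product `c1 dm` -/
def E1 : Matrix (Fin 4) (Fin 4) R :=
  !![0, 0, 0, 0; 0, 0, -(2 * h * (1 + w)), 0; 0, 0, 2 * h * (2 + w + w'), 0; 0, 0, 0, 0]

/-- `d1 cm` -/
def E2 : Matrix (Fin 4) (Fin 4) R :=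
  !![0, 0, 0, 0; 0, 0, 0, 0; 0, -(2 * h * (1 + w')), 2 * h * (2 + w + w'), 0; 0, 0, 0, 0]

end blocks

theorem C1_DM (ha : a * a = -1) (hw : w * w' = 1) : C1 a w' * DM a w h = E1 w w' h := by
  ext i j
  fin_cases i <;> fin_cases j <;>
    simp [E1, C1, DM, Matrix.mul_apply, Fin.sum_univ_four] <;> grind

theorem D1_CM (ha : a * a = -1) (hw : w * w' = 1) : D1 a w' h * CM a w = E2 w w' h := by
  ext i j
  fin_cases i <;> fin_cases j <;>
    simp [E2, D1, CM, Matrix.mul_apply, Fin.sum_univ_four] <;> grind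

theorem v00_ff (hh : 8 * h = 1) : 1 - 2 * E2 w w' h = VP a w w' h false false := by
  rw [twoM]
  ext i j
  fin_cases i <;> fin_cases j <;> simp [E2, VP, evG, gz, VT] <;> grind

theorem v00_ft (hw : w * w' = 1) (hh : 8 * h = 1) :
    2 * (D0 a w w' h * E1 w w' h) = VP a w w' h false true := by
  rw [twoM]
  ext i j
  fin_cases i <;> fin_cases j <;>
    simp [E1, D0, VP, evG, gz, VT] <;> grind

theorem v00_tf (hw : w * w' = 1) (hh : 8 * h = 1) :
    -(4 * (E1 w w' h * C0 a w w')) = VP a w w' h true false := by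
  rw [fourM]
  ext i j
  fin_cases i <;> fin_cases j <;>
    simp [E1, C0, VP, evG, gz, VT] <;> grind

theorem v00_tt (hw : w * w' = 1) (hh : 8 * h = 1) :
    1 + 2 * E1 w w' h - 4 * (E1 w w' h * E1 w w' h) = VP a w w' h true true := by
  rw [fourM, twoM]
  ext i j
  fin_cases i <;> fin_cases j <;>
    simp [E1, VP, evG, gz, VT] <;> grind

theorem v00_eq (ha : a * a = -1) (hw : w * w' = 1) (hh : 8 * h = 1) :
    v00 (C1 a w') (C0 a w w') (D1 a w' h) (D0 a w w' h) (CM a w) (DM a w h) = VP a w w' h := by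
  unfold v00
  rw [D1_CM ha hw, C1_DM ha hw]
  apply m2_ext
  · exact v00_ff hh
  · exact v00_ft hw hh
  · exact v00_tf hw hh
  · exact v00_tt hw hh

/-! ### the inverse -/

section blocks

variable (a w w' h)

def Vff : Matrix (Fin 4) (Fin 4) R :=
  !![1, 0, 0, 0; 0, 1, 0, 0; 0, 4 * h * (1 + w'), 1 - 4 * h * (2 + w + w'), 0; 0, 0, 0, 1]
def Vft : Matrix (Fin 4) (Fin 4) R :=
  !![0, 0, 0, 0; 0, 0, 0, 0; 0, 0, -(h * a * (w - w')), 0; 0, 0, 0, 0]
def Vtf : Matrix (Fin 4) (Fin 4) R :=
  !![0, 0, 0, 0; 0, a * (w - w'), -(a * (w - w') * (1 + w)), 0;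
     0, -(a * (w - w') * (1 + w')), a * (w - w') * (2 + w + w'), 0; 0, 0, 0, 0]
def Vtt : Matrix (Fin 4) (Fin 4) R :=
  !![1, 0, 0, 0; 0, 1, 2 * h * (w + w') * (1 + w), 0;
     0, 0, 1 - 2 * h * (w + w') * (2 + w + w'), 0; 0, 0, 0, 1]
def Wff : Matrix (Fin 4) (Fin 4) R :=
  !![1, 0, 0, 0; 0, 1, 0, 0;
     0, 2 * h * (w + w') * (1 + w'), 1 - 2 * h * (w + w') * (2 + w + w'), 0; 0, 0, 0, 1]
def Wtt : Matrix (Fin 4) (Fin 4) R :=
  !![1, 0, 0, 0; 0, 1, 4 * h * (1 + w), 0; 0, 0, 1 - 4 * h * (2 + w + w'), 0; 0, 0, 0, 1]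

end blocks

theorem VP_ff (hh : 8 * h = 1) : VP a w w' h false false = Vff w w' h := by
  ext i j
  fin_cases i <;> fin_cases j <;> simp [Vff, VP, evG, gz, VT] <;> grind

theorem VP_ft : VP a w w' h false true = Vft a w w' h := by
  ext i j
  fin_cases i <;> fin_cases j <;> simp [Vft, VP, evG, gz, VT]; grind

theorem VP_tf (hw : w * w' = 1) (hh : 8 * h = 1) : VP a w w' h true false = Vtf a w w' := by
  ext i j
  fin_cases i <;> fin_cases j <;> simp [Vtf, VP, evG, gz, VT] <;> grind

theorem VP_tt (hw : w * w' = 1) (hh : 8 * h = 1) : VP a w w' h true true = Vtt w w' h := by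
  ext i j
  fin_cases i <;> fin_cases j <;> simp [Vtt, VP, evG, gz, VT] <;> grind

theorem WP_ff (hw : w * w' = 1) (hh : 8 * h = 1) : WP a w w' h false false = Wff w w' h := by
  ext i j
  fin_cases i <;> fin_cases j <;> simp [Wff, WP, evG, gz, WT] <;> grind

theorem WP_ft : WP a w w' h false true = -Vft a w w' h := by
  ext i j
  fin_cases i <;> fin_cases j <;> simp [Vft, WP, evG, gz, WT]; grind

theorem WP_tf (hw : w * w' = 1) (hh : 8 * h = 1) : WP a w w' h true false = -Vtf a w w' := by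
  rw [← VP_tf hw hh]
  ext i j
  simp [WP, VP, evG, gz, WT]
  ring

theorem WP_tt (hh : 8 * h = 1) : WP a w w' h true true = Wtt w w' h := by
  ext i j
  fin_cases i <;> fin_cases j <;> simp [Wtt, WP, evG, gz, WT] <;> grind

theorem VW_ff (ha : a * a = -1) (hw : w * w' = 1) (hh : 8 * h = 1) :
    Vff w w' h * Wff w w' h + Vft a w w' h * -Vtf a w w' = 1 := by
  ext i j
  fin_cases i <;> fin_cases j <;> simp [Vff, Wff, Vft, Vtf] <;> grind

theorem VW_ft :
    Vff w w' h * -Vft a w w' h + Vft a w w' h * Wtt w w' h = 0 := by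
  ext i j
  fin_cases i <;> fin_cases j <;> simp [Vff, Wtt, Vft]; ring

theorem VW_tf :
    Vtf a w w' * Wff w w' h + Vtt w w' h * -Vtf a w w' = 0 := by
  ext i j
  fin_cases i <;> fin_cases j <;> simp [Vtf, Wff, Vtt] <;> ring

theorem VW_tt (ha : a * a = -1) (hw : w * w' = 1) (hh : 8 * h = 1) :
    Vtf a w w' * -Vft a w w' h + Vtt w w' h * Wtt w w' h = 1 := by
  ext i j
  fin_cases i <;> fin_cases j <;> simp [Vtf, Wtt, Vtt, Vft] <;> grind

theorem VP_WP (ha : a * a = -1) (hw : w * w' = 1) (hh : 8 * h = 1) :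
    VP a w w' h * WP a w w' h = 1 := by
  have e1 : VP a w w' h = m2 (Vff w w' h) (Vft a w w' h) (Vtf a w w') (Vtt w w' h) :=
    m2_ext (VP_ff hh) VP_ft (VP_tf hw hh) (VP_tt hw hh)
  have e2 : WP a w w' h = m2 (Wff w w' h) (-Vft a w w' h) (-Vtf a w w') (Wtt w w' h) :=
    m2_ext (WP_ff hw hh) WP_ft (WP_tf hw hh) (WP_tt hh)
  rw [e1, e2, m2_mul, VW_ff ha hw hh, VW_ft, VW_tf, VW_tt ha hw hh, m2_one]

end poly

end Vale.Agent.P228.Num
end
end

section

section

/-!
# P228, block N: integer tables for the second direction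

`v = v_{00}` (column `x = 0` of `vop` for `J_2 e`) as a Laurent matrix in `w`: entries
`V00 = (1/2) A00`, `V01 = (i/8) A01`, `V10 = i A10`, `V11 = (1/4) A11`, inverse
`V'00 = (1/4) B00`, `V'01 = (i/8) B01`, `V'10 = i B10`, `V'11 = (1/2) B11`.
-/

namespace Vale.Agent.P228.Num

open Matrix

def A00 (d : ℤ) : Matrix (Fin 4) (Fin 4) ℤ :=
  if d = -1 then !![0, 0, 0, 0; 0, 0, 0, 0; 0, 1, -1, 0; 0, 0, 0, 0]
  else if d = 0 then !![2, 0, 0, 0; 0, 2, 0, 0; 0, 1, 0, 0; 0, 0, 0, 2]
  else if d = 1 then !![0, 0, 0, 0; 0, 0, 0, 0; 0, 0, -1, 0; 0, 0, 0, 0]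
  else 0

def A01 (d : ℤ) : Matrix (Fin 4) (Fin 4) ℤ :=
  if d = -1 then !![0, 0, 0, 0; 0, 0, 0, 0; 0, 0, 1, 0; 0, 0, 0, 0]
  else if d = 1 then !![0, 0, 0, 0; 0, 0, 0, 0; 0, 0, -1, 0; 0, 0, 0, 0]
  else 0

def A10 (d : ℤ) : Matrix (Fin 4) (Fin 4) ℤ :=
  if d = -2 then !![0, 0, 0, 0; 0, 0, 0, 0; 0, 1, -1, 0; 0, 0, 0, 0]
  else if d = -1 then !![0, 0, 0, 0; 0, -1, 1, 0; 0, 1, -2, 0; 0, 0, 0, 0]
  else if d = 0 then !![0, 0, 0, 0; 0, 0, 1, 0; 0, -1, 0, 0; 0, 0, 0, 0]
  else if d = 1 then !![0, 0, 0, 0; 0, 1, -1, 0; 0, -1, 2, 0; 0, 0, 0, 0]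
  else if d = 2 then !![0, 0, 0, 0; 0, 0, -1, 0; 0, 0, 1, 0; 0, 0, 0, 0]
  else 0

def A11 (d : ℤ) : Matrix (Fin 4) (Fin 4) ℤ :=
  if d = -2 then !![0, 0, 0, 0; 0, 0, 0, 0; 0, 0, -1, 0; 0, 0, 0, 0]
  else if d = -1 then !![0, 0, 0, 0; 0, 0, 1, 0; 0, 0, -2, 0; 0, 0, 0, 0]
  else if d = 0 then !![4, 0, 0, 0; 0, 4, 1, 0; 0, 0, 2, 0; 0, 0, 0, 4]
  else if d = 1 then !![0, 0, 0, 0; 0, 0, 1, 0; 0, 0, -2, 0; 0, 0, 0, 0]
  else if d = 2 then !![0, 0, 0, 0; 0, 0, 1, 0; 0, 0, -1, 0; 0, 0, 0, 0]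
  else 0

def B00 (d : ℤ) : Matrix (Fin 4) (Fin 4) ℤ :=
  if d = -2 then !![0, 0, 0, 0; 0, 0, 0, 0; 0, 1, -1, 0; 0, 0, 0, 0]
  else if d = -1 then !![0, 0, 0, 0; 0, 0, 0, 0; 0, 1, -2, 0; 0, 0, 0, 0]
  else if d = 0 then !![4, 0, 0, 0; 0, 4, 0, 0; 0, 1, 2, 0; 0, 0, 0, 4]
  else if d = 1 then !![0, 0, 0, 0; 0, 0, 0, 0; 0, 1, -2, 0; 0, 0, 0, 0]
  else if d = 2 then !![0, 0, 0, 0; 0, 0, 0, 0; 0, 0, -1, 0; 0, 0, 0, 0]
  else 0

def B01 (d : ℤ) : Matrix (Fin 4) (Fin 4) ℤ :=
  if d = -1 then !![0, 0, 0, 0; 0, 0, 0, 0; 0, 0, -1, 0; 0, 0, 0, 0]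
  else if d = 1 then !![0, 0, 0, 0; 0, 0, 0, 0; 0, 0, 1, 0; 0, 0, 0, 0]
  else 0

def B10 (d : ℤ) : Matrix (Fin 4) (Fin 4) ℤ :=
  if d = -2 then !![0, 0, 0, 0; 0, 0, 0, 0; 0, -1, 1, 0; 0, 0, 0, 0]
  else if d = -1 then !![0, 0, 0, 0; 0, 1, -1, 0; 0, -1, 2, 0; 0, 0, 0, 0]
  else if d = 0 then !![0, 0, 0, 0; 0, 0, -1, 0; 0, 1, 0, 0; 0, 0, 0, 0]
  else if d = 1 then !![0, 0, 0, 0; 0, -1, 1, 0; 0, 1, -2, 0; 0, 0, 0, 0]
  else if d = 2 then !![0, 0, 0, 0; 0, 0, 1, 0; 0, 0, -1, 0; 0, 0, 0, 0]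
  else 0

def B11 (d : ℤ) : Matrix (Fin 4) (Fin 4) ℤ :=
  if d = -1 then !![0, 0, 0, 0; 0, 0, 0, 0; 0, 0, -1, 0; 0, 0, 0, 0]
  else if d = 0 then !![2, 0, 0, 0; 0, 2, 1, 0; 0, 0, 0, 0; 0, 0, 0, 2]
  else if d = 1 then !![0, 0, 0, 0; 0, 0, 1, 0; 0, 0, -1, 0; 0, 0, 0, 0]
  else 0


/-- sum over the five shifts -/
def five (f : ℤ → ℤ) : ℤ := f (-2) + f (-1) + f 0 + f 1 + f 2

/-- entry of `α q β`, `q = {y ≥ 0}` -/
def zc (α β : ℤ → Matrix (Fin 4) (Fin 4) ℤ) (y : ℤ) (a : Fin 4) (y' : ℤ) (b : Fin 4) : ℤ :=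
  five fun j => if 0 ≤ y - j then
    α j a 0 * β (y - j - y') 0 b + α j a 1 * β (y - j - y') 1 b +
    α j a 2 * β (y - j - y') 2 b + α j a 3 * β (y - j - y') 3 b else 0

/-- entry of `α β` -/
def cc (α β : ℤ → Matrix (Fin 4) (Fin 4) ℤ) (d : ℤ) (a : Fin 4) (b : Fin 4) : ℤ :=
  five fun j =>
    α j a 0 * β (d - j) 0 b + α j a 1 * β (d - j) 1 b +
    α j a 2 * β (d - j) 2 b + α j a 3 * β (d - j) 3 b

def Z00 (y : ℤ) (a : Fin 4) (y' : ℤ) (b : Fin 4) : ℤ := zc A00 B00 y a y' b - zc A01 B10 y a y' b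
def Z01 (y : ℤ) (a : Fin 4) (y' : ℤ) (b : Fin 4) : ℤ := zc A00 B01 y a y' b + zc A01 B11 y a y' b
def Z10 (y : ℤ) (a : Fin 4) (y' : ℤ) (b : Fin 4) : ℤ := zc A10 B00 y a y' b + zc A11 B10 y a y' b
def Z11 (y : ℤ) (a : Fin 4) (y' : ℤ) (b : Fin 4) : ℤ := zc A11 B11 y a y' b - zc A10 B01 y a y' b

/-- special locations `(-1,w-edge)` and `(0,w-edge)` -/
def sp (y : ℤ) (a : Fin 4) : Bool := (a == 2) && ((y == -1) || (y == 0))

/-- the window -/
def inw (y : ℤ) (a : Fin 4) : Bool :=
  ((a == 2) && ((y == -2) || (y == -1) || (y == 0) || (y == 1))) ||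
    ((a == 1) && ((y == -1) || (y == 0) || (y == 1)))

/-- eight times the entry of `q` -/
def std (y : ℤ) (a : Fin 4) (y' : ℤ) (b : Fin 4) : ℤ := if y = y' ∧ a = b ∧ 0 ≤ y then 8 else 0

abbrev ys : List ℤ := [-2, -1, 0, 1]
abbrev ys' : List ℤ := [-6, -5, -4, -3, -2, -1, 0, 1, 2, 3, 4, 5]
abbrev ds : List ℤ := [-4, -3, -2, -1, 0, 1, 2, 3, 4]

theorem Z01_win : ∀ y ∈ ys, ∀ y' ∈ ys', ∀ a b : Fin 4,
    Z01 y a y' b = if y = y' ∧ a = b ∧ sp y a = true then -2 else 0 := by decide +kernel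
theorem Z11_win1 : ∀ y ∈ ys, ∀ y' ∈ ys', ∀ a b : Fin 4, sp y' b = false →
    Z11 y a y' b = std y a y' b := by decide +kernel
theorem Z11_win2 : ∀ y ∈ ys, ∀ y' ∈ ys', ∀ a b : Fin 4, inw y a = false →
    Z11 y a y' b = std y a y' b := by decide +kernel
theorem Z11_sp : ∀ y ∈ ys, ∀ y' ∈ ys, ∀ a b : Fin 4, sp y a = true → sp y' b = true →
    Z11 y a y' b = if y = y' then 4 else if y = -1 then 2 else -2 := by decide +kernel
theorem Z00_win : ∀ y ∈ ys, ∀ y' ∈ ys', ∀ a b : Fin 4,
    Z00 y a y' b = Z11 y' b y a := by decide +kernel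
theorem Z10_win : ∀ y ∈ ys, ∀ y' ∈ ys', ∀ a b : Fin 4, (inw y a && inw y' b) = false →
    Z10 y a y' b = 0 := by decide +kernel
theorem Z10_sp : ∀ y ∈ ys, ∀ y' ∈ ys, ∀ a b : Fin 4, sp y a = true → sp y' b = true →
    Z10 y a y' b = if y = y' then 10 else 0 := by decide +kernel

theorem c00 : ∀ d ∈ ds, ∀ a b : Fin 4, cc A00 B00 d a b - cc A01 B10 d a b =
    if d = 0 ∧ a = b then 8 else 0 := by decide +kernel
theorem c01 : ∀ d ∈ ds, ∀ a b : Fin 4, cc A00 B01 d a b + cc A01 B11 d a b = 0 := by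
  decide +kernel
theorem c10 : ∀ d ∈ ds, ∀ a b : Fin 4, cc A10 B00 d a b + cc A11 B10 d a b = 0 := by
  decide +kernel
theorem c11 : ∀ d ∈ ds, ∀ a b : Fin 4, cc A11 B11 d a b - cc A10 B01 d a b =
    if d = 0 ∧ a = b then 8 else 0 := by decide +kernel

/-- bandwidth two -/
def bw (β : ℤ → Matrix (Fin 4) (Fin 4) ℤ) : Prop := ∀ e, (2 < e ∨ e < -2) → β e = 0

theorem bw00 : bw B00 := by
  intro e he; unfold B00
  repeat' rw [if_neg (by omega)]
theorem bw01 : bw B01 := by
  intro e he; unfold B01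
  repeat' rw [if_neg (by omega)]
theorem bw10 : bw B10 := by
  intro e he; unfold B10
  repeat' rw [if_neg (by omega)]
theorem bw11 : bw B11 := by
  intro e he; unfold B11
  repeat' rw [if_neg (by omega)]
theorem bwA00 : bw A00 := by
  intro e he; unfold A00
  repeat' rw [if_neg (by omega)]
theorem bwA01 : bw A01 := by
  intro e he; unfold A01
  repeat' rw [if_neg (by omega)]
theorem bwA10 : bw A10 := by
  intro e he; unfold A10
  repeat' rw [if_neg (by omega)]
theorem bwA11 : bw A11 := by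
  intro e he; unfold A11
  repeat' rw [if_neg (by omega)]

theorem zc_far {α β : ℤ → Matrix (Fin 4) (Fin 4) ℤ} (hβ : bw β) {y y' : ℤ}
    (h : 4 < y - y' ∨ y - y' < -4) (a b : Fin 4) : zc α β y a y' b = 0 := by
  unfold zc five
  beta_reduce
  rw [hβ (y - -2 - y') (by omega), hβ (y - -1 - y') (by omega), hβ (y - 0 - y') (by omega),
    hβ (y - 1 - y') (by omega), hβ (y - 2 - y') (by omega)]
  simp

theorem cc_far {α β : ℤ → Matrix (Fin 4) (Fin 4) ℤ} (hβ : bw β) {d : ℤ}
    (h : 4 < d ∨ d < -4) (a b : Fin 4) : cc α β d a b = 0 := by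
  unfold cc five
  beta_reduce
  rw [hβ (d - -2) (by omega), hβ (d - -1) (by omega), hβ (d - 0) (by omega),
    hβ (d - 1) (by omega), hβ (d - 2) (by omega)]
  simp

theorem zc_pos {α β : ℤ → Matrix (Fin 4) (Fin 4) ℤ} {y y' : ℤ} (h : 2 ≤ y) (a b : Fin 4) :
    zc α β y a y' b = cc α β (y - y') a b := by
  have e : ∀ j : ℤ, y - j - y' = y - y' - j := fun j => by ring
  unfold zc cc five
  beta_reduce
  simp only [e]
  rw [if_pos (by omega), if_pos (by omega), if_pos (by omega), if_pos (by omega),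
    if_pos (by omega)]

theorem zc_neg {α β : ℤ → Matrix (Fin 4) (Fin 4) ℤ} {y y' : ℤ} (h : y ≤ -3) (a b : Fin 4) :
    zc α β y a y' b = 0 := by
  unfold zc five
  beta_reduce
  rw [if_neg (by omega), if_neg (by omega), if_neg (by omega), if_neg (by omega),
    if_neg (by omega)]
  simp

theorem mem_ys {y : ℤ} (h1 : -3 < y) (h2 : y < 2) : y ∈ ys := by
  have : y = -2 ∨ y = -1 ∨ y = 0 ∨ y = 1 := by omega
  simpa [ys] using this

theorem mem_ys' {y : ℤ} (h1 : -7 < y) (h2 : y < 6) : y ∈ ys' := by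
  have : y = -6 ∨ y = -5 ∨ y = -4 ∨ y = -3 ∨ y = -2 ∨ y = -1 ∨ y = 0 ∨ y = 1 ∨ y = 2 ∨ y = 3 ∨
    y = 4 ∨ y = 5 := by omega
  simpa [ys'] using this

theorem mem_ds {y : ℤ} (h1 : -5 < y) (h2 : y < 5) : y ∈ ds := by
  have : y = -4 ∨ y = -3 ∨ y = -2 ∨ y = -1 ∨ y = 0 ∨ y = 1 ∨ y = 2 ∨ y = 3 ∨ y = 4 := by omega
  simpa [ds] using this

theorem sp_ys {y : ℤ} {a : Fin 4} (h : sp y a = true) : y ∈ ys := by
  unfold sp at h
  simp only [Bool.and_eq_true, Bool.or_eq_true, beq_iff_eq] at h
  exact mem_ys (by omega) (by omega)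

theorem inw_ys {y : ℤ} {a : Fin 4} (h : inw y a = true) : y ∈ ys := by
  unfold inw at h
  simp only [Bool.and_eq_true, Bool.or_eq_true, beq_iff_eq] at h
  exact mem_ys (by omega) (by omega)

theorem sp_inw {y : ℤ} {a : Fin 4} (h : sp y a = true) : inw y a = true := by
  unfold sp at h
  unfold inw
  simp only [Bool.and_eq_true, Bool.or_eq_true, beq_iff_eq] at h ⊢
  omega

/-- outside the window rows everything is standard -/
theorem out_row {y : ℤ} (h : y ≤ -3 ∨ 2 ≤ y) (a : Fin 4) (y' : ℤ) (b : Fin 4) :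
    Z00 y a y' b = std y a y' b ∧ Z01 y a y' b = 0 ∧ Z10 y a y' b = 0 ∧
      Z11 y a y' b = std y a y' b := by
  unfold Z00 Z01 Z10 Z11
  rcases h with h | h
  · simp only [zc_neg h]
    have : std y a y' b = 0 := by
      unfold std; rw [if_neg]; omega
    simp [this]
  · simp only [zc_pos h]
    by_cases hd : 4 < y - y' ∨ y - y' < -4
    · have : std y a y' b = 0 := by
        unfold std; rw [if_neg]; omega
      rw [this]
      simp only [cc_far bw00 hd, cc_far bw01 hd, cc_far bw10 hd, cc_far bw11 hd]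
      simp
    · have hm : y - y' ∈ ds := mem_ds (by omega) (by omega)
      have hs : std y a y' b = if y - y' = 0 ∧ a = b then 8 else 0 := by
        unfold std
        by_cases hab : a = b
        · by_cases hy : y = y'
          · subst hy; rw [if_pos ⟨rfl, hab, by omega⟩, if_pos ⟨by omega, hab⟩]
          · rw [if_neg (by omega), if_neg (by omega)]
        · rw [if_neg (fun h => hab h.2.1), if_neg (fun h => hab h.2)]
      rw [hs]
      exact ⟨c00 _ hm a b, c01 _ hm a b, c10 _ hm a b, c11 _ hm a b⟩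

theorem far {y y' : ℤ} (hd : 4 < y - y' ∨ y - y' < -4) (a b : Fin 4) :
    Z00 y a y' b = 0 ∧ Z01 y a y' b = 0 ∧ Z10 y a y' b = 0 ∧ Z11 y a y' b = 0 := by
  unfold Z00 Z01 Z10 Z11
  simp only [zc_far bw00 hd, zc_far bw01 hd, zc_far bw10 hd, zc_far bw11 hd]
  simp

theorem std_far {y y' : ℤ} (hd : 4 < y - y' ∨ y - y' < -4) (a b : Fin 4) :
    std y a y' b = 0 := by
  unfold std; rw [if_neg]; omega

theorem Z01_eq (y : ℤ) (a : Fin 4) (y' : ℤ) (b : Fin 4) :
    Z01 y a y' b = if y = y' ∧ a = b ∧ sp y a = true then -2 else 0 := by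
  by_cases h : y ≤ -3 ∨ 2 ≤ y
  · rw [(out_row h a y' b).2.1, if_neg]
    intro h'
    have := sp_ys h'.2.2
    simp [ys] at this
    omega
  · by_cases hd : 4 < y - y' ∨ y - y' < -4
    · rw [(far hd a b).2.1, if_neg]; omega
    · exact Z01_win y (mem_ys (by omega) (by omega)) y' (mem_ys' (by omega) (by omega)) a b

theorem Z11_not_sp (y : ℤ) (a : Fin 4) {y' : ℤ} {b : Fin 4} (hs : sp y' b = false) :
    Z11 y a y' b = std y a y' b := by
  by_cases h : y ≤ -3 ∨ 2 ≤ y
  · exact (out_row h a y' b).2.2.2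
  · by_cases hd : 4 < y - y' ∨ y - y' < -4
    · rw [(far hd a b).2.2.2, std_far hd]
    · exact Z11_win1 y (mem_ys (by omega) (by omega)) y' (mem_ys' (by omega) (by omega)) a b hs

theorem Z11_not_inw {y : ℤ} {a : Fin 4} (y' : ℤ) (b : Fin 4) (hs : inw y a = false) :
    Z11 y a y' b = std y a y' b := by
  by_cases h : y ≤ -3 ∨ 2 ≤ y
  · exact (out_row h a y' b).2.2.2
  · by_cases hd : 4 < y - y' ∨ y - y' < -4
    · rw [(far hd a b).2.2.2, std_far hd]
    · exact Z11_win2 y (mem_ys (by omega) (by omega)) y' (mem_ys' (by omega) (by omega)) a b hs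

theorem Z11_sp_sp {y y' : ℤ} {a b : Fin 4} (h : sp y a = true) (h' : sp y' b = true) :
    Z11 y a y' b = if y = y' then 4 else if y = -1 then 2 else -2 :=
  Z11_sp y (sp_ys h) y' (sp_ys h') a b h h'

theorem Z10_sp_sp {y y' : ℤ} {a b : Fin 4} (h : sp y a = true) (h' : sp y' b = true) :
    Z10 y a y' b = if y = y' then 10 else 0 :=
  Z10_sp y (sp_ys h) y' (sp_ys h') a b h h'

theorem Z10_out {y : ℤ} {a : Fin 4} {y' : ℤ} {b : Fin 4} (hs : (inw y a && inw y' b) = false) :
    Z10 y a y' b = 0 := by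
  by_cases h : y ≤ -3 ∨ 2 ≤ y
  · exact (out_row h a y' b).2.2.1
  · by_cases hd : 4 < y - y' ∨ y - y' < -4
    · exact (far hd a b).2.2.1
    · exact Z10_win y (mem_ys (by omega) (by omega)) y' (mem_ys' (by omega) (by omega)) a b hs

theorem std_symm (y : ℤ) (a : Fin 4) (y' : ℤ) (b : Fin 4) : std y a y' b = std y' b y a := by
  unfold std
  by_cases h : y = y' ∧ a = b ∧ 0 ≤ y
  · rw [if_pos h, if_pos ⟨h.1.symm, h.2.1.symm, h.1 ▸ h.2.2⟩]
  · rw [if_neg h, if_neg]
    rintro ⟨h1, h2, h3⟩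
    exact h ⟨h1.symm, h2.symm, h1 ▸ h3⟩

theorem sp_false_of_out {y : ℤ} (h : y ≤ -3 ∨ 2 ≤ y) (a : Fin 4) : sp y a = false := by
  by_contra hc
  have := sp_ys (Bool.of_not_eq_false hc)
  simp [ys] at this
  omega

theorem Z00_eq (y : ℤ) (a : Fin 4) (y' : ℤ) (b : Fin 4) : Z00 y a y' b = Z11 y' b y a := by
  by_cases hd : 4 < y - y' ∨ y - y' < -4
  · rw [(far hd a b).1, (far (by omega) b a).2.2.2]
  · by_cases h : y ≤ -3 ∨ 2 ≤ y
    · rw [(out_row h a y' b).1, Z11_not_sp y' b (sp_false_of_out h a), std_symm]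
    · exact Z00_win y (mem_ys (by omega) (by omega)) y' (mem_ys' (by omega) (by omega)) a b

end Vale.Agent.P228.Num
end
end

section

section

/-!
# P228, block N: slicing in the second direction

`V`, `V'` = the value at `x = 0` of `vop`, `vinv` for `J_2 e` (first wall), `q = {y ≥ 0}`:
entries of `K0 (2 V q V' - 1)` in `LMat (ℤ × Fin 4) ℂ`.
-/

namespace Vale.Agent.P228.Num

open Matrix LMat Vale.Agent.P228.Inv

noncomputable section

/-- the second wall -/
def qY : LMat (ℤ × Fin 4) ℂ := diag fun p => if 0 ≤ p.1 then 1 else 0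

/-- `A` is Toeplitz with coefficients `c • α` -/
def IsToep (A : LMat (ℤ × Fin 4) ℂ) (c : ℂ) (α : ℤ → Matrix (Fin 4) (Fin 4) ℤ) : Prop :=
  ∀ p p', A p p' = c * ((α (p.1 - p'.1) p.2 p'.2 : ℤ) : ℂ)

theorem sum_Icc (y : ℤ) (f : ℤ → ℂ) : ∑ t ∈ Finset.Icc (y - 2) (y + 2), f t =
    f (y + 2) + f (y + 1) + f y + f (y - 1) + f (y - 2) := by
  have : Finset.Icc (y - 2) (y + 2) = {y + 2, y + 1, y, y - 1, y - 2} := by
    ext t; simp only [Finset.mem_Icc, Finset.mem_insert, Finset.mem_singleton]; omega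
  rw [this, Finset.sum_insert, Finset.sum_insert, Finset.sum_insert, Finset.sum_insert,
    Finset.sum_singleton]
  · ring
  all_goals simp only [Finset.mem_insert, Finset.mem_singleton]; omega

theorem toep_mul {A B : LMat (ℤ × Fin 4) ℂ} {c c' : ℂ} {α β : ℤ → Matrix (Fin 4) (Fin 4) ℤ}
    (hA : IsToep A c α) (hB : IsToep B c' β) (hα : bw α) (p p' : ℤ × Fin 4) :
    (A * qY * B) p p' = c * c' * ((zc α β p.1 p.2 p'.1 p'.2 : ℤ) : ℂ) := by
  obtain ⟨y, a⟩ := p
  obtain ⟨y', b⟩ := p'
  rw [mul_apply_of (A * qY) B (y, a) (y', b) (Finset.Icc (y - 2) (y + 2) ×ˢ Finset.univ)]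
  · rw [Finset.sum_product, sum_Icc]
    simp only [qY, mul_diag_apply, hA _ _, hB _ _, Fin.sum_univ_four]
    unfold zc five
    beta_reduce
    have e1 : y - (y + 2) = -2 := by ring
    have e2 : y - (y + 1) = -1 := by ring
    have e3 : y - y = 0 := by ring
    have e4 : y - (y - 1) = 1 := by ring
    have e5 : y - (y - 2) = 2 := by ring
    have f1 : y - -2 = y + 2 := by ring
    have f2 : y - -1 = y + 1 := by ring
    have f3 : y - 0 = y := by ring
    rw [e1, e2, e3, e4, e5, f1, f2, f3]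
    push_cast
    by_cases h1 : 0 ≤ y + 2 <;> by_cases h2 : 0 ≤ y + 1 <;> by_cases h3 : 0 ≤ y <;>
      by_cases h4 : 0 ≤ y - 1 <;> by_cases h5 : 0 ≤ y - 2 <;>
      first
        | (exfalso; omega)
        | (simp only [h1, h2, h3, h4, h5, if_true, if_false]; ring)
  · rintro ⟨t, e⟩ ht _
    simp only [Finset.mem_product, Finset.mem_Icc, Finset.mem_univ, and_true]
    by_contra hc
    apply ht
    rw [qY, mul_diag_apply, hA _ _]
    have : α (y - t) = 0 := hα _ (by omega)
    simp only [this]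
    simp


/-- the entries of `V = v_{00}` -/
structure IsV (V : Matrix Bool Bool (LMat (ℤ × Fin 4) ℂ)) : Prop where
  ff : IsToep (V false false) (1 / 2) A00
  ft : IsToep (V false true) (Complex.I / 8) A01
  tf : IsToep (V true false) Complex.I A10
  tt : IsToep (V true true) (1 / 4) A11

/-- the entries of `W = v_{00}⁻¹` -/
structure IsW (W : Matrix Bool Bool (LMat (ℤ × Fin 4) ℂ)) : Prop where
  ff : IsToep (W false false) (1 / 4) B00
  ft : IsToep (W false true) (Complex.I / 8) B01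
  tf : IsToep (W true false) Complex.I B10
  tt : IsToep (W true true) (1 / 2) B11

section rho

variable {V W : Matrix Bool Bool (LMat (ℤ × Fin 4) ℂ)}

theorem rho_apply (V W : Matrix Bool Bool (LMat (ℤ × Fin 4) ℂ)) (s t : Bool) :
    (V * Dg qY * W) s t = V s false * qY * W false t + V s true * qY * W true t := by
  rw [Matrix.mul_apply, Fintype.sum_bool, add_comm]
  have h : ∀ r, (V * Dg qY) s r = V s r * qY := by
    intro r
    rw [Matrix.mul_apply, Fintype.sum_bool]
    cases r <;> simp [Dg]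
  rw [h, h]

theorem rho_ff (hV : IsV V) (hW : IsW W) (p p' : ℤ × Fin 4) :
    (V * Dg qY * W) false false p p' = (Z00 p.1 p.2 p'.1 p'.2 : ℂ) / 8 := by
  rw [rho_apply, LMat.add_apply, toep_mul hV.ff hW.ff bwA00, toep_mul hV.ft hW.tf bwA01, Z00]
  push_cast
  linear_combination ((zc A01 B10 p.1 p.2 p'.1 p'.2 : ℤ) : ℂ) / 8 * Complex.I_mul_I

theorem rho_ft (hV : IsV V) (hW : IsW W) (p p' : ℤ × Fin 4) :
    (V * Dg qY * W) false true p p' = Complex.I / 16 * (Z01 p.1 p.2 p'.1 p'.2 : ℂ) := by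
  rw [rho_apply, LMat.add_apply, toep_mul hV.ff hW.ft bwA00, toep_mul hV.ft hW.tt bwA01, Z01]
  push_cast
  ring

theorem rho_tf (hV : IsV V) (hW : IsW W) (p p' : ℤ × Fin 4) :
    (V * Dg qY * W) true false p p' = Complex.I / 4 * (Z10 p.1 p.2 p'.1 p'.2 : ℂ) := by
  rw [rho_apply, LMat.add_apply, toep_mul hV.tf hW.ff bwA10, toep_mul hV.tt hW.tf bwA11, Z10]
  push_cast
  ring

theorem rho_tt (hV : IsV V) (hW : IsW W) (p p' : ℤ × Fin 4) :
    (V * Dg qY * W) true true p p' = (Z11 p.1 p.2 p'.1 p'.2 : ℂ) / 8 := by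
  rw [rho_apply, LMat.add_apply, toep_mul hV.tf hW.ft bwA10, toep_mul hV.tt hW.tt bwA11, Z11]
  push_cast
  linear_combination ((zc A10 B01 p.1 p.2 p'.1 p'.2 : ℤ) : ℂ) / 8 * Complex.I_mul_I

/-- the sliced form at `x = 0` -/
def SY (V W : Matrix Bool Bool (LMat (ℤ × Fin 4) ℂ)) : Matrix Bool Bool (LMat (ℤ × Fin 4) ℂ) :=
  K0 (LMat (ℤ × Fin 4) ℂ) * (2 * (V * Dg qY * W) - 1)

theorem K0_mul_f {R : Type*} [Ring R] [Algebra ℂ R] (M : Matrix Bool Bool R) (t : Bool) :
    (K0 R * M) false t = Complex.I • M true t := by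
  rw [K0, Matrix.mul_apply, Fintype.sum_bool]
  simp [Om, Matrix.smul_apply]

theorem K0_mul_t {R : Type*} [Ring R] [Algebra ℂ R] (M : Matrix Bool Bool R) (t : Bool) :
    (K0 R * M) true t = -(Complex.I • M false t) := by
  rw [K0, Matrix.mul_apply, Fintype.sum_bool]
  simp [Om, Matrix.smul_apply]

theorem two_mul_sub_one_apply (M : Matrix Bool Bool (LMat (ℤ × Fin 4) ℂ)) (s t : Bool)
    (p p' : ℤ × Fin 4) : (2 * M - 1 : Matrix Bool Bool (LMat (ℤ × Fin 4) ℂ)) s t p p' =
      2 * M s t p p' - if s = t then (if p = p' then 1 else 0) else 0 := by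
  rw [Matrix.sub_apply, LMat.sub_apply, two_mul, Matrix.add_apply, LMat.add_apply, two_mul]
  congr 1
  rw [Matrix.one_apply]
  split_ifs with h1 h2
  · rw [LMat.one_apply, if_pos h2]
  · rw [LMat.one_apply, if_neg h2]
  · rfl

theorem SY_ff (hV : IsV V) (hW : IsW W) (p p' : ℤ × Fin 4) :
    SY V W false false p p' = -(Z10 p.1 p.2 p'.1 p'.2 : ℂ) / 2 := by
  rw [SY, K0_mul_f, LMat.smul_apply, two_mul_sub_one_apply, rho_tf hV hW]
  simp only [Bool.true_eq_false, if_false, smul_eq_mul]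
  linear_combination (Z10 p.1 p.2 p'.1 p'.2 : ℂ) / 2 * Complex.I_mul_I

theorem SY_ft (hV : IsV V) (hW : IsW W) (p p' : ℤ × Fin 4) :
    SY V W false true p p' =
      Complex.I * ((Z11 p.1 p.2 p'.1 p'.2 : ℂ) / 4 - if p = p' then 1 else 0) := by
  rw [SY, K0_mul_f, LMat.smul_apply, two_mul_sub_one_apply, rho_tt hV hW]
  simp only [if_true, smul_eq_mul]
  ring

theorem SY_tf (hV : IsV V) (hW : IsW W) (p p' : ℤ × Fin 4) :
    SY V W true false p p' =
      -(Complex.I * ((Z00 p.1 p.2 p'.1 p'.2 : ℂ) / 4 - if p = p' then 1 else 0)) := by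
  rw [SY, K0_mul_t, LMat.neg_apply, LMat.smul_apply, two_mul_sub_one_apply, rho_ff hV hW]
  simp only [if_true, smul_eq_mul]
  ring

theorem SY_tt (hV : IsV V) (hW : IsW W) (p p' : ℤ × Fin 4) :
    SY V W true true p p' = (Z01 p.1 p.2 p'.1 p'.2 : ℂ) / 8 := by
  rw [SY, K0_mul_t, LMat.neg_apply, LMat.smul_apply, two_mul_sub_one_apply, rho_ft hV hW]
  simp only [Bool.false_eq_true, if_false, smul_eq_mul]
  linear_combination -(Z01 p.1 p.2 p'.1 p'.2 : ℂ) / 8 * Complex.I_mul_I

/-! ### the facts about the sliced form -/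

/-- entry of `i (2q - 1)` -/
def sgY (p p' : ℤ × Fin 4) : ℂ := if p = p' then (if 0 ≤ p.1 then Complex.I else -Complex.I) else 0

theorem std_sgY (p p' : ℤ × Fin 4) :
    Complex.I * ((std p.1 p.2 p'.1 p'.2 : ℂ) / 4 - if p = p' then 1 else 0) = sgY p p' := by
  unfold std sgY
  by_cases h : p = p'
  · subst h
    by_cases h0 : 0 ≤ p.1
    · rw [if_pos ⟨rfl, rfl, h0⟩, if_pos rfl, if_pos rfl, if_pos h0]
      push_cast; ring
    · rw [if_neg (fun h' => h0 h'.2.2), if_pos rfl, if_pos rfl, if_neg h0]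
      push_cast; ring
  · rw [if_neg (fun h' => h (Prod.ext h'.1 h'.2.1)), if_neg h, if_neg h]
    push_cast; ring

/-- every column `f_m`, `m` not special, of the off-diagonal block is standard -/
theorem SY_ft_of_not_sp (hV : IsV V) (hW : IsW W) (p : ℤ × Fin 4) {p' : ℤ × Fin 4}
    (h : sp p'.1 p'.2 = false) : SY V W false true p p' = sgY p p' := by
  rw [SY_ft hV hW, Z11_not_sp _ _ h, std_sgY]

/-- every row `e_l`, `l` outside the window, of the off-diagonal block is standard -/
theorem SY_ft_of_not_inw (hV : IsV V) (hW : IsW W) {p : ℤ × Fin 4} (p' : ℤ × Fin 4)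
    (h : inw p.1 p.2 = false) : SY V W false true p p' = sgY p p' := by
  rw [SY_ft hV hW, Z11_not_inw _ _ h, std_sgY]

theorem sp_eq {p p' : ℤ × Fin 4} (h : sp p.1 p.2 = true) (h' : sp p'.1 p'.2 = true)
    (e : p.1 = p'.1) : p = p' := by
  unfold sp at h h'
  simp only [Bool.and_eq_true, Bool.or_eq_true, beq_iff_eq] at h h'
  exact Prod.ext e (h.1.trans h'.1.symm)

theorem SY_ft_sp_sp (hV : IsV V) (hW : IsW W) {p p' : ℤ × Fin 4}
    (h : sp p.1 p.2 = true) (h' : sp p'.1 p'.2 = true) : SY V W false true p p' =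
      if p = p' then 0 else if p.1 = -1 then Complex.I / 2 else -Complex.I / 2 := by
  rw [SY_ft hV hW, Z11_sp_sp h h']
  by_cases e : p.1 = p'.1
  · rw [if_pos e, if_pos (sp_eq h h' e), if_pos (sp_eq h h' e)]
    push_cast; ring
  · have e' : p ≠ p' := fun h => e (by rw [h])
    rw [if_neg e, if_neg e', if_neg e']
    split_ifs <;> push_cast <;> ring

theorem SY_tt_eq (hV : IsV V) (hW : IsW W) (p p' : ℤ × Fin 4) :
    SY V W true true p p' = if p = p' ∧ sp p.1 p.2 = true then -1 / 4 else 0 := by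
  rw [SY_tt hV hW, Z01_eq]
  by_cases h : p = p' ∧ sp p.1 p.2 = true
  · rw [if_pos h, if_pos ⟨by rw [h.1], by rw [h.1], h.2⟩]
    push_cast; ring
  · rw [if_neg h, if_neg]
    · push_cast; ring
    · rintro ⟨h1, h2, h3⟩
      exact h ⟨Prod.ext h1 h2, h3⟩

theorem SY_ff_out (hV : IsV V) (hW : IsW W) {p p' : ℤ × Fin 4}
    (h : (inw p.1 p.2 && inw p'.1 p'.2) = false) : SY V W false false p p' = 0 := by
  rw [SY_ff hV hW, Z10_out h]
  push_cast; ring

theorem SY_ff_sp_sp (hV : IsV V) (hW : IsW W) {p p' : ℤ × Fin 4}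
    (h : sp p.1 p.2 = true) (h' : sp p'.1 p'.2 = true) :
    SY V W false false p p' = if p = p' then -5 else 0 := by
  rw [SY_ff hV hW, Z10_sp_sp h h']
  by_cases e : p.1 = p'.1
  · rw [if_pos e, if_pos (sp_eq h h' e)]
    push_cast; ring
  · have e' : p ≠ p' := fun h => e (by rw [h])
    rw [if_neg e, if_neg e']
    push_cast; ring

theorem SY_tf_eq (hV : IsV V) (hW : IsW W) (p p' : ℤ × Fin 4) :
    SY V W true false p p' = star (SY V W false true p' p) := by
  rw [SY_tf hV hW, SY_ft hV hW, Z00_eq, Complex.star_def]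
  have e : (if p = p' then (1 : ℂ) else 0) = if p' = p then 1 else 0 := by
    by_cases h : p = p'
    · rw [if_pos h, if_pos h.symm]
    · rw [if_neg h, if_neg (Ne.symm h)]
  rw [e]
  split_ifs <;> simp [Complex.conj_ofNat]

end rho


/-! ### comparison with the tables `VT`, `WT` -/

theorem VT_sff : ∀ k ∈ rg, ∀ a b : Fin 4,
    (VT k false false a b).re = 4 * A00 k a b ∧ (VT k false false a b).im = 0 := by
  decide +kernel
theorem VT_sft : ∀ k ∈ rg, ∀ a b : Fin 4,
    (VT k false true a b).re = 0 ∧ (VT k false true a b).im = 1 * A01 k a b := by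
  decide +kernel
theorem VT_stf : ∀ k ∈ rg, ∀ a b : Fin 4,
    (VT k true false a b).re = 0 ∧ (VT k true false a b).im = 8 * A10 k a b := by
  decide +kernel
theorem VT_stt : ∀ k ∈ rg, ∀ a b : Fin 4,
    (VT k true true a b).re = 2 * A11 k a b ∧ (VT k true true a b).im = 0 := by
  decide +kernel
theorem WT_sff : ∀ k ∈ rg, ∀ a b : Fin 4,
    (WT k false false a b).re = 2 * B00 k a b ∧ (WT k false false a b).im = 0 := by
  decide +kernel
theorem WT_sft : ∀ k ∈ rg, ∀ a b : Fin 4,
    (WT k false true a b).re = 0 ∧ (WT k false true a b).im = 1 * B01 k a b := by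
  decide +kernel
theorem WT_stf : ∀ k ∈ rg, ∀ a b : Fin 4,
    (WT k true false a b).re = 0 ∧ (WT k true false a b).im = 8 * B10 k a b := by
  decide +kernel
theorem WT_stt : ∀ k ∈ rg, ∀ a b : Fin 4,
    (WT k true true a b).re = 4 * B11 k a b ∧ (WT k true true a b).im = 0 := by
  decide +kernel

theorem zero_tab : (!![0, 0, 0, 0; 0, 0, 0, 0; 0, 0, 0, 0; 0, 0, 0, 0] :
    Matrix (Fin 4) (Fin 4) GaussianInt) = 0 := by decide +kernel

theorem VT_zero {k : ℤ} (h : 2 < k ∨ k < -2) (s t : Bool) : VT k s t = 0 := by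
  unfold VT
  cases s <;> cases t <;> simp only [] <;> (repeat' rw [if_neg (by omega)]) <;> exact zero_tab

theorem WT_zero {k : ℤ} (h : 2 < k ∨ k < -2) (s t : Bool) : WT k s t = 0 := by
  unfold WT
  cases s <;> cases t <;> simp only [] <;>
    first
      | ((repeat' rw [if_neg (by omega)]); exact zero_tab)
      | rw [VT_zero h, neg_zero]

theorem mem_rg {k : ℤ} (h : ¬ (2 < k ∨ k < -2)) : k ∈ rg := by
  have : k = -2 ∨ k = -1 ∨ k = 0 ∨ k = 1 ∨ k = 2 := by omega
  simpa [rg] using this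

theorem VT_all (k : ℤ) (a b : Fin 4) :
    ((VT k false false a b).re = 4 * A00 k a b ∧ (VT k false false a b).im = 0) ∧
    ((VT k false true a b).re = 0 ∧ (VT k false true a b).im = 1 * A01 k a b) ∧
    ((VT k true false a b).re = 0 ∧ (VT k true false a b).im = 8 * A10 k a b) ∧
    ((VT k true true a b).re = 2 * A11 k a b ∧ (VT k true true a b).im = 0) := by
  by_cases h : 2 < k ∨ k < -2
  · simp only [VT_zero h, bwA00 k h, bwA01 k h, bwA10 k h, bwA11 k h]
    refine ⟨⟨?_, ?_⟩, ⟨?_, ?_⟩, ⟨?_, ?_⟩, ?_, ?_⟩ <;> rfl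
  · exact ⟨VT_sff k (mem_rg h) a b, VT_sft k (mem_rg h) a b, VT_stf k (mem_rg h) a b,
      VT_stt k (mem_rg h) a b⟩

theorem WT_all (k : ℤ) (a b : Fin 4) :
    ((WT k false false a b).re = 2 * B00 k a b ∧ (WT k false false a b).im = 0) ∧
    ((WT k false true a b).re = 0 ∧ (WT k false true a b).im = 1 * B01 k a b) ∧
    ((WT k true false a b).re = 0 ∧ (WT k true false a b).im = 8 * B10 k a b) ∧
    ((WT k true true a b).re = 4 * B11 k a b ∧ (WT k true true a b).im = 0) := by
  by_cases h : 2 < k ∨ k < -2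
  · simp only [WT_zero h, bw00 k h, bw01 k h, bw10 k h, bw11 k h]
    refine ⟨⟨?_, ?_⟩, ⟨?_, ?_⟩, ⟨?_, ?_⟩, ?_, ?_⟩ <;> rfl
  · exact ⟨WT_sff k (mem_rg h) a b, WT_sft k (mem_rg h) a b, WT_stf k (mem_rg h) a b,
      WT_stt k (mem_rg h) a b⟩

theorem isV_of {V : Matrix Bool Bool (LMat (ℤ × Fin 4) ℂ)}
    (h : ∀ s t x y, V s t x y = (8⁻¹ : ℂ) * GaussianInt.toComplex (VT (x.1 - y.1) s t x.2 y.2)) :
    IsV V := by
  constructor
  · intro p p'
    rw [h, GaussianInt.toComplex_def, (VT_all _ _ _).1.1, (VT_all _ _ _).1.2]; push_cast; ring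
  · intro p p'
    rw [h, GaussianInt.toComplex_def, (VT_all _ _ _).2.1.1, (VT_all _ _ _).2.1.2]; push_cast; ring
  · intro p p'
    rw [h, GaussianInt.toComplex_def, (VT_all _ _ _).2.2.1.1, (VT_all _ _ _).2.2.1.2]; push_cast; ring
  · intro p p'
    rw [h, GaussianInt.toComplex_def, (VT_all _ _ _).2.2.2.1, (VT_all _ _ _).2.2.2.2]; push_cast; ring

theorem isW_of {W : Matrix Bool Bool (LMat (ℤ × Fin 4) ℂ)}
    (h : ∀ s t x y, W s t x y = (8⁻¹ : ℂ) * GaussianInt.toComplex (WT (x.1 - y.1) s t x.2 y.2)) :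
    IsW W := by
  constructor
  · intro p p'
    rw [h, GaussianInt.toComplex_def, (WT_all _ _ _).1.1, (WT_all _ _ _).1.2]; push_cast; ring
  · intro p p'
    rw [h, GaussianInt.toComplex_def, (WT_all _ _ _).2.1.1, (WT_all _ _ _).2.1.2]; push_cast; ring
  · intro p p'
    rw [h, GaussianInt.toComplex_def, (WT_all _ _ _).2.2.1.1, (WT_all _ _ _).2.2.1.2]; push_cast; ring
  · intro p p'
    rw [h, GaussianInt.toComplex_def, (WT_all _ _ _).2.2.2.1, (WT_all _ _ _).2.2.2.2]; push_cast; ring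

end

end Vale.Agent.P228.Num
end
end

section

section

/-!
# P228, block N: corner data from the entries of the slicing operator
-/

namespace Vale.Agent.P228.Num

open Matrix LMat Vale.Agent.P228.Inv

noncomputable section

/-- the walls of the plane -/
abbrev wall2 : Inv.Wall (ℤ × ℤ) := ({p | 0 ≤ p.1}, {p | 0 ≤ p.2})

/-- the position of a cell -/
abbrev base2 : Std.Cell2 → ℤ × ℤ := fun x => x.1

/-- the slicing operator is diagonal in `x`, equal to `SY V W` at `x = 0` and standard elsewhere -/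
def IsSliced (A A' : LMat Std.Cell2 ℂ) (V W : Matrix Bool Bool (LMat (ℤ × Fin 4) ℂ)) : Prop :=
  ∀ (s t : Bool) (p p' : Std.Cell2),
    Sop (prj wall2.1 base2) (prj wall2.2 base2) A A' s t p p' =
      if p.1.1 = p'.1.1 then
        (if p.1.1 = 0 then SY V W s t (p.1.2, p.2) (p'.1.2, p'.2)
        else Sstd qY s t (p.1.2, p.2) (p'.1.2, p'.2)) else 0

theorem two_qY_sub_one (p p' : ℤ × Fin 4) : Complex.I * ((2 * qY - 1 : LMat (ℤ × Fin 4) ℂ) p p') =
    sgY p p' := by
  rw [LMat.sub_apply, two_mul, LMat.add_apply, qY, LMat.diag_apply, LMat.one_apply, sgY]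
  by_cases h : p = p'
  · simp only [if_pos h]
    split_ifs <;> ring
  · simp only [if_neg h]
    ring

theorem Sstd_ff (p p' : ℤ × Fin 4) : Sstd qY false false p p' = 0 := by
  have : Sstd (qY) false false = 0 := by
    rw [Sstd, K0_mul_f]; simp [Dg]
  rw [this]; rfl

theorem Sstd_tt (p p' : ℤ × Fin 4) : Sstd qY true true p p' = 0 := by
  have : Sstd (qY) true true = 0 := by
    rw [Sstd, K0_mul_t]; simp [Dg]
  rw [this]; rfl

theorem Sstd_ft (p p' : ℤ × Fin 4) : Sstd qY false true p p' = sgY p p' := by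
  have : Sstd (qY) false true = Complex.I • (2 * qY - 1) := by
    rw [Sstd, K0_mul_f]; simp [Dg]
  rw [this, LMat.smul_apply, smul_eq_mul, two_qY_sub_one]

theorem Sstd_tf (p p' : ℤ × Fin 4) : Sstd qY true false p p' = -sgY p p' := by
  have : Sstd (qY) true false = -(Complex.I • (2 * qY - 1)) := by
    rw [Sstd, K0_mul_t]; simp [Dg]
  rw [this, LMat.neg_apply, LMat.smul_apply, smul_eq_mul, two_qY_sub_one]

theorem sgY_ne {p p' : ℤ × Fin 4} (h : sgY p p' ≠ 0) : p = p' := by
  by_contra hne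
  exact h (if_neg hne)

variable {A A' : LMat Std.Cell2 ℂ} {V W : Matrix Bool Bool (LMat (ℤ × Fin 4) ℂ)}

/-- first special location -/
abbrev m1 : Std.Cell2 := ((0, -1), 2)
/-- second special location -/
abbrev m2' : Std.Cell2 := ((0, 0), 2)

theorem sp_false {l : Std.Cell2} (h0 : l.1.1 = 0) (h1 : l ≠ m1) (h2 : l ≠ m2') :
    sp l.1.2 l.2 = false := by
  by_contra hc
  have h := Bool.of_not_eq_false hc
  unfold sp at h
  simp only [Bool.and_eq_true, Bool.or_eq_true, beq_iff_eq] at h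
  obtain ⟨ha, hy | hy⟩ := h
  · exact h1 (Prod.ext (Prod.ext h0 hy) ha)
  · exact h2 (Prod.ext (Prod.ext h0 hy) ha)

theorem inw_mem {l : Std.Cell2} (h0 : l.1.1 = 0) (h : inw l.1.2 l.2 = true) :
    l.1 ∈ ({(0, -2), (0, -1), (0, 0), (0, 1)} : Finset (ℤ × ℤ)) := by
  have := inw_ys h
  obtain ⟨⟨x, y⟩, a⟩ := l
  simp only [ys, List.mem_cons, List.not_mem_nil, or_false] at this
  simp only at h0
  subst h0
  simp only [Finset.mem_insert, Finset.mem_singleton, Prod.mk.injEq, true_and]
  exact this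

theorem cell_ext {p p' : Std.Cell2} (h : p.1.1 = p'.1.1)
    (h' : ((p.1.2, p.2) : ℤ × Fin 4) = (p'.1.2, p'.2)) : p = p' := by
  simp only [Prod.mk.injEq] at h'
  exact Prod.ext (Prod.ext h h'.1) h'.2

/-- the corner data -/
def corOf (hV : IsV V) (hW : IsW W) (H : IsSliced A A' V W) : CorData base2 wall2 A A' where
  l₁ := m1
  l₂ := m2'
  ne := by decide
  EA := {(0, -2), (0, -1), (0, 0), (0, 1)}
  c01 := by
    intro l h1 h2 x hx
    rw [H]
    split_ifs with e e0
    · rw [SY_ft_of_not_sp hV hW _ (sp_false (e ▸ e0) h1 h2)]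
      by_contra hc
      exact hx (cell_ext e (sgY_ne hc))
    · rw [Sstd_ft]
      by_contra hc
      exact hx (cell_ext e (sgY_ne hc))
    · rfl
  c01' := by
    intro l h1 h2
    rw [H, if_pos rfl]
    have e : sgY (l.1.2, l.2) (l.1.2, l.2) = Complex.I * (2 * ind wall2.2 base2 l - 1) := by
      unfold sgY ind
      rw [if_pos rfl]
      by_cases h : 0 ≤ l.1.2
      · rw [if_pos h, if_pos (by exact h)]; ring
      · rw [if_neg h, if_neg (by exact h)]; ring
    split_ifs with e0
    · rw [SY_ft_of_not_sp hV hW _ (sp_false e0 h1 h2), e]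
    · rw [Sstd_ft, e]
  c11 := by
    intro l h1 h2 x
    rw [H]
    split_ifs with e e0
    · rw [SY_tt_eq hV hW, if_neg]
      rintro ⟨h3, h4⟩
      have h5 : x = l := cell_ext e h3
      rw [h5, sp_false (h5 ▸ e0) h1 h2] at h4
      exact Bool.noConfusion h4
    · exact Sstd_tt _ _
    · rfl
  v00_11 := by
    rw [H, if_pos rfl, if_pos rfl, SY_ff_sp_sp hV hW (by decide) (by decide), if_pos rfl]
  v00_22 := by
    rw [H, if_pos rfl, if_pos rfl, SY_ff_sp_sp hV hW (by decide) (by decide), if_pos rfl]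
  v00_12 := by
    rw [H, if_pos rfl, if_pos rfl, SY_ff_sp_sp hV hW (by decide) (by decide), if_neg (by decide)]
  v00_21 := by
    rw [H, if_pos rfl, if_pos rfl, SY_ff_sp_sp hV hW (by decide) (by decide), if_neg (by decide)]
  v01_11 := by
    rw [H, if_pos rfl, if_pos rfl, SY_ft_sp_sp hV hW (by decide) (by decide), if_pos rfl]
  v01_22 := by
    rw [H, if_pos rfl, if_pos rfl, SY_ft_sp_sp hV hW (by decide) (by decide), if_pos rfl]
  v01_12 := by
    rw [H, if_pos rfl, if_pos rfl, SY_ft_sp_sp hV hW (by decide) (by decide), if_neg (by decide),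
      if_pos rfl]
  v01_21 := by
    rw [H, if_pos rfl, if_pos rfl, SY_ft_sp_sp hV hW (by decide) (by decide), if_neg (by decide),
      if_neg (by decide), neg_div]
  v11_11 := by
    rw [H, if_pos rfl, if_pos rfl, SY_tt_eq hV hW, if_pos (by decide), neg_div]
  v11_22 := by
    rw [H, if_pos rfl, if_pos rfl, SY_tt_eq hV hW, if_pos (by decide), neg_div]
  v11_12 := by
    rw [H, if_pos rfl, if_pos rfl, SY_tt_eq hV hW, if_neg (by decide)]
  v11_21 := by
    rw [H, if_pos rfl, if_pos rfl, SY_tt_eq hV hW, if_neg (by decide)]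
  supp := by
    intro a b x y hne
    rw [H] at hne
    split_ifs at hne with e e0
    · have e0' : y.1.1 = 0 := e ▸ e0
      have key : ∀ u v : Std.Cell2, u.1.1 = v.1.1 → u.1.1 = 0 →
          SY V W false true (u.1.2, u.2) (v.1.2, v.2) ≠ 0 → u.1 = v.1 ∨
          (u.1 ∈ ({(0, -2), (0, -1), (0, 0), (0, 1)} : Finset (ℤ × ℤ)) ∧
            v.1 ∈ ({(0, -2), (0, -1), (0, 0), (0, 1)} : Finset (ℤ × ℤ))) := by
        intro u v huv hu0 hn
        by_cases h1 : sp v.1.2 v.2 = true
        · by_cases h2 : inw u.1.2 u.2 = true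
          · exact Or.inr ⟨inw_mem hu0 h2, inw_mem (huv ▸ hu0) (sp_inw h1)⟩
          · rw [SY_ft_of_not_inw hV hW _ (Bool.eq_false_of_not_eq_true h2)] at hn
            exact Or.inl (by rw [cell_ext huv (sgY_ne hn)])
        · rw [SY_ft_of_not_sp hV hW _ (Bool.eq_false_of_not_eq_true h1)] at hn
          exact Or.inl (by rw [cell_ext huv (sgY_ne hn)])
      cases a <;> cases b
      · right
        have h : (inw x.1.2 x.2 && inw y.1.2 y.2) = true := by
          by_contra hc
          exact hne (SY_ff_out hV hW (Bool.eq_false_of_not_eq_true hc))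
        rw [Bool.and_eq_true] at h
        exact ⟨inw_mem e0 h.1, inw_mem e0' h.2⟩
      · exact key x y e e0 hne
      · rw [SY_tf_eq hV hW] at hne
        have hne' : SY V W false true (y.1.2, y.2) (x.1.2, x.2) ≠ 0 := by
          intro h0; rw [h0] at hne; exact hne (star_zero ℂ)
        rcases key y x e.symm e0' hne' with h | h
        · exact Or.inl h.symm
        · exact Or.inr ⟨h.2, h.1⟩
      · left
        rw [SY_tt_eq hV hW] at hne
        by_contra hc
        apply hne
        rw [if_neg]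
        rintro ⟨h3, _⟩
        exact hc (by rw [cell_ext e h3])
    · left
      cases a <;> cases b
      · exact absurd (Sstd_ff _ _) hne
      · rw [Sstd_ft] at hne
        show x.1 = y.1
        rw [cell_ext e (sgY_ne hne)]
      · rw [Sstd_tf] at hne
        show x.1 = y.1
        rw [cell_ext e (sgY_ne (fun h => hne (by rw [h, neg_zero])))]
      · exact absurd (Sstd_tt _ _) hne
    · exact absurd rfl hne

end

end Vale.Agent.P228.Num
end
end

section

section

section

set_option linter.unusedSectionVars false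

namespace Vale.Agent.P228

open Set Topology MeasureTheory Metric
open scoped ENNReal ContDiff Convolution

/-- `G` is a weak gradient of `f` on the open set `U`. -/
def HasWeakGradOn {E F : Type*} [NormedAddCommGroup E] [NormedSpace ℝ E] [MeasureSpace E]
    [NormedAddCommGroup F] [NormedSpace ℝ F] (f : E → F) (G : E → E →L[ℝ] F) (U : Set E) : Prop :=
  LocallyIntegrableOn G U ∧ ∀ η : E → ℝ, ContDiff ℝ (⊤ : ℕ∞) η → HasCompactSupport η → tsupport η ⊆ U →
    ∀ v : E, ∫ x, (fderiv ℝ η x v) • f x = - ∫ x, η x • G x v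

/-- Jensen's inequality -/
lemma rpow_lintegral_le {α : Type*} [MeasurableSpace α] (μ : Measure α) [IsProbabilityMeasure μ]
    {f : α → ℝ≥0∞} (hf : AEMeasurable f μ) {q : ℝ} (hq : 1 ≤ q) :
    (∫⁻ a, f a ∂μ) ^ q ≤ ∫⁻ a, f a ^ q ∂μ := by
  rcases eq_or_lt_of_le hq with rfl | hq
  · simp only [ENNReal.rpow_one, Std.le_refl]
  · have hpq := Real.HolderConjugate.conjExponent hq
    have h := ENNReal.lintegral_mul_le_Lp_mul_Lq μ hpq hf (aemeasurable_const (b := (1:ℝ≥0∞)))
    simp only [Pi.mul_apply, mul_one, ENNReal.one_rpow, lintegral_const, measure_univ] at h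
    calc (∫⁻ a, f a ∂μ) ^ q ≤ ((∫⁻ a, f a ^ q ∂μ) ^ (1 / q)) ^ q := by gcongr
      _ = ∫⁻ a, f a ^ q ∂μ := by
          rw [← ENNReal.rpow_mul, one_div, inv_mul_cancel₀ (by linarith), ENNReal.rpow_one]

section

variable {E : Type*} [NormedAddCommGroup E] [NormedSpace ℝ E] [FiniteDimensional ℝ E]
  [MeasureSpace E] [BorelSpace E] [(volume : Measure E).IsAddHaarMeasure]
variable {F : Type*} [NormedAddCommGroup F] [NormedSpace ℝ F] [FiniteDimensional ℝ F]

/-- mollification -/
noncomputable def moll (ψ : E → ℝ) (f' : E → F) (x : E) : F := ∫ t, ψ (x - t) • f' t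

lemma moll_eq (ψ : E → ℝ) (f' : E → F) :
    moll ψ f' = f' ⋆[(ContinuousLinearMap.lsmul ℝ ℝ : ℝ →L[ℝ] F →L[ℝ] F).flip, volume] ψ := rfl

lemma moll_contDiff {ψ : E → ℝ} (hψ : ContDiff ℝ ∞ ψ) (hc : HasCompactSupport ψ) {f' : E → F}
    (hf' : LocallyIntegrable f' volume) : ContDiff ℝ ∞ (moll ψ f') := by
  rw [moll_eq]
  exact hc.contDiff_convolution_right _ hf' hψ

lemma moll_fderiv {ψ : E → ℝ} (hψ : ContDiff ℝ ∞ ψ) (hc : HasCompactSupport ψ) {f' : E → F}
    (hf' : LocallyIntegrable f' volume) (x v : E) :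
    fderiv ℝ (moll ψ f') x v = ∫ t, (fderiv ℝ ψ (x - t) v) • f' t := by
  have h1 : ContDiff ℝ 1 ψ := hψ.of_le (by exact_mod_cast le_top)
  have h2 := hc.hasFDerivAt_convolution_right
    (ContinuousLinearMap.lsmul ℝ ℝ : ℝ →L[ℝ] F →L[ℝ] F).flip hf' h1 x
  rw [moll_eq, h2.fderiv, convolution_precompR_apply _ hf' (hc.fderiv ℝ)
    (h1.continuous_fderiv one_ne_zero)]
  rfl

/-- the derivative of the mollification in terms of the weak gradient -/
lemma moll_fderiv' {ψ : E → ℝ} (hψ : ContDiff ℝ ∞ ψ) (hc : HasCompactSupport ψ) {ε : ℝ}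
    (hε : tsupport ψ ⊆ closedBall 0 ε) {f : E → F} {G : E → E →L[ℝ] F} {U K : Set E}
    (hG : HasWeakGradOn f G U) (hKU : K ⊆ U) (hf' : LocallyIntegrable (K.indicator f) volume)
    {x : E} (hx : closedBall x ε ⊆ K) (v : E) :
    fderiv ℝ (moll ψ (K.indicator f)) x v = ∫ t, ψ (x - t) • G t v := by
  rw [moll_fderiv hψ hc hf']
  have hmem : ∀ t, x - t ∈ tsupport ψ → t ∈ closedBall x ε := by
    intro t ht
    have := hε ht
    rw [mem_closedBall_zero_iff] at this
    rw [mem_closedBall, dist_comm, dist_eq_norm]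
    exact this
  have h1 : (fun t => (fderiv ℝ ψ (x - t) v) • K.indicator f t)
      = fun t => (fderiv ℝ ψ (x - t) v) • f t := by
    funext t
    by_cases ht : x - t ∈ tsupport ψ
    · rw [indicator_of_mem (hx (hmem t ht))]
    · have : fderiv ℝ ψ (x - t) = 0 := by
        by_contra h
        exact ht (support_fderiv_subset ℝ (by simpa using h))
      rw [this]
      simp
  rw [h1]
  set η : E → ℝ := fun t => ψ (x - t) with hη
  have hηd : ContDiff ℝ ∞ η := hψ.comp (contDiff_const.sub contDiff_id)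
  have hηs : tsupport η ⊆ closedBall x ε := by
    apply closure_minimal _ isClosed_closedBall
    intro t ht
    exact hmem t (subset_tsupport _ ht)
  have hηc : HasCompactSupport η :=
    (isCompact_closedBall x ε).of_isClosed_subset (isClosed_tsupport η) hηs
  have h2 := hG.2 η hηd hηc (hηs.trans (hx.trans hKU)) v
  have h3 : ∀ t, fderiv ℝ η t v = - fderiv ℝ ψ (x - t) v := by
    intro t
    have h4 : HasFDerivAt (fun t => x - t) (-(ContinuousLinearMap.id ℝ E)) t :=
      (hasFDerivAt_id t).const_sub x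
    have h5 : HasFDerivAt ψ (fderiv ℝ ψ (x - t)) (x - t) :=
      (hψ.differentiable (by simp) (x - t)).hasFDerivAt
    have h6 : HasFDerivAt η ((fderiv ℝ ψ (x - t)).comp (-(ContinuousLinearMap.id ℝ E))) t :=
      h5.comp t h4
    rw [h6.fderiv]
    simp
  simp only [h3, neg_smul, integral_neg, neg_inj] at h2
  exact h2

lemma enorm_moll_fderiv_le {ψ : E → ℝ} (hψ : ContDiff ℝ ∞ ψ) (hc : HasCompactSupport ψ)
    (hψ0 : ∀ z, 0 ≤ ψ z) {ε : ℝ}
    (hε : tsupport ψ ⊆ closedBall 0 ε) {f : E → F} {G : E → E →L[ℝ] F} {U K : Set E}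
    (hG : HasWeakGradOn f G U) (hKU : K ⊆ U) (hf' : LocallyIntegrable (K.indicator f) volume)
    {Γ : E → ℝ≥0∞} (hΓ : ∀ᵐ t, t ∈ U → ‖G t‖ₑ ≤ Γ t)
    {x : E} (hx : closedBall x ε ⊆ K) (v : E) :
    ‖fderiv ℝ (moll ψ (K.indicator f)) x v‖ₑ
      ≤ ‖v‖ₑ * ∫⁻ z, ENNReal.ofReal (ψ z) * Γ (x - z) := by
  rw [moll_fderiv' hψ hc hε hG hKU hf' hx v]
  have h1 : ∫⁻ z, ENNReal.ofReal (ψ z) * Γ (x - z) = ∫⁻ t, ENNReal.ofReal (ψ (x - t)) * Γ t := by
    rw [← lintegral_sub_left_eq_self (fun t => ENNReal.ofReal (ψ (x - t)) * Γ t) x]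
    simp
  rw [h1]
  refine (enorm_integral_le_lintegral_enorm _).trans ?_
  have h2 : ∫⁻ t, ‖ψ (x - t) • G t v‖ₑ ≤ ∫⁻ t, ‖v‖ₑ * (ENNReal.ofReal (ψ (x - t)) * Γ t) := by
    apply lintegral_mono_ae
    filter_upwards [hΓ] with t ht
    by_cases h0 : ψ (x - t) = 0
    · simp [h0]
    · have h3 : t ∈ U := by
        apply hKU
        apply hx
        have := hε (subset_tsupport _ h0)
        rw [mem_closedBall_zero_iff] at this
        rw [mem_closedBall, dist_comm, dist_eq_norm]
        exact this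
      have h4 : ‖ψ (x - t)‖ₑ = ENNReal.ofReal (ψ (x - t)) := by
        rw [Real.enorm_eq_ofReal (hψ0 _)]
      have h5 : ‖G t v‖ₑ ≤ ‖G t‖ₑ * ‖v‖ₑ := ContinuousLinearMap.le_opENorm _ _
      calc ‖ψ (x - t) • G t v‖ₑ = ENNReal.ofReal (ψ (x - t)) * ‖G t v‖ₑ := by
            rw [enorm_smul, h4]
        _ ≤ ENNReal.ofReal (ψ (x - t)) * (Γ t * ‖v‖ₑ) := by
            gcongr
            exact h5.trans (by gcongr; exact ht h3)
        _ = _ := by ring
  refine h2.trans ?_
  rw [lintegral_const_mul' _ _ (by simp)]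

/-- increments of the mollification -/
lemma enorm_moll_sub_le {ψ : E → ℝ} (hψ : ContDiff ℝ ∞ ψ) (hc : HasCompactSupport ψ)
    (hψ0 : ∀ z, 0 ≤ ψ z) {ε : ℝ}
    (hε : tsupport ψ ⊆ closedBall 0 ε) {f : E → F} {G : E → E →L[ℝ] F} {U K : Set E}
    (hG : HasWeakGradOn f G U) (hKU : K ⊆ U) (hf' : LocallyIntegrable (K.indicator f) volume)
    {Γ : E → ℝ≥0∞} (hΓ : ∀ᵐ t, t ∈ U → ‖G t‖ₑ ≤ Γ t)
    {x y : E} (hx : ∀ t ∈ Icc (0:ℝ) 1, closedBall (x + t • (y - x)) ε ⊆ K) :
    ‖moll ψ (K.indicator f) x - moll ψ (K.indicator f) y‖ₑ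
      ≤ ‖y - x‖ₑ * ∫⁻ t in Icc (0:ℝ) 1, ∫⁻ z, ENNReal.ofReal (ψ z) * Γ (x + t • (y - x) - z) := by
  set g := moll ψ (K.indicator f) with hg
  have hgd : ContDiff ℝ ∞ g := moll_contDiff hψ hc hf'
  have hd : ∀ t : ℝ, HasDerivAt (fun t : ℝ => g (x + t • (y - x)))
      (fderiv ℝ g (x + t • (y - x)) (y - x)) t := by
    intro t
    have h1 : HasDerivAt (fun t : ℝ => x + t • (y - x)) (y - x) t := by
      simpa using ((hasDerivAt_id t).smul_const (y - x)).const_add x
    exact ((hgd.differentiable (by simp) _).hasFDerivAt).comp_hasDerivAt t h1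
  have hcont : Continuous fun t : ℝ => fderiv ℝ g (x + t • (y - x)) (y - x) := by
    have h1 : Continuous (fderiv ℝ g) := hgd.continuous_fderiv (by simp)
    exact (h1.comp (by fun_prop)).clm_apply continuous_const
  have h1 : ∫ t in (0:ℝ)..1, fderiv ℝ g (x + t • (y - x)) (y - x) = g y - g x := by
    rw [intervalIntegral.integral_eq_sub_of_hasDerivAt (fun t _ => hd t)
      (hcont.intervalIntegrable 0 1)]
    simp
  have h2 : ‖g x - g y‖ₑ = ‖g y - g x‖ₑ := by
    rw [← enorm_neg]; congr 1; abel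
  rw [h2, ← h1, intervalIntegral.integral_of_le zero_le_one, ← integral_Icc_eq_integral_Ioc]
  refine (enorm_integral_le_lintegral_enorm _).trans ?_
  rw [← lintegral_const_mul' _ _ (by simp)]
  apply setLIntegral_mono' measurableSet_Icc
  intro t ht
  exact enorm_moll_fderiv_le hψ hc hψ0 hε hG hKU hf' hΓ (hx t ht) (y - x)

/-- the probability measure `dt ⊗ ψ(z) dz` on `[0,1] × E` -/
noncomputable def PP (ψ : E → ℝ) : Measure (ℝ × E) :=
  (volume.restrict (Icc (0:ℝ) 1)).prod (volume.withDensity fun z => ENNReal.ofReal (ψ z))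

lemma isProb_PP {ψ : E → ℝ} (hψ0 : ∀ z, 0 ≤ ψ z) (hint : Integrable ψ) (h1 : ∫ z, ψ z = 1) :
    IsProbabilityMeasure (PP ψ) := by
  have e1 : IsProbabilityMeasure (volume.restrict (Icc (0:ℝ) 1)) := ⟨by simp only [MeasurableSet.univ,
                                                                          Measure.restrict_apply,
                                                                          univ_inter,
                                                                          Real.volume_Icc,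
                                                                          sub_zero,
                                                                          ENNReal.ofReal_one]⟩
  have e2 : IsProbabilityMeasure ((volume : Measure E).withDensity fun z => ENNReal.ofReal (ψ z)) := by
    refine ⟨?_⟩
    rw [withDensity_apply _ MeasurableSet.univ, Measure.restrict_univ,
      ← ofReal_integral_eq_lintegral_ofReal hint (Filter.Eventually.of_forall hψ0), h1]
    simp
  unfold PP
  infer_instance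

lemma lintegral_PP {ψ : E → ℝ} (hψ : Measurable ψ) {h : ℝ × E → ℝ≥0∞} (hh : Measurable h)
    (hs : SFinite ((volume : Measure E).withDensity fun z => ENNReal.ofReal (ψ z))) :
    ∫⁻ a, h a ∂(PP ψ) = ∫⁻ t in Icc (0:ℝ) 1, ∫⁻ z, ENNReal.ofReal (ψ z) * h (t, z) := by
  unfold PP
  rw [lintegral_prod _ hh.aemeasurable]
  apply lintegral_congr
  intro t
  rw [lintegral_withDensity_eq_lintegral_mul _ (by fun_prop) (by fun_prop)]
  rfl

/-- the pointwise bound of the Gagliardo integrand -/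
lemma gag_pointwise {ψ : E → ℝ} (hψ : ContDiff ℝ ∞ ψ) (hc : HasCompactSupport ψ)
    (hψ0 : ∀ z, 0 ≤ ψ z) (h1 : ∫ z, ψ z = 1) {ε : ℝ}
    (hε : tsupport ψ ⊆ closedBall 0 ε) {f : E → F} {G : E → E →L[ℝ] F} {U K : Set E}
    (hG : HasWeakGradOn f G U) (hKU : K ⊆ U) (hf' : LocallyIntegrable (K.indicator f) volume)
    {Γ : E → ℝ≥0∞} (hΓm : Measurable Γ) (hΓ : ∀ᵐ t, t ∈ U → ‖G t‖ₑ ≤ Γ t)
    {x y : E} (hx : ∀ t ∈ Icc (0:ℝ) 1, closedBall (x + t • (y - x)) ε ⊆ K)
    {q β : ℝ} (hq : 1 ≤ q) :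
    ENNReal.ofReal (‖moll ψ (K.indicator f) x - moll ψ (K.indicator f) y‖ ^ q / ‖x - y‖ ^ β)
      ≤ ENNReal.ofReal (‖y - x‖ ^ (q - β)) * ∫⁻ a, Γ (x + a.1 • (y - x) - a.2) ^ q ∂(PP ψ) := by
  have hprob := isProb_PP hψ0 (hψ.continuous.integrable_of_hasCompactSupport hc) h1
  have hsf : SFinite ((volume : Measure E).withDensity fun z => ENNReal.ofReal (ψ z)) := by
    infer_instance
  by_cases hxy : x = y
  · subst hxy
    simp only [sub_self, norm_zero, Real.zero_rpow (by linarith : q ≠ 0), zero_div,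
      ENNReal.ofReal_zero, smul_zero, add_zero, zero_le]
  have hpos : 0 < ‖x - y‖ := norm_pos_iff.2 (sub_ne_zero.2 hxy)
  have hn : ‖y - x‖ = ‖x - y‖ := norm_sub_rev _ _
  have h2 := enorm_moll_sub_le hψ hc hψ0 hε hG hKU hf' hΓ hx
  have h3 : ∫⁻ t in Icc (0:ℝ) 1, ∫⁻ z, ENNReal.ofReal (ψ z) * Γ (x + t • (y - x) - z)
      = ∫⁻ a, Γ (x + a.1 • (y - x) - a.2) ∂(PP ψ) := by
    rw [lintegral_PP hψ.continuous.measurable (by fun_prop) hsf]
  rw [h3] at h2
  set J := ∫⁻ a, Γ (x + a.1 • (y - x) - a.2) ∂(PP ψ) with hJ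
  have h4 : J ^ q ≤ ∫⁻ a, Γ (x + a.1 • (y - x) - a.2) ^ q ∂(PP ψ) :=
    rpow_lintegral_le _ (by fun_prop) hq
  have hq0 : 0 ≤ q := by linarith
  have hβ : ENNReal.ofReal (‖x - y‖ ^ β) ≠ 0 := by
    rw [ne_eq, ENNReal.ofReal_eq_zero, not_le]
    positivity
  have hβ' : ENNReal.ofReal (‖x - y‖ ^ β) ≠ ⊤ := ENNReal.ofReal_ne_top
  rw [ENNReal.ofReal_div_of_pos (by positivity), ← ENNReal.ofReal_rpow_of_nonneg (norm_nonneg _) hq0,
    ofReal_norm_eq_enorm]
  calc ‖moll ψ (K.indicator f) x - moll ψ (K.indicator f) y‖ₑ ^ q / ENNReal.ofReal (‖x - y‖ ^ β)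
      ≤ (‖y - x‖ₑ * J) ^ q / ENNReal.ofReal (‖x - y‖ ^ β) := by (clear * - hq h2; gcongr)
    _ = (‖y - x‖ₑ ^ q / ENNReal.ofReal (‖x - y‖ ^ β)) * J ^ q := by
        rw [ENNReal.mul_rpow_of_nonneg _ _ hq0, div_eq_mul_inv, div_eq_mul_inv]
        ring
    _ = ENNReal.ofReal (‖y - x‖ ^ (q - β)) * J ^ q := by
        congr 1
        rw [← ofReal_norm_eq_enorm, ENNReal.ofReal_rpow_of_nonneg (norm_nonneg _) hq0,
          ← ENNReal.ofReal_div_of_pos (by positivity), hn, Real.rpow_sub hpos]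
    _ ≤ _ := by gcongr

/-- the integrated bound -/
lemma gag_moll {ψ : E → ℝ} (hψ : ContDiff ℝ ∞ ψ) (hc : HasCompactSupport ψ)
    (hψ0 : ∀ z, 0 ≤ ψ z) (h1 : ∫ z, ψ z = 1) {ε : ℝ}
    (hε : tsupport ψ ⊆ closedBall 0 ε) {f : E → F} {G : E → E →L[ℝ] F} {U : Set E} {c : E}
    {r R' : ℝ} (hrR : r + ε ≤ R')
    (hG : HasWeakGradOn f G U) (hKU : closedBall c R' ⊆ U)
    (hf' : LocallyIntegrable ((closedBall c R').indicator f) volume)
    {Γ : E → ℝ≥0∞} (hΓm : Measurable Γ) (hΓ : ∀ᵐ t, t ∈ U → ‖G t‖ₑ ≤ Γ t)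
    {q β : ℝ} (hq : 1 ≤ q) :
    ∫⁻ x in ball c r, ∫⁻ y in ball c r,
      ENNReal.ofReal (‖moll ψ ((closedBall c R').indicator f) x
        - moll ψ ((closedBall c R').indicator f) y‖ ^ q / ‖x - y‖ ^ β)
      ≤ (∫⁻ h in ball (0 : E) (2 * r), ENNReal.ofReal (‖h‖ ^ (q - β))) * ∫⁻ w, Γ w ^ q := by
  have hprob := isProb_PP hψ0 (hψ.continuous.integrable_of_hasCompactSupport hc) h1
  set κ : E → ℝ≥0∞ := (ball (0:E) (2 * r)).indicator (fun h => ENNReal.ofReal (‖h‖ ^ (q - β)))
    with hκ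
  have hκm : Measurable κ := by
    refine Measurable.indicator ?_ measurableSet_ball
    have : Measurable fun h : E => ‖h‖ ^ (q - β) := (measurable_norm).pow_const _
    exact ENNReal.measurable_ofReal.comp this
  have hstep1 : ∀ x ∈ ball c r, ∀ y ∈ ball c r,
      ENNReal.ofReal (‖moll ψ ((closedBall c R').indicator f) x
        - moll ψ ((closedBall c R').indicator f) y‖ ^ q / ‖x - y‖ ^ β)
      ≤ κ (y - x) * ∫⁻ a, Γ (x + a.1 • (y - x) - a.2) ^ q ∂(PP ψ) := by
    intro x hx y hy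
    have h2 : κ (y - x) = ENNReal.ofReal (‖y - x‖ ^ (q - β)) := by
      rw [hκ, indicator_of_mem]
      rw [mem_ball_zero_iff]
      rw [mem_ball_iff_norm] at hx hy
      calc ‖y - x‖ = ‖(y - c) - (x - c)‖ := by congr 1; abel
        _ ≤ ‖y - c‖ + ‖x - c‖ := norm_sub_le _ _
        _ < 2 * r := by linarith
    rw [h2]
    refine gag_pointwise hψ hc hψ0 h1 hε hG hKU hf' hΓm hΓ ?_ hq
    intro t ht z hz
    have h3 : x + t • (y - x) ∈ ball c r := by
      have := (convex_ball c r) hx hy (sub_nonneg.2 ht.2) ht.1 (by ring)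
      convert this using 1
      module
    rw [mem_ball] at h3
    rw [mem_closedBall] at hz ⊢
    calc dist z c ≤ dist z (x + t • (y - x)) + dist (x + t • (y - x)) c := dist_triangle _ _ _
      _ ≤ R' := by linarith
  calc ∫⁻ x in ball c r, ∫⁻ y in ball c r,
        ENNReal.ofReal (‖moll ψ ((closedBall c R').indicator f) x
          - moll ψ ((closedBall c R').indicator f) y‖ ^ q / ‖x - y‖ ^ β)
      ≤ ∫⁻ x in ball c r, ∫⁻ y in ball c r,
          κ (y - x) * ∫⁻ a, Γ (x + a.1 • (y - x) - a.2) ^ q ∂(PP ψ) := by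
        apply setLIntegral_mono' measurableSet_ball
        intro x hx
        apply setLIntegral_mono' measurableSet_ball
        intro y hy
        exact hstep1 x hx y hy
    _ ≤ ∫⁻ x, ∫⁻ y, κ (y - x) * ∫⁻ a, Γ (x + a.1 • (y - x) - a.2) ^ q ∂(PP ψ) := by
        refine (setLIntegral_le_lintegral _ _).trans ?_
        apply lintegral_mono
        intro x
        exact setLIntegral_le_lintegral _ _
    _ = ∫⁻ x, ∫⁻ h, κ h * ∫⁻ a, Γ (x + a.1 • h - a.2) ^ q ∂(PP ψ) := by
        apply lintegral_congr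
        intro x
        exact lintegral_sub_right_eq_self (fun h => κ h * ∫⁻ a, Γ (x + a.1 • h - a.2) ^ q ∂(PP ψ)) x
    _ = ∫⁻ h, ∫⁻ x, κ h * ∫⁻ a, Γ (x + a.1 • h - a.2) ^ q ∂(PP ψ) := by
        apply lintegral_lintegral_swap
        apply Measurable.aemeasurable
        have e1 : Measurable fun z : (E × E) × (ℝ × E) => Γ (z.1.1 + z.2.1 • z.1.2 - z.2.2) ^ q := by
          fun_prop
        have e2 := e1.lintegral_prod_right' (ν := PP ψ)
        exact (hκm.comp measurable_snd).mul e2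
    _ = ∫⁻ h, κ h * ∫⁻ w, Γ w ^ q := by
        apply lintegral_congr
        intro h
        have e0 : Measurable fun z : E × (ℝ × E) => Γ (z.1 + z.2.1 • h - z.2.2) ^ q := by
          fun_prop
        rw [lintegral_const_mul _ (e0.lintegral_prod_right' (ν := PP ψ))]
        congr 1
        rw [lintegral_lintegral_swap e0.aemeasurable]
        have e3 : ∀ a : ℝ × E, ∫⁻ x, Γ (x + a.1 • h - a.2) ^ q = ∫⁻ w, Γ w ^ q := by
          intro a
          have e4 : ∀ x : E, x + a.1 • h - a.2 = x + (a.1 • h - a.2) := fun x => by abel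
          simp only [e4]
          exact lintegral_add_right_eq_self (fun w => Γ w ^ q) _
        simp only [e3, lintegral_const, measure_univ, mul_one]
    _ = _ := by
        rw [lintegral_mul_const _ hκm, hκ, lintegral_indicator measurableSet_ball]

omit [NormedAddCommGroup E] [NormedSpace ℝ E] [FiniteDimensional ℝ E]
  [MeasureSpace E] [BorelSpace E] [(volume : Measure E).IsAddHaarMeasure] in
lemma fatou2 [MeasurableSpace E] {μ : Measure E} [SFinite μ] {H : ℕ → E × E → ℝ≥0∞}
    (hH : ∀ k, Measurable (H k)) :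
    ∫⁻ x, ∫⁻ y, Filter.liminf (fun k => H k (x, y)) Filter.atTop ∂μ ∂μ
      ≤ Filter.liminf (fun k => ∫⁻ x, ∫⁻ y, H k (x, y) ∂μ ∂μ) Filter.atTop := by
  calc ∫⁻ x, ∫⁻ y, Filter.liminf (fun k => H k (x, y)) Filter.atTop ∂μ ∂μ
      ≤ ∫⁻ x, Filter.liminf (fun k => ∫⁻ y, H k (x, y) ∂μ) Filter.atTop ∂μ := by
        apply lintegral_mono
        intro x
        exact lintegral_liminf_le (f := fun k y => H k (x, y))
          fun k => (hH k).comp measurable_prodMk_left
    _ ≤ _ := lintegral_liminf_le (f := fun k x => ∫⁻ y, H k (x, y) ∂μ)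
          fun k => (hH k).lintegral_prod_right'

/-- Fatou for Gagliardo energies -/
lemma gag_fatou {g : ℕ → E → F} (hg : ∀ k, Continuous (g k)) {f : E → F} {A : Set E}
    (hA : MeasurableSet A) (hconv : ∀ x ∈ A, Filter.Tendsto (fun k => g k x) Filter.atTop (𝓝 (f x)))
    {q β : ℝ} (hq : 0 < q) {C : ℝ≥0∞}
    (hbound : ∀ k, ∫⁻ x in A, ∫⁻ y in A,
      ENNReal.ofReal (‖g k x - g k y‖ ^ q / ‖x - y‖ ^ β) ≤ C) :
    ∫⁻ x in A, ∫⁻ y in A, ENNReal.ofReal (‖f x - f y‖ ^ q / ‖x - y‖ ^ β) ≤ C := by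
  obtain ⟨H, hH⟩ : ∃ H : ℕ → E × E → ℝ≥0∞, ∀ k z, H k z =
      ENNReal.ofReal (‖g k z.1 - g k z.2‖ ^ q / ‖z.1 - z.2‖ ^ β) := ⟨_, fun _ _ => rfl⟩
  have hmeas : ∀ k, Measurable (H k) := by
    intro k
    have e1 : Measurable fun z : E × E => ‖g k z.1 - g k z.2‖ := by
      have := hg k
      exact Continuous.measurable (by fun_prop)
    have e2 : Measurable fun z : E × E => ‖z.1 - z.2‖ := Continuous.measurable (by fun_prop)
    have e3 : H k = fun z => ENNReal.ofReal (‖g k z.1 - g k z.2‖ ^ q / ‖z.1 - z.2‖ ^ β) :=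
      funext (hH k)
    rw [e3]
    exact ENNReal.measurable_ofReal.comp ((e1.pow_const q).div (e2.pow_const β))
  have hlim : ∀ x ∈ A, ∀ y ∈ A,
      ENNReal.ofReal (‖f x - f y‖ ^ q / ‖x - y‖ ^ β) = Filter.liminf (fun k => H k (x, y))
        Filter.atTop := by
    intro x hx y hy
    symm
    apply Filter.Tendsto.liminf_eq
    simp only [hH]
    apply ENNReal.tendsto_ofReal
    apply Filter.Tendsto.div_const
    exact (((hconv x hx).sub (hconv y hy)).norm).rpow_const (Or.inr hq.le)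
  have hbound' : ∀ k, ∫⁻ x in A, ∫⁻ y in A, H k (x, y) ≤ C := by
    intro k
    simp only [hH]
    exact hbound k
  calc ∫⁻ x in A, ∫⁻ y in A, ENNReal.ofReal (‖f x - f y‖ ^ q / ‖x - y‖ ^ β)
      = ∫⁻ x in A, ∫⁻ y in A, Filter.liminf (fun k => H k (x, y)) Filter.atTop := by
        apply setLIntegral_congr_fun hA
        intro x hx
        apply setLIntegral_congr_fun hA
        intro y hy
        exact hlim x hx y hy
    _ ≤ Filter.liminf (fun k => ∫⁻ x in A, ∫⁻ y in A, H k (x, y)) Filter.atTop := fatou2 hmeas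
    _ ≤ C := by
        refine Filter.liminf_le_of_frequently_le' ?_
        exact Filter.Frequently.of_forall hbound'

/-- convergence of mollifications -/
lemma moll_tendsto {φ : ℕ → ContDiffBump (0 : E)} (hφ0 : Filter.Tendsto (fun k => (φ k).rOut)
    Filter.atTop (𝓝 0)) {f f' : E → F} (hf' : AEStronglyMeasurable f' volume) {x : E}
    (hf : ContinuousAt f x) (hff : f' =ᶠ[𝓝 x] f) :
    Filter.Tendsto (fun k => moll ((φ k).normed volume) f' x) Filter.atTop (𝓝 (f x)) := by
  have h1 : ContinuousAt f' x := hf.congr hff.symm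
  have hfx : f' x = f x := hff.eq_of_nhds
  have h3 := ContDiffBump.convolution_tendsto_right (μ := volume) (φ := φ) (g := fun _ => f')
    (k := fun _ => x) (x₀ := x) (z₀ := f' x) hφ0
    (Filter.Eventually.of_forall fun _ => hf')
    (h1.tendsto.comp Filter.tendsto_snd) tendsto_const_nhds
  rw [hfx] at h3
  refine h3.congr fun k => ?_
  rw [moll_eq, convolution_flip]

/-- measurable majorant -/
lemma exists_majorant {G : E → E →L[ℝ] F} {A : Set E} (hA : MeasurableSet A)
    (hG : AEStronglyMeasurable G (volume.restrict A)) {q : ℝ} (hq : 0 < q) :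
    ∃ Γ : E → ℝ≥0∞, Measurable Γ ∧ (∀ᵐ t, t ∈ A → ‖G t‖ₑ ≤ Γ t) ∧
      ∫⁻ w, Γ w ^ q = ∫⁻ w in A, ENNReal.ofReal (‖G w‖ ^ q) := by
  have hGe : AEMeasurable (fun x => ‖G x‖ₑ) (volume.restrict A) := hG.enorm
  have hΓae : ∀ᵐ t, t ∈ A → ‖G t‖ₑ = hGe.mk _ t := (ae_restrict_iff' hA).1 hGe.ae_eq_mk
  refine ⟨A.indicator (hGe.mk _), hGe.measurable_mk.indicator hA, ?_, ?_⟩
  · filter_upwards [hΓae] with t ht htb
    rw [indicator_of_mem htb, ht htb]
  · rw [← lintegral_indicator hA]
    apply lintegral_congr_ae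
    filter_upwards [hΓae] with t ht
    by_cases htb : t ∈ A
    · rw [indicator_of_mem htb, indicator_of_mem htb, ← ht htb,
        ← ENNReal.ofReal_rpow_of_nonneg (norm_nonneg _) hq.le, ofReal_norm]
    · rw [indicator_of_notMem htb, indicator_of_notMem htb, ENNReal.zero_rpow_of_pos hq]

end

lemma kernel_lt_top {n : ℕ} (hn : 1 ≤ n) {s q ρ : ℝ} (hs1 : s < 1) (hq : 1 ≤ q) :
    ∫⁻ h in ball (0 : EuclideanSpace ℝ (Fin n)) ρ,
      ENNReal.ofReal (‖h‖ ^ (q - ((n : ℝ) + s * q))) < ⊤ := by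
  have hα : (n : ℝ) + s * q - q < Module.finrank ℝ (EuclideanSpace ℝ (Fin n)) := by
    rw [finrank_euclideanSpace_fin]
    nlinarith only [hs1, hq]
  have hmeas : Measurable fun h : EuclideanSpace ℝ (Fin n) => ‖h‖ ^ (q - ((n : ℝ) + s * q)) :=
    measurable_norm.pow_const _
  have h1 : IntegrableOn (fun h : EuclideanSpace ℝ (Fin n) => ‖h‖ ^ (q - ((n : ℝ) + s * q)))
      (ball 0 ρ) volume := by
    refine integrableOn_ball_of_norm_le_rpow (C := 1) (α := (n : ℝ) + s * q - q) ?_ hα ?_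
      hmeas.aestronglyMeasurable
    · rw [finrank_euclideanSpace_fin]; exact hn
    · refine Filter.Eventually.of_forall fun x => ?_
      rw [Real.norm_of_nonneg (by positivity), one_mul, neg_sub]
  have h2 := h1.2
  rw [hasFiniteIntegral_iff_ofReal (Filter.Eventually.of_forall fun x => by positivity)] at h2
  exact h2

theorem gagliardo_of_weakGrad {n : ℕ} {F : Type*} [NormedAddCommGroup F] [NormedSpace ℝ F]
    [FiniteDimensional ℝ F]
    (f : EuclideanSpace ℝ (Fin n) → F)
    (G : EuclideanSpace ℝ (Fin n) → EuclideanSpace ℝ (Fin n) →L[ℝ] F)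
    (c : EuclideanSpace ℝ (Fin n)) (r R s q : ℝ) (hr : 0 < r) (hrR : r < R)
    (hs0 : 0 < s) (hs1 : s < 1) (hq : 1 ≤ q)
    (hf : ContinuousOn f (Metric.ball c R)) (hG : HasWeakGradOn f G (Metric.ball c R))
    (hGq : ∫⁻ x in Metric.ball c R, ENNReal.ofReal (‖G x‖ ^ q) < (⊤ : ℝ≥0∞)) :
    ∫⁻ x in Metric.ball c r, ∫⁻ y in Metric.ball c r,
      ENNReal.ofReal (‖f x - f y‖ ^ q / ‖x - y‖ ^ ((n : ℝ) + s * q)) < (⊤ : ℝ≥0∞) := by
  have hq0 : 0 < q := by linarith
  rcases Nat.eq_zero_or_pos n with hn | hn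
  · subst hn
    have : ∀ x y : EuclideanSpace ℝ (Fin 0),
        ENNReal.ofReal (‖f x - f y‖ ^ q / ‖x - y‖ ^ (((0 : ℕ) : ℝ) + s * q)) = 0 := by
      intro x y
      rw [Subsingleton.elim x y, sub_self, norm_zero, Real.zero_rpow hq0.ne', zero_div,
        ENNReal.ofReal_zero]
    simp only [this, lintegral_zero]
    exact ENNReal.zero_lt_top
  obtain ⟨R', hrR', hR'R⟩ := exists_between hrR
  have hKU : closedBall c R' ⊆ ball c R := closedBall_subset_ball hR'R
  have hf'i : Integrable ((closedBall c R').indicator f) volume := by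
    rw [integrable_indicator_iff measurableSet_closedBall]
    exact (hf.mono hKU).integrableOn_compact (isCompact_closedBall c R')
  obtain ⟨Γ, hΓm, hΓle, hΓq⟩ := exists_majorant measurableSet_ball hG.1.aestronglyMeasurable hq0
  -- bumps
  have hεpos : 0 < R' - r := by linarith
  obtain ⟨φ, hφr⟩ : ∃ φ : ℕ → ContDiffBump (0 : EuclideanSpace ℝ (Fin n)),
      ∀ k, (φ k).rOut = (R' - r) / (k + 1) := by
    refine ⟨fun k => ⟨(R' - r) / (2 * (k + 1)), (R' - r) / (k + 1), by (clear * - hrR'; positivity), ?_⟩, fun k => rfl⟩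
    apply div_lt_div_of_pos_left hεpos (by positivity)
    have : (0:ℝ) < k + 1 := by positivity
    linarith
  have hφ0 : Filter.Tendsto (fun k => (φ k).rOut) Filter.atTop (𝓝 0) := by
    simp only [hφr]
    have := tendsto_one_div_add_atTop_nhds_zero_nat (𝕜 := ℝ)
    have h2 := this.const_mul (R' - r)
    simp only [mul_zero, mul_one_div] at h2
    exact h2
  have hCtop : (∫⁻ h in ball (0 : EuclideanSpace ℝ (Fin n)) (2 * r),
      ENNReal.ofReal (‖h‖ ^ (q - ((n : ℝ) + s * q)))) * ∫⁻ w, Γ w ^ q < ⊤ :=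
    ENNReal.mul_lt_top (kernel_lt_top hn hs1 hq) (hΓq ▸ hGq)
  refine lt_of_le_of_lt ?_ hCtop
  refine gag_fatou (g := fun k => moll ((φ k).normed volume) ((closedBall c R').indicator f))
    ?_ measurableSet_ball ?_ hq0 ?_
  · intro k
    exact (moll_contDiff (φ k).contDiff_normed (φ k).hasCompactSupport_normed
      hf'i.locallyIntegrable).continuous
  · intro x hx
    refine moll_tendsto hφ0 hf'i.aestronglyMeasurable
      (hf.continuousAt (isOpen_ball.mem_nhds (ball_subset_ball hrR.le hx))) ?_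
    filter_upwards [isOpen_ball.mem_nhds (ball_subset_ball hrR'.le hx)] with z hz
    rw [indicator_of_mem (ball_subset_closedBall hz)]
  · intro k
    refine gag_moll (ε := (φ k).rOut) (φ k).contDiff_normed (φ k).hasCompactSupport_normed
      (φ k).nonneg_normed (φ k).integral_normed (φ k).tsupport_normed_eq.subset ?_ hG hKU
      hf'i.locallyIntegrable hΓm hΓle hq
    rw [hφr]
    have : (R' - r) / (k + 1) ≤ R' - r := by
      apply div_le_self hεpos.le
      have : (0:ℝ) ≤ k := by positivity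
      linarith only []
    linarith

end Vale.Agent.P228
end
end
end

section

section

/-!
# P228, block K: interface

* `HForm h k`: `h` hermitian with exact hermitian inverse `k`, over any star ring `K`.
* `PathK = C(ℝ, ℂ)`, `evI t`: a path of forms is a form over `PathK`.
* `Top.SProps E Crn s` (file `Top/Defs.lean`): the properties of the integer invariant used here.
* `KRel`: the graded relation with label sets.
* `GSup N r base T`: graded supports.
* `K4Statement`: what block K proves (theorem `koszul` in `Kos/Main.lean`).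
-/

set_option linter.all false

namespace Vale.Agent.P228.Kos

/-- `h` is hermitian with exact (hermitian) inverse `k` -/
structure HForm {ι K : Type} [Ring K] [StarRing K] (h k : LMat ι K) : Prop where
  h_star : star h = h
  k_star : star k = k
  hk : h * k = 1
  kh : k * h = 1

/-- the ring of paths -/
abbrev PathK : Type := C(ℝ, ℂ)

/-- evaluation of a path at `t` -/
noncomputable def evI (t : ℝ) : PathK →+* ℂ where
  toFun f := f t
  map_one' := rfl
  map_mul' _ _ := rfl
  map_zero' := rfl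
  map_add' _ _ := rfl

@[simp] theorem evI_apply (t : ℝ) (f : PathK) : evI t f = f t := rfl

theorem evI_star (t : ℝ) (f : PathK) : evI t (star f) = star (evI t f) := rfl

/-- base map with finite fibres -/
abbrev FinFib {ι B : Type} (base : ι → B) : Prop := ∀ b, {x | base x = b}.Finite

/-- the graded relation with label sets `V i`, `i < D`; composition is only needed through points of
label sets; labels are only controlled up to radius `R` -/
structure KRel (p q : ℕ) (hpq : p ∣ q) (B : Type) where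
  Near : ZMod q → ℕ → B → B → Prop
  R : ℕ
  D : ℕ
  V : Fin D → Set B
  lab : Fin D → B → ZMod p
  refl : ∀ b, Near 0 0 b b
  symm : ∀ {g r x y}, Near g r x y → Near (-g) r y x
  mono : ∀ {g r s x y}, r ≤ s → Near g r x y → Near g s x y
  comp : ∀ {g h r s x y z}, Near g r x y → Near h s y z → (∃ i, y ∈ V i) →
    Near (g + h) (r + s) x z
  label : ∀ {g r x y} (i : Fin D), x ∈ V i → y ∈ V i → r ≤ R → Near g r x y →
    ZMod.castHom hpq (ZMod p) g = lab i y - lab i x

/-- the one-step relation of the invariant -/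
def KRel.E {p q : ℕ} {hpq : p ∣ q} {B : Type} (N : KRel p q hpq B) (x y : B) : Prop :=
  ∃ g, N.Near g N.R x y

/-- graded supports -/
def GSup {p q : ℕ} [NeZero q] {hpq : p ∣ q} {B ι : Type} (N : KRel p q hpq B) (r : ℕ)
    (base : ι → B) (T : LMat ι (GK q)) : Prop :=
  ∀ x y, T x y ∈ gr {g | N.Near g r (base x) (base y)}

/-- evaluation at the character `j * cp` -/
noncomputable def evJ (q p : ℕ) (j : ℤ) : GK q →+* ℂ :=
  Pi.evalRingHom (fun _ : ZMod q => ℂ) ((j : ZMod q) * cp q p)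

/-- what block K proves -/
def K4Statement : Prop :=
  ∀ (p q : ℕ) [NeZero p] [NeZero q] (hpq : p ∣ q) (B : Type) (N : KRel p q hpq B) (Crn : Set B)
    (s : Top.IntInv B), Top.SProps N.E Crn s →
    ∀ (ι : Type) (base : ι → B) (h k : LMat ι (GK q)) (r : ℕ), FinFib base → HForm h k →
    GSup N r base h → GSup N r base k → 5 ^ N.D * r ≤ N.R →
    (∀ b ∈ Crn, ∃ i, ∀ y, N.E b y → y ∈ N.V i) →
    s base (LMat.map (evJ q p 0) h) (LMat.map (evJ q p 0) k) =
      s base (LMat.map (evJ q p 1) h) (LMat.map (evJ q p 1) k)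

end Vale.Agent.P228.Kos
end
end

section

section

/-!
# P228, top level: graded support calculus on `LMat ι (GK q)`

`SuppG N T` : the coefficient of the group element `g` in the entry `T x y` can only be non-zero
if `N g x y`.
-/

namespace Vale.Agent.P228.Top

open Kos

variable {ι κ : Type*} {q : ℕ} [NeZero q]

/-- all entries of `T` are supported in the graded relation `N`. -/
def SuppG (N : ZMod q → ι → ι → Prop) (T : LMat ι (GK q)) : Prop :=
  ∀ x y, T x y ∈ gr {g | N g x y}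

namespace SuppG

variable {N N' N'' : ZMod q → ι → ι → Prop} {T T' : LMat ι (GK q)}

theorem mono (h : ∀ g x y, N g x y → N' g x y) (hT : SuppG N T) : SuppG N' T :=
  fun x y => gr_mono (fun g hg => h g x y hg) (hT x y)

theorem add (h : SuppG N T) (h' : SuppG N T') : SuppG N (T + T') := fun x y => by
  rw [LMat.add_apply]; exact Submodule.add_mem _ (h x y) (h' x y)

theorem star (h : SuppG N T) (hs : ∀ g x y, N g x y → N' (-g) y x) : SuppG N' (star T) := by
  intro x y
  rw [LMat.star_apply]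
  exact star_mem_gr (fun a ha => hs a y x ha) (h y x)

end SuppG

end Vale.Agent.P228.Top
end
end

section

section

/-!
# P228, block K: first consequences of the properties of `s`

* `s_inv` : `s k = s h` for the inverse form,
* `s_gauge` : invariance under diagonal unitaries,
* `s_schur` : `s [k', 1; 1, h' - h] = s k' - s h`,
* `s_path` : path invariance for forms over the ring of paths `PathK`.
-/

namespace Vale.Agent.P228.Kos

open LMat

section supp

variable {ι B K : Type} {base : ι → B} {E : B → B → Prop}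

theorem finFib_prod (hf : FinFib base) : FinFib (fun x : ι × Bool => base x.1) := by
  intro b
  refine ((hf b).prod (Set.finite_univ (α := Bool))).subset ?_
  rintro ⟨x, t⟩ hx
  exact Set.mem_prod.mpr ⟨hx, Set.mem_univ _⟩

theorem supp_zero [Ring K] : Top.Supp base E (0 : LMat ι K) := by
  intro x y h
  exact absurd rfl h

theorem supp_neg [Ring K] {a : LMat ι K} (ha : Top.Supp base E a) : Top.Supp base E (-a) := by
  intro x y h
  exact ha x y (fun h0 => h (by simp only [LMat.neg_apply, h0, neg_zero]))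

theorem supp_smul [Ring K] {S : Type*} [SMulZeroClass S K] {a : LMat ι K} (r : S)
    (ha : Top.Supp base E a) : Top.Supp base E (r • a) := by
  intro x y h
  exact ha x y (fun h0 => h (by simp [h0]))

theorem supp_add [Ring K] {a b : LMat ι K} (ha : Top.Supp base E a) (hb : Top.Supp base E b) :
    Top.Supp base E (a + b) := by
  intro x y h
  by_cases h0 : a x y = 0
  · exact hb x y (fun h1 => h (by simp [h0, h1]))
  · exact ha x y h0

theorem supp_sub [Ring K] {a b : LMat ι K} (ha : Top.Supp base E a) (hb : Top.Supp base E b) :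
    Top.Supp base E (a - b) := by
  rw [sub_eq_add_neg]; exact supp_add ha (supp_neg hb)

theorem supp_one [Ring K] (hE : ∀ b, E b b) : Top.Supp base E (1 : LMat ι K) := by
  classical
  intro x y h
  by_cases hxy : x = y
  · rw [hxy]; exact hE _
  · exact absurd (one_apply_ne hxy) h

theorem supp_blk [Ring K] {a b c d : LMat ι K} (ha : Top.Supp base E a)
    (hb : Top.Supp base E b) (hc : Top.Supp base E c) (hd : Top.Supp base E d) :
    Top.Supp (fun x : ι × Bool => base x.1) E (LMat.blk a b c d) := by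
  rintro ⟨x, s⟩ ⟨y, t⟩ h
  rcases s <;> rcases t
  · exact ha x y h
  · exact hb x y h
  · exact hc x y h
  · exact hd x y h

theorem supp_map [Ring K] {L : Type} [Ring L] (f : K →+* L) {a : LMat ι K}
    (ha : Top.Supp base E a) : Top.Supp base E (LMat.map f a) := by
  intro x y h
  exact ha x y (fun h0 => h (by simp only [map_apply, h0, map_zero]))

end supp

section forms

variable {ι K : Type} [CommRing K] [StarRing K] {h k h' k' : LMat ι K}

theorem HForm.symm (f : HForm h k) : HForm k h := ⟨f.k_star, f.h_star, f.kh, f.hk⟩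

theorem HForm.neg (f : HForm h k) : HForm (-h) (-k) :=
  ⟨by rw [star_neg, f.h_star], by rw [star_neg, f.k_star], by rw [neg_mul_neg, f.hk],
    by rw [neg_mul_neg, f.kh]⟩

theorem HForm.map {L : Type} [CommRing L] [StarRing L] (φ : K →+* L)
    (hφ : ∀ x, φ (star x) = star (φ x)) (f : HForm h k) :
    HForm (LMat.map φ h) (LMat.map φ k) :=
  ⟨by rw [← map_star φ hφ, f.h_star], by rw [← map_star φ hφ, f.k_star],
    by rw [← map_mul, f.hk, map_one], by rw [← map_mul, f.kh, map_one]⟩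

theorem HForm.conj {u v : LMat ι K} (f : HForm h k) (huv : u * v = 1) (hvu : v * u = 1) :
    HForm (star u * h * u) (v * k * star v) where
  h_star := by rw [star_mul, star_mul, star_star, f.h_star, mul_assoc]
  k_star := by rw [star_mul, star_mul, star_star, f.k_star, mul_assoc]
  hk := by
    have h1 : star u * star v = 1 := by rw [← star_mul, hvu, star_one]
    calc star u * h * u * (v * k * star v) = star u * (h * (u * v) * k) * star v := by
          simp only [mul_assoc]
      _ = 1 := by rw [huv, mul_one, f.hk, mul_one, h1]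
  kh := by
    have h1 : star v * star u = 1 := by rw [← star_mul, huv, star_one]
    calc v * k * star v * (star u * h * u) = v * (k * (star v * star u) * h) * u := by
          simp only [mul_assoc]
      _ = 1 := by rw [h1, mul_one, f.kh, mul_one, hvu]

theorem form_std : HForm (LMat.blk (0 : LMat ι K) 1 1 0) (LMat.blk (0 : LMat ι K) 1 1 0) where
  h_star := by rw [blk_star]; simp only [star_zero, star_one]
  k_star := by rw [blk_star]; simp only [star_zero, star_one]
  hk := by rw [blk_mul]; simp [blk_one]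
  kh := by rw [blk_mul]; simp only [mul_zero, mul_one, zero_add, add_zero, blk_one]

theorem star_smul_one {t : K} (ht : star t = t) :
    star (t • (1 : LMat ι K)) = t • (1 : LMat ι K) := by
  rw [star_smul, star_one, ht]

/-- the forms `[k', t; t, t² h' - h]`; at `t = 0` it is `k' ⊕ -h` -/
theorem form_schur (f : HForm h k) (f' : HForm h' k') {t : K} (ht : star t = t) :
    HForm (LMat.blk k' (t • 1) (t • 1) ((t ^ 2) • h' - h))
      (LMat.blk (h' - (t ^ 2) • (h' * k * h')) (t • (h' * k)) (t • (k * h')) (-k)) where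
  h_star := by
    rw [blk_star, f'.k_star, star_smul_one ht]
    congr 1
    rw [star_sub, star_smul, f'.h_star, f.h_star, star_pow, ht]
  k_star := by
    rw [blk_star]
    congr 1
    · rw [star_sub, star_smul, star_mul, star_mul, f'.h_star, f.k_star, ← mul_assoc, star_pow, ht]
    · rw [star_smul, star_mul, f'.h_star, f.k_star, ht]
    · rw [star_smul, star_mul, f'.h_star, f.k_star, ht]
    · rw [star_neg, f.k_star]
  hk := by
    rw [blk_mul, ← blk_one]
    congr 1
    · rw [mul_sub, f'.kh, mul_smul_comm, ← mul_assoc, ← mul_assoc, f'.kh, one_mul,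
        smul_mul_assoc, one_mul, smul_smul]
      rw [show t * t = t ^ 2 by ring]
      abel
    · rw [mul_smul_comm, ← mul_assoc, f'.kh, one_mul, smul_mul_assoc, one_mul, smul_neg]
      abel
    · rw [smul_mul_assoc, one_mul, smul_sub, mul_smul_comm, sub_mul, ← mul_assoc h k h', f.hk,
        one_mul, smul_mul_assoc, smul_sub, smul_smul, smul_smul, ← mul_assoc]
      rw [show t * t ^ 2 = t ^ 2 * t by ring]
      abel
    · rw [smul_mul_assoc, one_mul, smul_smul, mul_neg, sub_mul, f.hk, smul_mul_assoc]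
      rw [show t * t = t ^ 2 by ring]
      abel
  kh := by
    rw [blk_mul, ← blk_one]
    congr 1
    · rw [sub_mul, f'.hk, mul_smul_comm, mul_one, smul_smul, smul_mul_assoc,
        mul_assoc, f'.hk, mul_one]
      rw [show t * t = t ^ 2 by ring]
      abel
    · rw [mul_smul_comm, mul_one, smul_sub, smul_smul, smul_mul_assoc, mul_sub, mul_smul_comm,
        mul_assoc h' k h, f.kh, mul_one, smul_sub, smul_smul]
      rw [show t * t ^ 2 = t ^ 2 * t by ring]
      abel
    · rw [smul_mul_assoc, mul_assoc, f'.hk, mul_one, neg_mul, mul_smul_comm, mul_one]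
      abel
    · rw [smul_mul_assoc, mul_smul_comm, mul_one, smul_smul, neg_mul, mul_sub, f.kh,
        mul_smul_comm]
      rw [show t * t = t ^ 2 by ring]
      abel

theorem form_tk (f : HForm h k) {t : K} (ht : star t = t) :
    HForm (LMat.blk (t • k) 1 1 0) (LMat.blk 0 1 1 (-(t • k))) where
  h_star := by rw [blk_star]; simp [f.k_star, ht]
  k_star := by rw [blk_star]; simp only [star_zero, star_one, star_neg, star_smul, ht, f.k_star]
  hk := by rw [blk_mul]; simp [blk_one]
  kh := by rw [blk_mul]; simp only [Algebra.mul_smul_comm, zero_mul, smul_zero, mul_one, zero_add, mul_zero, add_zero, one_mul, add_neg_cancel, blk_one]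

/-- gauge transformation of a form by unitary scalars -/
theorem gauge_form (f : HForm h k) {g : ι → K} (hg : ∀ x, star (g x) * g x = 1) :
    HForm (star (diag g) * h * diag g) (star (diag g) * k * diag g) := by
  have h1 : diag g * star (diag g) = 1 := by
    rw [star_diag, diag_mul_diag]
    simp only [fun x => (mul_comm (g x) (star (g x))).trans (hg x)]; rfl
  have h2 : star (diag g) * diag g = 1 := by
    rw [star_diag, diag_mul_diag]
    simp only [hg]; rfl
  have := f.conj h1 h2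
  rwa [star_star] at this

theorem gauge_apply (g : ι → K) (h : LMat ι K) (x y : ι) :
    (star (diag g) * h * diag g) x y = star (g x) * h x y * g y := by
  rw [mul_diag_apply, star_diag, diag_mul_apply]

theorem supp_gauge {B : Type} {base : ι → B} {E : B → B → Prop} (hh : Top.Supp base E h)
    (g : ι → K) : Top.Supp base E (star (diag g) * h * diag g) := by
  intro x y hxy
  rw [gauge_apply] at hxy
  exact hh x y (fun h0 => hxy (by rw [h0]; ring))

theorem map_gauge {L : Type} [CommRing L] [StarRing L] (φ : K →+* L)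
    (hφ : ∀ x, φ (star x) = star (φ x)) (g : ι → K) (h : LMat ι K) :
    LMat.map φ (star (diag g) * h * diag g) =
      star (diag (fun x => φ (g x))) * LMat.map φ h * diag (fun x => φ (g x)) := by
  rw [map_mul, map_mul, map_star φ hφ, map_diag]

omit [StarRing K] in
theorem zero_smul' (a : LMat ι K) : (0 : K) • a = 0 := by ext i j; simp
omit [StarRing K] in
theorem one_smul' (a : LMat ι K) : (1 : K) • a = a := by ext i j; simp only [one_smul]

/-- a form in the sense of `Top` -/
theorem HForm.toTop {ι B : Type} {base : ι → B} {E : B → B → Prop} {h k : LMat ι ℂ}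
    (f : HForm h k) (hs : Top.Supp base E h) (ks : Top.Supp base E k) : Top.Form base E h k :=
  ⟨f.h_star, f.hk, f.kh, hs, ks⟩

theorem HForm.ofTop {ι B : Type} {base : ι → B} {E : B → B → Prop} {h k : LMat ι ℂ}
    (f : Top.Form base E h k) : HForm h k := by
  refine ⟨f.herm, ?_, f.mul, f.mul'⟩
  have h1 : star k * h = 1 := by
    have h2 : star k * star h = 1 :=
      (star_mul h k).symm.trans ((congrArg star f.mul).trans (star_one _))
    rwa [f.herm] at h2
  calc star k = star k * (h * k) := by rw [f.mul, mul_one]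
    _ = k := by rw [← mul_assoc, h1, one_mul]

end forms

section pathring

/-- constant paths -/
noncomputable def cst : ℂ →+* PathK := ContinuousMap.C

/-- the parameter of the path -/
noncomputable def tt : PathK := ⟨fun t : ℝ => (t : ℂ), by fun_prop⟩

@[simp] theorem evI_cst (t : ℝ) (z : ℂ) : evI t (cst z) = z := rfl

@[simp] theorem evI_tt (t : ℝ) : evI t tt = (t : ℂ) := rfl

theorem evI_tt_zero : evI 0 tt = 0 := by rw [evI_tt]; simp

theorem evI_tt_one : evI 1 tt = 1 := by rw [evI_tt]; simp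

theorem star_tt : star tt = tt := by
  ext t
  simp only [tt, ContinuousMap.star_apply, ContinuousMap.coe_mk, RCLike.star_def, Complex.conj_ofReal]

theorem cst_star (z : ℂ) : cst (star z) = star (cst z) := by
  ext t
  rfl

theorem map_evI_cst {ι : Type} (t : ℝ) (a : LMat ι ℂ) :
    LMat.map (evI t) (LMat.map cst a) = a := by
  ext x y; rfl

theorem map_evI_smul {ι : Type} (t : ℝ) (f : PathK) (a : LMat ι PathK) :
    LMat.map (evI t) (f • a) = (evI t f) • LMat.map (evI t) a := by
  ext x y; simp only [map_apply, LMat.smul_apply, smul_eq_mul, evI_apply, ContinuousMap.mul_apply]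

end pathring

variable {B : Type} {E : B → B → Prop} {Crn : Set B} {s : Top.IntInv B}
  {ι : Type} {base : ι → B}

/-- path invariance for forms over the ring of paths -/
theorem s_path (H : Top.PathInv E @s) (hf : FinFib base) {h k : LMat ι PathK} (f : HForm h k)
    (hs : Top.Supp base E h) (ks : Top.Supp base E k) :
    s base (LMat.map (evI 0) h) (LMat.map (evI 0) k) =
      s base (LMat.map (evI 1) h) (LMat.map (evI 1) k) :=
  H base hf (fun t => LMat.map (evI t) h) (fun t => LMat.map (evI t) k)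
    (fun x y => (h x y).continuous) (fun x y => (k x y).continuous)
    (fun t _ => (f.map (evI t) (evI_star t)).toTop (supp_map _ hs) (supp_map _ ks))

variable (H : Top.SProps E Crn @s)

include H in
/-- Schur complement: `s [k', 1; 1, h' - h] = s k' - s h` -/
theorem s_schur (hE : ∀ b, E b b) (hf : FinFib base) {h k h' k' : LMat ι ℂ}
    (F : Top.Form base E h k) (F' : Top.Form base E h' k')
    (h1 : Top.Supp base E (h' * k * h'))
    (h2 : Top.Supp base E (h' * k)) (h3 : Top.Supp base E (k * h')) :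
    s (fun x : ι × Bool => base x.1) (LMat.blk k' 1 1 (h' - h))
      (LMat.blk (h' - h' * k * h') (h' * k) (k * h') (-k)) = s base k' h' - s base h k := by
  have hf2 := finFib_prod hf
  have f := HForm.ofTop F
  have f' := HForm.ofTop F'
  have P := (f.map cst cst_star)
  have P' := (f'.map cst cst_star)
  have p1 := s_path H.path hf2 (form_schur P P' star_tt)
    (supp_blk (supp_map cst F'.supp') (supp_smul tt (supp_one hE)) (supp_smul tt (supp_one hE))
      (supp_sub (supp_smul (tt ^ 2) (supp_map cst F'.supp)) (supp_map cst F.supp)))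
    (supp_blk (supp_sub (supp_map cst F'.supp) (by
        rw [← map_mul, ← map_mul]; exact supp_smul (tt ^ 2) (supp_map cst h1)))
      (by rw [← map_mul]; exact supp_smul tt (supp_map cst h2))
      (by rw [← map_mul]; exact supp_smul tt (supp_map cst h3)) (supp_neg (supp_map cst F.supp')))
  have a := H.add base hf k' h' (-h) (-k) (f'.symm.toTop F'.supp' F'.supp)
    (f.neg.toTop (supp_neg F.supp) (supp_neg F.supp'))
  have n := H.neg base hf h k F
  simp only [blk_map, map_sub, map_neg, map_evI_smul, map_evI_cst, map_mul, map_one, map_pow,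
    evI_tt_zero, evI_tt_one, one_pow, ne_eq, OfNat.ofNat_ne_zero, not_false_eq_true, zero_pow,
    zero_smul', one_smul', zero_sub, sub_zero] at p1
  rw [p1, n] at a
  rw [a]; ring

include H in
/-- `s k = s h` -/
theorem s_inv (hE : ∀ b, E b b) (hf : FinFib base) {h k : LMat ι ℂ}
    (F : Top.Form base E h k) : s base k h = s base h k := by
  have hf2 := finFib_prod hf
  have f := HForm.ofTop F
  have o1 : Top.Supp base E (1 : LMat ι ℂ) := supp_one hE
  have p1 := s_schur H hE hf F F (by rw [f.hk, one_mul]; exact F.supp)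
    (by rw [f.hk]; exact o1) (by rw [f.kh]; exact o1)
  have P := (f.map cst cst_star)
  have p2 := s_path H.path hf2 (form_tk P star_tt)
    (supp_blk (supp_smul tt (supp_map cst F.supp')) (supp_one hE) (supp_one hE) supp_zero)
    (supp_blk supp_zero (supp_one hE) (supp_one hE)
      (supp_neg (supp_smul tt (supp_map cst F.supp'))))
  simp only [blk_map, map_neg, map_evI_smul, map_evI_cst, map_one, map_zero,
    evI_tt_zero, evI_tt_one, zero_smul', one_smul', neg_zero] at p2
  have d1 : Top.BaseDiagOn (fun x : ι × Bool => base x.1) Crn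
      (LMat.blk (0 : LMat ι ℂ) 1 1 0) := by
    classical
    rintro ⟨x, a⟩ ⟨y, b⟩ _ hxy
    by_cases h0 : x = y
    · simp [h0]
    · exfalso
      apply hxy
      cases a <;> cases b <;> simp [one_apply_ne h0]
  have v := H.vanish (fun x : ι × Bool => base x.1) hf2 (LMat.blk (0 : LMat ι ℂ) 1 1 0)
    (LMat.blk (0 : LMat ι ℂ) 1 1 0) (form_std.toTop
    (supp_blk supp_zero o1 o1 supp_zero) (supp_blk supp_zero o1 o1 supp_zero)) d1 d1
  simp only [sub_self, f.hk, f.kh, one_mul] at p1
  rw [← p2, v] at p1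
  omega

/-- invariance under diagonal unitaries (only path invariance is used) -/
theorem s_gauge (H : Top.PathInv E @s) (hf : FinFib base) {h k : LMat ι ℂ}
    (F : Top.Form base E h k) {g : ι → ℂ}
    (hg : ∀ x, star (g x) * g x = 1) :
    s base (star (LMat.diag g) * h * LMat.diag g) (star (LMat.diag g) * k * LMat.diag g) =
      s base h k := by
  have f := HForm.ofTop F
  have hn : ∀ x, ‖g x‖ = 1 := by
    intro x
    have h1 := hg x
    rw [RCLike.star_def, mul_comm, Complex.mul_conj, Complex.normSq_eq_norm_sq] at h1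
    have h2 : ‖g x‖ ^ 2 = 1 := by exact_mod_cast h1
    nlinarith only [h2, norm_nonneg (g x)]
  set c : ι → PathK := fun x =>
    ⟨fun t : ℝ => Complex.exp ((t * Complex.arg (g x) : ℝ) * Complex.I),
      by (clear * -; fun_prop)⟩ with hc
  have hcu : ∀ x, star (c x) * c x = 1 := by
    intro x
    ext t
    have h1 : ‖Complex.exp ((t * Complex.arg (g x) : ℝ) * Complex.I)‖ = 1 :=
      Complex.norm_exp_ofReal_mul_I _
    have h2 : star (Complex.exp ((t * Complex.arg (g x) : ℝ) * Complex.I)) *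
        Complex.exp ((t * Complex.arg (g x) : ℝ) * Complex.I) = 1 := by
      rw [RCLike.star_def, mul_comm, Complex.mul_conj, Complex.normSq_eq_norm_sq, h1]; simp
    exact h2
  have p := s_path H hf (gauge_form (f.map cst cst_star) hcu)
    (supp_gauge (supp_map cst F.supp) c) (supp_gauge (supp_map cst F.supp') c)
  rw [map_gauge _ (evI_star _), map_gauge _ (evI_star _), map_gauge _ (evI_star _),
    map_gauge _ (evI_star _), map_evI_cst, map_evI_cst, map_evI_cst, map_evI_cst] at p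
  have h0 : (fun x => evI 0 (c x)) = fun _ => (1 : ℂ) := by
    funext x
    simp [hc]
  have h1 : (fun x => evI 1 (c x)) = g := by
    funext x
    have := Complex.norm_mul_exp_arg_mul_I (g x)
    rw [hn x] at this
    simpa only [hc, Complex.ofReal_mul, evI_apply, ContinuousMap.coe_mk, Complex.ofReal_one, one_mul] using this
  rw [h0, h1] at p
  simp only [LMat.diag_one, star_one, one_mul, mul_one] at p
  exact p.symm

end Vale.Agent.P228.Kos
end
end

section

section

/-! # P228, block K: the Koszul form as a block matrix -/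

set_option linter.all false

namespace Vale.Agent.P228.Kos

open LMat

section Form

variable {ι K L : Type} [Ring K] [Ring L]

/-- the Koszul form -/
noncomputable def FB (h K' a b : LMat ι K) : LMat (ι × Bool) K :=
  blk (F11 h K' a b) (F12 h K' a b) (F21 h K' a b) (F22 h K' a b)

/-- its inverse -/
noncomputable def GB (k H a b : LMat ι K) : LMat (ι × Bool) K :=
  blk (G11 k H a b) (G12 k H a b) (G21 k H a b) (G22 k H a b)

theorem FB_eq (h K' a b : LMat ι K) :
    FB h K' a b = blk 1 (-b) 0 1 * blk 1 0 a 1 * blk K' 0 0 (-h) * (blk 1 a 0 1 * blk 1 0 (-b) 1) := by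
  simp only [FB, F11, F12, F21, F22, blk_mul, blk_inj]
  refine ⟨?_, ?_, ?_, ?_⟩ <;> noncomm_ring

theorem GB_eq (k H a b : LMat ι K) :
    GB k H a b = blk 1 0 b 1 * blk 1 (-a) 0 1 * blk H 0 0 (-k) * (blk 1 0 (-a) 1 * blk 1 b 0 1) := by
  simp only [GB, blk_mul, blk_inj, G11, G12, G21, G22]
  refine ⟨?_, ?_, ?_, ?_⟩ <;> noncomm_ring

theorem FB_map (f : K →+* L) (h K' a b : LMat ι K) :
    map f (FB h K' a b) = FB (map f h) (map f K') (map f a) (map f b) := by
  simp only [FB, blk_map, F11, F12, F21, F22, map_sub, map_mul, map_add, map_one]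

theorem GB_map (f : K →+* L) (k H a b : LMat ι K) :
    map f (GB k H a b) = GB (map f k) (map f H) (map f a) (map f b) := by
  simp only [GB, blk_map, G11, G12, G21, G22, map_sub, map_mul, map_add, map_one]

theorem FB_zero (h K' : LMat ι K) : FB h K' 0 0 = blk K' 0 0 (-h) := by
  simp [FB, F11, F12, F21, F22]

theorem GB_zero (k H : LMat ι K) : GB k H 0 0 = blk H 0 0 (-k) := by
  simp [GB, G11, G12, G21, G22]

variable [StarRing K] [StarRing L]

/-- `FB` is a form with inverse `GB` -/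
theorem hform_FB {h k H K' a b : LMat ι K} (hF : HForm h k) (HF : HForm H K')
    (ha : star a = a) (hb : star b = b) : HForm (FB h K' a b) (GB k H a b) := by
  have e1 : (LMat.blk 1 (-b) 0 1 : LMat (ι × Bool) K) * LMat.blk 1 b 0 1 = 1 := by
    rw [blk_mul]; simp
  have e1' : (LMat.blk 1 b 0 1 : LMat (ι × Bool) K) * LMat.blk 1 (-b) 0 1 = 1 := by
    rw [blk_mul]; simp
  have e2 : (LMat.blk 1 0 a 1 : LMat (ι × Bool) K) * LMat.blk 1 0 (-a) 1 = 1 := by
    rw [blk_mul]; simp only [mul_one, mul_neg, zero_mul, neg_zero, add_zero, mul_zero, one_mul, add_neg_cancel, zero_add, blk_one]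
  have e2' : (LMat.blk 1 0 (-a) 1 : LMat (ι × Bool) K) * LMat.blk 1 0 a 1 = 1 := by
    rw [blk_mul]; simp
  have e3 : (LMat.blk 1 a 0 1 : LMat (ι × Bool) K) * LMat.blk 1 (-a) 0 1 = 1 := by
    rw [blk_mul]; simp
  have e3' : (LMat.blk 1 (-a) 0 1 : LMat (ι × Bool) K) * LMat.blk 1 a 0 1 = 1 := by
    rw [blk_mul]; simp
  have e4 : (LMat.blk 1 0 (-b) 1 : LMat (ι × Bool) K) * LMat.blk 1 0 b 1 = 1 := by
    rw [blk_mul]; simp
  have e4' : (LMat.blk 1 0 b 1 : LMat (ι × Bool) K) * LMat.blk 1 0 (-b) 1 = 1 := by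
    rw [blk_mul]; simp
  have q1 : (LMat.blk K' 0 0 (-h) : LMat (ι × Bool) K) * LMat.blk H 0 0 (-k) = 1 := by
    rw [blk_mul]; simp only [HF.kh, mul_zero, add_zero, mul_neg, zero_mul, neg_zero, neg_mul, hF.hk, neg_neg, zero_add, blk_one]
  have q2 : (LMat.blk H 0 0 (-k) : LMat (ι × Bool) K) * LMat.blk K' 0 0 (-h) = 1 := by
    rw [blk_mul]; simp only [HF.hk, mul_zero, add_zero, mul_neg, zero_mul, neg_zero, neg_mul, hF.kh, neg_neg, zero_add, blk_one]
  have key : ∀ A B Q C D A' B' Q' C' D' : LMat (ι × Bool) K, D * D' = 1 → C * C' = 1 →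
      Q * Q' = 1 → B * B' = 1 → A * A' = 1 →
      A * B * Q * (C * D) * (D' * C' * Q' * (B' * A')) = 1 := by
    intro A B Q C D A' B' Q' C' D' hD hC hQ hB hA
    calc A * B * Q * (C * D) * (D' * C' * Q' * (B' * A'))
        = A * (B * (Q * (C * (D * D') * C') * Q') * B') * A' := by simp only [mul_assoc]
      _ = 1 := by rw [hD, mul_one, hC, mul_one, hQ, mul_one, hB, mul_one, hA]
  refine ⟨?_, ?_, ?_, ?_⟩
  · rw [FB_eq]
    simp only [mul_assoc, star_mul, blk_star, star_one, star_neg, hb, star_zero, ha, HF.k_star, hF.h_star]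
  · rw [GB_eq]
    simp only [mul_assoc, star_mul, blk_star, star_one, star_zero, hb, star_neg, ha, HF.h_star, hF.k_star]
  · rw [FB_eq, GB_eq]
    exact key _ _ _ _ _ _ _ _ _ _ e4 e3 q1 e2 e1
  · rw [FB_eq, GB_eq]
    exact key _ _ _ _ _ _ _ _ _ _ e1' e2' q2 e3' e4'

end Form

/-- an abstract support filtration, composable through the projection `P` -/
structure VFil {R : Type} [Ring R] (P c : R) where
  S : ℕ → AddSubgroup R
  mono : ∀ {r s}, r ≤ s → S r ≤ S s
  one : (1 : R) ∈ S 0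
  mulP : ∀ {r s x y}, x ∈ S r → y ∈ S s → x * P * y ∈ S (r + s)
  cmul : ∀ {r x}, x ∈ S r → c * x ∈ S r

section VFil

variable {R : Type} [Ring R] {P c : R} (V : VFil P c)

include V in
theorem VFil.cut {r : ℕ} {T : R} (hT : T ∈ V.S r) : P * T * P ∈ V.S r := by
  have h1 : P * T ∈ V.S r := by
    have := V.mulP V.one hT
    rwa [one_mul, zero_add] at this
  have h2 := V.mulP h1 V.one
  rwa [mul_one, add_zero] at h2

variable {V}

/-- membership of all the words -/
theorem VFil.words {r : ℕ} {h k H K a b : R} (hPP : P * P = P) (hc : ∀ x : R, c * x = x * c)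
    (hh : h ∈ V.S r) (hk : k ∈ V.S r) (hH : H ∈ V.S r) (hK : K ∈ V.S r)
    {t u : R} (ht : ∀ x : R, t * x = x * t) (hu : ∀ x : R, u * x = x * u)
    (htS : ∀ {r x}, x ∈ V.S r → t * x ∈ V.S r) (huS : ∀ {r x}, x ∈ V.S r → u * x ∈ V.S r)
    (ha : a = t * (P * H * P)) (hb : b = u * (P * K * P)) :
    F11 h K a b ∈ V.S (5 * r) ∧ F12 h K a b ∈ V.S (5 * r) ∧ F21 h K a b ∈ V.S (5 * r) ∧
    F22 h K a b ∈ V.S (5 * r) ∧ G11 k H a b ∈ V.S (5 * r) ∧ G12 k H a b ∈ V.S (5 * r) ∧
    G21 k H a b ∈ V.S (5 * r) ∧ G22 k H a b ∈ V.S (5 * r) := by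
  have haS : a ∈ V.S r := by rw [ha]; exact htS (V.cut hH)
  have hbS : b ∈ V.S r := by rw [hb]; exact huS (V.cut hK)
  have aP : a * P = a := by rw [ha]; simp only [mul_assoc, hPP]
  have Pa : P * a = a := by
    rw [ha, ← mul_assoc, ← ht P]
    simp only [mul_assoc]
    rw [← mul_assoc P P, hPP]
  have bP : b * P = b := by rw [hb]; simp only [mul_assoc, hPP]
  have Pb : P * b = b := by
    rw [hb, ← mul_assoc, ← hu P]
    simp only [mul_assoc]
    rw [← mul_assoc P P, hPP]
  -- products with P-bounded factors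
  have mR : ∀ {i j x y}, x ∈ V.S i → y ∈ V.S j → x * P = x → x * y ∈ V.S (i + j) := by
    intro i j x y hx hy e
    have := V.mulP hx hy
    rwa [e] at this
  have mL : ∀ {i j x y}, x ∈ V.S i → y ∈ V.S j → P * y = y → x * y ∈ V.S (i + j) := by
    intro i j x y hx hy e
    have := V.mulP hx hy
    rwa [mul_assoc, e] at this
  have up : ∀ {i x}, i ≤ 5 * r → x ∈ V.S i → x ∈ V.S (5 * r) := fun h hx => V.mono h hx
  have ba : b * a ∈ V.S (r + r) := mR hbS haS bP
  have ab : a * b ∈ V.S (r + r) := mR haS hbS aP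
  have baP : b * a * P = b * a := by rw [mul_assoc, aP]
  have Pab : P * (a * b) = a * b := by rw [← mul_assoc, Pa]
  have Kab : K * (1 - a * b) ∈ V.S (r + (r + r)) := by
    rw [mul_sub, mul_one]
    exact (V.S _).sub_mem (V.mono (by omega) hK) (mL hK ab Pab)
  have kab : k * (1 - a * b) ∈ V.S (r + (r + r)) := by
    rw [mul_sub, mul_one]
    exact (V.S _).sub_mem (V.mono (by omega) hk) (mL hk ab Pab)
  have left : ∀ {i x}, x ∈ V.S i → (1 - b * a) * x ∈ V.S ((r + r) + i) := by
    intro i x hx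
    rw [sub_mul, one_mul]
    exact (V.S _).sub_mem (V.mono (by omega) hx) (mR ba hx baP)
  refine ⟨?_, ?_, ?_, ?_, ?_, ?_, ?_, ?_⟩
  · refine (V.S _).sub_mem (up (by omega) (left Kab)) (up (by omega) (mR hbS (mL hh hbS Pb) bP))
  · refine (V.S _).add_mem (up (by omega) (left (mL hK haS Pa))) (up (by omega) (mR hbS hh bP))
  · refine (V.S _).add_mem (up (by omega) (mR haS Kab aP)) (up (by omega) (mL hh hbS Pb))
  · refine (V.S _).sub_mem (up (by omega) (mR haS (mL hK haS Pa) aP)) (up (by omega) hh)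
  · refine (V.S _).sub_mem (up (by omega) hH) (up (by omega) (mR haS (mL hk haS Pa) aP))
  · refine (V.S _).add_mem (up (by omega) (mL hH hbS Pb)) (up (by omega) (mR haS kab aP))
  · refine (V.S _).add_mem (up (by omega) (mR hbS hH bP)) (up (by omega) (left (mL hk haS Pa)))
  · refine (V.S _).sub_mem (up (by omega) (mR hbS (mL hH hbS Pb) bP)) (up (by omega) (left kab))

end VFil

end Vale.Agent.P228.Kos
end
end

section

section

/-!
# P228, block K: the induction over the label sets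

`koszul_of_step : StepStatement → K4Statement`.
-/

set_option linter.all false

namespace Vale.Agent.P228.Kos

open Vale.Agent.P228

/-- one Koszul step for the label set `V i` -/
def StepStatement : Prop :=
  ∀ (p q : ℕ) [NeZero p] [NeZero q] (hpq : p ∣ q) (B : Type) (N : KRel p q hpq B) (Crn : Set B)
    (s : Top.IntInv B), Top.SProps N.E Crn s → ∀ (i : Fin N.D)
    (ι : Type) (base : ι → B) (h k : LMat ι (GK q)) (r : ℕ), FinFib base → HForm h k →
    GSup N r base h → GSup N r base k → 5 * r ≤ N.R →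
    ∃ F G : LMat (ι × Bool) (GK q), HForm F G ∧
      GSup N (5 * r) (fun x => base x.1) F ∧ GSup N (5 * r) (fun x => base x.1) G ∧
      (∀ j : ℤ, s (fun x : ι × Bool => base x.1) (LMat.map (evJ q p j) F)
          (LMat.map (evJ q p j) G) =
        s base (LMat.map (evJ q p (j + 1)) h) (LMat.map (evJ q p (j + 1)) k) -
        s base (LMat.map (evJ q p j) h) (LMat.map (evJ q p j) k)) ∧
      (∀ b, Top.BaseDiagOn base {b} h → Top.BaseDiagOn base {b} k →
        Top.BaseDiagOn (fun x : ι × Bool => base x.1) {b} F ∧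
        Top.BaseDiagOn (fun x : ι × Bool => base x.1) {b} G) ∧
      (∀ b, (∀ y, N.E b y → y ∈ N.V i) →
        Top.BaseDiagOn (fun x : ι × Bool => base x.1) {b} F ∧
        Top.BaseDiagOn (fun x : ι × Bool => base x.1) {b} G)

theorem evJ_add_p {p q : ℕ} (hpq : p ∣ q) (j : ℤ) : evJ q p (j + p) = evJ q p j := by
  unfold evJ
  have h1 : ((j + p : ℤ) : ZMod q) * cp q p = (j : ZMod q) * cp q p := by
    push_cast
    rw [add_mul, p_mul_cp hpq, add_zero]
  rw [h1]

theorem evJ_star {p q : ℕ} (j : ℤ) (f : GK q) : evJ q p j (star f) = star (evJ q p j f) := rfl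

/-- a graded form evaluates to forms supported in the one-step relation -/
theorem form_evJ {p q : ℕ} [NeZero p] [NeZero q] {hpq : p ∣ q} {B : Type} {N : KRel p q hpq B}
    {ι : Type} {base : ι → B} {h k : LMat ι (GK q)} {r : ℕ} (H : HForm h k)
    (hh : GSup N r base h) (hk : GSup N r base k) (hr : r ≤ N.R) (j : ℤ) :
    Top.Form base N.E (LMat.map (evJ q p j) h) (LMat.map (evJ q p j) k) := by
  have hsup : ∀ T : LMat ι (GK q), GSup N r base T →
      Top.Supp base N.E (LMat.map (evJ q p j) T) := by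
    intro T hT x y hxy
    by_contra hne
    have h0 : {g | N.Near g r (base x) (base y)} = (∅ : Set (ZMod q)) := by
      ext g
      simp only [Set.mem_setOf_eq, Set.mem_empty_iff_false, iff_false]
      intro hg
      exact hne ⟨g, N.mono hr hg⟩
    have h1 := hT x y
    rw [h0, gr, Set.image_empty, Submodule.span_empty, Submodule.mem_bot] at h1
    apply hxy
    rw [LMat.map_apply, h1, map_zero]
  refine ⟨?_, ?_, ?_, hsup h hh, hsup k hk⟩
  · rw [← LMat.map_star _ (fun x => evJ_star j x), H.h_star]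
  · rw [← map_mul, H.hk, map_one]
  · rw [← map_mul, H.kh, map_one]

/-- the state after `n` label sets -/
theorem koszul_iter (step : StepStatement) {p q : ℕ} [NeZero p] [NeZero q] {hpq : p ∣ q} {B : Type}
    (N : KRel p q hpq B) {Crn : Set B} {s : Top.IntInv B} (S : Top.SProps N.E Crn s)
    {ι : Type} {base : ι → B} {h k : LMat ι (GK q)} {r : ℕ} (hb : FinFib base) (hF : HForm h k)
    (hh : GSup N r base h) (hk : GSup N r base k) (n : ℕ) (hn : n ≤ N.D)
    (hr : 5 ^ n * r ≤ N.R) :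
    ∃ (κ : Type) (base' : κ → B) (F G : LMat κ (GK q)), FinFib base' ∧ HForm F G ∧
      GSup N (5 ^ n * r) base' F ∧ GSup N (5 ^ n * r) base' G ∧
      (∀ j : ℤ, s base' (LMat.map (evJ q p j) F) (LMat.map (evJ q p j) G) =
        del^[n] (fun j : ℤ => s base (LMat.map (evJ q p j) h) (LMat.map (evJ q p j) k)) j) ∧
      (∀ b (i : Fin N.D), i.1 < n → (∀ y, N.E b y → y ∈ N.V i) →
        Top.BaseDiagOn base' {b} F ∧ Top.BaseDiagOn base' {b} G) := by
  induction n with
  | zero =>
    refine ⟨ι, base, h, k, hb, hF, ?_, ?_, fun j => rfl, ?_⟩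
    · simpa only [pow_zero, one_mul] using hh
    · simpa using hk
    · intro b i hi; exact absurd hi (Nat.not_lt_zero _)
  | succ n ih =>
    have h5 : 5 ^ (n + 1) * r = 5 * (5 ^ n * r) := by ring
    have hr' : 5 ^ n * r ≤ N.R := by
      refine le_trans ?_ hr
      rw [h5]; (clear * - hpq h5; omega)
    obtain ⟨κ, base', F, G, hb', hFG, hsF, hsG, hs, hdeep⟩ := ih (by omega) hr'
    obtain ⟨F', G', hFG', hsF', hsG', hs', hpers, hnew⟩ :=
      step p q hpq B N Crn s S ⟨n, hn⟩ κ base' F G (5 ^ n * r) hb' hFG hsF hsG (by rw [← h5]; exact hr)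
    refine ⟨κ × Bool, fun x => base' x.1, F', G', ?_, hFG', ?_, ?_, ?_, ?_⟩
    · intro b
      have : {x : κ × Bool | base' x.1 = b} = {x | base' x = b} ×ˢ (Set.univ : Set Bool) := by
        ext x; simp only [Set.mem_ofPred_eq, Bool.univ_eq, Set.mem_prod, Set.mem_insert_iff, Set.mem_singleton_iff, Bool.eq_false_or_eq_true_self, and_true]
      rw [this]
      exact (hb' b).prod Set.finite_univ
    · rw [h5]; exact hsF'
    · rw [h5]; exact hsG'
    · intro j
      rw [hs' j, hs (j + 1), hs j, del_iter_succ]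
      rfl
    · intro b i hi hV
      rcases Nat.lt_succ_iff_lt_or_eq.mp hi with h1 | h1
      · exact hpers b (hdeep b i h1 hV).1 (hdeep b i h1 hV).2
      · have hi' : i = ⟨n, hn⟩ := Fin.ext h1
        rw [hi'] at hV
        exact hnew b hV

/-- **the induction over the label sets** -/
theorem koszul_of_step (step : StepStatement) : K4Statement := by
  intro p q _ _ hpq B N Crn s S ι base h k r hb hF hh hk hr hCrn
  obtain ⟨κ, base', F, G, hb', hFG, hsF, hsG, hs, hdeep⟩ :=
    koszul_iter step N S hb hF hh hk N.D le_rfl hr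
  have hzero : ∀ j : ℤ,
      del^[N.D] (fun j : ℤ => s base (LMat.map (evJ q p j) h) (LMat.map (evJ q p j) k)) j = 0 := by
    intro j
    rw [← hs j]
    have hBD : ∀ T : LMat κ (GK q), (∀ b ∈ Crn, Top.BaseDiagOn base' {b} T) →
        Top.BaseDiagOn base' Crn (LMat.map (evJ q p j) T) := by
      intro T hT x y hx hxy
      refine hT (base' x) hx x y rfl ?_
      intro h0
      apply hxy
      rw [LMat.map_apply, h0, map_zero]
    refine S.vanish base' hb' _ _ (form_evJ hFG hsF hsG hr j) (hBD F ?_) (hBD G ?_)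
    · intro b hbC
      obtain ⟨i, hi⟩ := hCrn b hbC
      exact (hdeep b i i.2 hi).1
    · intro b hbC
      obtain ⟨i, hi⟩ := hCrn b hbC
      exact (hdeep b i i.2 hi).2
  have hconst := const_of_periodic (s := fun j : ℤ =>
    s base (LMat.map (evJ q p j) h) (LMat.map (evJ q p j) k)) (NeZero.ne p)
    (fun j => by simp only [evJ_add_p hpq]) N.D hzero
  exact hconst 0 1

end Vale.Agent.P228.Kos
end
end

section

section

/-! # P228, block K: projections, supports, gauge -/

set_option linter.all false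

namespace Vale.Agent.P228.Kos

open LMat

section Proj

variable {ι B K L : Type} [Ring K] [Ring L]

open Classical in
/-- the projection to the positions in `W` -/
noncomputable def proj (K : Type) [Ring K] (base : ι → B) (W : Set B) : LMat ι K :=
  diag (fun x => if base x ∈ W then 1 else 0)

open Classical in
theorem proj_mul_apply (base : ι → B) (W : Set B) (T : LMat ι K) (x y : ι) :
    (proj K base W * T) x y = if base x ∈ W then T x y else 0 := by
  rw [proj, diag_mul_apply]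
  split_ifs <;> simp

open Classical in
theorem mul_proj_apply (base : ι → B) (W : Set B) (T : LMat ι K) (x y : ι) :
    (T * proj K base W) x y = if base y ∈ W then T x y else 0 := by
  rw [proj, mul_diag_apply]
  split_ifs <;> simp

theorem proj_mul_proj (base : ι → B) {W W' : Set B} (h : W ⊆ W') :
    proj K base W * proj K base W' = proj K base W := by
  classical
  rw [proj, proj, diag_mul_diag]
  congr 1
  funext x
  by_cases hx : base x ∈ W
  · simp only [hx, ↓reduceIte, h hx, mul_one]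
  · simp [hx]

theorem proj_idem (base : ι → B) (W : Set B) :
    proj K base W * proj K base W = proj K base W := proj_mul_proj base (le_refl W)

theorem proj_comm_diag (base : ι → B) (W : Set B) (f : ι → K) :
    Commute (proj K base W) (diag f) := by
  classical
  show _ * _ = _ * _
  rw [proj, diag_mul_diag, diag_mul_diag]
  congr 1
  funext x
  split_ifs <;> simp

theorem proj_comm_proj (base : ι → B) (W W' : Set B) :
    Commute (proj K base W) (proj K base W') := by
  rw [proj.eq_def K base W']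
  exact proj_comm_diag base W _

theorem proj_map (f : K →+* L) (base : ι → B) (W : Set B) :
    map f (proj K base W) = proj L base W := by
  classical
  rw [proj, proj, map_diag]
  congr 1
  funext x
  split_ifs <;> simp

theorem proj_blk (base : ι → B) (W : Set B) :
    proj K (fun x : ι × Bool => base x.1) W = blk (proj K base W) 0 0 (proj K base W) := by
  classical
  rw [proj, proj, ← diag_fst]

theorem proj_star [StarRing K] (base : ι → B) (W : Set B) :
    star (proj K base W) = proj K base W := by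
  classical
  rw [proj, star_diag]
  congr 1
  funext x
  split_ifs <;> simp

theorem proj_loc (base : ι → B) {W W' : Set B} {T : LMat ι K}
    (hT : ∀ x y, base x ∈ W → T x y ≠ 0 → base y ∈ W') :
    proj K base W * T = proj K base W * T * proj K base W' := by
  classical
  ext x y
  rw [mul_proj_apply, proj_mul_apply]
  by_cases hx : base x ∈ W
  · by_cases hy : base y ∈ W'
    · simp [hx, hy]
    · have : T x y = 0 := by
        by_contra h
        exact hy (hT x y hx h)
      simp [hx, hy, this]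
  · simp [hx]

theorem proj_cut_eq (base : ι → B) {W : Set B} {T T' : LMat ι K}
    (h : ∀ x y, base x ∈ W → base y ∈ W → T x y = T' x y) :
    proj K base W * T * proj K base W = proj K base W * T' * proj K base W := by
  classical
  ext x y
  rw [mul_proj_apply, proj_mul_apply, mul_proj_apply, proj_mul_apply]
  by_cases hx : base x ∈ W
  · by_cases hy : base y ∈ W
    · simp [hx, hy, h x y hx hy]
    · simp [hy]
  · simp [hx]

/-- commuting with `proj {b}` means that the rows (and columns) over `b` are base-diagonal -/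
theorem baseDiag_of_commute {base : ι → B} {b : B} {T : LMat ι K}
    (h : Commute (proj K base {b}) T) (x y : ι) (hx : base x = b) (hT : T x y ≠ 0) :
    base x = base y := by
  classical
  have h1 : (proj K base {b} * T) x y = (T * proj K base {b}) x y := by rw [h.eq]
  rw [proj_mul_apply, mul_proj_apply] at h1
  by_contra hne
  have hy : ¬ base y ∈ ({b} : Set B) := by
    intro hy
    exact hne (hx.trans hy.symm)
  rw [if_pos (show base x ∈ ({b} : Set B) from hx), if_neg hy] at h1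
  exact hT h1

theorem HForm.commute [StarRing K] {h k e : LMat ι K} (F : HForm h k) (he : Commute e h) :
    Commute e k := by
  show e * k = k * e
  calc e * k = (k * h) * (e * k) := by rw [F.kh, one_mul]
    _ = k * (h * e) * k := by simp only [mul_assoc]
    _ = k * (e * h) * k := by rw [he.eq]
    _ = k * e * (h * k) := by simp only [mul_assoc]
    _ = k * e := by rw [F.hk, mul_one]

end Proj

section Sup

variable {p q : ℕ} [NeZero q] {hpq : p ∣ q} {B ι K : Type} [Ring K] (N : KRel p q hpq B)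

/-- plain supports (no labels), over any coefficient ring -/
def ASup (r : ℕ) (base : ι → B) (T : LMat ι K) : Prop :=
  ∀ x y, T x y ≠ 0 → ∃ g, N.Near g r (base x) (base y)

variable {N}

theorem GSup.aSup {r : ℕ} {base : ι → B} {T : LMat ι (GK q)} (h : GSup N r base T) :
    ASup N r base T := by
  intro x y hT
  by_contra hcon
  have he : {g | N.Near g r (base x) (base y)} = ∅ := by
    ext g
    simp only [Set.mem_setOf_eq, Set.mem_empty_iff_false, iff_false]
    intro hg
    exact hcon ⟨g, hg⟩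
  have := h x y
  rw [he] at this
  simp only [gr, Set.image_empty, Submodule.span_empty, Submodule.mem_bot] at this
  exact hT this

theorem ASup.map {L : Type} [Ring L] {r : ℕ} {base : ι → B} {T : LMat ι K} (h : ASup N r base T)
    (f : K →+* L) : ASup N r base (LMat.map f T) := by
  intro x y hT
  apply h x y
  intro h0
  apply hT
  rw [map_apply, h0, map_zero]

theorem ASup.supp {r : ℕ} (hr : r ≤ N.R) {base : ι → B} {T : LMat ι K} (h : ASup N r base T) :
    Top.Supp base N.E T := by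
  intro x y hT
  obtain ⟨g, hg⟩ := h x y hT
  exact ⟨g, N.mono hr hg⟩

/-- the filtration by plain supports -/
def aFil (i : Fin N.D) (base : ι → B) (c : LMat ι K)
    (hc : ∀ (T : LMat ι K) x y, T x y = 0 → (c * T) x y = 0) :
    VFil (proj K base (N.V i)) c where
  S r :=
    { carrier := {T | ASup N r base T}
      zero_mem' := by intro x y h; exact absurd rfl h
      add_mem' := by
        intro a b ha hb x y h
        by_cases h1 : a x y = 0
        · apply hb x y
          intro h2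
          exact h (by rw [LMat.add_apply, h1, h2, add_zero])
        · exact ha x y h1
      neg_mem' := by
        intro a ha x y h
        apply ha x y
        intro h1
        exact h (by rw [LMat.neg_apply, h1, neg_zero]) }
  mono := by
    intro r s hrs T hT x y h
    obtain ⟨g, hg⟩ := hT x y h
    exact ⟨g, N.mono hrs hg⟩
  one := by
    intro x y h
    have : x = y := by
      by_contra hne
      exact h (one_apply_ne hne)
    subst this
    exact ⟨0, N.refl _⟩
  mulP := by
    classical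
    intro r s x y hx hy u w h
    obtain ⟨z, h1, h2⟩ := exists_of_mul_ne_zero h
    rw [mul_proj_apply] at h1
    have hz : base z ∈ N.V i := by
      by_contra hz
      exact h1 (if_neg hz)
    rw [if_pos hz] at h1
    obtain ⟨g, hg⟩ := hx u z h1
    obtain ⟨g', hg'⟩ := hy z w h2
    exact ⟨g + g', N.comp hg hg' ⟨i, hz⟩⟩
  cmul := by
    intro r T hT x y h
    apply hT x y
    intro h0
    exact h (hc T x y h0)

/-- the filtration by graded supports -/
def gFil (i : Fin N.D) (base : ι → B) (z : ℂ) :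
    VFil (proj (GK q) base (N.V i)) (z • (1 : LMat ι (GK q))) where
  S r :=
    { carrier := {T | GSup N r base T}
      zero_mem' := by intro x y; exact zero_mem _
      add_mem' := by
        intro a b ha hb x y
        exact add_mem (ha x y) (hb x y)
      neg_mem' := by
        intro a ha x y
        exact neg_mem (ha x y) }
  mono := by
    intro r s hrs T hT x y
    exact gr_mono (fun g hg => N.mono hrs hg) (hT x y)
  one := by
    intro x y
    by_cases h : x = y
    · subst h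
      rw [one_apply_self]
      exact one_mem_gr (N.refl _)
    · rw [one_apply_ne h]
      exact zero_mem _
  mulP := by
    classical
    intro r s x y hx hy u w
    rw [mul_apply]
    apply Submodule.sum_mem
    intro z _
    rw [mul_proj_apply]
    by_cases hz : base z ∈ N.V i
    · rw [if_pos hz]
      exact mul_mem_gr (fun g hg g' hg' => N.comp hg hg' ⟨i, hz⟩) (hx u z) (hy z w)
    · rw [if_neg hz, zero_mul]
      exact zero_mem _
  cmul := by
    intro r T hT x y
    rw [smul_mul_assoc, one_mul]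
    exact Submodule.smul_mem _ _ (hT x y)

end Sup

section Gauge

variable {p q : ℕ} [NeZero p] [NeZero q] {hpq : p ∣ q} {B ι : Type} (N : KRel p q hpq B)

open Classical in
/-- the gauge: a function with values in the unit complex numbers -/
noncomputable def gau (i : Fin N.D) (base : ι → B) (x : ι) : ℂ :=
  if base x ∈ N.V i then chiv q p (-(N.lab i (base x))) else 1

variable {N}

theorem gau_unit (i : Fin N.D) (base : ι → B) (x : ι) :
    star (gau N i base x) * gau N i base x = 1 := by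
  unfold gau
  split_ifs
  · exact star_chiv_mul hpq _
  · simp only [star_one, mul_one]

theorem gau_unit' (i : Fin N.D) (base : ι → B) (x : ι) :
    gau N i base x * star (gau N i base x) = 1 := by
  rw [mul_comm, gau_unit]

/-- the twist as a ring homomorphism -/
noncomputable def tw (q p : ℕ) : GK q →+* GK q := (twist (q := q) (cp q p)).toRingHom

theorem tw_apply (f : GK q) : tw q p f = twist (cp q p) f := rfl

theorem tw_star (f : GK q) : tw q p (star f) = star (tw q p f) := rfl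

theorem evJ_tw (j : ℤ) (f : GK q) : evJ q p j (tw q p f) = evJ q p (j + 1) f := by
  show f (_ + _) = f _
  congr 1
  push_cast
  ring

/-- constants in the coefficient ring -/
noncomputable def cc (q : ℕ) (z : ℂ) : GK q := fun _ => z

theorem cc_mul (z : ℂ) (f : GK q) : cc q z * f = z • f := rfl

theorem cc_star (z : ℂ) : star (cc q z) = cc q (star z) := rfl

/-- the twisted and gauged matrix `D* σ(h) D` -/
noncomputable def gt (i : Fin N.D) (base : ι → B) (h : LMat ι (GK q)) : LMat ι (GK q) :=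
  star (diag fun x => cc q (gau N i base x)) * LMat.map (tw q p) h *
    diag fun x => cc q (gau N i base x)

theorem gt_apply (i : Fin N.D) (base : ι → B) (h : LMat ι (GK q)) (x y : ι) :
    gt i base h x y = (star (gau N i base x) * gau N i base y) • tw q p (h x y) := by
  rw [gt, mul_diag_apply, star_diag, diag_mul_apply, map_apply, cc_star, cc_mul, mul_comm, cc_mul,
    smul_smul, mul_comm (gau N i base y)]

theorem gt_hform {i : Fin N.D} {base : ι → B} {h k : LMat ι (GK q)} (F : HForm h k) :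
    HForm (gt i base h) (gt i base k) := by
  have F' := F.map (tw q p) tw_star
  have h1 : (diag fun x => cc q (gau N i base x)) * star (diag fun x => cc q (gau N i base x)) = 1 := by
    rw [star_diag, diag_mul_diag]
    have : ∀ x, cc q (gau N i base x) * star (cc q (gau N i base x)) = 1 := by
      intro x
      rw [cc_star]
      funext j
      exact gau_unit' i base x
    simp only [this]; rfl
  have h2 : star (diag fun x => cc q (gau N i base x)) * (diag fun x => cc q (gau N i base x)) = 1 := by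
    rw [star_diag, diag_mul_diag]
    have : ∀ x, star (cc q (gau N i base x)) * cc q (gau N i base x) = 1 := by
      intro x
      rw [cc_star]
      funext j
      exact gau_unit i base x
    simp only [this]; rfl
  refine ⟨?_, ?_, ?_, ?_⟩
  · rw [gt, star_mul, star_mul, star_star, F'.h_star, mul_assoc]
  · rw [gt, star_mul, star_mul, star_star, F'.k_star, mul_assoc]
  · rw [gt, gt]
    set D := diag fun x => cc q (gau N i base x)
    calc star D * LMat.map (tw q p) h * D * (star D * LMat.map (tw q p) k * D)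
        = star D * (LMat.map (tw q p) h * (D * star D) * LMat.map (tw q p) k) * D := by
          simp only [mul_assoc]
      _ = 1 := by rw [h1, mul_one, F'.hk, mul_one, h2]
  · rw [gt, gt]
    set D := diag fun x => cc q (gau N i base x)
    calc star D * LMat.map (tw q p) k * D * (star D * LMat.map (tw q p) h * D)
        = star D * (LMat.map (tw q p) k * (D * star D) * LMat.map (tw q p) h) * D := by
          simp only [mul_assoc]
      _ = 1 := by rw [h1, mul_one, F'.kh, mul_one, h2]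

theorem gt_gsup {i : Fin N.D} {base : ι → B} {r : ℕ} {h : LMat ι (GK q)} (hh : GSup N r base h) :
    GSup N r base (gt i base h) := by
  intro x y
  rw [gt_apply]
  exact Submodule.smul_mem _ _ (twist_mem_gr _ (hh x y))

/-- on the label set the twisted gauged matrix agrees with the original one -/
theorem gt_agree {i : Fin N.D} {base : ι → B} {r : ℕ} {h : LMat ι (GK q)} (hr : r ≤ N.R)
    (hh : GSup N r base h) (x y : ι) (hx : base x ∈ N.V i) (hy : base y ∈ N.V i) :
    gt i base h x y = h x y := by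
  rw [gt_apply, tw_apply,
    twist_class hpq (N.lab i (base y) - N.lab i (base x))
      (fun g hg => N.label i hx hy hr hg) (hh x y), smul_smul, gau, gau, if_pos hx, if_pos hy,
    star_chiv hpq, ← chiv_add hpq, ← chiv_add hpq]
  have : - -N.lab i (base x) + -N.lab i (base y) + (N.lab i (base y) - N.lab i (base x)) = 0 := by
    ring
  rw [this, chiv_zero, one_smul]

theorem evJ_gt (i : Fin N.D) (base : ι → B) (h : LMat ι (GK q)) (j : ℤ) :
    LMat.map (evJ q p j) (gt i base h) =
      star (diag (gau N i base)) * LMat.map (evJ q p (j + 1)) h * diag (gau N i base) := by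
  ext x y
  rw [map_apply, gt_apply, mul_diag_apply, star_diag, diag_mul_apply, map_apply]
  show (star (gau N i base x) * gau N i base y) • evJ q p j (tw q p (h x y)) = _
  rw [evJ_tw, smul_eq_mul]
  ring

theorem gt_commute {i : Fin N.D} {base : ι → B} {h : LMat ι (GK q)} {W : Set B}
    (hc : Commute (proj (GK q) base W) h) : Commute (proj (GK q) base W) (gt i base h) := by
  have h1 : Commute (proj (GK q) base W) (LMat.map (tw q p) h) := by
    have := hc.map (LMat.map (ι := ι) (tw q p))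
    rwa [proj_map] at this
  have h2 : Commute (proj (GK q) base W) (diag fun x => cc q (gau N i base x)) :=
    proj_comm_diag _ _ _
  have h3 : Commute (proj (GK q) base W) (star (diag fun x => cc q (gau N i base x))) := by
    rw [star_diag]; exact proj_comm_diag _ _ _
  exact (h3.mul_right h1).mul_right h2

end Gauge

end Vale.Agent.P228.Kos
end
end

section

section

/-!
P228, block [S]: the two paths of the product formula, for an abstract path invariant `s`.
-/

open Matrix

set_option linter.unusedSectionVars false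
set_option linter.unusedSimpArgs false

noncomputable section

namespace Vale.Agent.P228.Inv

open LMat

/-- a filtration of relations -/
structure Filt (B : Type) where
  F : ℕ → B → B → Prop
  refl : ∀ b, F 0 b b
  symm : ∀ n {x y}, F n x y → F n y x
  comp : ∀ {i j x y z}, F i x y → F j y z → F (i + j) x z
  mono : ∀ {i j x y}, i ≤ j → F i x y → F j x y

section filt

variable {B : Type} (Φ : Filt B) {ι : Type} {base : ι → B} {a b c d : LMat ι ℂ} {i j n : ℕ}

/-- supported in the `n`-th relation -/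
abbrev Lev (n : ℕ) (base : ι → B) (a : LMat ι ℂ) : Prop := Top.Supp base (Φ.F n) a

variable {Φ}

theorem Lev.up (h : Lev Φ i base a) (hij : i ≤ j) : Lev Φ j base a :=
  fun x y hxy => Φ.mono hij (h x y hxy)

theorem Lev.zero : Lev Φ n base 0 := fun _ _ h => absurd rfl h

theorem Lev.add (ha : Lev Φ n base a) (hb : Lev Φ n base b) : Lev Φ n base (a + b) := by
  intro x y h
  by_cases h1 : a x y = 0
  · refine hb x y fun h2 => h ?_
    rw [LMat.add_apply, h1, h2, add_zero]
  · exact ha x y h1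

theorem Lev.neg (ha : Lev Φ n base a) : Lev Φ n base (-a) := by
  intro x y h
  refine ha x y fun h2 => h ?_
  rw [LMat.neg_apply, h2, neg_zero]

theorem Lev.sub (ha : Lev Φ n base a) (hb : Lev Φ n base b) : Lev Φ n base (a - b) := by
  rw [sub_eq_add_neg]; exact ha.add hb.neg

theorem Lev.smul (r : ℂ) (ha : Lev Φ n base a) : Lev Φ n base (r • a) := by
  intro x y h
  refine ha x y fun h2 => h ?_
  rw [LMat.smul_apply, h2, smul_zero]

theorem Lev.mul (ha : Lev Φ i base a) (hb : Lev Φ j base b) : Lev Φ (i + j) base (a * b) := by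
  intro x y h
  obtain ⟨z, h1, h2⟩ := exists_of_mul_ne_zero h
  exact Φ.comp (ha x z h1) (hb z y h2)

theorem Lev.mul' (ha : Lev Φ i base a) (hb : Lev Φ j base b) (hij : i + j ≤ n) :
    Lev Φ n base (a * b) := (ha.mul hb).up hij

theorem Lev.star (ha : Lev Φ n base a) : Lev Φ n base (star a) := by
  intro x y h
  refine Φ.symm n (ha y x fun h2 => h ?_)
  rw [LMat.star_apply, h2, star_zero]

theorem Lev.diag (f : ι → ℂ) : Lev Φ n base (diag f) := by
  intro x y h
  by_cases hxy : x = y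
  · subst hxy; exact Φ.mono (Nat.zero_le _) (Φ.refl _)
  · exact absurd (diag_apply_ne f hxy) h

theorem Lev.one : Lev Φ n base 1 := Lev.diag _

theorem Lev.toBlk (ha : Lev Φ n base a) (hb : Lev Φ n base b) (hc : Lev Φ n base c)
    (hd : Lev Φ n base d) :
    Lev Φ n (fun x : ι × Bool => base x.1) (toBlk (m2 a b c d)) := by
  rintro ⟨x, s⟩ ⟨y, t⟩ h
  cases s <;> cases t
  · exact ha _ _ h
  · exact hb _ _ h
  · exact hc _ _ h
  · exact hd _ _ h

end filt

section alg

variable {R : Type*} [Ring R] [StarRing R] [Algebra ℂ R] [StarModule ℂ R]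

/-- the unipotent path of forms -/
def upH (M V : R) (t : ℂ) : R := M + t • (star V * M + M * V) + (t * t) • (star V * M * V)
/-- its inverse -/
def upK (M' V : R) (t : ℂ) : R := M' - t • (V * M' + M' * star V) + (t * t) • (V * M' * star V)

theorem upH_eq (M V : R) {t : ℂ} (ht : star t = t) :
    upH M V t = star (1 + t • V) * M * (1 + t • V) := by
  unfold upH
  rw [star_add, star_one, star_smul, ht]
  simp only [add_mul, mul_add, one_mul, mul_one, smul_mul_assoc, mul_smul_comm, smul_smul,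
    smul_add]
  abel

theorem upK_eq (M' V : R) {t : ℂ} (ht : star t = t) :
    upK M' V t = (1 - t • V) * M' * star (1 - t • V) := by
  unfold upK
  rw [star_sub, star_one, star_smul, ht]
  simp only [smul_add, sub_mul, one_mul, smul_mul_assoc, mul_sub, mul_one, mul_smul_comm, smul_sub, smul_smul]
  abel

theorem up_u1 {V : R} (hV : V * V = 0) (t : ℂ) : (1 + t • V) * (1 - t • V) = 1 := by
  simp only [mul_sub, mul_one, mul_smul_comm, add_mul, one_mul, smul_mul_assoc, hV, smul_zero]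
  abel

theorem up_u2 {V : R} (hV : V * V = 0) (t : ℂ) : (1 - t • V) * (1 + t • V) = 1 := by
  simp only [sub_mul, mul_add, one_mul, mul_one, smul_mul_assoc, mul_smul_comm, smul_smul, hV,
    smul_zero, add_zero]
  abel

theorem upH_star {M V : R} (hM : star M = M) {t : ℂ} (ht : star t = t) :
    star (upH M V t) = upH M V t := by
  rw [upH_eq M V ht, star_mul, star_mul, star_star, hM, mul_assoc]

theorem upH_mul_upK {M M' V : R} (h1 : M * M' = 1) (hV : V * V = 0) {t : ℂ} (ht : star t = t) :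
    upH M V t * upK M' V t = 1 := by
  rw [upH_eq M V ht, upK_eq M' V ht]
  calc star (1 + t • V) * M * (1 + t • V) * ((1 - t • V) * M' * star (1 - t • V))
      = star (1 + t • V) * M * ((1 + t • V) * (1 - t • V)) * M' * star (1 - t • V) := by
        simp only [mul_assoc]
    _ = star (1 + t • V) * (M * M') * star (1 - t • V) := by
        rw [up_u1 hV, mul_one, mul_assoc (star (1 + t • V)) M M']
    _ = 1 := by rw [h1, mul_one, ← star_mul, up_u2 hV, star_one]

theorem upK_mul_upH {M M' V : R} (h2 : M' * M = 1) (hV : V * V = 0) {t : ℂ} (ht : star t = t) :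
    upK M' V t * upH M V t = 1 := by
  rw [upH_eq M V ht, upK_eq M' V ht]
  calc (1 - t • V) * M' * star (1 - t • V) * (star (1 + t • V) * M * (1 + t • V))
      = (1 - t • V) * M' * (star (1 - t • V) * star (1 + t • V)) * M * (1 + t • V) := by
        simp only [mul_assoc]
    _ = (1 - t • V) * (M' * M) * (1 + t • V) := by
        rw [← star_mul, up_u1 hV, star_one, mul_one, mul_assoc (1 - t • V) M' M]
    _ = 1 := by rw [h2, mul_one, up_u2 hV]

theorem upH_zero (M V : R) : upH M V 0 = M := by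
  unfold upH; simp only [smul_add, zero_smul, add_zero, mul_zero]

theorem upK_zero (M V : R) : upK M V 0 = M := by
  unfold upK; simp only [smul_add, zero_smul, add_zero, sub_zero, mul_zero]

theorem upH_one (M V : R) : upH M V 1 = star (1 + V) * M * (1 + V) := by
  rw [upH_eq M V (star_one ℂ), one_smul]

theorem upK_one (M V : R) : upK M V 1 = (1 - V) * M * star (1 - V) := by
  rw [upK_eq M V (star_one ℂ), one_smul]

end alg

section path

variable {B : Type} {Φ : Filt B} {ι : Type} {base : ι → B}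

theorem ofReal_star (t : ℝ) : star (t : ℂ) = t := by
  rw [Complex.star_def, Complex.conj_ofReal]

/-- the unipotent path -/
theorem path_unip {s : Top.IntInv B} (hs : Top.PathInv (Φ.F 3) @s)
    (hfin : ∀ b, {x | base x = b}.Finite) {M M' V : LMat ι ℂ}
    (hM : star M = M) (h1 : M * M' = 1) (h2 : M' * M = 1)
    (hV : V * V = 0) (l : Lev Φ 1 base M) (l' : Lev Φ 1 base M') (lV : Lev Φ 1 base V) :
    s base M M' = s base (star (1 + V) * M * (1 + V)) ((1 - V) * M' * star (1 - V)) := by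
  have key := hs base hfin (fun t => upH M V t) (fun t => upK M' V t)
    (fun x y => by
      simp only [upH, LMat.add_apply, LMat.smul_apply, smul_eq_mul]
      (clear * -; fun_prop))
    (fun x y => by
      simp only [upK, LMat.add_apply, LMat.sub_apply, LMat.smul_apply, smul_eq_mul]
      fun_prop) (fun t _ => ⟨upH_star hM (ofReal_star t), upH_mul_upK h1 hV (ofReal_star t),
        upK_mul_upH h2 hV (ofReal_star t), ?_, ?_⟩)
  · have e0 : upH M V ((0 : ℝ) : ℂ) = M := by rw [Complex.ofReal_zero]; exact upH_zero M V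
    have e1 : upK M' V ((0 : ℝ) : ℂ) = M' := by rw [Complex.ofReal_zero]; exact upK_zero M' V
    have e2 : upH M V ((1 : ℝ) : ℂ) = star (1 + V) * M * (1 + V) := by
      rw [Complex.ofReal_one]; exact upH_one M V
    have e3 : upK M' V ((1 : ℝ) : ℂ) = (1 - V) * M' * star (1 - V) := by
      rw [Complex.ofReal_one]; exact upK_one M' V
    rw [e0, e1, e2, e3] at key
    exact key
  · refine ((l.up (by omega)).add (Lev.smul _ ?_)).add (Lev.smul _ ?_)
    · exact (lV.star.mul' l (by omega)).add (l.mul' lV (by omega))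
    · exact (lV.star.mul l).mul' lV (by omega)
  · refine ((l'.up (by omega)).sub (Lev.smul _ ?_)).add (Lev.smul _ ?_)
    · exact (lV.mul' l' (by omega)).add (l'.mul' lV.star (by omega))
    · exact (lV.mul l').mul' lV.star (by omega)

end path

section two

variable {B : Type} {Φ : Filt B} {J : Type} {base : J → B}

/-- the path of radii -/
def rr (t : ℝ) : ℝ := Real.cos (Real.pi / 2 * t)
/-- the path of constants -/
def cc (t : ℝ) : ℝ := 1 / (5 - rr t ^ 2)

theorem rr_cont : Continuous rr := by unfold rr; fun_prop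

theorem rr_pos (t : ℝ) : 0 < 5 - rr t ^ 2 := by
  have h := Real.cos_sq_le_one (Real.pi / 2 * t)
  unfold rr; linarith only [h]

theorem cc_cont : Continuous cc := by
  unfold cc
  exact continuous_const.div (continuous_const.sub (rr_cont.pow 2)) fun t => (rr_pos t).ne'

theorem cc_eq (t : ℝ) : cc t * (5 - rr t ^ 2) = 1 := by
  unfold cc
  rw [one_div, inv_mul_cancel₀ (rr_pos t).ne']

theorem rr_zero : rr 0 = 1 := by unfold rr; simp
theorem rr_one : rr 1 = 0 := by unfold rr; simp
theorem cc_zero : cc 0 = 1 / 4 := by unfold cc; rw [rr_zero]; norm_num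
theorem cc_one : cc 1 = 1 / 5 := by unfold cc; rw [rr_one]; norm_num

theorem path_r {s : Top.IntInv B} (hs : Top.PathInv (Φ.F 3) @s)
    (hfin : ∀ b, {x : J × Bool | base x.1 = b}.Finite)
    {p z τ T T' : LMat J ℂ} (H : TwoDat p z τ T T') (lp : Lev Φ 0 base p) (lz : Lev Φ 0 base z)
    (lτ : Lev Φ 0 base τ) (lT : Lev Φ 1 base T) (lT' : Lev Φ 1 base T') :
    s (fun x : J × Bool => base x.1) (toBlk (hD p z τ T T' 1)) (toBlk (kD p z τ T T' 1 (1 / 4))) =
      s (fun x : J × Bool => base x.1) (toBlk (hD p z τ T T' 0))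
        (toBlk (kD p z τ T T' 0 (1 / 5))) := by
  have crr : Continuous fun t => (rr t : ℂ) := Complex.continuous_ofReal.comp rr_cont
  have ccc : Continuous fun t => (cc t : ℂ) := Complex.continuous_ofReal.comp cc_cont
  have key := hs (fun x : J × Bool => base x.1) hfin
    (fun t => toBlk (hD p z τ T T' (rr t : ℂ)))
    (fun t => toBlk (kD p z τ T T' (rr t : ℂ) (cc t : ℂ))) ?_ ?_ ?_
  · simp only [rr_zero, cc_zero, rr_one, cc_one] at key
    push_cast at key
    exact key
  · rintro ⟨x, a⟩ ⟨y, b⟩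
    cases a <;> cases b
    · exact continuous_const
    · change Continuous fun t => (z * p) x y + (rr t : ℂ) * τ x y
      (clear * - crr; fun_prop)
    · change Continuous fun t => (star z * p) x y + (rr t : ℂ) * (star τ) x y
      fun_prop
    · exact continuous_const
  · rintro ⟨x, a⟩ ⟨y, b⟩
    cases a <;> cases b
    · change Continuous fun t => (-(cc t : ℂ)) * ((1 - p) * T') x y
      fun_prop
    · change Continuous fun t => (z * p) x y - (4 * (rr t : ℂ) * (cc t : ℂ)) * τ x y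
      fun_prop
    · change Continuous fun t => (star z * p) x y - (4 * (rr t : ℂ) * (cc t : ℂ)) * (star τ) x y
      fun_prop
    · change Continuous fun t => (-20 * (cc t : ℂ)) * ((1 - p) * T) x y
      fun_prop
  · intro t _
    have l1p : Lev Φ 0 base (1 - p) := Lev.one.sub lp
    refine ⟨?_, ?_, ?_, ?_, ?_⟩
    · have := congrArg toBlk (TwoDat.star_hD H (rr t))
      rwa [toBlk_star] at this
    · have := congrArg toBlk (TwoDat.hD_mul_kD H (r := (rr t : ℂ)) (c := (cc t : ℂ))
        (by exact_mod_cast cc_eq t))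
      rwa [toBlk_mul, toBlk_one] at this
    · have := congrArg toBlk (TwoDat.kD_mul_hD H (cc_eq t))
      rwa [toBlk_mul, toBlk_one] at this
    · refine Lev.toBlk ?_ ?_ ?_ ?_
      · exact Lev.smul _ (l1p.mul' lT (by omega))
      · exact (lz.mul' lp (by omega)).add (Lev.smul _ (lτ.up (by omega)))
      · exact (lz.star.mul' lp (by omega)).add (Lev.smul _ (lτ.star.up (by omega)))
      · exact Lev.smul _ (l1p.mul' lT' (by omega))
    · refine Lev.toBlk ?_ ?_ ?_ ?_
      · exact Lev.smul _ (l1p.mul' lT' (by omega))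
      · exact (lz.mul' lp (by omega)).sub (Lev.smul _ (lτ.up (by omega)))
      · exact (lz.star.mul' lp (by omega)).sub (Lev.smul _ (lτ.star.up (by omega)))
      · exact Lev.smul _ (l1p.mul' lT (by omega))

theorem dW_eq {R : Type*} [Ring R] (X Y : R) : 1 + m2 0 0 X Y = dW X Y := by
  unfold dW
  rw [m2_one, m2_add]
  simp

theorem smul_mul_zero_aux {R : Type*} [Ring R] [Algebra ℂ R] (r : ℂ) {x p : R}
    (e : x * p = 0) : (r • x) * p = 0 := by
  rw [smul_mul_assoc, e, smul_zero]

/-- both paths -/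
theorem path_two {s : Top.IntInv B} (hs : Top.PathInv (Φ.F 3) @s)
    (hfin : ∀ b, {x : J × Bool | base x.1 = b}.Finite)
    {p z τ T T' a b c : LMat J ℂ} (H : TwoDat p z τ T T') (lp : Lev Φ 0 base p)
    (lz : Lev Φ 0 base z)
    (lτ : Lev Φ 0 base τ) (lT : Lev Φ 1 base T) (lT' : Lev Φ 1 base T')
    (la : Lev Φ 1 base a) (lb : Lev Φ 0 base b)
    (ha : star a = a) (hc : star c = c) (hb : b * p = z * p)
    (haq : (1 - p) * a * (1 - p) = (-5 : ℂ) • ((1 - p) * T))
    (hbq : (1 - p) * b * (1 - p) = τ) (hcq : c = (-1 / 4 : ℂ) • ((1 - p) * T'))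
    {M' : LMat (J × Bool) ℂ} (h1 : toBlk (m2 a b (star b) c) * M' = 1)
    (h2 : M' * toBlk (m2 a b (star b) c) = 1)
    (lM' : Lev Φ 1 (fun x : J × Bool => base x.1) M') :
    s (fun x : J × Bool => base x.1) (toBlk (m2 a b (star b) c)) M' =
      s (fun x : J × Bool => base x.1) (toBlk (hD p z τ T T' 0))
        (toBlk (kD p z τ T T' 0 (1 / 5))) := by
  have hcp : c * p = 0 := by
    have e : (1 - p) * T' * p = 0 := by
      rw [mul_assoc, H.B'p, ← mul_assoc, sub_mul, one_mul, H.pp, sub_self, zero_mul]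
    rw [hcq]
    exact smul_mul_zero_aux _ e
  set X := dX p z a with hX
  set Y := dY p z b with hY
  have hYX : Y * X = 0 := by
    rw [hX, ← dX_p H.zsp H.pp, ← mul_assoc, hY, dY_p' H.pp, zero_mul]
  have hYY : Y * Y = 0 := by
    nth_rewrite 2 [hY]
    rw [← dY_p H.zsp H.pp, ← mul_assoc, hY, dY_p' H.pp, zero_mul]
  set V : LMat (J × Bool) ℂ := toBlk (m2 0 0 X Y) with hV
  have hVV : V * V = 0 := by
    rw [hV, ← toBlk_mul, m2_mul, hYX, hYY]
    simp only [zero_mul, mul_zero, add_zero, zero_add]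
    rw [← m2_zero]
    exact map_zero toBlk
  have l1p : Lev Φ 0 base (1 - p) := Lev.one.sub lp
  have lX : Lev Φ 1 base X := by
    rw [hX]
    unfold dX
    refine Lev.neg (lz.star.mul' (n := 1) (j := 1) ((Lev.smul _ ?_).add ?_) (by omega))
    · exact (lp.mul la).mul' lp (by omega)
    · exact (lp.mul la).mul' l1p (by omega)
  have lY : Lev Φ 1 base Y := by
    rw [hY]
    unfold dY
    exact Lev.neg (lz.star.mul' (n := 1) (j := 0) ((lp.mul lb).mul' l1p (by omega)) (by omega))
  have lc : Lev Φ 1 base c := by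
    rw [hcq]
    exact Lev.smul _ (l1p.mul' lT' (by omega))
  have hM : star (toBlk (m2 a b (star b) c)) = toBlk (m2 a b (star b) c) := by
    rw [← toBlk_star, m2_star, star_star, ha, hc]
  have key := path_unip (base := fun x : J × Bool => base x.1) (M' := M') (V := V) hs hfin hM h1 h2
    hVV (Lev.toBlk la (lb.up (by omega)) (lb.star.up (by omega)) lc) lM'
    (Lev.toBlk Lev.zero Lev.zero lX lY)
  rw [key]
  have e1 : (1 : LMat (J × Bool) ℂ) + V = toBlk (dW X Y) := by
    rw [hV, ← toBlk_one, ← map_add, dW_eq]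
  have e2 : star (1 + V) * toBlk (m2 a b (star b) c) * (1 + V) = toBlk (hD p z τ T T' 1) := by
    rw [e1, ← toBlk_star, ← toBlk_mul, ← toBlk_mul, hX, hY,
      dW_congr H.pp H.ps H.zz H.zz' H.zp.symm.symm ha hc hb hcp, haq, hbq]
    congr 1
    unfold hD
    rw [← hcq, one_smul, one_smul, star_add, star_mul, H.ps, H.zsp]
  have n1 : star (1 + V) * toBlk (m2 a b (star b) c) * (1 + V) *
      ((1 - V) * M' * star (1 - V)) = 1 := by
    have := upH_mul_upK (M := toBlk (m2 a b (star b) c)) (M' := M') (V := V) h1 hVV (star_one ℂ)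
    rwa [upH_one, upK_one] at this
  rw [e2] at n1 ⊢
  have n2 : toBlk (kD p z τ T T' 1 (1 / 4)) * toBlk (hD p z τ T T' 1) = 1 := by
    have := congrArg toBlk (TwoDat.kD_mul_hD H (r := 1) (c := 1 / 4) (by norm_num))
    push_cast at this
    rwa [toBlk_mul, toBlk_one] at this
  have n3 : (1 - V) * M' * star (1 - V) = toBlk (kD p z τ T T' 1 (1 / 4)) :=
    (left_inv_eq_right_inv n2 n1).symm
  rw [n3]
  exact path_r hs hfin H lp lz lτ lT lT'

end two

end Vale.Agent.P228.Inv
end
end
end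

section

section

/-!
# The limit signature of a hermitian `LMat ι ℂ` which is standard outside a finite set
-/

open Matrix

noncomputable section

namespace Vale.Agent.P228

namespace LMat

open Sgn Filter

variable {ι κ B : Type*}

open Classical in
/-- Signature of the restriction of `M` to the set `s` (`0` if `s` is infinite). -/
def sgnS (s : Set ι) (M : LMat ι ℂ) : ℤ :=
  if h : s.Finite then @sgn s h.fintype (Matrix.of fun (x y : s) => M x y) else 0

theorem sgnS_eq {s : Set ι} [Fintype s] (M : LMat ι ℂ) :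
    sgnS s M = sgn (Matrix.of fun (x y : s) => M x y) := by
  have h : s.Finite := Set.toFinite s
  have h' : h.fintype = ‹Fintype s› := Subsingleton.elim _ _
  rw [sgnS, dif_pos h, h']

theorem sgnS_of_equiv {α : Type*} [Fintype α] {s : Set ι} (e : α ≃ s) (M : LMat ι ℂ) :
    sgnS s M = sgn (Matrix.of fun (i j : α) => M (e i) (e j)) := by
  have : Fintype s := Fintype.ofEquiv α e
  rw [sgnS_eq, ← sgn_submatrix_equiv e]
  rfl

@[simp] theorem sgnS_empty (M : LMat ι ℂ) : sgnS (∅ : Set ι) M = 0 := by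
  have : Fintype (∅ : Set ι) := Set.fintypeEmpty
  rw [sgnS_eq]
  have : (Matrix.of fun (x y : (∅ : Set ι)) => M x y) = 0 := by
    ext x _
    exact absurd x.2 (Set.notMem_empty _)
  rw [this, sgn_zero]

theorem sgnS_dsum {s : Set (ι ⊕ κ)} (hs : s.Finite) (M : LMat ι ℂ) (N : LMat κ ℂ) :
    sgnS s (dsum M N) = sgnS (Sum.inl ⁻¹' s) M + sgnS (Sum.inr ⁻¹' s) N := by
  classical
  have := (hs.preimage Sum.inl_injective.injOn : (Sum.inl ⁻¹' s : Set ι).Finite).fintype
  have := (hs.preimage Sum.inr_injective.injOn : (Sum.inr ⁻¹' s : Set κ).Finite).fintype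
  let e : (Sum.inl ⁻¹' s : Set ι) ⊕ (Sum.inr ⁻¹' s : Set κ) ≃ s :=
    { toFun := Sum.elim (fun x => ⟨Sum.inl x, x.2⟩) (fun x => ⟨Sum.inr x, x.2⟩)
      invFun := fun x => match x with
        | ⟨Sum.inl y, hy⟩ => Sum.inl ⟨y, hy⟩
        | ⟨Sum.inr y, hy⟩ => Sum.inr ⟨y, hy⟩
      left_inv := by rintro (x | x) <;> rfl
      right_inv := by rintro ⟨x | x, hx⟩ <;> rfl }
  rw [sgnS_of_equiv e, sgnS_eq, sgnS_eq, ← sgn_fromBlocks_diag]
  congr 1
  ext (x | x) (y | y) <;> simp [e]

/-! ### The eventual value along `Finset B` -/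

/-- `base` has finite fibres. -/
def FF (base : ι → B) : Prop := ∀ b, (base ⁻¹' {b}).Finite

theorem FF.sumElim {base : ι → B} {base' : κ → B} (h : FF base) (h' : FF base') :
    FF (Sum.elim base base') := by
  intro b
  refine (((h b).image Sum.inl).union ((h' b).image Sum.inr)).subset ?_
  rintro (x | x) hx
  · exact Or.inl ⟨x, hx, rfl⟩
  · exact Or.inr ⟨x, hx, rfl⟩

/-- The rows of `M` over `b` are base-diagonal with zero signature. -/
structure StdAt (base : ι → B) (M : LMat ι ℂ) (b : B) : Prop where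
  row : ∀ x y, base x = b → M x y ≠ 0 → base y = b
  zero : sgnS (base ⁻¹' {b}) M = 0

/-- `M` is hermitian and standard outside the finite set `e₀`. -/
structure Good (base : ι → B) (e₀ : Finset B) (M : LMat ι ℂ) : Prop where
  herm : star M = M
  std : ∀ b, b ∉ e₀ → StdAt base M b

theorem herm_apply {M : LMat ι ℂ} (h : star M = M) (x y : ι) : star (M x y) = M y x := by
  have := congrArg (fun N : LMat ι ℂ => N y x) h
  simpa only [RCLike.star_def, star_apply] using this

theorem herm_ne {M : LMat ι ℂ} (h : star M = M) {x y : ι} (hxy : M x y ≠ 0) : M y x ≠ 0 := by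
  rw [← herm_apply h]
  exact star_ne_zero.2 hxy

theorem Good.closed {base : ι → B} {e₀ e : Finset B} {M : LMat ι ℂ} (h : Good base e₀ M)
    (he : e₀ ⊆ e) {x y : ι} (hx : base x ∈ e) (hxy : M x y ≠ 0) : base y ∈ e := by
  by_contra hy
  have := (h.std (base y) (fun h' => hy (he h'))).row y x rfl (herm_ne h.herm hxy)
  exact hy (this ▸ hx)

theorem StdAt.dsum {base : ι → B} {base' : κ → B} (hf : FF base) (hf' : FF base')
    {M : LMat ι ℂ} {N : LMat κ ℂ} {b : B}
    (hM : StdAt base M b) (hN : StdAt base' N b) :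
    StdAt (Sum.elim base base') (dsum M N) b where
  row := by
    rintro (x | x) (y | y) hx hxy
    · exact hM.row x y hx hxy
    · exact absurd rfl hxy
    · exact absurd rfl hxy
    · exact hN.row x y hx hxy
  zero := by
    rw [sgnS_dsum ((hf.sumElim hf') b)]
    have h1 := hM.zero
    have h2 := hN.zero
    show sgnS (base ⁻¹' {b}) M + sgnS (base' ⁻¹' {b}) N = 0
    rw [h1, h2, add_zero]

end LMat

end Vale.Agent.P228
end
end
end

section

section

/-! # The integer invariant `sInvL`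

`sInvL ws base h k` for a list `ws` of walls (paired up): iterate the slicing operator along the
pairs, take the limit signature.

* `rowStd_of_not_crosses`: over a location from which some wall is not crossed the rows of the last
  matrix are standard;
* `rowStd_of_baseDiag`: the same over a location over which `h, k` are base-diagonal. -/

open Matrix

set_option linter.unusedSectionVars false

noncomputable section

namespace Vale.Agent.P228.Inv

open Vale.Agent.P228.Top (Form Supp Crosses Corner BaseDiagOn IntInv)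

variable {B : Type}

/-- pair up a list of walls -/
def prs : List (Set B) → List ((B → Prop) × (B → Prop))
  | a :: b :: l => ((· ∈ a), (· ∈ b)) :: prs l
  | _ => []

@[simp] theorem prs_nil : prs ([] : List (Set B)) = [] := rfl

@[simp] theorem prs_cons_cons (a b : Set B) (l : List (Set B)) :
    prs (a :: b :: l) = ((· ∈ a), (· ∈ b)) :: prs l := rfl

section reach

variable {E : B → B → Prop}

variable {ι : Type} {base : ι → B} {h k : LMat ι ℂ}

end reach

end Vale.Agent.P228.Inv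
end
end
end
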