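import Vale.Agent.P228.MathlibUsed
import Vale.Agent.P228.Bdl.B1

set_option linter.all false

namespace AFast39ee1cx6a
@[reducible] noncomputable def a0.{u1} {x1 : Type u1} {x2 : ℕ} : Module ℝ (Vale.Agent.P228.LMat x1 (Vale.Agent.P228.Kos.GK x2)) := inferInstance
@[reducible] noncomputable def a1.{u1} {x1 : Type u1} {x2 : ℕ} : SMul ℝ (Vale.Agent.P228.LMat x1 (Vale.Agent.P228.Kos.GK x2)) := inferInstance
@[reducible] noncomputable def a2.{u1} {x1 : Type u1} : SMul ℝ (Vale.Agent.P228.LMat x1 ℂ) := inferInstance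
@[reducible] noncomputable def a3.{u1} {x1 : Type u1} {x2 : ℕ} : StarRing (Vale.Agent.P228.LMat x1 (Vale.Agent.P228.Kos.GK x2)) := inferInstance
@[reducible] noncomputable def a4 : SMulZeroClass ℝ ℂ := inferInstance
@[reducible] noncomputable def a5 : DistribSMul ℝ ℂ := inferInstance
@[reducible] noncomputable def a6 : DistribMulAction ℝ ℂ := inferInstance
@[reducible] def a7.{u1, u2} {x1 : Type u1} {x2 : Type u2} [x3 : Ring x2] [x4 : Algebra ℝ x2] : SMul ℝ (Vale.Agent.P228.LMat x1 x2) := inferInstance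
@[reducible] noncomputable def a8 {x1 : ℕ} : SMulZeroClass ℝ (ZMod x1 → ℂ) := inferInstance
@[reducible] noncomputable def a9.{u1} {x1 : Type u1} {x2 : ℕ} : Semiring (Vale.Agent.P228.LMat x1 (Vale.Agent.P228.Kos.GK x2)) := inferInstance
@[reducible] noncomputable def a10.{u1} {x1 : Type u1} {x2 : ℕ} : Algebra ℝ (Vale.Agent.P228.LMat x1 (Vale.Agent.P228.Kos.GK x2)) := inferInstance
@[reducible] def a11 {x1 : ℕ} : SMulZeroClass ℝ (EuclideanSpace ℝ (Fin x1)) := inferInstance
@[reducible] noncomputable def a12.{u1} {x1 : Type u1} : Semiring (Vale.Agent.P228.LMat x1 ℂ) := inferInstance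
@[reducible] noncomputable def a13.{u1} {x1 : Type u1} {x2 : ℕ} : NonAssocSemiring (Vale.Agent.P228.LMat x1 (Vale.Agent.P228.Kos.GK x2)) := inferInstance
@[reducible] def a14 {x1 : ℕ} : DistribSMul ℝ (EuclideanSpace ℝ (Fin x1)) := inferInstance
@[reducible] noncomputable def a15 {x1 : ℕ} : Algebra ℝ (ZMod x1 → ℂ) := inferInstance
@[reducible] noncomputable def a16.{u1} {x1 : Type u1} : NonAssocSemiring (Vale.Agent.P228.LMat x1 ℂ) := inferInstance
@[reducible] noncomputable def a17.{u1} {x1 : Type u1} {x2 : ℕ} : AddCommMonoid (Vale.Agent.P228.LMat x1 (Vale.Agent.P228.Kos.GK x2)) := inferInstance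
@[reducible] def a18 {x1 : ℕ} : Zero (EuclideanSpace ℝ (Fin x1)) := inferInstance
theorem a19 : CharZero ℝ := inferInstance
@[reducible] noncomputable def a20 {x1 : ℕ} : SMul ℝ (Vale.Agent.P228.LMat (Vale.Agent.P228.Cub.Cell (Fin x1)) ℂ) := inferInstance
@[reducible] noncomputable def a21 {x1 : ℕ} : StarRing (ZMod x1 → ℂ) := inferInstance
@[reducible] def a22 : AddMonoidWithOne ENNReal := inferInstance
theorem a23 {x1 : ℕ} : ProperSpace (EuclideanSpace ℝ (Fin x1)) := inferInstance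
@[reducible] def a24.{u1} {x1 : ℕ} {x2 : Type u1} : SMul (Vale.Agent.P228.Kos.GK x1) (Vale.Agent.P228.LMat x2 (Vale.Agent.P228.Kos.GK x1)) := inferInstance
theorem a25.{u1, u2} {x1 : Type u1} {x2 : Type u2} [x3 : Ring x1] [x4 : Ring x2] : MulHomClass (x1 →+* x2) x1 x2 := inferInstance
@[reducible] def a26.{u1} {x1 : ℕ} [x2 : Fact (Nat.Prime x1)] {x3 : Type u1} [x4 : AddAction ℤ_[x1] x3] : HVAdd ℤ_[x1] x3 x3 := inferInstance
@[reducible] def a27 {x1 : ℕ} : Add (EuclideanSpace ℝ (Fin x1)) := inferInstance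
@[reducible] noncomputable def a28 {x1 : ℕ} [x2 : Fact (Nat.Prime x1)] : TopologicalSpace ℤ_[x1] := inferInstance
@[reducible] noncomputable def a29.{u1} {x1 : Type u1} : Module ℝ (Vale.Agent.P228.LMat x1 ℂ) := inferInstance
@[reducible] def a30 {x1 : ℕ} : AddCommMagma (EuclideanSpace ℝ (Fin x1)) := inferInstance
@[reducible] def a31 {x1 : ℕ} : AddCommSemigroup (EuclideanSpace ℝ (Fin x1)) := inferInstance
@[reducible] def a32 {x1 : ℕ} : AddCommMonoid (EuclideanSpace ℝ (Fin x1)) := inferInstance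
theorem a33.{u1, u2} {x1 : Type u1} [x2 : Field x1] {x3 : Type u2} : AddMonoidHomClass ((x3 →₀ x1) →ₗ[x1] x3 →₀ x1) (x3 →₀ x1) (x3 →₀ x1) := inferInstance
theorem a34.{u1, u2} {x1 : Type u1} [x2 : Field x1] {x3 : Type u2} : DistribMulActionSemiHomClass ((x3 →₀ x1) →ₗ[x1] x3 →₀ x1) (⇑(RingHom.id x1)) (x3 →₀ x1) (x3 →₀ x1) := inferInstance
@[reducible] def a35.{u1} {x1 : Type u1} : SMul ℂ (Vale.Agent.P228.LMat x1 ℂ) := inferInstance
@[reducible] def a36 {x1 : ℕ} : Sub (EuclideanSpace ℝ (Fin x1)) := inferInstance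
theorem a37 : AddLeftMono ℝ := inferInstance
@[reducible] def a38 {x1 : ℕ} : SMulZeroClass (ZMod x1 → ℂ) (ZMod x1 → ℂ) := inferInstance
@[reducible] def a39 {x1 : ℕ} : SubNegMonoid (EuclideanSpace ℝ (Fin x1)) := inferInstance
@[reducible] def a40 {x1 : ℕ} : AddGroup (EuclideanSpace ℝ (Fin x1)) := inferInstance
theorem a41.{u1, u2} {x1 : Type u1} {x2 : Type u2} [x3 : Ring x1] [x4 : Ring x2] : NonUnitalRingHomClass (x1 →+* x2) x1 x2 := inferInstance
theorem a42.{u1} {x1 : Type u1} {x2 : ℕ} : NonUnitalRingHomClass (Vale.Agent.P228.LMat x1 (Vale.Agent.P228.Kos.GK x2) →+* Vale.Agent.P228.LMat x1 ℂ) (Vale.Agent.P228.LMat x1 (Vale.Agent.P228.Kos.GK x2)) (Vale.Agent.P228.LMat x1 ℂ) := inferInstance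
@[reducible] def a43 {x1 : ℕ} : AddZeroClass (EuclideanSpace ℝ (Fin x1)) := inferInstance
@[reducible] def a44 {x1 : ℕ} : AddMonoid (EuclideanSpace ℝ (Fin x1)) := inferInstance
@[reducible] def a45 : SMulZeroClass ℂ ℂ := inferInstance
theorem a46 : CovariantClass ℝ ℝ (Function.swap fun x1 x2 => x1 + x2) fun x1 x2 => x1 ≤ x2 := inferInstance
@[reducible] noncomputable def a47.{u1} {x1 : Type u1} {x2 : ℕ} : Star (Vale.Agent.P228.LMat x1 (Vale.Agent.P228.Kos.GK x2)) := inferInstance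
theorem a48 : AddRightReflectLE ℝ := inferInstance
theorem a49 {x1 : ℕ} : FiniteDimensional ℝ (Fin x1 → ℝ) := inferInstance
theorem a50.{u1} {x1 : ℕ} [x2 : Fact (Nat.Prime x1)] {x3 : Type u1} [x4 : TopologicalSpace x3] [x5 : AddAction ℤ_[x1] x3] [x6 : ContinuousVAdd ℤ_[x1] x3] : ContinuousConstVAdd ℤ_[x1] x3 := inferInstance
theorem a51 : PosMulReflectLT ℝ := inferInstance
@[reducible] def a52.{u1} {x1 : Type} {x2 : Type u1} [x3 : CommRing x2] [x4 : Algebra ℂ x2] : SMul ℂ (Vale.Agent.P228.LMat x1 x2) := inferInstance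
@[reducible] noncomputable def a53 : NormedSpace ℝ ℝ := inferInstance
@[reducible] def a54 : Monoid ℂ := inferInstance
@[reducible] def a55 {x1 : ℕ} : AddZero (EuclideanSpace ℝ (Fin x1)) := inferInstance
theorem a56 : PosMulReflectLE ℝ := inferInstance
@[reducible] noncomputable def a57.{u1} {x1 : Type} {x2 : Type u1} [x3 : CommRing x2] : Semiring (Vale.Agent.P228.LMat x1 x2) := inferInstance
@[reducible] noncomputable def a58 {x1 : ℕ} [x2 : Fact (Nat.Prime x1)] : Monoid ℤ_[x1] := inferInstance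
@[reducible] noncomputable def a59.{u1} {x1 : Type u1} : SMulZeroClass ℂ (Vale.Agent.P228.LMat x1 ℂ) := inferInstance
@[reducible] noncomputable def a60.{u1} {x1 : Type u1} : DistribMulAction ℝ (Vale.Agent.P228.LMat x1 ℂ) := inferInstance
@[reducible] noncomputable def a61.{u1} {x1 : Type u1} : Algebra ℝ (Vale.Agent.P228.LMat x1 ℂ) := inferInstance
@[reducible] noncomputable def a62 {x1 : ℕ} [x2 : Fact (Nat.Prime x1)] : Pow ℤ_[x1] ℕ := inferInstance
@[reducible] noncomputable def a63.{u1} {x1 : Type} {x2 : Type u1} [x3 : CommRing x2] : NonAssocSemiring (Vale.Agent.P228.LMat x1 x2) := inferInstance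
@[reducible] noncomputable def a64 {x1 : ℕ} [x2 : Fact (Nat.Prime x1)] : NPow ℤ_[x1] := inferInstance
theorem a65 : PosMulStrictMono ℝ := inferInstance
theorem a66 : OrderClosedTopology ℝ := inferInstance
@[reducible] def a67 {x1 : ℕ} : Add (EuclideanSpace ℝ (Fin (x1 + 1))) := inferInstance
@[reducible] noncomputable def a68.{u1} {x1 : Type} {x2 : Type u1} [x3 : CommRing x2] : NonAssocSemiring (Vale.Agent.P228.LMat x1 x2 × Vale.Agent.P228.LMat x1 x2) := inferInstance
@[reducible] def a69 {x1 : ℕ} : AddCommMagma (EuclideanSpace ℝ (Fin (x1 + 1))) := inferInstance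
@[reducible] def a70 {x1 : ℕ} : AddCommSemigroup (EuclideanSpace ℝ (Fin (x1 + 1))) := inferInstance
@[reducible] noncomputable def a71.{u1} {x1 : Type} {x2 : Type u1} [x3 : CommRing x2] : NonAssocSemiring (Vale.Agent.P228.LMat (x1 × Bool) x2) := inferInstance
@[reducible] def a72 {x1 : ℕ} : AddCommMonoid (EuclideanSpace ℝ (Fin (x1 + 1))) := inferInstance
@[reducible] noncomputable def a73.{u1} {x1 : Type} {x2 : Type u1} [x3 : CommRing x2] : Semiring (Vale.Agent.P228.LMat (x1 × Bool) x2) := inferInstance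
@[reducible] def a74 {x1 : ℕ} : DistribMulAction ℝ (EuclideanSpace ℝ (Fin x1)) := inferInstance
theorem a75.{u1} {x1 : Type} {x2 : Type u1} [x3 : CommRing x2] {x4 : Type} : RingHomClass (Vale.Agent.P228.LMat x1 x2 ≃+* Vale.Agent.P228.LMat x4 x2) (Vale.Agent.P228.LMat x1 x2) (Vale.Agent.P228.LMat x4 x2) := inferInstance
@[reducible] noncomputable def a76.{u1, u2} {x1 : Type u1} {x2 : Type u2} [x3 : Ring x2] : Semiring (Vale.Agent.P228.LMat x1 x2) := inferInstance
theorem a77 : IsOrderedRing ℤ := inferInstance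
@[reducible] def a78 : Pow ℂ ℕ := inferInstance
@[reducible] def a79 {x1 : ℕ} : Zero (EuclideanSpace ℝ (Fin (x1 + 1))) := inferInstance
@[reducible] noncomputable def a80.{u1} {x1 : Type u1} : DistribSMul ℂ (Vale.Agent.P228.LMat x1 ℂ) := inferInstance
theorem a81 : ClosedIicTopology ℝ := inferInstance
@[reducible] def a82 : NPow ℂ := inferInstance
@[reducible] noncomputable def a83.{u1} {x1 : Type u1} : AddCommMonoid (Vale.Agent.P228.LMat x1 ℂ) := inferInstance
@[reducible] noncomputable def a84.{u1} {x1 : Type u1} {x2 : ℕ} : Distrib (Vale.Agent.P228.LMat x1 (Vale.Agent.P228.Kos.GK x2)) := inferInstance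
theorem a85 : IsRightCancelAdd ℝ := inferInstance
end AFast39ee1cx6a
attribute [local instance] AFast39ee1cx6a.a0 AFast39ee1cx6a.a1 AFast39ee1cx6a.a2 AFast39ee1cx6a.a3
  AFast39ee1cx6a.a4 AFast39ee1cx6a.a5 AFast39ee1cx6a.a6 AFast39ee1cx6a.a7 AFast39ee1cx6a.a8
  AFast39ee1cx6a.a9 AFast39ee1cx6a.a10 AFast39ee1cx6a.a11 AFast39ee1cx6a.a12 AFast39ee1cx6a.a13
  AFast39ee1cx6a.a14 AFast39ee1cx6a.a15 AFast39ee1cx6a.a16 AFast39ee1cx6a.a17 AFast39ee1cx6a.a18
  AFast39ee1cx6a.a19 AFast39ee1cx6a.a20 AFast39ee1cx6a.a21 AFast39ee1cx6a.a22 AFast39ee1cx6a.a23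
  AFast39ee1cx6a.a24 AFast39ee1cx6a.a25 AFast39ee1cx6a.a26 AFast39ee1cx6a.a27 AFast39ee1cx6a.a28
  AFast39ee1cx6a.a29 AFast39ee1cx6a.a30 AFast39ee1cx6a.a31 AFast39ee1cx6a.a32 AFast39ee1cx6a.a33
  AFast39ee1cx6a.a34 AFast39ee1cx6a.a35 AFast39ee1cx6a.a36 AFast39ee1cx6a.a37 AFast39ee1cx6a.a38
  AFast39ee1cx6a.a39 AFast39ee1cx6a.a40 AFast39ee1cx6a.a41 AFast39ee1cx6a.a42 AFast39ee1cx6a.a43
  AFast39ee1cx6a.a44 AFast39ee1cx6a.a45 AFast39ee1cx6a.a46 AFast39ee1cx6a.a47 AFast39ee1cx6a.a48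
  AFast39ee1cx6a.a49 AFast39ee1cx6a.a50 AFast39ee1cx6a.a51 AFast39ee1cx6a.a52 AFast39ee1cx6a.a53
  AFast39ee1cx6a.a54 AFast39ee1cx6a.a55 AFast39ee1cx6a.a56 AFast39ee1cx6a.a57 AFast39ee1cx6a.a58
  AFast39ee1cx6a.a59 AFast39ee1cx6a.a60 AFast39ee1cx6a.a61 AFast39ee1cx6a.a62 AFast39ee1cx6a.a63
  AFast39ee1cx6a.a64 AFast39ee1cx6a.a65 AFast39ee1cx6a.a66 AFast39ee1cx6a.a67 AFast39ee1cx6a.a68
  AFast39ee1cx6a.a69 AFast39ee1cx6a.a70 AFast39ee1cx6a.a71 AFast39ee1cx6a.a72 AFast39ee1cx6a.a73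
  AFast39ee1cx6a.a74 AFast39ee1cx6a.a75 AFast39ee1cx6a.a76 AFast39ee1cx6a.a77 AFast39ee1cx6a.a78
  AFast39ee1cx6a.a79 AFast39ee1cx6a.a80 AFast39ee1cx6a.a81 AFast39ee1cx6a.a82 AFast39ee1cx6a.a83
  AFast39ee1cx6a.a84 AFast39ee1cx6a.a85
namespace AFast39ee1cx6b
theorem a0.{u1} {x1 : Type u1} {x2 : ℕ} : AddMonoidHomClass (Vale.Agent.P228.LMat x1 (Vale.Agent.P228.Kos.GK x2) →+* Vale.Agent.P228.LMat x1 ℂ) (Vale.Agent.P228.LMat x1 (Vale.Agent.P228.Kos.GK x2)) (Vale.Agent.P228.LMat x1 ℂ) := inferInstance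
theorem a1.{u1} {x1 : Type u1} {x2 : ℕ} : AddHomClass (Vale.Agent.P228.LMat x1 (Vale.Agent.P228.Kos.GK x2) →+* Vale.Agent.P228.LMat x1 ℂ) (Vale.Agent.P228.LMat x1 (Vale.Agent.P228.Kos.GK x2)) (Vale.Agent.P228.LMat x1 ℂ) := inferInstance
theorem a2.{u1} {x1 : Type u1} {x2 : ℕ} : StarModule ℝ (Vale.Agent.P228.LMat x1 (Vale.Agent.P228.Kos.GK x2)) := inferInstance
@[reducible] noncomputable def a3 : Module ℝ ℂ := inferInstance
theorem a4.{u1, u2} {x1 : Type u1} {x2 : Type u2} [x3 : Ring x1] [x4 : Ring x2] : AddMonoidHomClass (x1 →+* x2) x1 x2 := inferInstance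
theorem a5.{u1, u2} {x1 : Type u1} {x2 : Type u2} [x3 : Ring x1] [x4 : Ring x2] : AddHomClass (x1 →+* x2) x1 x2 := inferInstance
theorem a6 {x1 : ℕ} [x2 : Fact (Nat.Prime x1)] : AddMonoidHomClass (ℤ_[x1] →+* ZMod x1) ℤ_[x1] (ZMod x1) := inferInstance
theorem a7.{u1} {x1 : Type u1} {x2 : ℕ} : MulHomClass (Vale.Agent.P228.LMat x1 (Vale.Agent.P228.Kos.GK x2) →+* Vale.Agent.P228.LMat x1 ℂ) (Vale.Agent.P228.LMat x1 (Vale.Agent.P228.Kos.GK x2)) (Vale.Agent.P228.LMat x1 ℂ) := inferInstance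
theorem a8 {x1 : ℕ} : ContinuousSub (EuclideanSpace ℝ (Fin x1)) := inferInstance
theorem a9 {x1 : ℕ} : T2Space (EuclideanSpace ℝ (Fin x1)) := inferInstance
theorem a10.{u1, u2} {x1 : Type u1} [x2 : Field x1] {x3 : Type u2} : ZeroHomClass ((x3 →₀ x1) →ₗ[x1] x3 →₀ x1) (x3 →₀ x1) (x3 →₀ x1) := inferInstance
@[reducible] noncomputable def a11.{u1} {x1 : Type u1} : SMulZeroClass ℝ (Vale.Agent.P228.LMat x1 ℂ) := inferInstance
@[reducible] noncomputable def a12.{u1} {x1 : Type u1} : DistribSMul ℝ (Vale.Agent.P228.LMat x1 ℂ) := inferInstance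
end AFast39ee1cx6b
attribute [local instance] AFast39ee1cx6b.a0 AFast39ee1cx6b.a1 AFast39ee1cx6b.a2 AFast39ee1cx6b.a3
  AFast39ee1cx6b.a4 AFast39ee1cx6b.a5 AFast39ee1cx6b.a6 AFast39ee1cx6b.a7 AFast39ee1cx6b.a8
  AFast39ee1cx6b.a9 AFast39ee1cx6b.a10 AFast39ee1cx6b.a11 AFast39ee1cx6b.a12
section

section

/-!
P228, block [S]: reindexing and additivity of `sInv`.
-/

open Matrix

set_option linter.unusedSectionVars false
set_option linter.unusedSimpArgs false

noncomputable section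

namespace Vale.Agent.P228.Inv

open LMat Sgn

variable {B : Type*}

section reindex

variable {K : Type*} [CommRing K] [StarRing K] [Algebra ℂ K]

theorem prj_reindex {ι κ : Type} (σ : ι ≃ κ) (base : κ → B) (w : Set B) :
    (prj w base : LMat κ K) = LMat.reindex σ (prj w (base ∘ σ)) := by
  unfold prj
  rw [reindex_diag]
  congr 1
  funext i
  exact (congrArg (ind w base) (σ.apply_symm_apply i)).symm

theorem stepS_reindex {ι κ : Type} (σ : ι ≃ κ) (base : κ → B) (w : Wall B) (th th' : LMat ι K) :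
    stepS w base (LMat.reindex σ th) (LMat.reindex σ th') =
      LMat.reindex (σ.prodCongr (Equiv.refl Bool)) (stepS w (base ∘ σ) th th') := by
  unfold stepS
  have h := Sop_map (R := LMat ι K) (R' := LMat κ K) (LMat.reindex σ : LMat ι K ≃+* LMat κ K)
    (fun x => by ext i j; simp only [RingHom.coe_coe, LMat.reindex_apply, LMat.smul_apply]) (prj w.1 (base ∘ σ)) (prj w.2 (base ∘ σ)) th th'
  rw [prj_reindex σ, prj_reindex σ]
  refine (congrArg toBlk h.symm).trans ?_
  ext ⟨i, a⟩ ⟨j, b⟩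
  rfl

theorem stepI_reindex {ι κ : Type} (σ : ι ≃ κ) (base : κ → B) (w : Wall B) (th th' : LMat ι K) :
    stepI w base (LMat.reindex σ th) (LMat.reindex σ th') =
      LMat.reindex (σ.prodCongr (Equiv.refl Bool)) (stepI w (base ∘ σ) th th') := by
  unfold stepI
  have h := SopInv_map (R := LMat ι K) (R' := LMat κ K) (LMat.reindex σ : LMat ι K ≃+* LMat κ K)
    (fun x => by ext i j; simp only [RingHom.coe_coe, LMat.reindex_apply, LMat.smul_apply]) (prj w.1 (base ∘ σ)) (prj w.2 (base ∘ σ)) th th'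
  rw [prj_reindex σ, prj_reindex σ]
  refine (congrArg toBlk h.symm).trans ?_
  ext ⟨i, a⟩ ⟨j, b⟩
  rfl

end reindex

theorem sgnOn_reindex (e : Finset B) {ι κ : Type} (σ : ι ≃ κ) (base : κ → B) (M : LMat ι ℂ) :
    sgnOn e base (LMat.reindex σ M) = sgnOn e (base ∘ σ) M := by
  classical
  set τ : {i : ι // (base ∘ σ) i ∈ e} ≃ {j : κ // base j ∈ e} :=
    σ.subtypeEquiv (fun i => Iff.rfl) with hτ
  by_cases h : Finite {i : ι // (base ∘ σ) i ∈ e}
  · have h' : Finite {j : κ // base j ∈ e} := Finite.of_equiv _ τ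
    let _ : Fintype {i : ι // (base ∘ σ) i ∈ e} := Fintype.ofFinite _
    let _ : Fintype {j : κ // base j ∈ e} := Fintype.ofFinite _
    rw [sgnOn_eq, sgnOn_eq, ← sgn_reindex τ]
    congr 1
  · have h' : ¬ Finite {j : κ // base j ∈ e} := fun h' => h (Finite.of_equiv _ τ.symm)
    unfold sgnOn
    rw [dif_neg h, dif_neg h']

theorem sInv_reindex (e : Finset B) (ws : List (Wall B)) {ι κ : Type} (σ : ι ≃ κ)
    (base : κ → B) (th th' : LMat ι ℂ) :
    sInv e ws base (LMat.reindex σ th) (LMat.reindex σ th') = sInv e ws (base ∘ σ) th th' := by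
  induction ws generalizing ι κ with
  | nil => exact sgnOn_reindex e σ base th
  | cons w ws ih =>
    rw [sInv_cons, sInv_cons, stepS_reindex, stepI_reindex, ih]
    rfl

/-! ### additivity -/

section add

variable {K : Type*} [CommRing K] [StarRing K] [Algebra ℂ K]

/-- the block diagonal homomorphism -/
def blkHom (ι : Type) (K : Type*) [CommRing K] [StarRing K] [Algebra ℂ K] :
    LMat ι K × LMat ι K →+* LMat (ι × Bool) K where
  toFun x := blk x.1 0 0 x.2
  map_one' := blk_one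
  map_zero' := blk_zero
  map_mul' x y := by
    rw [blk_mul]
    simp
  map_add' x y := by
    rw [blk_add]
    simp

theorem blkHom_apply {ι : Type} (x : LMat ι K × LMat ι K) :
    blkHom ι K x = blk x.1 0 0 x.2 := rfl

theorem blkHom_I {ι : Type} (x : LMat ι K × LMat ι K) :
    blkHom ι K (Complex.I • x) = Complex.I • blkHom ι K x := by
  rw [blkHom_apply, blkHom_apply, blk_smul]
  simp

theorem prj_blk {ι : Type} (base : ι → B) (w : Set B) :
    (prj w (fun x : ι × Bool => base x.1) : LMat (ι × Bool) K) =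
      blkHom ι K (prj w base, prj w base) := by
  rw [blkHom_apply]
  exact LMat.diag_fst (ind w base)

/-- swap of the last two factors -/
def swapB (ι : Type) : (ι × Bool) × Bool ≃ (ι × Bool) × Bool where
  toFun x := ((x.1.1, x.2), x.1.2)
  invFun x := ((x.1.1, x.2), x.1.2)
  left_inv _ := rfl
  right_inv _ := rfl

theorem toBlk_map_blkHom {ι : Type} (M M' : Matrix Bool Bool (LMat ι K))
    (N : Matrix Bool Bool (LMat ι K × LMat ι K)) (h1 : N.map Prod.fst = M)
    (h2 : N.map Prod.snd = M') :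
    toBlk (N.map (blkHom ι K)) = LMat.reindex (swapB ι) (blk (toBlk M) 0 0 (toBlk M')) := by
  subst h1 h2
  ext ⟨⟨i, a⟩, s⟩ ⟨⟨j, b⟩, t⟩
  cases a <;> cases b <;> rfl

theorem Sop_prod_fst {R S : Type*} [Ring R] [Ring S] [Algebra ℂ R] [Algebra ℂ S]
    (P Q th th' : R × S) : (Sop P Q th th').map Prod.fst = Sop P.1 Q.1 th.1 th'.1 :=
  Sop_map (RingHom.fst R S) (fun _ => rfl) P Q th th'

theorem Sop_prod_snd {R S : Type*} [Ring R] [Ring S] [Algebra ℂ R] [Algebra ℂ S]
    (P Q th th' : R × S) : (Sop P Q th th').map Prod.snd = Sop P.2 Q.2 th.2 th'.2 :=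
  Sop_map (RingHom.snd R S) (fun _ => rfl) P Q th th'

theorem SopInv_prod_fst {R S : Type*} [Ring R] [Ring S] [Algebra ℂ R] [Algebra ℂ S]
    (P Q th th' : R × S) : (SopInv P Q th th').map Prod.fst = SopInv P.1 Q.1 th.1 th'.1 :=
  SopInv_map (RingHom.fst R S) (fun _ => rfl) P Q th th'

theorem SopInv_prod_snd {R S : Type*} [Ring R] [Ring S] [Algebra ℂ R] [Algebra ℂ S]
    (P Q th th' : R × S) : (SopInv P Q th th').map Prod.snd = SopInv P.2 Q.2 th.2 th'.2 :=
  SopInv_map (RingHom.snd R S) (fun _ => rfl) P Q th th'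

theorem stepS_blk {ι : Type} (base : ι → B) (w : Wall B) (h k h' k' : LMat ι K) :
    stepS w (fun x : ι × Bool => base x.1) (blk h 0 0 h') (blk k 0 0 k') =
      LMat.reindex (swapB ι) (blk (stepS w base h k) 0 0 (stepS w base h' k')) := by
  unfold stepS
  rw [prj_blk, prj_blk]
  have e := Sop_map (blkHom ι K) blkHom_I (prj w.1 base, prj w.1 base)
    (prj w.2 base, prj w.2 base) (h, h') (k, k')
  refine (congrArg toBlk e.symm).trans ?_
  exact toBlk_map_blkHom _ _ _ (Sop_prod_fst _ _ _ _) (Sop_prod_snd _ _ _ _)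

theorem stepI_blk {ι : Type} (base : ι → B) (w : Wall B) (h k h' k' : LMat ι K) :
    stepI w (fun x : ι × Bool => base x.1) (blk h 0 0 h') (blk k 0 0 k') =
      LMat.reindex (swapB ι) (blk (stepI w base h k) 0 0 (stepI w base h' k')) := by
  unfold stepI
  rw [prj_blk, prj_blk]
  have e := SopInv_map (blkHom ι K) blkHom_I (prj w.1 base, prj w.1 base)
    (prj w.2 base, prj w.2 base) (h, h') (k, k')
  refine (congrArg toBlk e.symm).trans ?_
  exact toBlk_map_blkHom _ _ _ (SopInv_prod_fst _ _ _ _) (SopInv_prod_snd _ _ _ _)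

end add

theorem sgnOn_blk (e : Finset B) {ι : Type} (base : ι → B) (M M' : LMat ι ℂ) :
    sgnOn e (fun x : ι × Bool => base x.1) (blk M 0 0 M') = sgnOn e base M + sgnOn e base M' := by
  classical
  set τ : {x : ι × Bool // base x.1 ∈ e} ≃ {i : ι // base i ∈ e} ⊕ {i : ι // base i ∈ e} :=
    { toFun := fun x => if x.1.2 then Sum.inr ⟨x.1.1, x.2⟩ else Sum.inl ⟨x.1.1, x.2⟩
      invFun := fun y => Sum.elim (fun i => ⟨(i.1, false), i.2⟩) (fun i => ⟨(i.1, true), i.2⟩) y
      left_inv := by rintro ⟨⟨i, b⟩, h⟩; cases b <;> rfl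
      right_inv := by rintro (i | i) <;> rfl } with hτ
  by_cases h : Finite {i : ι // base i ∈ e}
  · let _ : Fintype {i : ι // base i ∈ e} := Fintype.ofFinite _
    have h' : Finite {x : ι × Bool // base x.1 ∈ e} := Finite.of_equiv _ τ.symm
    let _ : Fintype {x : ι × Bool // base x.1 ∈ e} := Fintype.ofFinite _
    rw [sgnOn_eq, sgnOn_eq, sgnOn_eq, ← sgn_fromBlocks_diag, ← sgn_reindex τ]
    congr 1
    ext (i | i) (j | j) <;> rfl
  · have h' : ¬ Finite {x : ι × Bool // base x.1 ∈ e} := by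
      intro h'
      exact h (Finite.of_injective (fun i : {i : ι // base i ∈ e} =>
        (⟨(i.1, false), i.2⟩ : {x : ι × Bool // base x.1 ∈ e})) (by
          rintro ⟨i, hi⟩ ⟨j, hj⟩ hij
          simpa using hij))
    unfold sgnOn
    rw [dif_neg h, dif_neg h', dif_neg h, add_zero]

/-- additivity of `sInv` -/
theorem sInv_blk (e : Finset B) (ws : List (Wall B)) {ι : Type} (base : ι → B)
    (h k h' k' : LMat ι ℂ) :
    sInv e ws (fun x : ι × Bool => base x.1) (blk h 0 0 h') (blk k 0 0 k') =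
      sInv e ws base h k + sInv e ws base h' k' := by
  induction ws generalizing ι with
  | nil => exact sgnOn_blk e base h h'
  | cons w ws ih =>
    rw [sInv_cons, sInv_cons, sInv_cons, stepS_blk, stepI_blk, sInv_reindex]
    exact ih (fun x : ι × Bool => base x.1) _ _ _ _

end Vale.Agent.P228.Inv
end
end
end

section

section

/-!
P228: positions, walls and boxes for the recursive description `CellR m` of the cells of `ℤ^(2m)`.
-/

noncomputable section

namespace Vale.Agent.P228.Std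

open LMat Vale.Agent.P228.Inv

/-- positions of `ℤ^(2m)` -/
def PosR : ℕ → Type
  | 0 => Unit
  | m + 1 => (ℤ × ℤ) × PosR m

/-- position of a cell -/
def baseR : (m : ℕ) → CellR m → PosR m
  | 0, _ => ()
  | m + 1, x => (x.1.1, baseR m x.2)

/-- lift of a pair of walls to the second factor -/
def liftW {B₁ B₂ : Type} (w : Inv.Wall B₂) : Inv.Wall (B₁ × B₂) :=
  ({p | p.2 ∈ w.1}, {p | p.2 ∈ w.2})

/-- the pair of coordinate walls of the first factor -/
def headW (B₂ : Type) : Inv.Wall ((ℤ × ℤ) × B₂) :=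
  ({p | 0 ≤ p.1.1}, {p | 0 ≤ p.1.2})

/-- the `m` pairs of coordinate walls of `ℤ^(2m)` -/
def wallsR : (m : ℕ) → List (Inv.Wall (PosR m))
  | 0 => []
  | m + 1 => (headW (PosR m) :: (wallsR m).map liftW : List (Inv.Wall ((ℤ × ℤ) × PosR m)))

/-- a box of `ℤ²` -/
def box2 (N : ℕ) : Finset (ℤ × ℤ) :=
  (Finset.Icc (-(N : ℤ)) N) ×ˢ (Finset.Icc (-(N : ℤ)) N)

/-- a box of `ℤ^(2m)` -/
def boxR (N : ℕ) : (m : ℕ) → Finset (PosR m)
  | 0 => ({()} : Finset Unit)
  | m + 1 => (box2 N ×ˢ boxR N m : Finset ((ℤ × ℤ) × PosR m))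

/-- the standard form -/
def sigR (m : ℕ) : LMat (CellR m) ℂ := (dualR m).J * (dualR m).e

/-- its inverse -/
def sigR' (m : ℕ) : LMat (CellR m) ℂ := (dualR m).e * (dualR m).Ji

/-- coordinates at distance at most `c` -/
def CloseR (c : ℕ) : (m : ℕ) → PosR m → PosR m → Prop
  | 0, _, _ => True
  | m + 1, x, y => |x.1.1 - y.1.1| ≤ c ∧ |x.1.2 - y.1.2| ≤ c ∧ CloseR c m x.2 y.2

end Vale.Agent.P228.Std
end
end
end

section

section

/-! Integer lattice data extracted from a small local action of `ℤ_[p]`: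
positions are `Fin n → ℤ`, distances are measured in the sup norm (`Close r v w`). -/

namespace Vale.Agent.P228.Geo

/-- sup-norm distance at most `r`. -/
def Close {n : ℕ} (r : ℕ) (v w : Fin n → ℤ) : Prop := ∀ i, |v i - w i| ≤ (r : ℤ)

/-- `v` lies in the box of radius `r` around the origin. -/
def InBox {n : ℕ} (r : ℕ) (v : Fin n → ℤ) : Prop := ∀ i, |v i| ≤ (r : ℤ)

/-- lattice maps `F g : ℤ^n → ℤ^n`, `g : ZMod q`: an almost action (error `Rl 1`) inside the box of
radius `Rad`, coarsely (error `e`) the identity everywhere. `Rl 0 ≤ Rl 1 ≤ ... ≤ Rl L` are the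
fine scales (each one is preserved by the `F g` up to passing to the next one). -/
structure Maps (n q K₀ L : ℕ) where
  /-- radius of the box in which `F` is an almost action -/
  Rad : ℕ
  /-- coarse scale -/
  e : ℕ
  /-- fine scales -/
  Rl : ℕ → ℕ
  /-- the maps -/
  F : ZMod q → (Fin n → ℤ) → (Fin n → ℤ)
  F_zero : ∀ v, F 0 v = v
  F_lip : ∀ i < L, ∀ g v w, Close (K₀ * Rl i) v w → Close (Rl (i + 1)) (F g v) (F g w)
  F_disp : ∀ g v, Close e (F g v) v
  F_mul : ∀ g h v, InBox Rad v → Close (Rl 1) (F g (F h v)) (F (g + h) v)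
  Rl_pos : 1 ≤ Rl 0
  Rl_step : ∀ i < L, K₀ * Rl i ≤ Rl (i + 1)
  Rl_le_e : Rl L ≤ e

namespace Maps

variable {n q K₀ L : ℕ} (D : Maps n q K₀ L)

/-- one-step graded relation (to be read `x ≈ g • y`): always coarse
(`K₀ * e`), and fine (`K₀ * Rl L`) if one of the two points lies in the box of radius `Rin`. -/
def St (Rin : ℕ) (g : ZMod q) (x y : Fin n → ℤ) : Prop :=
  Close (K₀ * D.e) x y ∧
    ((InBox Rin x ∨ InBox Rin y) →
      (Close (K₀ * D.Rl L) x (D.F g y) ∨ Close (K₀ * D.Rl L) y (D.F (-g) x)))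

/-- `r`-step composition of `St`. -/
inductive Near (Rin : ℕ) : ZMod q → ℕ → (Fin n → ℤ) → (Fin n → ℤ) → Prop
  | zero (x : Fin n → ℤ) : Near Rin 0 0 x x
  | step {g h : ZMod q} {r : ℕ} {x y z : Fin n → ℤ} :
      D.St Rin g x y → Near Rin h r y z → Near Rin (g + h) (r + 1) x z

end Maps

/-- All data delivered by the geometric block. `K₀` = support constant of the chain block,
`L` = number of fine scales, `C` = locality constant of the invariant, `M` = number of fine steps,
`D` = number of label sets. -/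
structure DiscData (p n k K₀ L C M D : ℕ) extends Maps n (p ^ k) K₀ L where
  /-- box inside which `St` is fine -/
  Rin : ℕ
  /-- window: box inside which chains of at most `M` steps are controlled -/
  Win : ℕ
  /-- radius around the origin where the label sets cover -/
  rho : ℕ
  /-- fine displacement off the label sets -/
  eta : ℕ
  /-- the label sets -/
  U : Fin D → Set (Fin n → ℤ)
  /-- the labels -/
  lab : Fin D → (Fin n → ℤ) → ZMod p
  k_pos : 1 ≤ k
  Rin_le : Rin + K₀ * e + K₀ ≤ Rad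
  Win_le : Win + 2 * e ≤ Rin
  e_le : C * e ≤ Win
  eta_le : C * eta ≤ rho
  rho_le : rho ≤ Win
  near_coarse : ∀ g r x y, r ≤ M → toMaps.Near Rin g r x y → InBox Win y → Close (2 * e) x y
  near_label : ∀ j g r x y, r ≤ M → toMaps.Near Rin g r x y → InBox Win y →
    x ∈ U j → y ∈ U j → lab j x = lab j y + ((ZMod.cast g : ZMod p))
  cover : ∀ y, InBox Win y →
    (∃ j, ∀ g r x, r ≤ M → toMaps.Near Rin g r x y → x ∈ U j) ∨
    (¬ InBox rho y ∧ ∀ g r x, r ≤ M → toMaps.Near Rin g r x y → Close eta x y)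

end Vale.Agent.P228.Geo
end
end

section

section

/-! Based complexes with augmentation, acyclic carriers, carried maps and homotopies
(helper819). -/

namespace Vale.Agent.P228.Cub

open Finsupp

variable {k : Type*} [Field k] {B : Type*}

/-- a based augmented complex -/
structure BCx (k : Type*) [Field k] (B : Type*) where
  /-- degree of a basis element -/
  deg : B → ℕ
  /-- boundary -/
  d : (B →₀ k) →ₗ[k] (B →₀ k)
  /-- augmentation -/
  e : (B →₀ k) →ₗ[k] k
  hd : ∀ b, Sup (fun c => deg c + 1 = deg b) (d (single b 1))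
  hdd : ∀ x, d (d x) = 0
  hed : ∀ x, e (d x) = 0

namespace BCx

variable (C : BCx k B)

/-- an acyclic set of basis elements -/
structure Acyc (A : B → Prop) : Prop where
  vert : ∃ y : B →₀ k, Sup (fun c => A c ∧ C.deg c = 0) y ∧ C.e y = 1
  fill : ∀ (m : ℕ) (x : B →₀ k), Sup (fun c => A c ∧ C.deg c = m) x → C.d x = 0 →
    (m = 0 → C.e x = 0) → ∃ y, Prim C.deg C.d A (m + 1) x y

/-- an acyclic carrier -/
structure Carr (A : B → B → Prop) : Prop where
  acyc : ∀ b, C.Acyc (A b)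
  mono : ∀ b, ∀ b' ∈ (C.d (single b 1)).support, ∀ c, A b' c → A b c

/-- chain maps of degree zero carried by `A` which multiply the augmentation by `l` -/
structure IsMap (A : B → B → Prop) (l : k) (f : (B →₀ k) →ₗ[k] (B →₀ k)) : Prop where
  sup : ∀ b, Sup (fun c => A b c ∧ C.deg c = C.deg b) (f (single b 1))
  comm : ∀ x, C.d (f x) = f (C.d x)
  aug : ∀ b, C.deg b = 0 → C.e (f (single b 1)) = l * C.e (single b 1)

/-- homotopies carried by `A` -/
structure IsHom (A : B → B → Prop) (F H : (B →₀ k) →ₗ[k] (B →₀ k)) : Prop where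
  sup : ∀ b, Sup (fun c => A b c ∧ C.deg c = C.deg b + 1) (H (single b 1))
  eq : ∀ x, F x = C.d (H x) + H (C.d x)

variable {C}

theorem d_deg_zero {b : B} (h0 : C.deg b = 0) : C.d (single b (1 : k)) = 0 := by
  by_contra hne
  obtain ⟨c, hc⟩ := Finsupp.support_nonempty_iff.2 hne
  have hdeg : C.deg c + 1 = C.deg b := C.hd b c hc
  omega

theorem d_sup_zero {x : B →₀ k} (hx : Sup (fun c => C.deg c = 0) x) : C.d x = 0 := by
  rw [lin_apply]
  exact Finset.sum_eq_zero fun b hb => by rw [d_deg_zero (hx b hb), smul_zero]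

/-- existence of carried chain maps, relative form -/
theorem exists_map_rel {A : B → B → Prop} (hA : C.Carr A) (S : B → Prop)
    (hS : ∀ b, S b → ∀ b' ∈ (C.d (single b 1)).support, S b')
    (f₀ : (B →₀ k) →ₗ[k] (B →₀ k))
    (h₀ : ∀ b, S b → Sup (fun c => A b c ∧ C.deg c = C.deg b) (f₀ (single b 1)) ∧
      C.d (f₀ (single b 1)) = f₀ (C.d (single b 1)) ∧
      (C.deg b = 0 → C.e (f₀ (single b 1)) = C.e (single b 1))) :
    ∃ f, C.IsMap A 1 f ∧ ∀ b, S b → f (single b 1) = f₀ (single b 1) := by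
  obtain ⟨f, h1, h2, h3, h4⟩ := exists_chainMap C.hd C.hdd C.e C.e C.hed A hA.mono
    (fun b hb => by
      obtain ⟨y, hy, hy1⟩ := (hA.acyc b).vert
      refine ⟨C.e (single b 1) • y, sup_smul _ hy, by rw [map_smul, hy1]; simp, ?_⟩
      rw [map_smul, d_sup_zero (sup_mono (fun c hc => hc.2) hy), smul_zero])
    (fun b m hm x hx hdx h0 => (hA.acyc b).fill m x hx hdx h0) S hS f₀ h₀
  exact ⟨f, ⟨h1, h2, fun b hb => by rw [h3 b hb, one_mul]⟩, h4⟩

/-- existence of carried chain maps with prescribed values on vertices -/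
theorem exists_map_vert {A : B → B → Prop} (hA : C.Carr A) (v : B → B)
    (hv : ∀ b, C.deg b = 0 → A b (v b) ∧ C.deg (v b) = 0 ∧
      C.e (single (v b) 1) = C.e (single b 1)) :
    ∃ f, C.IsMap A 1 f ∧ ∀ b, C.deg b = 0 → f (single b 1) = single (v b) 1 := by
  obtain ⟨f, h1, h2⟩ := exists_map_rel hA (fun b => C.deg b = 0)
    (fun b hb b' hb' => by
      rw [d_deg_zero hb] at hb'
      simp at hb')
    (Finsupp.linearCombination k fun b => single (v b) (1 : k))
    (fun b hb => by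
      obtain ⟨h1, h2, h3⟩ := hv b hb
      rw [d_deg_zero hb, map_zero, Finsupp.linearCombination_single, one_smul]
      refine ⟨sup_single ⟨h1, by rw [h2, hb]⟩, d_deg_zero h2, fun _ => h3⟩)
  refine ⟨f, h1, fun b hb => ?_⟩
  rw [h2 b hb, Finsupp.linearCombination_single, one_smul]

/-- two carried chain maps with the same augmentation are homotopic inside the carrier -/
theorem exists_hom {A : B → B → Prop} (hA : C.Carr A) {l : k}
    {f g : (B →₀ k) →ₗ[k] (B →₀ k)} (hf : C.IsMap A l f) (hg : C.IsMap A l g) :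
    ∃ H, C.IsHom A (f - g) H := by
  obtain ⟨H, h1, h2⟩ := exists_homotopy (d' := C.d) (deg' := C.deg) C.hd C.hdd A hA.mono 0 1 (f - g)
    (fun x => by
      simp only [LinearMap.sub_apply, map_sub, hf.comm, hg.comm, one_smul])
    (fun b => by
      rw [LinearMap.sub_apply]
      exact sup_sub (by simpa only [add_zero] using hf.sup b) (by simpa only [add_zero] using hg.sup b))
    (fun b x hx hdx h0 => by
      refine (hA.acyc b).fill _ x hx hdx fun hb => ?_
      have hb' : C.deg b = 0 := by simpa using hb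
      rw [h0 hb, LinearMap.sub_apply, map_sub, hf.aug b hb', hg.aug b hb', sub_self])
  refine ⟨H, fun b => by simpa only [add_zero] using h1 b, fun x => ?_⟩
  rw [h2 x, one_smul]

theorem IsMap.mono {A A' : B → B → Prop} {l : k} {f : (B →₀ k) →ₗ[k] (B →₀ k)}
    (hf : C.IsMap A l f) (h : ∀ b c, A b c → A' b c) : C.IsMap A' l f :=
  ⟨fun b => sup_mono (fun c hc => ⟨h b c hc.1, hc.2⟩) (hf.sup b), hf.comm, hf.aug⟩

theorem IsMap.id {A : B → B → Prop} (h : ∀ b, A b b) : C.IsMap A 1 LinearMap.id :=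
  ⟨fun b => sup_single ⟨h b, rfl⟩, fun x => rfl, fun b _ => by simp only [LinearMap.id_coe, id_eq, one_mul]⟩

theorem IsMap.comp {A A' A'' : B → B → Prop} {l l' : k} {f g : (B →₀ k) →ₗ[k] (B →₀ k)}
    (hf : C.IsMap A l f) (hg : C.IsMap A' l' g)
    (h : ∀ b c c', A b c → A' c c' → A'' b c') : C.IsMap A'' (l' * l) (g ∘ₗ f) := by
  refine ⟨fun b => ?_, fun x => ?_, fun b hb => ?_⟩
  · refine sup_lin g _ fun c hc => ?_
    have h1 := hf.sup b c hc
    refine sup_mono (fun c' hc' => ⟨h b c c' h1.1 hc'.1, ?_⟩) (hg.sup c)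
    rw [hc'.2, h1.2]
  · rw [LinearMap.comp_apply, LinearMap.comp_apply, hg.comm, hf.comm]
  · have h1 : C.e (g (f (single b 1))) = l' * C.e (f (single b 1)) := by
      have e1 := lin_apply (C.e ∘ₗ g) (f (single b 1))
      have e2 := lin_apply C.e (f (single b 1))
      simp only [LinearMap.comp_apply] at e1
      rw [e1, e2, Finset.mul_sum]
      refine Finset.sum_congr rfl fun c hc => ?_
      have hdeg : C.deg c = 0 := by rw [(hf.sup b c hc).2, hb]
      rw [hg.aug c hdeg]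
      simp only [smul_eq_mul]
      ring
    rw [LinearMap.comp_apply, h1, hf.aug b hb]
    ring

theorem IsMap.smul_add {A : B → B → Prop} {l l' : k} {f g : (B →₀ k) →ₗ[k] (B →₀ k)}
    (hf : C.IsMap A l f) (hg : C.IsMap A l' g) (s t : k) :
    C.IsMap A (s * l + t * l') (s • f + t • g) := by
  refine ⟨fun b => ?_, fun x => ?_, fun b hb => ?_⟩
  · rw [LinearMap.add_apply, LinearMap.smul_apply, LinearMap.smul_apply]
    exact sup_add (sup_smul _ (hf.sup b)) (sup_smul _ (hg.sup b))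
  · simp only [LinearMap.add_apply, LinearMap.smul_apply, map_add, map_smul, hf.comm, hg.comm]
  · simp only [LinearMap.add_apply, LinearMap.smul_apply, map_add, map_smul, hf.aug b hb,
      hg.aug b hb, smul_eq_mul]
    ring

/-- a chain map which is homotopic to the identity (with no control) preserves the
augmentation -/
theorem aug_of_hom {f H : (B →₀ k) →ₗ[k] (B →₀ k)}
    (hH : ∀ x, f x - x = C.d (H x) + H (C.d x)) {b : B} (hb : C.deg b = 0) :
    C.e (f (single b 1)) = C.e (single b 1) := by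
  have h := hH (single b 1)
  rw [d_deg_zero hb, map_zero, add_zero] at h
  have h2 : f (single b 1) = C.d (H (single b 1)) + single b 1 := by
    rw [← h]; abel
  rw [h2, map_add, C.hed, zero_add]

end BCx

end Vale.Agent.P228.Cub
end
end

section

section

namespace Vale.Agent.P228

open Set Topology MeasureTheory Metric
open scoped ENNReal

attribute [local instance] msZ bsZ

set_option linter.unusedSectionVars false

variable {p : ℕ} [Fact p.Prime]

/-- continuity of parametric averages -/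
theorem continuousOn_avg {X E : Type*} [TopologicalSpace X] [NormedAddCommGroup E]
    [NormedSpace ℝ E] {W : Set X} {F : ℤ_[p] → X → E}
    (hF : ContinuousOn (Function.uncurry F) (univ ×ˢ W)) :
    ContinuousOn (fun x => avg (fun u => F u x)) W := by
  apply continuousOn_integral_of_compact_support (f := fun x u => F u x) isCompact_univ
  · have hswap : ContinuousOn (Prod.swap : X × ℤ_[p] → ℤ_[p] × X) (W ×ˢ univ) :=
      continuous_swap.continuousOn
    have := hF.comp hswap (by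
      rintro ⟨x, u⟩ hx
      exact ⟨trivial, hx.1⟩)
    exact this
  · intro x u _ hu
    exact absurd (mem_univ u) hu

theorem continuous_of_continuousOn_prod {X Y : Type*} [TopologicalSpace X] [TopologicalSpace Y]
    {W : Set X} {F : ℤ_[p] → X → Y}
    (hF : ContinuousOn (Function.uncurry F) (univ ×ˢ W)) {x : X} (hx : x ∈ W) :
    Continuous (fun u => F u x) := by
  have h1 : Continuous (fun u : ℤ_[p] => (u, x)) := by fun_prop
  have h2 := hF.comp_continuous h1 (fun u => ⟨trivial, hx⟩)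
  exact h2

namespace LocAct

section Top

variable {E : Type*} [TopologicalSpace E] {W : Set E} {a : ℤ_[p] → E → E}

theorem cont_left (act : LocAct p W a) {x : E} (hx : x ∈ W) : Continuous (fun u => a u x) :=
  continuous_of_continuousOn_prod act.cont hx

theorem cont_right (act : LocAct p W a) (u : ℤ_[p]) : ContinuousOn (a u) W := by
  have h1 : ContinuousOn (fun x : E => (u, x)) W := by fun_prop
  have h2 := act.cont.comp h1 (fun x hx => ⟨trivial, hx⟩)
  exact h2

theorem neg_cancel (act : LocAct p W a) (u : ℤ_[p]) {x : E} (hx : x ∈ W) :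
    a (-u) (a u x) = x := by
  rw [← act.add (-u) u x hx, neg_add_cancel, act.zero x hx]

theorem fixed_of_one [T2Space E] (act : LocAct p W a) {x : E} (hx : x ∈ W) (h : a 1 x = x) :
    ∀ u, a u x = x := by
  have hnat : ∀ k : ℕ, a (k : ℤ_[p]) x = x := by
    intro k
    induction k with
    | zero => simpa using act.zero x hx
    | succ k ih =>
      rw [Nat.cast_succ, act.add _ _ x hx, h, ih]
  have hcl : IsClosed {u : ℤ_[p] | a u x = x} :=
    isClosed_eq (act.cont_left hx) continuous_const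
  have hsub : closure (range (Nat.cast : ℕ → ℤ_[p])) ⊆ {u : ℤ_[p] | a u x = x} := by
    apply hcl.closure_subset_iff.2
    rintro _ ⟨k, rfl⟩
    exact hnat k
  intro u
  have : u ∈ closure (range (Nat.cast : ℕ → ℤ_[p])) := by
    rw [(PadicInt.denseRange_natCast (p := p)).closure_range]
    trivial
  exact hsub this

end Top

variable {E : Type*} [NormedAddCommGroup E] [NormedSpace ℝ E] {W : Set E} {a : ℤ_[p] → E → E}

end LocAct

section

variable {E : Type*} [NormedAddCommGroup E] [NormedSpace ℝ E]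

/-- the averaged map. -/
noncomputable def avgMap (a : ℤ_[p] → E → E) (x : E) : E := avg (fun u => a u x)

/-- the averaged distance. -/
noncomputable def dist1 (a : ℤ_[p] → E → E) (x y : E) : ℝ := avg (fun u => ‖a u x - a u y‖)

variable {W : Set E} {a : ℤ_[p] → E → E}

theorem avgMap_inv (act : LocAct p W a) (v : ℤ_[p]) {x : E} (hx : x ∈ W) :
    avgMap a (a v x) = avgMap a x := by
  unfold avgMap
  rw [← avg_add_right (fun u => a u x) v]
  congr 1
  funext u
  rw [act.add u v x hx]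

theorem avgMap_contOn (act : LocAct p W a) : ContinuousOn (avgMap a) W :=
  continuousOn_avg act.cont

theorem avgMap_fixed [CompleteSpace E] {x : E} (h : ∀ u, a u x = x) : avgMap a x = x := by
  unfold avgMap
  simp only [h]
  exact avg_const x

theorem norm_sub_cont (act : LocAct p W a) {x y : E} (hx : x ∈ W) (hy : y ∈ W) :
    Continuous (fun u => ‖a u x - a u y‖) :=
  ((act.cont_left hx).sub (act.cont_left hy)).norm

theorem dist1_nonneg (a : ℤ_[p] → E → E) (x y : E) : 0 ≤ dist1 a x y :=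
  avg_nonneg fun _ => norm_nonneg _

theorem dist1_self (a : ℤ_[p] → E → E) (x : E) : dist1 a x x = 0 := by
  simp only [dist1, avg, sub_self, norm_zero, integral_zero]

theorem dist1_comm (a : ℤ_[p] → E → E) (x y : E) : dist1 a x y = dist1 a y x := by
  unfold dist1
  congr 1
  funext u
  exact norm_sub_rev _ _

theorem dist1_tri (act : LocAct p W a) {x y z : E} (hx : x ∈ W) (hy : y ∈ W) (hz : z ∈ W) :
    dist1 a x z ≤ dist1 a x y + dist1 a y z := by
  unfold dist1
  rw [← avg_add (norm_sub_cont act hx hy) (norm_sub_cont act hy hz)]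
  exact avg_mono (norm_sub_cont act hx hz)
    ((norm_sub_cont act hx hy).add (norm_sub_cont act hy hz)) fun u => norm_sub_le_norm_sub_add_norm_sub _ _ _

theorem dist1_inv (act : LocAct p W a) (v : ℤ_[p]) {x y : E} (hx : x ∈ W) (hy : y ∈ W) :
    dist1 a (a v x) (a v y) = dist1 a x y := by
  unfold dist1
  rw [← avg_add_right (fun u => ‖a u x - a u y‖) v]
  congr 1
  funext u
  rw [act.add u v x hx, act.add u v y hy]

theorem eq_of_dist1_eq_zero (act : LocAct p W a) {x y : E} (hx : x ∈ W) (hy : y ∈ W)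
    (h : dist1 a x y = 0) : x = y := by
  have h1 := eq_zero_of_avg_eq_zero (norm_sub_cont act hx hy) (fun _ => norm_nonneg _) h 0
  rw [act.zero x hx, act.zero y hy, norm_eq_zero, sub_eq_zero] at h1
  exact h1

theorem norm_avgMap_sub_le (act : LocAct p W a) {x y : E} (hx : x ∈ W) (hy : y ∈ W) :
    ‖avgMap a x - avgMap a y‖ ≤ dist1 a x y := by
  unfold avgMap dist1
  rw [← avg_sub (act.cont_left hx) (act.cont_left hy)]
  exact norm_avg_le_avg_norm _

theorem dist1_contOn (act : LocAct p W a) :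
    ContinuousOn (fun z : E × E => dist1 a z.1 z.2) (W ×ˢ W) := by
  unfold dist1
  apply continuousOn_avg (F := fun u (z : E × E) => ‖a u z.1 - a u z.2‖)
  have h1 : ContinuousOn (fun w : ℤ_[p] × (E × E) => a w.1 w.2.1) (univ ×ˢ (W ×ˢ W)) := by
    have : ContinuousOn (fun w : ℤ_[p] × (E × E) => (w.1, w.2.1)) (univ ×ˢ (W ×ˢ W)) := by fun_prop
    exact act.cont.comp this (fun w hw => ⟨trivial, hw.2.1⟩)
  have h2 : ContinuousOn (fun w : ℤ_[p] × (E × E) => a w.1 w.2.2) (univ ×ˢ (W ×ˢ W)) := by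
    have : ContinuousOn (fun w : ℤ_[p] × (E × E) => (w.1, w.2.2)) (univ ×ˢ (W ×ˢ W)) := by fun_prop
    exact act.cont.comp this (fun w hw => ⟨trivial, hw.2.2⟩)
  exact (h1.sub h2).norm

end

end Vale.Agent.P228
end
end

section

section

/-! The invariant metric `dS` of a local action of `ℤ_[p]` and its moduli. -/

namespace Vale.Agent.P228.Lab

open Set Topology Metric

set_option linter.unusedSectionVars false

variable {p : ℕ} [Fact p.Prime]
variable {E : Type*} [NormedAddCommGroup E] [NormedSpace ℝ E]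

/-- the supremum distance of two orbits (an invariant metric on `W`). -/
noncomputable def dS (a : ℤ_[p] → E → E) (x y : E) : ℝ := ⨆ u : ℤ_[p], ‖a u x - a u y‖

variable {W : Set E} {a : ℤ_[p] → E → E}

theorem dS_bdd (act : LocAct p W a) {x y : E} (hx : x ∈ W) (hy : y ∈ W) :
    BddAbove (range fun u : ℤ_[p] => ‖a u x - a u y‖) := by
  have h := isCompact_univ.bddAbove_image (f := fun u : ℤ_[p] => ‖a u x - a u y‖)
    (norm_sub_cont act hx hy).continuousOn
  rwa [image_univ] at h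

theorem le_dS (act : LocAct p W a) {x y : E} (hx : x ∈ W) (hy : y ∈ W) (u : ℤ_[p]) :
    ‖a u x - a u y‖ ≤ dS a x y :=
  le_ciSup (dS_bdd act hx hy) u

theorem norm_sub_le_dS (act : LocAct p W a) {x y : E} (hx : x ∈ W) (hy : y ∈ W) :
    ‖x - y‖ ≤ dS a x y := by
  have h := le_dS act hx hy 0
  rwa [act.zero x hx, act.zero y hy] at h

theorem dS_le {x y : E} {C : ℝ} (h : ∀ u, ‖a u x - a u y‖ ≤ C) : dS a x y ≤ C :=
  ciSup_le h

theorem dS_nonneg (a : ℤ_[p] → E → E) (x y : E) : 0 ≤ dS a x y :=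
  Real.iSup_nonneg fun _ => norm_nonneg _

theorem dS_self (a : ℤ_[p] → E → E) (x : E) : dS a x x = 0 := by
  simp only [dS, sub_self, norm_zero, ciSup_const]

theorem dS_comm (a : ℤ_[p] → E → E) (x y : E) : dS a x y = dS a y x := by
  unfold dS
  congr 1
  funext u
  exact norm_sub_rev _ _

theorem dS_tri (act : LocAct p W a) {x y z : E} (hx : x ∈ W) (hy : y ∈ W) (hz : z ∈ W) :
    dS a x z ≤ dS a x y + dS a y z := by
  apply dS_le
  intro u
  exact (norm_sub_le_norm_sub_add_norm_sub _ _ _).trans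
    (add_le_add (le_dS act hx hy u) (le_dS act hy hz u))

theorem dS_inv (act : LocAct p W a) (v : ℤ_[p]) {x y : E} (hx : x ∈ W) (hy : y ∈ W) :
    dS a (a v x) (a v y) = dS a x y := by
  apply le_antisymm
  · apply dS_le
    intro u
    rw [← act.add u v x hx, ← act.add u v y hy]
    exact le_dS act hx hy _
  · apply dS_le
    intro u
    have h := le_dS act (act.maps v x hx) (act.maps v y hy) (u - v)
    rwa [← act.add (u - v) v x hx, ← act.add (u - v) v y hy, sub_add_cancel] at h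

/-- uniform continuity of the action on a compact set. -/
theorem unif (act : LocAct p W a) {K : Set E} (hK : IsCompact K) (hKW : K ⊆ W) {δ : ℝ}
    (hδ : 0 < δ) : ∃ μ > 0, ∀ u v : ℤ_[p], ∀ x ∈ K, ∀ y ∈ K, dist u v < μ → dist x y < μ →
      ‖a u x - a v y‖ < δ := by
  have hc : IsCompact ((univ : Set ℤ_[p]) ×ˢ K) := isCompact_univ.prod hK
  have h1 : UniformContinuousOn (Function.uncurry a) ((univ : Set ℤ_[p]) ×ˢ K) :=
    hc.uniformContinuousOn_of_continuous (act.cont.mono (prod_mono le_rfl hKW))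
  rw [Metric.uniformContinuousOn_iff] at h1
  obtain ⟨μ, hμ, h⟩ := h1 δ hδ
  refine ⟨μ, hμ, fun u v x hx y hy huv hxy => ?_⟩
  have := h (u, x) ⟨trivial, hx⟩ (v, y) ⟨trivial, hy⟩ (by
    rw [Prod.dist_eq]; exact max_lt huv hxy)
  rwa [dist_eq_norm] at this

/-- modulus of continuity of `dS`. -/
theorem dS_modulus (act : LocAct p W a) {K : Set E} (hK : IsCompact K) (hKW : K ⊆ W) {δ : ℝ}
    (hδ : 0 < δ) : ∃ μ > 0, ∀ x ∈ K, ∀ y ∈ K, ‖x - y‖ < μ → dS a x y ≤ δ := by
  obtain ⟨μ, hμ, h⟩ := unif act hK hKW hδ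
  refine ⟨μ, hμ, fun x hx y hy hxy => dS_le fun u => ?_⟩
  exact (h u u x hx y hy (by simpa only [dist_self, gt_iff_lt] using hμ) (by rwa [dist_eq_norm])).le

end Vale.Agent.P228.Lab
end
end

section

section

/-! Discretisation of the globalised maps. -/

namespace Vale.Agent.P228.Geo

open Set Metric Topology

variable {p : ℕ} [Fact p.Prime] {n : ℕ}

/-- the lattice point `v / N`. -/
noncomputable def pt (N : ℕ) (v : Fin n → ℤ) : EuclideanSpace ℝ (Fin n) :=
  WithLp.toLp 2 (fun i => (v i : ℝ) / N)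

/-- rounding to the lattice. -/
noncomputable def rnd (N : ℕ) (x : EuclideanSpace ℝ (Fin n)) : Fin n → ℤ :=
  fun i => round ((N : ℝ) * x i)

theorem rnd_pt {N : ℕ} (hN : 0 < N) (v : Fin n → ℤ) : rnd N (pt N v) = v := by
  funext i
  have hN' : (N : ℝ) ≠ 0 := by exact_mod_cast hN.ne'
  show round ((N : ℝ) * ((v i : ℝ) / N)) = v i
  rw [mul_div_cancel₀ _ hN']
  exact round_intCast _

theorem norm_le_sup {x : EuclideanSpace ℝ (Fin n)} {r : ℝ} (hr : 0 ≤ r) (h : ∀ i, |x i| ≤ r) :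
    ‖x‖ ≤ n * r := by
  rw [EuclideanSpace.norm_eq]
  apply Real.sqrt_le_iff.2
  refine ⟨by positivity, ?_⟩
  calc ∑ i, ‖x i‖ ^ 2 ≤ ∑ _i : Fin n, r ^ 2 := by
        apply Finset.sum_le_sum
        intro i _
        exact pow_le_pow_left₀ (norm_nonneg _) (by rw [Real.norm_eq_abs]; exact h i) 2
    _ = n * r ^ 2 := by simp only [Finset.sum_const, Finset.card_univ, Fintype.card_fin, nsmul_eq_mul]
    _ ≤ (n * r) ^ 2 := by
        rw [mul_pow]
        apply mul_le_mul_of_nonneg_right _ (sq_nonneg r)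
        rcases Nat.eq_zero_or_pos n with h0 | h0
        · subst h0; simp
        · have : (1 : ℝ) ≤ n := by exact_mod_cast h0
          nlinarith only [this]

theorem norm_pt_sub_le {N : ℕ} {r : ℝ} (hr : 0 ≤ r) {v w : Fin n → ℤ}
    (h : ∀ i, |((v i - w i : ℤ) : ℝ)| ≤ r) : ‖pt N v - pt N w‖ ≤ n * (r / N) := by
  apply norm_le_sup (by positivity)
  intro i
  show |(v i : ℝ) / N - (w i : ℝ) / N| ≤ r / N
  rw [← sub_div, abs_div, Nat.abs_cast]
  have := h i
  push_cast at this
  exact div_le_div_of_nonneg_right this (by positivity)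

theorem norm_pt_sub_le' {N r : ℕ} {v w : Fin n → ℤ} (h : Close r v w) :
    ‖pt N v - pt N w‖ ≤ n * ((r : ℝ) / N) := by
  apply norm_pt_sub_le (by (clear * -; positivity))
  intro i
  exact_mod_cast h i

theorem norm_pt_le {N r : ℕ} {v : Fin n → ℤ} (h : InBox r v) : ‖pt N v‖ ≤ n * ((r : ℝ) / N) := by
  have h1 : Close r v 0 := by intro i; simpa only [Pi.zero_apply, sub_zero] using h i
  have h2 := norm_pt_sub_le' (N := N) h1
  have h3 : pt N (0 : Fin n → ℤ) = 0 := by
    ext i; show ((0 : ℤ) : ℝ) / N = 0; simp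
  rwa [h3, sub_zero] at h2

theorem abs_apply_le (x : EuclideanSpace ℝ (Fin n)) (i : Fin n) : |x i| ≤ ‖x‖ := by
  rw [← Real.norm_eq_abs]
  exact PiLp.norm_apply_le x i

theorem abs_pt_sub {N : ℕ} (v w : Fin n → ℤ) (i : Fin n) :
    |((v i - w i : ℤ) : ℝ)| ≤ N * ‖pt N v - pt N w‖ ∨ N = 0 := by
  rcases Nat.eq_zero_or_pos N with h0 | h0
  · exact Or.inr h0
  left
  have hN : (0 : ℝ) < N := by exact_mod_cast h0
  have h1 := abs_apply_le (pt N v - pt N w) i
  have h2 : (pt N v - pt N w) i = ((v i - w i : ℤ) : ℝ) / N := by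
    show (v i : ℝ) / N - (w i : ℝ) / N = _
    push_cast; rw [sub_div]
  rw [h2, abs_div, Nat.abs_cast, div_le_iff₀ hN] at h1
  linarith only [h1]

theorem rnd_sub_le (N : ℕ) (x y : EuclideanSpace ℝ (Fin n)) (i : Fin n) :
    |((rnd N x i - rnd N y i : ℤ) : ℝ)| ≤ N * ‖x - y‖ + 1 := by
  have h1 := abs_sub_round ((N : ℝ) * x i)
  have h2 := abs_sub_round ((N : ℝ) * y i)
  have h3 := abs_apply_le (x - y) i
  have h4 : (x - y) i = x i - y i := rfl
  rw [h4] at h3
  have hN : (0 : ℝ) ≤ N := by (clear * -; positivity)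
  have h5 : |(N : ℝ) * x i - N * y i| ≤ N * ‖x - y‖ := by
    rw [← mul_sub, abs_mul, abs_of_nonneg hN]
    exact mul_le_mul_of_nonneg_left h3 hN
  have h6 : ((rnd N x i - rnd N y i : ℤ) : ℝ) =
      ((round ((N : ℝ) * x i) : ℤ) : ℝ) - ((round ((N : ℝ) * y i) : ℤ) : ℝ) := by
    simp only [rnd, Int.cast_sub]
  rw [h6]
  rw [abs_le] at *
  constructor <;> linarith only [h1, h2, h5]

theorem norm_pt_rnd_sub_le {N : ℕ} (hN : 0 < N) (x : EuclideanSpace ℝ (Fin n)) :
    ‖pt N (rnd N x) - x‖ ≤ n / N := by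
  have hN' : (0 : ℝ) < N := by exact_mod_cast hN
  have h := norm_le_sup (x := pt N (rnd N x) - x) (r := 1 / N) (by positivity) ?_
  · calc _ ≤ _ := h
      _ = n / N := by ring
  intro i
  show |((round ((N : ℝ) * x i) : ℤ) : ℝ) / N - x i| ≤ 1 / N
  have h1 := abs_sub_round ((N : ℝ) * x i)
  have h2 : ((round ((N : ℝ) * x i) : ℤ) : ℝ) / N - x i =
      (((round ((N : ℝ) * x i) : ℤ) : ℝ) - N * x i) / N := by
    field_simp
  rw [h2, abs_div, Nat.abs_cast]
  apply div_le_div_of_nonneg_right _ hN'.le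
  rw [abs_sub_comm]
  linarith only [h1]

/-- representative in `ℤ_[p]` of a residue class. -/
noncomputable def rep {k : ℕ} (g : ZMod (p ^ k)) : ℤ_[p] := ((g.val : ℕ) : ℤ_[p])

theorem toZModPow_rep {k : ℕ} (g : ZMod (p ^ k)) : PadicInt.toZModPow k (rep (p := p) g) = g := by
  unfold rep
  rw [map_natCast]
  have : NeZero (p ^ k) := ⟨pow_ne_zero _ (Fact.out : p.Prime).ne_zero⟩
  exact ZMod.natCast_zmod_val g

theorem rep_zero {k : ℕ} : rep (p := p) (0 : ZMod (p ^ k)) = 0 := by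
  unfold rep; simp

/-- the discretised maps -/
noncomputable def Fd (a : ℤ_[p] → EuclideanSpace ℝ (Fin n) → EuclideanSpace ℝ (Fin n)) (k N : ℕ)
    (g : ZMod (p ^ k)) (v : Fin n → ℤ) : Fin n → ℤ :=
  rnd N (glob a (rep g) (pt N v))

variable {W : Set (EuclideanSpace ℝ (Fin n))}
  {a : ℤ_[p] → EuclideanSpace ℝ (Fin n) → EuclideanSpace ℝ (Fin n)}

theorem glob_zero (act : LocAct p W a) (hB : closedBall (0 : EuclideanSpace ℝ (Fin n)) 1 ⊆ W)
    (x : EuclideanSpace ℝ (Fin n)) : glob a 0 x = x := by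
  unfold glob
  by_cases hx : ‖x‖ ≤ 1
  · rw [act.zero x (hB (by simpa only [mem_closedBall, dist_zero_right] using hx))]; simp
  · rw [lam_eq_zero (not_le.1 hx).le]; simp only [zero_smul, add_zero]

theorem close_of_real {r : ℕ} {v w : Fin n → ℤ} (h : ∀ i, |((v i - w i : ℤ) : ℝ)| ≤ r) :
    Close r v w := by
  intro i
  exact_mod_cast h i

/-- a finite sequence of scales. -/
theorem exists_scales (L : ℕ) {ρ : ℝ} (hρ : 0 < ρ) (Q : ℝ → ℝ → Prop)
    (hQ : ∀ y, 0 < y → ∃ x, 0 < x ∧ x ≤ y ∧ Q x y) :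
    ∃ d : ℕ → ℝ, (∀ i, 0 < d i) ∧ (∀ i, d i ≤ ρ) ∧ (∀ i, d 0 ≤ d i) ∧
      ∀ i < L, Q (d i) (d (i + 1)) := by
  choose! f hf0 hf1 hf2 using hQ
  have hpos : ∀ j : ℕ, 0 < f^[j] ρ := by
    intro j
    induction j with
    | zero => simpa using hρ
    | succ j ih => rw [Function.iterate_succ_apply']; exact hf0 _ ih
  have hanti : ∀ j : ℕ, f^[j + 1] ρ ≤ f^[j] ρ := by
    intro j
    rw [Function.iterate_succ_apply']
    exact hf1 _ (hpos j)
  have hanti' : Antitone (fun j : ℕ => f^[j] ρ) := antitone_nat_of_succ_le hanti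
  refine ⟨fun i => f^[L - i] ρ, fun i => hpos _, fun i => ?_, fun i => ?_, fun i hi => ?_⟩
  · have := hanti' (Nat.zero_le (L - i))
    simpa only [ge_iff_le, Function.iterate_zero, id_eq] using this
  · exact hanti' (Nat.sub_le_sub_left (Nat.zero_le i) L)
  · have h1 : L - i = (L - (i + 1)) + 1 := by omega
    show Q (f^[L - i] ρ) (f^[L - (i + 1)] ρ)
    rw [h1, Function.iterate_succ_apply']
    exact hf2 _ (hpos _)

/-- the lattice maps, with `L + 1` fine scales, the last one at most `N * ρ + 3`. -/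
theorem exists_maps (act : LocAct p W a) (hW : IsOpen W)
    (hB : closedBall (0 : EuclideanSpace ℝ (Fin n)) 1 ⊆ W) {c : ℝ} (hc0 : 0 ≤ c) (hc : c ≤ 1 / 8)
    (hd : ∀ u, ∀ x ∈ closedBall (0 : EuclideanSpace ℝ (Fin n)) 1, ‖a u x - x‖ ≤ c)
    (K₀ L : ℕ) {ρ : ℝ} (hρ : 0 < ρ) :
    ∃ k₀ N₀ : ℕ, ∀ k, k₀ ≤ k → ∀ N, N₀ ≤ N → 0 < N → ∀ Rad e : ℕ,
      2 * n * Rad ≤ N → (N : ℝ) * c + 1 ≤ e → (N : ℝ) * ρ + 3 ≤ e →
      ∃ D : Maps n (p ^ k) K₀ L, D.Rad = Rad ∧ D.e = e ∧ (D.Rl L : ℝ) ≤ N * ρ + 3 ∧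
        D.F = Fd a k N := by
  obtain ⟨d, hdpos, hdρ, hd0, hdQ⟩ := exists_scales L hρ
    (fun x y => 2 * K₀ * x ≤ y ∧ ∀ u, ∀ z w : EuclideanSpace ℝ (Fin n),
      ‖z - w‖ ≤ 2 * n * K₀ * x → ‖glob a u z - glob a u w‖ ≤ y / 2) (by
      intro y hy
      obtain ⟨δ, hδ, hδ'⟩ := unif_glob hW act hB (ε := y / 2) (by positivity)
      have hpos1 : (0 : ℝ) < 2 * K₀ + 1 := by (clear * -; positivity)
      have hpos2 : (0 : ℝ) < 2 * n * K₀ + 1 := by (clear * -; positivity)
      have ha : min (y / (2 * K₀ + 1)) (δ / (2 * n * K₀ + 1)) ≤ y / (2 * K₀ + 1) := min_le_left _ _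
      have hb : min (y / (2 * K₀ + 1)) (δ / (2 * n * K₀ + 1)) ≤ δ / (2 * n * K₀ + 1) :=
        min_le_right _ _
      have hx : 0 < min (y / (2 * K₀ + 1)) (δ / (2 * n * K₀ + 1)) := by (clear * - hy hδ; positivity)
      set x := min (y / (2 * K₀ + 1)) (δ / (2 * n * K₀ + 1)) with hxdef
      rw [le_div_iff₀ hpos1] at ha
      rw [le_div_iff₀ hpos2] at hb
      have hK0 : (0 : ℝ) ≤ K₀ := by (clear * -; positivity)
      have hn0 : (0 : ℝ) ≤ 2 * n * K₀ := by (clear * -; positivity)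
      refine ⟨x, hx, ?_, ?_, fun u z w hzw => hδ' u z w ?_⟩
      · nlinarith only [ha, hx]
      · nlinarith only [ha, hx]
      · linarith)
  obtain ⟨δ, hδ, hδ'⟩ := unif_glob hW act hB (ε := d 1 / 2) (by have := hdpos 1; positivity)
  obtain ⟨k₀, hk₀⟩ := small_diff act hB (ε := d 1 / 2) (by have := hdpos 1; positivity)
  obtain ⟨N₀, hN₀⟩ := exists_nat_gt ((n : ℝ) / δ + (6 * K₀ + 3) / d 0)
  refine ⟨k₀, N₀, fun k hk N hN hNpos Rad e hRad he hRe => ?_⟩
  have hN' : (0 : ℝ) < N := by exact_mod_cast hNpos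
  have hNN : (n : ℝ) / δ + (6 * K₀ + 3) / d 0 < N := lt_of_lt_of_le hN₀ (by exact_mod_cast hN)
  have hnN : (n : ℝ) / N ≤ δ := by
    have h1 : (n : ℝ) / δ < N := by
      have : 0 ≤ (6 * (K₀ : ℝ) + 3) / d 0 := by have := hdpos 0; (clear * - this; positivity)
      linarith only [hNN, this]
    rw [div_lt_iff₀ hδ] at h1
    rw [div_le_iff₀ hN']
    linarith only [h1]
  have hd0N : 6 * (K₀ : ℝ) + 3 ≤ N * d 0 := by
    have h1 : (6 * (K₀ : ℝ) + 3) / d 0 < N := by
      have : 0 ≤ (n : ℝ) / δ := by (clear * - hδ; positivity)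
      linarith only [hNN, this]
    rw [div_lt_iff₀ (hdpos 0)] at h1
    linarith only [h1]
  have hdN : ∀ i, 6 * (K₀ : ℝ) + 3 ≤ N * d i := fun i =>
    hd0N.trans (mul_le_mul_of_nonneg_left (hd0 i) hN'.le)
  set Rl : ℕ → ℕ := fun i => ⌈(N : ℝ) * d i⌉₊ + 2 with hRl
  have hRl1 : ∀ i, (N : ℝ) * d i + 2 ≤ Rl i := by
    intro i
    have := Nat.le_ceil ((N : ℝ) * d i)
    simp only [hRl]
    push_cast
    linarith only [this]
  have hRl2 : ∀ i, (Rl i : ℝ) ≤ N * d i + 3 := by
    intro i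
    have h1 : 0 ≤ (N : ℝ) * d i := by have := hdpos i; positivity
    have := Nat.ceil_lt_add_one h1
    simp only [hRl]
    push_cast
    linarith only [this]
  have hRlL : (Rl L : ℝ) ≤ N * ρ + 3 := by
    have h1 := hRl2 L
    have h2 := mul_le_mul_of_nonneg_left (hdρ L) hN'.le
    linarith only [h1, h2]
  refine ⟨Maps.mk Rad e Rl (Fd a k N) ?_ ?_ ?_ ?_ ?_ ?_ ?_, rfl, rfl, hRlL, rfl⟩
  · intro v
    unfold Fd
    rw [rep_zero, glob_zero act hB, rnd_pt hNpos]
  · intro i hi g v w hvw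
    obtain ⟨hQ1, hQ2⟩ := hdQ i hi
    apply close_of_real
    intro j
    have h1 : ‖pt N v - pt N w‖ ≤ 2 * n * K₀ * d i := by
      have h2 := norm_pt_sub_le' (N := N) hvw
      have h3 := hRl2 i
      have h4 := hdN i
      have h5 : (Rl i : ℝ) / N ≤ 2 * d i := by
        rw [div_le_iff₀ hN']
        have : (0 : ℝ) ≤ K₀ := by (clear * -; positivity)
        nlinarith only [h3, h4]
      calc _ ≤ _ := h2
        _ = n * (K₀ * ((Rl i : ℝ) / N)) := by push_cast; ring
        _ ≤ n * (K₀ * (2 * d i)) := by (clear * - h5; gcongr)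
        _ = _ := by ring
    have h2 := hQ2 (rep g) _ _ h1
    calc |((Fd a k N g v j - Fd a k N g w j : ℤ) : ℝ)| ≤
          N * ‖glob a (rep g) (pt N v) - glob a (rep g) (pt N w)‖ + 1 := rnd_sub_le _ _ _ _
      _ ≤ N * (d (i + 1) / 2) + 1 := by gcongr
      _ ≤ Rl (i + 1) := by
        have h3 := hRl1 (i + 1)
        have h4 := hdpos (i + 1)
        nlinarith only [h3]
  · intro g v
    apply close_of_real
    intro i
    have h1 := norm_glob_sub_le hc0 hd (rep g) (pt N v)
    have h2 := rnd_sub_le N (glob a (rep g) (pt N v)) (pt N v) i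
    rw [rnd_pt hNpos] at h2
    calc |((Fd a k N g v i - v i : ℤ) : ℝ)| ≤ N * ‖glob a (rep g) (pt N v) - pt N v‖ + 1 := h2
      _ ≤ N * c + 1 := by gcongr
      _ ≤ e := he
  · intro g h v hv
    apply close_of_real
    intro i
    have hx : ‖pt N v‖ ≤ 1 / 2 := by
      have h1 := norm_pt_le (N := N) hv
      have h2 : (2 * n * Rad : ℝ) ≤ N := by exact_mod_cast hRad
      calc _ ≤ _ := h1
        _ = (n * Rad) / N := by ring
        _ ≤ 1 / 2 := by rw [div_le_iff₀ hN']; linarith only [h2]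
    set x := pt N v with hxdef
    have hxB : x ∈ closedBall (0 : EuclideanSpace ℝ (Fin n)) 1 := by
      simp only [mem_closedBall, dist_zero_right]; linarith only [hx]
    have hxW : x ∈ W := hB hxB
    have e1 : glob a (rep h) x = a (rep h) x := glob_eq a _ (by linarith only [hx])
    have hy : ‖a (rep h) x‖ ≤ 3 / 4 := by
      have h1 := hd (rep h) x hxB
      have h2 : ‖a (rep h) x‖ ≤ ‖a (rep h) x - x‖ + ‖x‖ := by
        simpa only [sub_add_cancel] using norm_add_le (a (rep h) x - x) x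
      linarith
    have e2 : glob a (rep g) (a (rep h) x) = a (rep g + rep h) x := by
      rw [glob_eq a _ hy, act.add _ _ x hxW]
    have e3 : glob a (rep (g + h)) x = a (rep (g + h)) x := glob_eq a _ (by linarith only [hx])
    have hz : ‖pt N (Fd a k N h v) - a (rep h) x‖ ≤ δ := by
      have h1 := norm_pt_rnd_sub_le hNpos (glob a (rep h) x)
      rw [e1] at h1
      have h2 : Fd a k N h v = rnd N (a (rep h) x) := by
        unfold Fd; rw [← hxdef, e1]
      rw [h2]
      exact h1.trans hnN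
    have h3 := hδ' (rep g) _ _ hz
    rw [e2] at h3
    have h4 := hk₀ k hk (rep g + rep h) (rep (g + h)) (by
      rw [map_add, toZModPow_rep, toZModPow_rep, toZModPow_rep]) x hxB
    have h5 : ‖glob a (rep g) (pt N (Fd a k N h v)) - glob a (rep (g + h)) x‖ ≤ d 1 := by
      rw [e3]
      calc _ ≤ ‖glob a (rep g) (pt N (Fd a k N h v)) - a (rep g + rep h) x‖ +
            ‖a (rep g + rep h) x - a (rep (g + h)) x‖ := norm_sub_le_norm_sub_add_norm_sub _ _ _
        _ ≤ d 1 / 2 + d 1 / 2 := add_le_add h3 h4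
        _ = d 1 := by ring
    calc |((Fd a k N g (Fd a k N h v) i - Fd a k N (g + h) v i : ℤ) : ℝ)| ≤
          N * ‖glob a (rep g) (pt N (Fd a k N h v)) - glob a (rep (g + h)) x‖ + 1 :=
            rnd_sub_le _ _ _ _
      _ ≤ N * d 1 + 1 := by gcongr
      _ ≤ Rl 1 := by have := hRl1 1; linarith only [this]
  · simp only [hRl]; omega
  · intro i hi
    obtain ⟨hQ1, hQ2⟩ := hdQ i hi
    have h1 := hRl2 i
    have h2 := hRl1 (i + 1)
    have h3 := hdN (i + 1)
    have h4 := hdpos (i + 1)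
    have hK0 : (0 : ℝ) ≤ K₀ := by (clear * -; positivity)
    have h5 : (K₀ : ℝ) * Rl i ≤ K₀ * (N * d i + 3) := mul_le_mul_of_nonneg_left h1 hK0
    have h6 : (N : ℝ) * (2 * K₀ * d i) ≤ N * d (i + 1) := mul_le_mul_of_nonneg_left hQ1 hN'.le
    have h7 : (K₀ : ℝ) * Rl i ≤ Rl (i + 1) := by linarith only [h2, h3, h5, h6]
    exact_mod_cast h7
  · have h1 : (Rl L : ℝ) ≤ e := hRlL.trans hRe
    exact_mod_cast h1

end Vale.Agent.P228.Geo
end
end

section

section

/-! The local theorem in dimension `n + k` implies the local theorem in dimension `n`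
(product with a line). -/

namespace Vale.Agent.P228.GR

open Set Topology Metric

set_option linter.unusedSectionVars false

variable {p : ℕ} [Fact p.Prime]

/-- forget the last coordinate -/
noncomputable def dropLast {n : ℕ} (x : EuclideanSpace ℝ (Fin (n + 1))) :
    EuclideanSpace ℝ (Fin n) := WithLp.toLp 2 (fun i => x i.castSucc)

/-- add a last coordinate `0` -/
noncomputable def addZero {n : ℕ} (x : EuclideanSpace ℝ (Fin n)) :
    EuclideanSpace ℝ (Fin (n + 1)) := WithLp.toLp 2 (fun i => Fin.snoc (α := fun _ => ℝ) x 0 i)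

theorem dropLast_addZero {n : ℕ} (x : EuclideanSpace ℝ (Fin n)) : dropLast (addZero x) = x := by
  ext i
  simp [dropLast, addZero]

theorem norm_addZero {n : ℕ} (x : EuclideanSpace ℝ (Fin n)) : ‖addZero x‖ = ‖x‖ := by
  rw [EuclideanSpace.norm_eq, EuclideanSpace.norm_eq, Fin.sum_univ_castSucc]
  simp only [addZero, Fin.snoc_castSucc, Real.norm_eq_abs, sq_abs, Fin.snoc_last, norm_zero, ne_eq, OfNat.ofNat_ne_zero, not_false_eq_true, zero_pow, add_zero]

theorem norm_dropLast_le {n : ℕ} (x : EuclideanSpace ℝ (Fin (n + 1))) : ‖dropLast x‖ ≤ ‖x‖ := by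
  rw [EuclideanSpace.norm_eq, EuclideanSpace.norm_eq, Fin.sum_univ_castSucc]
  apply Real.sqrt_le_sqrt
  simp only [dropLast]
  have := sq_nonneg ‖x (Fin.last n)‖
  linarith

theorem dropLast_add {n : ℕ} (x y : EuclideanSpace ℝ (Fin (n + 1))) :
    dropLast (x + y) = dropLast x + dropLast y := by
  ext i
  simp only [dropLast, PiLp.add_apply]

theorem addZero_add {n : ℕ} (x y : EuclideanSpace ℝ (Fin n)) :
    addZero (x + y) = addZero x + addZero y := by
  ext i
  refine Fin.lastCases ?_ (fun j => ?_) i <;> simp [addZero]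

theorem addZero_zero {n : ℕ} : addZero (0 : EuclideanSpace ℝ (Fin n)) = 0 := by
  ext i
  refine Fin.lastCases ?_ (fun j => ?_) i <;> simp [addZero]

theorem dropLast_zero {n : ℕ} : dropLast (0 : EuclideanSpace ℝ (Fin (n + 1))) = 0 := by
  ext i
  simp [dropLast]

theorem continuous_dropLast {n : ℕ} :
    Continuous (dropLast : EuclideanSpace ℝ (Fin (n + 1)) → EuclideanSpace ℝ (Fin n)) := by
  unfold dropLast
  (clear * -; fun_prop)

theorem continuous_addZero {n : ℕ} :
    Continuous (addZero : EuclideanSpace ℝ (Fin n) → EuclideanSpace ℝ (Fin (n + 1))) := by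
  have h : ∀ x y : EuclideanSpace ℝ (Fin n), dist (addZero x) (addZero y) = dist x y := by
    intro x y
    rw [dist_eq_norm, dist_eq_norm, ← norm_addZero (x - y)]
    congr 1
    have h1 := addZero_add (x - y) y
    rw [sub_add_cancel] at h1
    rw [h1]
    abel
  exact (Isometry.of_dist_eq h).continuous

/-- the local theorem descends -/
theorem localNewman_of_succ {n : ℕ} (h : LocalNewman p (n + 1)) : LocalNewman p n := by
  obtain ⟨c, hc, h⟩ := h
  refine ⟨c, hc, fun W a hW act hball hdisp u => ?_⟩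
  set a' : ℤ_[p] → EuclideanSpace ℝ (Fin (n + 1)) → EuclideanSpace ℝ (Fin (n + 1)) :=
    fun u x => x + addZero (a u (dropLast x) - dropLast x) with ha'
  have hdrop : ∀ u x, dropLast (a' u x) = a u (dropLast x) := by
    intro u x
    simp only [ha']
    rw [dropLast_add, dropLast_addZero]
    abel
  have act' : LocAct p (dropLast ⁻¹' W) a' := by
    refine ⟨?_, ?_, ?_, ?_⟩
    · intro v x hx
      rw [mem_preimage, hdrop]
      exact act.maps v _ hx
    · intro x hx
      simp only [ha']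
      rw [act.zero _ hx, sub_self, addZero_zero, add_zero]
    · intro v w x hx
      have e : a' v (a' w x) = a' w x + addZero (a v (dropLast (a' w x)) - dropLast (a' w x)) := rfl
      rw [e, hdrop]
      simp only [ha']
      rw [act.add v w _ hx, add_assoc, ← addZero_add]
      congr 2
      abel
    · have h1 : ContinuousOn (fun q : ℤ_[p] × EuclideanSpace ℝ (Fin (n + 1)) =>
          (q.1, dropLast q.2)) (univ ×ˢ (dropLast ⁻¹' W)) :=
        (continuous_fst.prodMk (continuous_dropLast.comp continuous_snd)).continuousOn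
      have h2 : ContinuousOn (fun q : ℤ_[p] × EuclideanSpace ℝ (Fin (n + 1)) =>
          a q.1 (dropLast q.2)) (univ ×ˢ (dropLast ⁻¹' W)) :=
        act.cont.comp h1 (fun q hq => ⟨trivial, hq.2⟩)
      have h3 : ContinuousOn (fun q : ℤ_[p] × EuclideanSpace ℝ (Fin (n + 1)) =>
          a q.1 (dropLast q.2) - dropLast q.2) (univ ×ˢ (dropLast ⁻¹' W)) :=
        h2.sub (continuous_dropLast.comp continuous_snd).continuousOn
      exact continuous_snd.continuousOn.add (continuous_addZero.comp_continuousOn h3)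
  have h1 := h (dropLast ⁻¹' W) a' (hW.preimage continuous_dropLast) act' (by
      intro x hx
      apply hball
      rw [mem_closedBall_zero_iff] at hx ⊢
      exact (norm_dropLast_le x).trans hx) (by
      intro v x hx
      simp only [ha', add_sub_cancel_left, norm_addZero]
      apply hdisp
      rw [mem_closedBall_zero_iff] at hx ⊢
      exact (norm_dropLast_le x).trans hx) u
  have h2 := hdrop u 0
  rw [h1, dropLast_zero] at h2
  exact h2.symm

theorem localNewman_of_add {n : ℕ} (k : ℕ) (h : LocalNewman p (n + k)) : LocalNewman p n := by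
  induction k with
  | zero => exact h
  | succ k ih => exact ih (localNewman_of_succ h)

/-- it is enough to prove the local theorem in dimensions `2 * m`, `m ≥ 1`. -/
theorem localNewman_of_even (h : ∀ m : ℕ, 0 < m → LocalNewman p (2 * m)) (n : ℕ) :
    LocalNewman p n := by
  apply localNewman_of_add (n := n) (n + 2)
  have h1 := h (n + 1) (Nat.succ_pos n)
  have e : n + (n + 2) = 2 * (n + 1) := by ring
  rw [e]
  exact h1

end Vale.Agent.P228.GR
end
end

section

section

/-! The radial stretching trick: `LocalNewman` implies that the fixed set has closed interior. -/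

namespace Vale.Agent.P228.GRL

open Set Topology Metric

variable {p : ℕ} [Fact p.Prime]

/-- a `ℤ_[p]`-action near the closed unit ball whose displacement is at most `c` fixes `0`. -/
def LocalNewman (p n : ℕ) [Fact p.Prime] : Prop :=
  ∃ c > 0, ∀ (W : Set (EuclideanSpace ℝ (Fin n)))
    (a : ℤ_[p] → EuclideanSpace ℝ (Fin n) → EuclideanSpace ℝ (Fin n)),
    IsOpen W → LocAct p W a → closedBall 0 1 ⊆ W →
    (∀ u, ∀ x ∈ closedBall (0 : EuclideanSpace ℝ (Fin n)) 1, ‖a u x - x‖ ≤ c) → ∀ u, a u 0 = 0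

theorem locAct_conj {E : Type*} [TopologicalSpace E] {W W' : Set E} {a : ℤ_[p] → E → E}
    {h k : E → E} (hm : MapsTo h W W') (km : MapsTo k W' W) (kh : ∀ x ∈ W, k (h x) = x)
    (hk : ∀ y ∈ W', h (k y) = y) (hc : ContinuousOn h W) (kc : ContinuousOn k W')
    (act : LocAct p W a) : LocAct p W' (fun u y => h (a u (k y))) where
  maps u y hy := hm (act.maps u _ (km hy))
  zero y hy := by
    simp only [act.zero _ (km hy), hk y hy]
  add u v y hy := by
    simp only [act.add u v _ (km hy), kh _ (act.maps v _ (km hy))]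
  cont := by
    have h2 : ContinuousOn (fun z : ℤ_[p] × E => (z.1, k z.2)) (univ ×ˢ W') :=
      continuousOn_fst.prodMk (kc.comp continuousOn_snd (fun z hz => hz.2))
    have h3 : ContinuousOn (fun z : ℤ_[p] × E => a z.1 (k z.2)) (univ ×ˢ W') :=
      act.cont.comp h2 (fun z hz => ⟨trivial, km hz.2⟩)
    exact hc.comp h3 (fun z hz => act.maps _ _ (km hz.2))

/-- the rescaled form of `LocalNewman`. -/
theorem LocalNewman.scaled {n : ℕ} (hLN : LocalNewman p n) :
    ∃ c > 0, ∀ (W : Set (EuclideanSpace ℝ (Fin n)))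
      (a : ℤ_[p] → EuclideanSpace ℝ (Fin n) → EuclideanSpace ℝ (Fin n)),
      IsOpen W → LocAct p W a → ∀ (y : EuclideanSpace ℝ (Fin n)) (R : ℝ), 0 < R →
      closedBall y R ⊆ W → (∀ u, ∀ x ∈ closedBall y R, ‖a u x - x‖ ≤ c * R) → ∀ u, a u y = y := by
  obtain ⟨c, hc, H⟩ := hLN
  refine ⟨c, hc, fun W a hW act y R hR hball hdisp u => ?_⟩
  let h : EuclideanSpace ℝ (Fin n) → EuclideanSpace ℝ (Fin n) := fun x => R⁻¹ • (x - y)
  let k : EuclideanSpace ℝ (Fin n) → EuclideanSpace ℝ (Fin n) := fun x => y + R • x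
  have hhc : Continuous h := by fun_prop
  have hkc : Continuous k := by fun_prop
  have kh : ∀ x, k (h x) = x := by
    intro x
    simp only [h, k, smul_smul, mul_inv_cancel₀ hR.ne', one_smul, add_sub_cancel]
  have hk : ∀ x, h (k x) = x := by
    intro x
    simp only [h, k, add_sub_cancel_left, smul_smul, inv_mul_cancel₀ hR.ne', one_smul]
  have act' : LocAct p (k ⁻¹' W) (fun u x => h (a u (k x))) :=
    locAct_conj (fun x hx => by rw [mem_preimage, kh]; exact hx) (fun x hx => hx)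
      (fun x _ => kh x) (fun x _ => hk x) hhc.continuousOn hkc.continuousOn act
  have hkball : ∀ x ∈ closedBall (0 : EuclideanSpace ℝ (Fin n)) 1, k x ∈ closedBall y R := by
    intro x hx
    rw [mem_closedBall_zero_iff] at hx
    rw [mem_closedBall, dist_eq_norm]
    simp only [k, add_sub_cancel_left, norm_smul, Real.norm_eq_abs, abs_of_pos hR]
    nlinarith
  have h1 := H (k ⁻¹' W) _ (hW.preimage hkc) act' (fun x hx => hball (hkball x hx)) (by
    intro u x hx
    have h2 := hdisp u (k x) (hkball x hx)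
    have h3 : h (a u (k x)) - x = R⁻¹ • (a u (k x) - k x) := by
      nth_rewrite 2 [← hk x]
      simp only [h, ← smul_sub, sub_sub_sub_cancel_right]
    rw [h3, norm_smul, norm_inv, Real.norm_eq_abs, abs_of_pos hR]
    rw [inv_mul_le_iff₀ hR]
    linarith only [h2]) u
  have h4 : k 0 = y := by simp [k]
  have h5 : a u y = k (h (a u (k 0))) := by rw [kh, h4]
  rw [h5, h1, h4]

section Rad

variable {E : Type*} [NormedAddCommGroup E] [NormedSpace ℝ E]

/-- radial stretching -/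
noncomputable def rad (θ : ℝ ≃o ℝ) (v x : E) : E := v + (θ ‖x - v‖ / ‖x - v‖) • (x - v)

variable {θ : ℝ ≃o ℝ} (h0 : θ 0 = 0) {v x : E}

theorem norm_rad_sub (h0 : θ 0 = 0) (hx : x ≠ v) : ‖rad θ v x - v‖ = θ ‖x - v‖ := by
  have h1 : 0 < ‖x - v‖ := norm_pos_iff.2 (sub_ne_zero.2 hx)
  have h2 : 0 < θ ‖x - v‖ := by rw [← h0]; exact θ.strictMono h1
  rw [rad, add_sub_cancel_left, norm_smul, Real.norm_eq_abs, abs_of_pos (by (clear * - h2 h1; positivity))]
  field_simp

theorem rad_ne (h0 : θ 0 = 0) (hx : x ≠ v) : rad θ v x ≠ v := by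
  have h1 : 0 < ‖x - v‖ := norm_pos_iff.2 (sub_ne_zero.2 hx)
  have h2 : 0 < θ ‖x - v‖ := by rw [← h0]; exact θ.strictMono h1
  rw [← norm_rad_sub h0 hx] at h2
  exact sub_ne_zero.1 (norm_pos_iff.1 h2)

theorem rad_symm_rad (h0 : θ 0 = 0) (hx : x ≠ v) : rad θ.symm v (rad θ v x) = x := by
  have h1 : 0 < ‖x - v‖ := norm_pos_iff.2 (sub_ne_zero.2 hx)
  have h2 : 0 < θ ‖x - v‖ := by rw [← h0]; exact θ.strictMono h1
  rw [rad, norm_rad_sub h0 hx, θ.symm_apply_apply]
  have h3 : rad θ v x - v = (θ ‖x - v‖ / ‖x - v‖) • (x - v) := by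
    rw [rad, add_sub_cancel_left]
  rw [h3, smul_smul, div_mul_div_cancel₀ h2.ne', div_self h1.ne', one_smul, add_sub_cancel]

theorem rad_rad_symm (h0 : θ 0 = 0) (hx : x ≠ v) : rad θ v (rad θ.symm v x) = x := by
  have h0' : θ.symm 0 = 0 := by rw [θ.symm_apply_eq, h0]
  exact rad_symm_rad (θ := θ.symm) h0' hx

theorem rad_contOn : ContinuousOn (rad θ v) {v}ᶜ := by
  have h1 : Continuous (fun x : E => ‖x - v‖) := by fun_prop
  have h2 : Continuous (fun x : E => θ ‖x - v‖) := θ.continuous.comp h1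
  refine continuousOn_const.add (ContinuousOn.smul (ContinuousOn.div h2.continuousOn
    h1.continuousOn ?_) (by fun_prop))
  intro x hx
  exact (norm_pos_iff.2 (sub_ne_zero.2 hx)).ne'

end Rad

/-- the stretching function as an order isomorphism. -/
theorem exists_theta {f : ℝ → ℝ} (hfc : Continuous f) (hfm : Monotone f) (hf0 : ∀ t ≤ 0, f t = 0)
    {N : ℝ} (hfN : ∀ t, f t ≤ N) {A ρ : ℝ} (hA : 0 ≤ A) :
    ∃ θ : ℝ ≃o ℝ, ∀ s, θ s = s + A * f (s - ρ) := by
  have hfnn : ∀ t, 0 ≤ f t := by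
    intro t
    rcases le_total t 0 with h | h
    · rw [hf0 t h]
    · rw [← hf0 0 le_rfl]; exact hfm h
  let F : ℝ → ℝ := fun s => s + A * f (s - ρ)
  have hFm : StrictMono F := by
    intro s t hst
    have h1 : f (s - ρ) ≤ f (t - ρ) := hfm (by linarith only [hst])
    have h2 := mul_le_mul_of_nonneg_left h1 hA
    change s + _ < t + _
    linarith only [hst, h2]
  have hFc : Continuous F := by fun_prop
  have hFs : Function.Surjective F := by
    apply hFc.surjective
    · apply Filter.tendsto_atTop_mono (f := fun s => s) _ Filter.tendsto_id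
      intro s
      have := mul_nonneg hA (hfnn (s - ρ))
      change s ≤ s + _
      linarith
    · have h1 : ∀ s, F s ≤ s + A * N := by
        intro s
        have := mul_le_mul_of_nonneg_left (hfN (s - ρ)) hA
        change s + _ ≤ s + _
        linarith
      exact Filter.tendsto_atBot_mono h1
        (Filter.tendsto_atBot_add_const_right _ _ Filter.tendsto_id)
  exact ⟨hFm.orderIsoOfSurjective F hFs, fun s => rfl⟩

/-- fixed points in the closed ball. -/
theorem radial_aux_fix {n : ℕ} {W : Set (EuclideanSpace ℝ (Fin n))}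
    {a : ℤ_[p] → EuclideanSpace ℝ (Fin n) → EuclideanSpace ℝ (Fin n)} (hW : IsOpen W)
    (act : LocAct p W a) {v : EuclideanSpace ℝ (Fin n)} {ρ : ℝ} (hρ : 0 < ρ)
    (hnf : ∀ y ∈ W, (¬ ∀ u, a u y = y) → ρ ≤ dist y v) :
    ∀ y ∈ W, dist y v ≤ ρ → ∀ u, a u y = y := by
  intro y hy hyv u
  rcases hyv.lt_or_eq with h1 | h1
  · by_contra hcon
    exact absurd (hnf y hy (fun h => hcon (h u))) (not_le.2 h1)
  · have h2 : y ∈ closure (ball v ρ) := by
      rw [closure_ball v hρ.ne']; exact hyv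
    have h3 : y ∈ closure (ball v ρ ∩ W) := by
      rw [mem_closure_iff_nhds] at h2 ⊢
      intro t ht
      obtain ⟨z, hz1, hz2⟩ := h2 (t ∩ W) (Filter.inter_mem ht (hW.mem_nhds hy))
      exact ⟨z, hz1.1, hz2, hz1.2⟩
    have h4 : ContinuousWithinAt (a u) (ball v ρ ∩ W) y :=
      ((act.cont_right u).continuousWithinAt hy).mono inter_subset_right
    have h5 : Filter.Tendsto (a u) (𝓝[ball v ρ ∩ W] y) (𝓝 y) := by
      apply (continuousWithinAt_id (s := ball v ρ ∩ W)).tendsto.congr'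
      filter_upwards [self_mem_nhdsWithin] with z hz
      by_contra hcon
      have h6 := hnf z hz.2 (fun h => hcon (h u).symm)
      exact absurd hz.1 (by rw [mem_ball]; exact not_lt.2 h6)
    have := mem_closure_iff_nhdsWithin_neBot.1 h3
    exact tendsto_nhds_unique h4.tendsto h5

/-- small displacement near the fixed ball. -/
theorem radial_aux_small {n : ℕ} {W K : Set (EuclideanSpace ℝ (Fin n))}
    {a : ℤ_[p] → EuclideanSpace ℝ (Fin n) → EuclideanSpace ℝ (Fin n)}
    (act : LocAct p W a) {v : EuclideanSpace ℝ (Fin n)} {ρ : ℝ}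
    (hfix : ∀ y ∈ W, dist y v ≤ ρ → ∀ u, a u y = y) (hK : IsCompact K) (hKW : K ⊆ W) {ε : ℝ}
    (hε : 0 < ε) : ∃ δ > 0, ∀ x ∈ K, dist x v ≤ ρ + δ → ∀ u, ‖a u x - x‖ ≤ ε := by
  have hcont : ContinuousOn (fun z : ℤ_[p] × EuclideanSpace ℝ (Fin n) => ‖a z.1 z.2 - z.2‖)
      ((univ : Set ℤ_[p]) ×ˢ K) :=
    ((act.cont.mono (prod_mono_right hKW)).sub continuousOn_snd).norm
  have hcpt : IsCompact ((univ : Set ℤ_[p]) ×ˢ K) := isCompact_univ.prod hK
  set S := ((univ : Set ℤ_[p]) ×ˢ K) ∩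
    (fun z : ℤ_[p] × EuclideanSpace ℝ (Fin n) => ‖a z.1 z.2 - z.2‖) ⁻¹' Ici ε with hS
  have hScl : IsClosed S := hcont.preimage_isClosed_of_isClosed hcpt.isClosed isClosed_Ici
  have hScpt : IsCompact S := hcpt.of_isClosed_subset hScl inter_subset_left
  by_cases hSne : S.Nonempty
  · obtain ⟨z, hzS, hzmin⟩ := hScpt.exists_isMinOn hSne
      (f := fun z : ℤ_[p] × EuclideanSpace ℝ (Fin n) => dist z.2 v)
      (continuous_snd.dist continuous_const).continuousOn
    have hz : ρ < dist z.2 v := by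
      by_contra hcon
      have h1 := hfix z.2 (hKW hzS.1.2) (not_lt.1 hcon) z.1
      have h2 : ε ≤ ‖a z.1 z.2 - z.2‖ := hzS.2
      rw [h1, sub_self, norm_zero] at h2
      linarith only [hε, h2]
    refine ⟨(dist z.2 v - ρ) / 2, by (clear hS hScpt hSne hzmin; linarith), fun x hx hxv u => ?_⟩
    by_contra hcon
    have h3 : (u, x) ∈ S := ⟨⟨trivial, hx⟩, (not_le.1 hcon).le⟩
    have h4 : dist z.2 v ≤ dist x v := isMinOn_iff.1 hzmin (u, x) h3
    linarith
  · refine ⟨1, one_pos, fun x hx hxv u => ?_⟩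
    by_contra hcon
    exact hSne ⟨(u, x), ⟨trivial, hx⟩, (not_le.1 hcon).le⟩

/-- the pull-back of the ball of radius `2 R`. -/
theorem radial_aux_pre {n : ℕ} {v c : EuclideanSpace ℝ (Fin n)} {ρ R δ₀ : ℝ} (hR : 0 < R)
    (hRρ : R ≤ ρ / 8) (hc : dist c v = ρ) {θ : ℝ ≃o ℝ} (hθ0 : θ 0 = 0) (hθge : ∀ s, s ≤ θ s)
    (hθid : ∀ s ≤ ρ, θ s = s) (hθbig : ∀ s, ρ + δ₀ ≤ s → θ s = s + 4 * R) (hδ₀ : 0 < δ₀)
    {y : EuclideanSpace ℝ (Fin n)} (hy : y ∈ closedBall c (2 * R)) :
    y ≠ v ∧ rad θ.symm v y ∈ closedBall c (4 * R) ∧ dist (rad θ.symm v y) v ≤ ρ + δ₀ := by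
  have hθ0' : θ.symm 0 = 0 := by rw [θ.symm_apply_eq, hθ0]
  rw [mem_closedBall] at hy
  have hyv : y ≠ v := by
    rintro rfl
    rw [dist_comm, hc] at hy
    linarith
  set x := rad θ.symm v y with hx
  have hxv : x ≠ v := rad_ne hθ0' hyv
  have hyx : y = rad θ v x := (rad_rad_symm hθ0 hyv).symm
  have h1 : dist y v = θ (dist x v) := by
    rw [dist_eq_norm, dist_eq_norm]
    conv_lhs => rw [hyx]
    exact norm_rad_sub hθ0 hxv
  have h2 : dist y v ≤ ρ + 2 * R := by
    have := dist_triangle y c v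
    linarith only [hc, hy, this]
  have h3 : dist x v ≤ ρ + δ₀ := by
    by_contra hcon
    push Not at hcon
    have h4 := hθbig _ hcon.le
    linarith only [hR, hδ₀, h1, h2, hcon, h4]
  have h5 : dist y x ≤ 2 * R := by
    have hd : 0 < ‖x - v‖ := norm_pos_iff.2 (sub_ne_zero.2 hxv)
    have h6 : y - x = ((θ ‖x - v‖ - ‖x - v‖) / ‖x - v‖) • (x - v) := by
      conv_lhs => rw [hyx]
      rw [rad, sub_div, div_self hd.ne', sub_smul, one_smul]
      abel
    rw [dist_eq_norm, h6, norm_smul, norm_div, Real.norm_eq_abs, Real.norm_eq_abs,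
      abs_of_pos hd, div_mul_cancel₀ _ hd.ne', abs_of_nonneg (by linarith only [hθge ‖x - v‖])]
    rw [dist_eq_norm x v] at h1
    rcases le_total ‖x - v‖ ρ with h7 | h7
    · rw [hθid _ h7]; linarith only [hR]
    · linarith only [h1, h2, h7]
  refine ⟨hyv, ?_, h3⟩
  rw [mem_closedBall]
  have := dist_triangle x y c
  rw [dist_comm x y] at this
  linarith only [hy, h5, this]

/-- the estimate for the radial stretching. -/
theorem radial_aux_disp {n : ℕ} {v x x' : EuclideanSpace ℝ (Fin n)} {θ : ℝ ≃o ℝ} {A : ℝ}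
    (hxv : x ≠ v) (hx'v : x' ≠ v) (hθθ : |θ ‖x' - v‖ - θ ‖x - v‖| ≤ ‖x' - x‖ + A)
    (hratio : θ ‖x' - v‖ ≤ 2 * ‖x' - v‖) (hge : 0 ≤ θ ‖x' - v‖) :
    ‖rad θ v x' - rad θ v x‖ ≤ 5 * ‖x' - x‖ + A := by
  have hs : 0 < ‖x - v‖ := norm_pos_iff.2 (sub_ne_zero.2 hxv)
  have hs'0 : 0 < ‖x' - v‖ := norm_pos_iff.2 (sub_ne_zero.2 hx'v)
  set s := ‖x - v‖ with hsdef
  set s' := ‖x' - v‖ with hs'def
  have hss : |s' - s| ≤ ‖x' - x‖ := by
    have := abs_norm_sub_norm_le (x' - v) (x - v)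
    rwa [sub_sub_sub_cancel_right] at this
  have hratio2 : θ s' / s' ≤ 2 := by
    rw [div_le_iff₀ hs'0]; exact hratio
  have hratio0 : 0 ≤ θ s' / s' := div_nonneg hge hs'0.le
  have e3 : rad θ v x' - rad θ v x = (θ s' / s') • (x' - x) +
      (θ s' / s' - θ s / s) • (x - v) := by
    simp only [rad, ← hsdef, ← hs'def]
    rw [smul_sub, sub_smul, smul_sub, smul_sub, smul_sub]
    abel
  have e5 : (θ s' / s' - θ s / s) * s = (θ s' - θ s) - (θ s' / s') * (s' - s) := by
    have h1 : θ s / s * s = θ s := div_mul_cancel₀ _ hs.ne'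
    have h2 : θ s' / s' * s' = θ s' := div_mul_cancel₀ _ hs'0.ne'
    rw [sub_mul, mul_sub, h1, h2]; ring
  have e4 : |θ s' / s' - θ s / s| * s ≤ |θ s' - θ s| + 2 * |s' - s| := by
    calc |θ s' / s' - θ s / s| * s = |(θ s' / s' - θ s / s) * s| := by
          rw [abs_mul, abs_of_pos hs]
      _ = |(θ s' - θ s) - (θ s' / s') * (s' - s)| := by rw [e5]
      _ ≤ |θ s' - θ s| + |(θ s' / s') * (s' - s)| := abs_sub _ _
      _ ≤ _ := by
        rw [abs_mul, abs_of_nonneg hratio0]
        have := mul_le_mul_of_nonneg_right hratio2 (abs_nonneg (s' - s))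
        linarith only [this]
  rw [e3]
  calc ‖(θ s' / s') • (x' - x) + (θ s' / s' - θ s / s) • (x - v)‖
      ≤ ‖(θ s' / s') • (x' - x)‖ + ‖(θ s' / s' - θ s / s) • (x - v)‖ := norm_add_le _ _
    _ = (θ s' / s') * ‖x' - x‖ + |θ s' / s' - θ s / s| * s := by
        rw [norm_smul, norm_smul, Real.norm_eq_abs, Real.norm_eq_abs, abs_of_nonneg hratio0]
    _ ≤ 2 * ‖x' - x‖ + (|θ s' - θ s| + 2 * |s' - s|) := by
        have := mul_le_mul_of_nonneg_right hratio2 (norm_nonneg (x' - x))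
        linarith only [e4, this]
    _ ≤ 5 * ‖x' - x‖ + A := by linarith only [hθθ, hss]

/-- existence of the stretching. -/
theorem radial_aux_theta {n : ℕ} {W : Set (EuclideanSpace ℝ (Fin n))}
    {a : ℤ_[p] → EuclideanSpace ℝ (Fin n) → EuclideanSpace ℝ (Fin n)} (act : LocAct p W a)
    {v : EuclideanSpace ℝ (Fin n)} {ρ : ℝ} (hρ : 0 < ρ) {K : Set (EuclideanSpace ℝ (Fin n))}
    (hKW : K ⊆ W) (hsmall : ∀ ε > 0, ∃ δ > 0, ∀ x ∈ K, dist x v ≤ ρ + δ →
      ∀ u, ‖a u x - x‖ ≤ ε) {R η δ₀ : ℝ} (hR : 0 < R) (hη : 0 < η) (hδ₀ : 0 < δ₀) :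
    ∃ θ : ℝ ≃o ℝ, θ 0 = 0 ∧ (∀ s, s ≤ θ s) ∧ (∀ s, θ s ≤ s + 4 * R) ∧ (∀ s ≤ ρ, θ s = s) ∧
      (∀ s, ρ + δ₀ ≤ s → θ s = s + 4 * R) ∧ ∀ x ∈ K, ∀ u, a u x ∈ K →
        |θ ‖a u x - v‖ - θ ‖x - v‖| ≤ ‖a u x - x‖ + η := by
  -- the relation
  let r : ℝ → ℝ → Prop := fun t t' => ∃ x ∈ K, ∃ u,
    a u x ∈ K ∧ t = dist x v - ρ ∧ t' = dist (a u x) v - ρ
  have hrsymm : ∀ t t', r t t' → r t' t := by
    rintro t t' ⟨x, hx, u, hux, ht, ht'⟩
    exact ⟨a u x, hux, -u, by rw [act.neg_cancel u (hKW hx)]; exact hx, ht',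
      by rw [act.neg_cancel u (hKW hx)]; exact ht⟩
  have hrH : ∀ ε > 0, ∃ δ > 0, ∀ t t', r t t' → t ≤ δ → t' ≤ ε := by
    intro ε hε
    obtain ⟨δ, hδ, h1⟩ := hsmall (ε / 2) (by (clear * - hε; positivity))
    refine ⟨min δ (ε / 2), lt_min hδ (by positivity), ?_⟩
    rintro t t' ⟨x, hx, u, hux, rfl, rfl⟩ ht
    have h2 := h1 x hx (by linarith [min_le_left δ (ε / 2)]) u
    have h3 := dist_triangle (a u x) x v
    rw [dist_eq_norm (a u x) x] at h3
    linarith only [ht, h2, h3, min_le_right δ (ε / 2)]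
  obtain ⟨N, hN⟩ := exists_nat_gt (4 * R / η)
  have hN0 : (0 : ℝ) < N := lt_trans (by (clear * - hR hη; positivity)) hN
  obtain ⟨f, hfc, hfm, ⟨ε', hε', -, hf0⟩, hfN, hfle, hfr⟩ := exists_stair r hrsymm hrH N δ₀ hδ₀
  have hA : 0 < 4 * R / N := by positivity
  have hAN : 4 * R / N * N = 4 * R := div_mul_cancel₀ _ hN0.ne'
  have hAη : 4 * R / N ≤ η := by
    rw [div_le_iff₀ hN0]
    have := (div_lt_iff₀ hη).1 hN
    linarith only [this]
  have hf0' : ∀ t ≤ 0, f t = 0 := fun t ht => hf0 t (by linarith only [hε', ht])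
  have hfnn : ∀ t, 0 ≤ f t := by
    intro t
    rcases le_total t 0 with h | h
    · rw [hf0' t h]
    · rw [← hf0' 0 le_rfl]; exact hfm h
  obtain ⟨θ, hθ⟩ := exists_theta hfc hfm hf0' hfle (ρ := ρ) hA.le
  refine ⟨θ, ?_, ?_, ?_, ?_, ?_, ?_⟩
  · rw [hθ, hf0' _ (by linarith only [hρ])]; simp only [mul_zero, add_zero]
  · intro s; rw [hθ]; have := mul_nonneg hA.le (hfnn (s - ρ)); linarith only [this]
  · intro s; rw [hθ]; have := mul_le_mul_of_nonneg_left (hfle (s - ρ)) hA.le; linarith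
  · intro s hs; rw [hθ, hf0' _ (by linarith only [hs]), mul_zero, add_zero]
  · intro s hs; rw [hθ, hfN _ (by linarith only [hs]), hAN]
  · intro x hx u hux
    have hr : |f (‖x - v‖ - ρ) - f (‖a u x - v‖ - ρ)| ≤ 1 := by
      rw [← dist_eq_norm, ← dist_eq_norm]
      exact hfr _ _ ⟨x, hx, u, hux, rfl, rfl⟩
    have hss : |‖a u x - v‖ - ‖x - v‖| ≤ ‖a u x - x‖ := by
      have := abs_norm_sub_norm_le (a u x - v) (x - v)
      rwa [sub_sub_sub_cancel_right] at this
    rw [hθ, hθ]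
    set s := ‖x - v‖
    set s' := ‖a u x - v‖
    have e1 : s' + 4 * R / N * f (s' - ρ) - (s + 4 * R / N * f (s - ρ)) =
      (s' - s) - 4 * R / N * (f (s - ρ) - f (s' - ρ)) := by ring
    have e2 : |4 * R / N * (f (s - ρ) - f (s' - ρ))| ≤ 4 * R / N := by
      rw [abs_mul, abs_of_pos hA]
      exact mul_le_of_le_one_right hA.le hr
    rw [e1]
    calc |s' - s - 4 * R / N * (f (s - ρ) - f (s' - ρ))|
        ≤ |s' - s| + |4 * R / N * (f (s - ρ) - f (s' - ρ))| := abs_sub _ _
      _ ≤ _ := by linarith only [hAη, hss, e2]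

/-- Claim R: at a point of the boundary of a ball of fixed points, a neighbourhood is fixed. -/
theorem radial_fixed {n : ℕ} (hLN : LocalNewman p n) {W : Set (EuclideanSpace ℝ (Fin n))}
    {a : ℤ_[p] → EuclideanSpace ℝ (Fin n) → EuclideanSpace ℝ (Fin n)} (hW : IsOpen W)
    (act : LocAct p W a) {v c : EuclideanSpace ℝ (Fin n)} {ρ : ℝ} (hρ : 0 < ρ)
    (hc : dist c v = ρ) (hcW : c ∈ W) (hfar : ∀ y ∈ W, ρ / 2 ≤ dist y v)
    (hnf : ∀ y ∈ W, (¬ ∀ u, a u y = y) → ρ ≤ dist y v) : ∀ᶠ y in 𝓝 c, ∀ u, a u y = y := by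
  obtain ⟨c₀, hc₀, H⟩ := hLN.scaled
  have hfix := radial_aux_fix hW act hρ hnf
  -- the scale `R`
  obtain ⟨R₀, hR₀, hR₀W⟩ := Metric.isOpen_iff.1 hW c hcW
  obtain ⟨R, hR, hRρ, hRR₀⟩ : ∃ R > 0, R ≤ ρ / 8 ∧ R ≤ R₀ / 6 :=
    ⟨min (R₀ / 6) (ρ / 8), lt_min (by (clear * - hR₀; positivity)) (by positivity), min_le_right _ _,
      min_le_left _ _⟩
  have hKW : closedBall c (5 * R) ⊆ W := by
    refine (closedBall_subset_ball ?_).trans hR₀W
    linarith
  have hvW : ∀ x ∈ W, x ≠ v := by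
    rintro x hx rfl
    have := hfar x hx
    rw [dist_self] at this
    linarith
  have hsmall : ∀ ε > 0, ∃ δ > 0, ∀ x ∈ closedBall c (5 * R), dist x v ≤ ρ + δ →
      ∀ u, ‖a u x - x‖ ≤ ε := fun ε hε =>
    radial_aux_small act hfix (isCompact_closedBall _ _) hKW hε
  obtain ⟨δ₀, hδ₀, hdisp⟩ := hsmall (min (c₀ * R / 10) R) (lt_min (by (clear * - hc₀ hR; positivity)) hR)
  obtain ⟨θ, hθ0, hθge, hθle, hθid, hθbig, hθθ⟩ := radial_aux_theta act hρ hKW hsmall hR
    (show 0 < c₀ * R / 2 by positivity) hδ₀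
  have hpre := fun y hy => radial_aux_pre (y := y) hR hRρ hc hθ0 hθge hθid hθbig hδ₀ hy
  -- the conjugated action
  set W' := ({v}ᶜ : Set (EuclideanSpace ℝ (Fin n))) ∩ rad θ.symm v ⁻¹' W with hW'
  have hW'o : IsOpen W' := rad_contOn.isOpen_inter_preimage isOpen_compl_singleton hW
  have hWW' : MapsTo (rad θ v) W W' := fun x hx =>
    ⟨rad_ne hθ0 (hvW x hx), by rw [mem_preimage, rad_symm_rad hθ0 (hvW x hx)]; exact hx⟩
  have act' : LocAct p W' (fun u y => rad θ v (a u (rad θ.symm v y))) :=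
    locAct_conj hWW' (fun y hy => hy.2) (fun x hx => rad_symm_rad hθ0 (hvW x hx))
      (fun y hy => rad_rad_symm hθ0 hy.1) (rad_contOn.mono (fun x hx => hvW x hx))
      (rad_contOn.mono (fun y hy => hy.1)) act
  -- the displacement
  have hmain : ∀ u, ∀ y ∈ closedBall c (2 * R),
      ‖rad θ v (a u (rad θ.symm v y)) - y‖ ≤ c₀ * R := by
    intro u y hy
    obtain ⟨hyv, hxK, hxρ⟩ := hpre y hy
    have hyx : rad θ v (rad θ.symm v y) = y := rad_rad_symm hθ0 hyv
    generalize rad θ.symm v y = x at hxK hxρ hyx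
    have hxK5 : x ∈ closedBall c (5 * R) := closedBall_subset_closedBall (by linarith only [hR]) hxK
    have hxW : x ∈ W := hKW hxK5
    have hd := hdisp x hxK5 hxρ u
    have hd1 : ‖a u x - x‖ ≤ c₀ * R / 10 := hd.trans (min_le_left _ _)
    have hx'K5 : a u x ∈ closedBall c (5 * R) := by
      rw [mem_closedBall] at hxK ⊢
      have := dist_triangle (a u x) x c
      rw [dist_eq_norm (a u x) x] at this
      linarith only [hxK, this, hd.trans (min_le_right _ _)]
    have hx'W : a u x ∈ W := hKW hx'K5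
    have hs' : ρ / 2 ≤ ‖a u x - v‖ := by rw [← dist_eq_norm]; exact hfar _ hx'W
    have h1 := radial_aux_disp (hvW x hxW) (hvW _ hx'W) (hθθ x hxK5 u hx'K5)
      (by linarith only [hRρ, hs', hθle ‖a u x - v‖]) ((by linarith only [hR, hRρ, hs'] : (0 : ℝ) ≤ ‖a u x - v‖).trans (hθge _))
    rw [← hyx]
    linarith only [hd1, h1]
  -- conclusion
  have hballW' : closedBall c (2 * R) ⊆ W' := by
    intro y hy
    obtain ⟨hyv, hxK, -⟩ := hpre y hy
    exact ⟨hyv, hKW (closedBall_subset_closedBall (by linarith only [hR]) hxK)⟩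
  have hyfix : ∀ y ∈ ball c R, ∀ u, a u (rad θ.symm v y) = rad θ.symm v y := by
    intro y hy u
    have hsub : closedBall y R ⊆ closedBall c (2 * R) := by
      apply closedBall_subset_closedBall'
      rw [mem_ball] at hy
      linarith only [hy]
    have h1 := H W' _ hW'o act' y R hR (hsub.trans hballW')
      (fun u x hx => hmain u x (hsub hx)) u
    obtain ⟨hyv, hxK, -⟩ := hpre y (hsub (mem_closedBall_self hR.le))
    have hxW : rad θ.symm v y ∈ W := hKW (closedBall_subset_closedBall (by linarith only [hR]) hxK)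
    have h3 := congrArg (rad θ.symm v) h1
    rwa [rad_symm_rad hθ0 (hvW _ (act.maps u _ hxW))] at h3
  have hcv : c ≠ v := hvW c hcW
  have hradc : rad θ v c = c := by
    have h1 : θ ‖c - v‖ = ‖c - v‖ := by
      rw [← dist_eq_norm, hθid _ hc.le]
    rw [rad, h1, div_self (norm_ne_zero_iff.2 (sub_ne_zero.2 hcv)), one_smul, add_sub_cancel]
  have hct : ContinuousAt (rad θ v) c :=
    rad_contOn.continuousAt (isOpen_compl_singleton.mem_nhds hcv)
  have h1 : ∀ᶠ y in 𝓝 c, rad θ v y ∈ ball c R := by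
    apply hct.eventually_mem
    rw [hradc]
    exact ball_mem_nhds c hR
  filter_upwards [h1, isOpen_compl_singleton.mem_nhds hcv] with y hy hyv u
  have h2 := hyfix _ hy u
  rwa [rad_symm_rad hθ0 hyv] at h2

end Vale.Agent.P228.GRL
end
end

section

section

section

set_option linter.unusedSectionVars false

open Set Topology MeasureTheory

namespace Vale.Agent.P228

variable {p : ℕ} [Fact p.Prime] {X : Type*} [TopologicalSpace X]
    [CompactSpace X] [T2Space X] [AddAction ℤ_[p] X] [ContinuousVAdd ℤ_[p] X]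

/-- invariant subsets -/
def Invt (p : ℕ) [Fact p.Prime] {X : Type*} [AddAction ℤ_[p] X] (A : Set X) : Prop :=
  ∀ (g : ℤ_[p]), ∀ x ∈ A, g +ᵥ x ∈ A

lemma Invt.iff {A : Set X} (h : Invt p A) (g : ℤ_[p]) (x : X) : g +ᵥ x ∈ A ↔ x ∈ A := by
  constructor
  · intro hx
    have := h (-g) _ hx
    rwa [neg_vadd_vadd] at this
  · exact h g x

lemma Invt.compl {A : Set X} (h : Invt p A) : Invt p Aᶜ := by
  intro g x hx hgx
  exact hx ((h.iff g x).1 hgx)

lemma Invt.inter {A B : Set X} (h : Invt p A) (h' : Invt p B) : Invt p (A ∩ B) :=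
  fun g x hx => ⟨h g x hx.1, h' g x hx.2⟩

lemma Invt.union {A B : Set X} (h : Invt p A) (h' : Invt p B) : Invt p (A ∪ B) := by
  rintro g x (hx | hx)
  · exact Or.inl (h g x hx)
  · exact Or.inr (h' g x hx)

lemma Invt.closure {A : Set X} (h : Invt p A) : Invt p (closure A) := by
  intro g x hx
  have h1 : MapsTo (fun x : X => g +ᵥ x) A A := fun x hx => h g x hx
  exact h1.closure (continuous_const_vadd g) hx

lemma Invt.interior {A : Set X} (h : Invt p A) : Invt p (interior A) := by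
  have := h.compl.closure.compl
  rwa [closure_compl, compl_compl] at this

lemma Invt.frontier {A : Set X} (h : Invt p A) : Invt p (frontier A) :=
  h.closure.inter h.interior.compl

/-- saturation -/
def sat (p : ℕ) [Fact p.Prime] {X : Type*} [AddAction ℤ_[p] X] (C : Set X) : Set X :=
  {y | ∃ g : ℤ_[p], ∃ v ∈ C, g +ᵥ v = y}

lemma invt_sat (C : Set X) : Invt p (sat p C) := by
  rintro g _ ⟨h, v, hv, rfl⟩
  exact ⟨g + h, v, hv, add_vadd g h v⟩

lemma subset_sat (C : Set X) : C ⊆ sat p C := fun v hv => ⟨0, v, hv, zero_vadd _ v⟩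

lemma sat_eq_image (C : Set X) : sat p C = (fun q : ℤ_[p] × X => q.1 +ᵥ q.2) '' (univ ×ˢ C) := by
  ext y
  constructor
  · rintro ⟨g, v, hv, rfl⟩
    exact ⟨(g, v), ⟨mem_univ _, hv⟩, rfl⟩
  · rintro ⟨⟨g, v⟩, ⟨-, hv⟩, rfl⟩
    exact ⟨g, v, hv, rfl⟩

lemma isClosed_sat {C : Set X} (hC : IsClosed C) : IsClosed (sat p C) := by
  rw [sat_eq_image]
  exact ((isCompact_univ.prod hC.isCompact).image (by fun_prop)).isClosed

lemma isOpen_sat {C : Set X} (hC : IsOpen C) : IsOpen (sat p C) := by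
  have : sat p C = ⋃ g : ℤ_[p], (fun x => g +ᵥ x) '' C := by
    ext y
    simp only [sat, mem_ofPred_eq, mem_iUnion, mem_image]
  rw [this]
  exact isOpen_iUnion fun g => (Homeomorph.vadd g).isOpenMap _ hC

lemma closure_sat_subset (C : Set X) : closure (sat p C) ⊆ sat p (closure C) := by
  apply closure_minimal _ (isClosed_sat isClosed_closure)
  rintro _ ⟨g, v, hv, rfl⟩
  exact ⟨g, v, subset_closure hv, rfl⟩

lemma frontier_sat_subset {C : Set X} (hC : IsOpen C) : frontier (sat p C) ⊆ sat p (frontier C) := by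
  intro y hy
  rw [(isOpen_sat hC).frontier_eq] at hy
  obtain ⟨g, v, hv, rfl⟩ := closure_sat_subset C hy.1
  refine ⟨g, v, ?_, rfl⟩
  rw [hC.frontier_eq]
  exact ⟨hv, fun hvC => hy.2 ⟨g, v, hvC, rfl⟩⟩

lemma nsmul_fix {x : X} {g : ℤ_[p]} (hg : g +ᵥ x = x) (n : ℕ) : ((n : ℤ_[p]) * g) +ᵥ x = x := by
  induction n with
  | zero => simp
  | succ n ih =>
    have : ((n + 1 : ℕ) : ℤ_[p]) * g = g + n * g := by push_cast; ring
    rw [this, add_vadd, ih, hg]

lemma stab {x : X} (hx : (1 : ℤ_[p]) +ᵥ x ≠ x) {g : ℤ_[p]} (hg : g +ᵥ x = x) :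
    PadicInt.toZMod g = 0 := by
  by_contra h
  have h1 : g ∉ RingHom.ker (PadicInt.toZMod : ℤ_[p] →+* ZMod p) := by
    rw [RingHom.mem_ker]; exact h
  rw [PadicInt.ker_toZMod, IsLocalRing.mem_maximalIdeal, mem_nonunits_iff, not_not] at h1
  obtain ⟨u, rfl⟩ := h1
  have h2 : ∀ h : ℤ_[p], (h * (u : ℤ_[p])) +ᵥ x = x := by
    refine eq_of_nat (f := fun h : ℤ_[p] => (h * (u : ℤ_[p])) +ᵥ x) (g := fun _ => x)
      (by (clear hx hg h; fun_prop)) continuous_const ?_
    intro n
    exact nsmul_fix hg n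
  apply hx
  have h3 := h2 ((u⁻¹ : ℤ_[p]ˣ) : ℤ_[p])
  rwa [Units.inv_mul] at h3

lemma exists_nbhd {x : X} (hx : (1 : ℤ_[p]) +ᵥ x ≠ x) :
    ∃ B : Set X, IsOpen B ∧ x ∈ B ∧ ∀ v ∈ B, ∀ v' ∈ B, ∀ g : ℤ_[p], g +ᵥ v = v' →
      PadicInt.toZMod g = 0 := by
  have hcl : IsClosed {g : ℤ_[p] | PadicInt.toZMod g ≠ 0} := by
    have h1 : IsLocallyConstant (fun u : ℤ_[p] => PadicInt.toZMod u) := by
      rw [IsLocallyConstant.iff_eventually_eq]
      intro u
      filter_upwards [Metric.ball_mem_nhds u one_pos] with v hv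
      have h2 : v - u ∈ RingHom.ker (PadicInt.toZMod : ℤ_[p] →+* ZMod p) := by
        rw [PadicInt.ker_toZMod, IsLocalRing.mem_maximalIdeal, PadicInt.mem_nonunits]
        rwa [← dist_eq_norm]
      rw [RingHom.mem_ker, map_sub, sub_eq_zero] at h2
      exact h2
    exact (h1.isOpen_fiber 0).isClosed_compl
  have h1 : ∀ᶠ z in 𝓝 (x, x), ∀ g ∈ {g : ℤ_[p] | PadicInt.toZMod g ≠ 0}, g +ᵥ z.1 ≠ z.2 := by
    refine hcl.isCompact.eventually_forall_of_forall_eventually
      (P := fun (z : X × X) (g : ℤ_[p]) => g +ᵥ z.1 ≠ z.2) ?_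
    intro g hg
    have hopen : IsOpen {q : (X × X) × ℤ_[p] | q.2 +ᵥ q.1.1 ≠ q.1.2} :=
      isOpen_ne_fun (by fun_prop) (by fun_prop)
    refine hopen.mem_nhds ?_
    intro h
    exact hg (stab hx h)
  rw [nhds_prod_eq] at h1
  obtain ⟨t, ht, h2⟩ := (Filter.eventually_prod_self_iff (r := fun a b : X =>
    ∀ g ∈ {g : ℤ_[p] | PadicInt.toZMod g ≠ 0}, g +ᵥ a ≠ b)).1 h1
  obtain ⟨B, hB, hBo, hxB⟩ := mem_nhds_iff.1 ht
  refine ⟨B, hBo, hxB, fun v hv v' hv' g hg => ?_⟩
  by_contra h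
  exact h2 v (hB hv) v' (hB hv') g h hg

lemma sepGen {Y : Type*} [TopologicalSpace Y] {F : Set (Set Y)}
    (hinter : ∀ A ∈ F, ∀ B ∈ F, A ∩ B ∈ F) (huniv : univ ∈ F) {x : Y} {C : Set Y}
    (hC : IsCompact C) (h : ∀ x' ∈ C, ∃ V ∈ F, x ∈ V ∧ x' ∉ closure V) :
    ∃ V ∈ F, x ∈ V ∧ Disjoint (closure V) C := by
  refine hC.induction_on (p := fun C => ∃ V ∈ F, x ∈ V ∧ Disjoint (closure V) C) ?_ ?_ ?_ ?_
  · exact ⟨univ, huniv, mem_univ _, disjoint_empty _⟩
  · rintro s t hst ⟨V, hV, hx, hd⟩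
    exact ⟨V, hV, hx, hd.mono_right hst⟩
  · rintro s t ⟨V, hV, hx, hd⟩ ⟨V', hV', hx', hd'⟩
    refine ⟨V ∩ V', hinter V hV V' hV', ⟨hx, hx'⟩, disjoint_union_right.2 ⟨?_, ?_⟩⟩
    · exact hd.mono_left (closure_mono inter_subset_left)
    · exact hd'.mono_left (closure_mono inter_subset_right)
  · intro x' hx'
    obtain ⟨V, hV, hx, hx''⟩ := h x' hx'
    refine ⟨(closure V)ᶜ, mem_nhdsWithin_of_mem_nhds (isClosed_closure.isOpen_compl.mem_nhds hx''),
      V, hV, hx, disjoint_compl_right⟩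

/-- separation by functions -/
lemma sepFun {Y : Type*} [TopologicalSpace Y] {κ : Type*} {f : κ → Y → ℝ}
    (hf : ∀ k, Continuous (f k)) {T : κ → Set ℝ} (hT : ∀ k, Dense (T k)) (Q : Set Y → Prop)
    (hQuniv : Q univ) (hQinter : ∀ A B, Q A → Q B → Q (A ∩ B))
    (hQ : ∀ k, ∀ τ ∈ T k, Q {x | f k x < τ} ∧ Q {x | τ < f k x}) {x : Y} {C : Set Y}
    (hC : IsCompact C) (h : ∀ x' ∈ C, ∃ k, f k x ≠ f k x') :
    ∃ V, IsOpen V ∧ x ∈ V ∧ Disjoint (closure V) C ∧
      (∀ z ∈ frontier V, ∃ k, f k z ∈ T k) ∧ Q V := by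
  have key : ∃ V ∈ {V | IsOpen V ∧ (∀ z ∈ frontier V, ∃ k, f k z ∈ T k) ∧ Q V},
      x ∈ V ∧ Disjoint (closure V) C := by
   refine sepGen ?_ ?_ hC ?_
   · rintro A ⟨hA, hA', hA''⟩ B ⟨hB, hB', hB''⟩
     refine ⟨hA.inter hB, fun z hz => ?_, hQinter _ _ hA'' hB''⟩
     rcases frontier_inter_subset _ _ hz with hz | hz
     · exact hA' z hz.1
     · exact hB' z hz.2
   · exact ⟨isOpen_univ, by simp only [frontier_univ, mem_empty_iff_false, IsEmpty.forall_iff, implies_true], hQuniv⟩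
   · intro x' hx'
     obtain ⟨k, hk⟩ := h x' hx'
     rcases lt_or_gt_of_ne hk with hk | hk
     · obtain ⟨τ, hτT, hτ⟩ := (hT k).exists_between hk
       refine ⟨{z | f k z < τ}, ⟨isOpen_lt (hf k) continuous_const, ?_, (hQ k τ hτT).1⟩, hτ.1, ?_⟩
       · intro z hz
         have := frontier_lt_subset_eq (hf k) continuous_const hz
         refine ⟨k, ?_⟩
         have h6 : f k z = τ := this
         rwa [h6]
       · intro hx''
         have := closure_lt_subset_le (hf k) continuous_const hx''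
         have h6 : f k x' ≤ τ := this
         linarith only [h6, hτ.2]
     · obtain ⟨τ, hτT, hτ⟩ := (hT k).exists_between hk
       refine ⟨{z | τ < f k z}, ⟨isOpen_lt continuous_const (hf k), ?_, (hQ k τ hτT).2⟩, hτ.2, ?_⟩
       · intro z hz
         have := frontier_lt_subset_eq continuous_const (hf k) hz
         refine ⟨k, ?_⟩
         have h6 : τ = f k z := this
         rwa [← h6]
       · intro hx''
         have := closure_lt_subset_le continuous_const (hf k) hx''
         have h6 : τ ≤ f k x' := this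
         linarith only [h6, hτ.1]
  obtain ⟨V, ⟨h1, h2, h3⟩, h4, h5⟩ := key
  exact ⟨V, h1, h4, h5, h2, h3⟩

/-- a `μ_p`-valued equivariant label on a set -/
structure Lab (p : ℕ) [Fact p.Prime] {X : Type*} [TopologicalSpace X] [AddAction ℤ_[p] X]
    (A : Set X) (ℓ : X → ℂ) : Prop where
  cont : ContinuousOn ℓ A
  pow : ∀ x ∈ A, ℓ x ^ p = 1
  eqv : ∀ (g : ℤ_[p]), ∀ x ∈ A, ℓ (g +ᵥ x) = chi p g * ℓ x

lemma Lab.mono {A B : Set X} {ℓ : X → ℂ} (h : Lab p A ℓ) (hBA : B ⊆ A) : Lab p B ℓ :=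
  ⟨h.cont.mono hBA, fun x hx => h.pow x (hBA hx), fun g x hx => h.eqv g x (hBA hx)⟩

lemma chi_eq_of_toZMod {g h : ℤ_[p]} (e : PadicInt.toZMod (g - h) = 0) : chi p g = chi p h := by
  rw [map_sub, sub_eq_zero] at e
  rw [chi, chi, e]

lemma exists_lab {C : Set X} (hC : IsClosed C)
    (h : ∀ v ∈ C, ∀ v' ∈ C, ∀ g : ℤ_[p], g +ᵥ v = v' → PadicInt.toZMod g = 0) :
    ∃ ℓ : X → ℂ, Lab p (sat p C) ℓ := by
  classical
  set ℓ : X → ℂ := fun y => if hy : y ∈ sat p C then chi p hy.choose else 0 with hℓ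
  have key : ∀ g : ℤ_[p], ∀ v ∈ C, ℓ (g +ᵥ v) = chi p g := by
    intro g v hv
    have hy : g +ᵥ v ∈ sat p C := ⟨g, v, hv, rfl⟩
    simp only [hℓ, hy, dif_pos]
    obtain ⟨v', hv', e⟩ := hy.choose_spec
    apply chi_eq_of_toZMod
    apply h v' hv' v hv
    rw [sub_eq_neg_add, add_vadd, e, neg_vadd_vadd]
  refine ⟨ℓ, ?_, ?_, ?_⟩
  · rw [continuousOn_iff_isClosed]
    intro t ht
    refine ⟨(fun q : ℤ_[p] × X => q.1 +ᵥ q.2) '' ((chi p ⁻¹' t) ×ˢ C), ?_, ?_⟩
    · exact (((ht.preimage continuous_chi).isCompact.prod hC.isCompact).image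
        (by (clear h ℓ hℓ key; fun_prop))).isClosed
    · ext y
      constructor
      · rintro ⟨hyt, hy⟩
        refine ⟨?_, hy⟩
        obtain ⟨g, v, hv, rfl⟩ := hy
        refine ⟨(g, v), ⟨?_, hv⟩, rfl⟩
        have : ℓ (g +ᵥ v) ∈ t := hyt
        rwa [key g v hv] at this
      · rintro ⟨⟨⟨g, v⟩, ⟨hg, hv⟩, rfl⟩, hy⟩
        refine ⟨?_, hy⟩
        show ℓ (g +ᵥ v) ∈ t
        rw [key g v hv]
        exact hg
  · rintro _ ⟨g, v, hv, rfl⟩
    rw [key g v hv, chi_pow]
  · rintro g _ ⟨g', v, hv, rfl⟩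
    rw [← add_vadd, key _ v hv, key _ v hv, chi_add]

/-- local structure at a point -/
lemma exists_piece (hfix : ∀ x : X, (1 : ℤ_[p]) +ᵥ x ≠ x)
    {ι : Type*} {θ : ι → X → ℝ} (hθ : ∀ i, Continuous (θ i))
    (hθsep : ∀ x y : X, x ≠ y → ∃ i, θ i x ≠ θ i y)
    {T : ι → Set ℝ} (hT : ∀ i, Dense (T i)) (x : X) :
    ∃ U : Set X, IsOpen U ∧ x ∈ U ∧ Invt p U ∧ (∃ ℓ, Lab p (closure U) ℓ) ∧
      ∀ y ∈ frontier U, ∃ (g : ℤ_[p]) (z : X) (i : ι), g +ᵥ z = y ∧ θ i z ∈ T i := by
  obtain ⟨B, hBo, hxB, hB⟩ := exists_nbhd (hfix x)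
  obtain ⟨V, hVo, hxV, hVB, hVf, -⟩ := sepFun hθ hT (fun _ => True) trivial
    (fun _ _ _ _ => trivial) (fun _ _ _ => ⟨trivial, trivial⟩) (x := x)
    hBo.isClosed_compl.isCompact (by
      intro x' hx'
      apply hθsep
      rintro rfl
      exact hx' hxB)
  have hVB' : closure V ⊆ B := fun z hz => by
    by_contra h
    exact disjoint_left.1 hVB hz h
  refine ⟨sat p V, isOpen_sat hVo, subset_sat V hxV, invt_sat V, ?_, ?_⟩
  · obtain ⟨ℓ, hℓ⟩ := exists_lab isClosed_closure
      (fun v hv v' hv' g hg => hB v (hVB' hv) v' (hVB' hv') g hg)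
    exact ⟨ℓ, hℓ.mono (closure_sat_subset V)⟩
  · intro y hy
    obtain ⟨g, z, hz, rfl⟩ := frontier_sat_subset hVo hy
    obtain ⟨i, hi⟩ := hVf z hz
    exact ⟨g, z, i, rfl, hi⟩

/-- a label on the boundary set -/
lemma exists_bdry_lab {κ : Type*} {u : κ → X → ℝ} (hu : ∀ k, Continuous (u k))
    (huinv : ∀ k (g : ℤ_[p]) x, u k (g +ᵥ x) = u k x)
    (husep : ∀ x y : X, (∀ g : ℤ_[p], g +ᵥ x ≠ y) → ∃ k, u k x ≠ u k y)
    {T' : κ → Set ℝ} (hT' : ∀ k, Dense (T' k)) {S : Set X} (hS : IsClosed S)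
    (hempty : ∀ x ∈ S, ∀ k, u k x ∉ T' k)
    (hloc : ∀ x : X, ∃ U : Set X, IsOpen U ∧ x ∈ U ∧ Invt p U ∧ (∃ ℓ, Lab p (closure U) ℓ)) :
    ∃ ℓ : X → ℂ, Lab p S ℓ := by
  suffices hmain : ∃ V : Set X, IsOpen V ∧ Invt p V ∧ frontier V ∩ S = ∅ ∧ S ⊆ V ∧
      ∃ ℓ, Lab p (V ∩ S) ℓ by
    obtain ⟨V, -, -, -, hSV, ℓ, hℓ⟩ := hmain
    exact ⟨ℓ, hℓ.mono fun x hx => ⟨hSV hx, hx⟩⟩
  refine hS.isCompact.induction_on
    (p := fun A => ∃ V : Set X, IsOpen V ∧ Invt p V ∧ frontier V ∩ S = ∅ ∧ A ⊆ V ∧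
      ∃ ℓ, Lab p (V ∩ S) ℓ) ?_ ?_ ?_ ?_
  · refine ⟨∅, isOpen_empty, fun g x hx => hx.elim, by simp only [frontier_empty, empty_inter], subset_rfl, fun _ => 0, ?_, ?_, ?_⟩
    · simp
    · simp only [empty_inter, mem_empty_iff_false, IsEmpty.forall_iff, implies_true]
    · simp
  · rintro s t hst ⟨V, h1, h2, h3, h4, h5⟩
    exact ⟨V, h1, h2, h3, hst.trans h4, h5⟩
  · rintro s t ⟨V, h1, h2, h3, h4, ℓ, h5⟩ ⟨V', h1', h2', h3', h4', ℓ', h5'⟩
    have e1 : ∀ V : Set X, IsOpen V → frontier V ∩ S = ∅ → V ∩ S = closure V ∩ S := by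
      intro V hV hf
      ext x
      constructor
      · rintro ⟨h, h'⟩
        exact ⟨subset_closure h, h'⟩
      · rintro ⟨h, h'⟩
        refine ⟨?_, h'⟩
        by_contra hxV
        have : x ∈ frontier V ∩ S := by
          rw [hV.frontier_eq]
          exact ⟨⟨h, hxV⟩, h'⟩
        rw [hf] at this
        exact this
    have hc1 : IsClosed (V ∩ S) := by
      rw [e1 V h1 h3]; exact isClosed_closure.inter hS
    have hc2 : IsClosed (V' ∩ S ∩ Vᶜ) := by
      rw [e1 V' h1' h3']; exact (isClosed_closure.inter hS).inter h1.isClosed_compl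
    have hVS : Invt p V := h2
    refine ⟨V ∪ V', h1.union h1', h2.union h2', ?_, union_subset_union h4 h4', ?_⟩
    · rw [eq_empty_iff_forall_notMem]
      rintro x ⟨hx, hxS⟩
      rcases frontier_union_subset _ _ hx with hx | hx
      · have : x ∈ frontier V ∩ S := ⟨hx.1, hxS⟩
        rw [h3] at this; exact this
      · have : x ∈ frontier V' ∩ S := ⟨hx.2, hxS⟩
        rw [h3'] at this; exact this
    · classical
      refine ⟨fun x => if x ∈ V then ℓ x else ℓ' x, ?_, ?_, ?_⟩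
      · have e2 : (V ∪ V') ∩ S = (V ∩ S) ∪ (V' ∩ S ∩ Vᶜ) := by
          ext x
          by_cases hx : x ∈ V <;> simp [hx]
        rw [e2]
        refine ContinuousOn.union_of_isClosed ?_ ?_ hc1 hc2
        · exact h5.cont.congr fun x hx => by simp [hx.1]
        · refine (h5'.cont.mono inter_subset_left).congr fun x hx => ?_
          have : x ∉ V := hx.2
          simp [this]
      · rintro x ⟨hx, hxS⟩
        by_cases h : x ∈ V
        · simp only [h, if_true]; exact h5.pow x ⟨h, hxS⟩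
        · simp only [h, if_false]; exact h5'.pow x ⟨hx.resolve_left h, hxS⟩
      · rintro g x ⟨hx, hxS⟩
        by_cases h : x ∈ V
        · simp only [h, (h2.iff g x).2 h, if_true]; exact h5.eqv g x ⟨h, hxS⟩
        · have h' : g +ᵥ x ∉ V := fun h'' => h ((h2.iff g x).1 h'')
          simp only [h, h', if_false]; exact h5'.eqv g x ⟨hx.resolve_left h, hxS⟩
  · intro x hx
    obtain ⟨U, hU, hxU, hUi, ℓ, hℓ⟩ := hloc x
    obtain ⟨V, hVo, hxV, hVU, hVf, hVi⟩ := sepFun hu hT' (fun A => Invt p A)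
      (fun _ _ _ => mem_univ _) (fun _ _ h h' => h.inter h')
      (fun k τ _ => ⟨fun g z hz => by
        have : u k z < τ := hz
        show u k (g +ᵥ z) < τ
        rwa [huinv], fun g z hz => by
        have : τ < u k z := hz
        show τ < u k (g +ᵥ z)
        rwa [huinv]⟩) (x := x)
      hU.isClosed_compl.isCompact (by
        intro x' hx'
        apply husep
        rintro g rfl
        exact hx' (hUi g x hxU))
    refine ⟨V, mem_nhdsWithin_of_mem_nhds (hVo.mem_nhds hxV), V, hVo, hVi, ?_, subset_rfl, ℓ, ?_⟩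
    · rw [eq_empty_iff_forall_notMem]
      rintro z ⟨hz, hzS⟩
      obtain ⟨k, hk⟩ := hVf z hz
      exact hempty z hzS k hk
    · apply hℓ.mono
      rintro z ⟨hz, -⟩
      by_contra h
      refine disjoint_left.1 hVU (subset_closure hz) ?_
      intro h'
      exact h (subset_closure h')

attribute [local instance] msZ bsZ

/-- averaging a continuous real function -/
lemma exists_inv_avg (W : C(X, ℝ)) {A : Set X} (hA : Invt p A)
    (hW : ∀ (g : ℤ_[p]), ∀ x ∈ A, W (g +ᵥ x) = W x) :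
    ∃ w : X → ℝ, Continuous w ∧ (∀ (g : ℤ_[p]) x, w (g +ᵥ x) = w x) ∧ ∀ x ∈ A, w x = W x := by
  refine ⟨fun x => avg (fun g : ℤ_[p] => W (g +ᵥ x)), ?_, ?_, ?_⟩
  · rw [← continuousOn_univ]
    refine continuousOn_integral_of_compact_support (μ := muZ p)
      (f := fun x (g : ℤ_[p]) => W (g +ᵥ x)) isCompact_univ ?_
      (fun _ u _ hu => absurd (mem_univ u) hu)
    have : Continuous (fun q : X × ℤ_[p] => W (q.2 +ᵥ q.1)) := by (clear A hA hW; fun_prop)
    exact this.continuousOn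
  · intro h x
    have h2 : (fun g : ℤ_[p] => W (g +ᵥ (h +ᵥ x))) = fun g => (fun g' => W (g' +ᵥ x)) (g + h) := by
      funext g
      simp only []
      rw [add_vadd]
    show avg (fun g : ℤ_[p] => W (g +ᵥ (h +ᵥ x))) = _
    rw [h2, avg_add_right (fun g' : ℤ_[p] => W (g' +ᵥ x)) h]
  · intro x hx
    have h2 : (fun g : ℤ_[p] => W (g +ᵥ x)) = fun _ => W x := by
      funext g
      exact hW g x hx
    show avg (fun g : ℤ_[p] => W (g +ᵥ x)) = _
    rw [h2, avg_const]

/-- partial solutions with prescribed boundary label -/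
structure Sol (p : ℕ) [Fact p.Prime] {X : Type*} [TopologicalSpace X] [AddAction ℤ_[p] X]
    (S A : Set X) (ℓ' c : X → ℂ) : Prop where
  cont : ContinuousOn c A
  norm : ∀ x ∈ A, ‖c x‖ = 1
  eqv : ∀ (g : ℤ_[p]), ∀ x ∈ A, c (g +ᵥ x) = chi p g * c x
  bdry : ∀ x ∈ A, x ∈ S → c x = ℓ' x

lemma norm_of_pow {z : ℂ} (h : z ^ p = 1) : ‖z‖ = 1 := by
  have hp : p ≠ 0 := (Fact.out : p.Prime).ne_zero
  exact Complex.norm_eq_one_of_pow_eq_one h hp

lemma sol_of_lab {S D : Set X} (hS : IsClosed S) (hD : IsClosed D) (hSi : Invt p S)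
    (hDi : Invt p D) {ℓ ℓ' : X → ℂ} (hℓ : Lab p D ℓ) (hℓ' : Lab p S ℓ') :
    ∃ c, Sol p S D ℓ' c := by
  have hF : {z : ℂ | z ^ p = 1}.Finite := by
    have hp : 0 < p := (Fact.out : p.Prime).pos
    have h1 : {z : ℂ | z ^ p = 1} ⊆ (Polynomial.nthRootsFinset p (1 : ℂ) : Set ℂ) := by
      intro z hz
      rw [Finset.mem_coe, Polynomial.mem_nthRootsFinset hp]
      exact hz
    exact (Finset.finite_toSet _).subset h1
  set ρ : X → ℂ := fun x => ℓ' x / ℓ x with hρ
  have hℓ0 : ∀ x ∈ D, ℓ x ≠ 0 := by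
    intro x hx h
    have := norm_of_pow (hℓ.pow x hx)
    rw [h, norm_zero] at this
    exact zero_ne_one this
  have hρp : ∀ x ∈ D ∩ S, ρ x ^ p = 1 := by
    intro x hx
    rw [hρ, div_pow, hℓ.pow x hx.1, hℓ'.pow x hx.2, div_one]
  have hρinv : ∀ (g : ℤ_[p]), ∀ x ∈ D ∩ S, ρ (g +ᵥ x) = ρ x := by
    intro g x hx
    simp only [hρ]
    rw [hℓ.eqv g x hx.1, hℓ'.eqv g x hx.2, mul_div_mul_left _ _ (chi_ne_zero g)]
  have hρc : ContinuousOn ρ (D ∩ S) :=
    (hℓ'.cont.mono inter_subset_right).div (hℓ.cont.mono inter_subset_left)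
      (fun x hx => hℓ0 x hx.1)
  have hargc : ContinuousOn (fun x => Complex.arg (ρ x)) (D ∩ S) :=
    (hF.continuousOn Complex.arg).comp hρc (fun x hx => hρp x hx)
  have hDS : IsClosed (D ∩ S) := hD.inter hS
  obtain ⟨W, hW⟩ := ContinuousMap.exists_restrict_eq hDS
    (⟨fun x : ↥(D ∩ S) => Complex.arg (ρ x), continuousOn_iff_continuous_domRestrict.1 hargc⟩ :
      C(↥(D ∩ S), ℝ))
  have hW' : ∀ x ∈ D ∩ S, W x = Complex.arg (ρ x) := by
    intro x hx
    exact congrArg (fun f : C(↥(D ∩ S), ℝ) => f ⟨x, hx⟩) hW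
  have hDSi : Invt p (D ∩ S) := hDi.inter hSi
  obtain ⟨w, hwc, hwi, hwW⟩ := exists_inv_avg W hDSi (by
    intro g x hx
    rw [hW' x hx, hW' _ (hDSi g x hx), hρinv g x hx])
  refine ⟨fun x => ℓ x * Complex.exp ((w x : ℂ) * Complex.I), ?_, ?_, ?_, ?_⟩
  · exact hℓ.cont.mul (by (clear * - hwc; fun_prop) : Continuous fun x =>
      Complex.exp ((w x : ℂ) * Complex.I)).continuousOn
  · intro x hx
    rw [norm_mul, norm_of_pow (hℓ.pow x hx), Complex.norm_exp_ofReal_mul_I, one_mul]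
  · intro g x hx
    rw [hwi, hℓ.eqv g x hx, mul_assoc]
  · intro x hx hxS
    have h1 : Complex.exp ((w x : ℂ) * Complex.I) = ρ x := by
      rw [hwW x ⟨hx, hxS⟩, hW' x ⟨hx, hxS⟩]
      have h2 := Complex.norm_mul_exp_arg_mul_I (ρ x)
      rw [norm_of_pow (hρp x ⟨hx, hxS⟩)] at h2
      simpa using h2
    rw [h1]
    simp only [hρ]
    (clear * - hℓ0 hx; field_simp [hℓ0 x hx])

lemma sol_union {S A U : Set X} (hS : IsClosed S) (hSi : Invt p S) (hA : IsClosed A)
    (hAi : Invt p A) (hAf : frontier A ⊆ S) (hUi : Invt p U)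
    (hUf : frontier U ⊆ S) {ℓ ℓ' c : X → ℂ} (hℓ : Lab p (closure U) ℓ) (hℓ' : Lab p S ℓ')
    (hc : Sol p S A ℓ' c) :
    ∃ A' : Set X, A ⊆ A' ∧ U ⊆ A' ∧ IsClosed A' ∧ Invt p A' ∧ frontier A' ⊆ S ∧
      ∃ c', Sol p S A' ℓ' c' := by
  classical
  set D : Set X := closure U ∩ (interior A)ᶜ with hD
  have hDc : IsClosed D := isClosed_closure.inter isOpen_interior.isClosed_compl
  have hDi : Invt p D := hUi.closure.inter hAi.interior.compl
  obtain ⟨c', hc'⟩ := sol_of_lab hS hDc hSi hDi (hℓ.mono inter_subset_left) hℓ'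
  have hAU : A ∪ closure U = A ∪ D := by
    ext x
    constructor
    · rintro (hx | hx)
      · exact Or.inl hx
      · by_cases h : x ∈ interior A
        · exact Or.inl (interior_subset h)
        · exact Or.inr ⟨hx, h⟩
    · rintro (hx | hx)
      · exact Or.inl hx
      · exact Or.inr hx.1
  have hDA : ∀ x ∈ D, x ∈ A → x ∈ S := by
    intro x hx hxA
    apply hAf
    rw [hA.frontier_eq]
    exact ⟨hxA, hx.2⟩
  refine ⟨A ∪ closure U, subset_union_left, subset_closure.trans subset_union_right,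
    hA.union isClosed_closure, hAi.union hUi.closure, ?_, fun x => if x ∈ A then c x else c' x,
    ?_, ?_, ?_, ?_⟩
  · refine (frontier_union_subset _ _).trans (union_subset ?_ ?_)
    · exact inter_subset_left.trans hAf
    · exact inter_subset_right.trans (frontier_closure_subset.trans hUf)
  · rw [hAU]
    refine ContinuousOn.union_of_isClosed ?_ ?_ hA hDc
    · exact hc.cont.congr fun x hx => by simp [hx]
    · refine hc'.cont.congr fun x hx => ?_
      by_cases hxA : x ∈ A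
      · simp only [hxA, if_true]
        rw [hc.bdry x hxA (hDA x hx hxA), hc'.bdry x hx (hDA x hx hxA)]
      · simp [hxA]
  · intro x hx
    rw [hAU] at hx
    by_cases hxA : x ∈ A
    · simp only [hxA, if_true]; exact hc.norm x hxA
    · simp only [hxA, if_false]; exact hc'.norm x (hx.resolve_left hxA)
  · intro g x hx
    rw [hAU] at hx
    by_cases hxA : x ∈ A
    · simp only [hxA, (hAi.iff g x).2 hxA, if_true]; exact hc.eqv g x hxA
    · have h' : g +ᵥ x ∉ A := fun h'' => hxA ((hAi.iff g x).1 h'')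
      simp only [hxA, h', if_false]; exact hc'.eqv g x (hx.resolve_left hxA)
  · intro x hx hxS
    rw [hAU] at hx
    by_cases hxA : x ∈ A
    · simp only [hxA, if_true]; exact hc.bdry x hxA hxS
    · simp only [hxA, if_false]; exact hc'.bdry x (hx.resolve_left hxA) hxS

theorem exists_equivariant_circle
    (hfix : ∀ x : X, (1 : ℤ_[p]) +ᵥ x ≠ x)
    {ι κ : Type*} (θ : ι → X → ℝ) (hθ : ∀ i, Continuous (θ i))
    (hθsep : ∀ x y : X, x ≠ y → ∃ i, θ i x ≠ θ i y)
    (T : ι → Set ℝ) (hT : ∀ i, Dense (T i))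
    (u : κ → X → ℝ) (hu : ∀ k, Continuous (u k))
    (huinv : ∀ k (g : ℤ_[p]) x, u k (g +ᵥ x) = u k x)
    (husep : ∀ x y : X, (∀ g : ℤ_[p], g +ᵥ x ≠ y) → ∃ k, u k x ≠ u k y)
    (T' : κ → Set ℝ) (hT' : ∀ k, Dense (T' k))
    (hempty : ∀ i, ∀ t ∈ T i, ∀ k, ∀ t' ∈ T' k, ∀ x : X, ¬ (θ i x = t ∧ u k x = t')) :
    ∃ c : X → ℂ, Continuous c ∧ (∀ x, ‖c x‖ = 1) ∧
      ∀ x, c ((1 : ℤ_[p]) +ᵥ x) = Complex.exp (2 * Real.pi * Complex.I / p) * c x := by
  choose U hUo hUx hUi hUℓ hUf using exists_piece hfix hθ hθsep hT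
  obtain ⟨t, ht⟩ := isCompact_univ.elim_finite_subcover U hUo
    (fun x _ => mem_iUnion.2 ⟨x, hUx x⟩)
  set S : Set X := ⋃ x ∈ t, frontier (U x) with hS
  have hSc : IsClosed S := t.finite_toSet.isClosed_biUnion fun x _ => isClosed_frontier
  have hSi : Invt p S := by
    intro g y hy
    obtain ⟨x, hx, hxy⟩ := mem_iUnion₂.1 hy
    exact mem_iUnion₂.2 ⟨x, hx, (hUi x).frontier g y hxy⟩
  have hSe : ∀ x ∈ S, ∀ k, u k x ∉ T' k := by
    intro y hy k hk
    obtain ⟨x, hx, hxy⟩ := mem_iUnion₂.1 hy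
    obtain ⟨g, z, i, rfl, hi⟩ := hUf x y hxy
    rw [huinv] at hk
    exact hempty i _ hi k _ hk z ⟨rfl, rfl⟩
  obtain ⟨ℓ', hℓ'⟩ := exists_bdry_lab hu huinv husep hT' hSc hSe
    (fun x => ⟨U x, hUo x, hUx x, hUi x, hUℓ x⟩)
  have hind : ∀ t' : Finset X, t' ⊆ t → ∃ A : Set X, (∀ x ∈ t', U x ⊆ A) ∧ IsClosed A ∧
      Invt p A ∧ frontier A ⊆ S ∧ ∃ c, Sol p S A ℓ' c := by
    classical
    intro t'
    induction t' using Finset.induction_on with
    | empty =>
      intro _
      refine ⟨∅, by simp only [Finset.notMem_empty, subset_empty_iff, IsEmpty.forall_iff, implies_true], isClosed_empty, fun g x hx => hx.elim, by simp only [frontier_empty,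
                                                                      empty_subset], fun _ => 0, ?_, ?_, ?_, ?_⟩
        <;> simp
    | insert x t' hx ih =>
      intro hsub
      obtain ⟨A, h1, h2, h3, h4, c, h5⟩ := ih ((Finset.subset_insert _ _).trans hsub)
      obtain ⟨ℓ, hℓ⟩ := hUℓ x
      have hxt : x ∈ t := hsub (Finset.mem_insert_self _ _)
      obtain ⟨A', h6, h7, h8, h9, h10, h11⟩ := sol_union hSc hSi h2 h3 h4 (hUi x)
        (subset_biUnion_of_mem (u := fun x => frontier (U x)) hxt) hℓ hℓ' h5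
      refine ⟨A', ?_, h8, h9, h10, h11⟩
      intro x' hx'
      rcases Finset.mem_insert.1 hx' with rfl | hx'
      · exact h7
      · exact (h1 x' hx').trans h6
  obtain ⟨A, h1, -, -, -, c, h5⟩ := hind t subset_rfl
  have hA : A = univ := by
    rw [eq_univ_iff_forall]
    intro y
    obtain ⟨x, hx, hxy⟩ := mem_iUnion₂.1 (ht (mem_univ y))
    exact h1 x hx hxy
  rw [hA] at h5
  refine ⟨c, continuousOn_univ.1 h5.cont, fun x => h5.norm x (mem_univ x), fun x => ?_⟩
  rw [h5.eqv 1 x (mem_univ x), chi_one]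

end Vale.Agent.P228
end
end
end

section

section

/-!
P228, block [S]: the slicing operator of a Kronecker product `A ⊗ B` of `LMat`s, the walls
depending only on the first factor.
-/

open Matrix

set_option linter.unusedSectionVars false
set_option linter.unusedSimpArgs false

noncomputable section

namespace Vale.Agent.P228.Inv

open LMat

variable {ι κ : Type*}

/-- `a ↦ a ⊗ 1` as an algebra homomorphism -/
def kronLA (κ : Type*) : LMat ι ℂ →ₐ[ℂ] LMat (ι × κ) ℂ :=
  { kronL (K := ℂ) (ι := ι) κ with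
    commutes' := fun r => by
      change kron (algebraMap ℂ (LMat ι ℂ) r) 1 = algebraMap ℂ (LMat (ι × κ) ℂ) r
      rw [Algebra.algebraMap_eq_smul_one, Algebra.algebraMap_eq_smul_one, kron_smul_left,
        kron_one_one] }

@[simp] theorem kronLA_apply (a : LMat ι ℂ) : kronLA κ a = kron a (1 : LMat κ ℂ) := rfl

theorem kron_one_diag (f : ι → ℂ) :
    kron (diag f) (1 : LMat κ ℂ) = diag (fun x : ι × κ => f x.1) := by
  rw [one_def, kron_diag]; simp

/-- the slicing operator of `A ⊗ B` -/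
theorem Sop_kron (f g : ι → ℂ) (hf : ∀ x, f x * f x = f x) (A A' : LMat ι ℂ) (B B' : LMat κ ℂ)
    (h1 : B * B' = 1) (h2 : B' * B = 1) :
    Sop (diag fun x : ι × κ => f x.1) (diag fun x : ι × κ => g x.1) (kron A B) (kron A' B') =
      m2 (kron (Sop (diag f) (diag g) A A' false false) B)
        (kron (Sop (diag f) (diag g) A A' false true) 1)
        (kron (Sop (diag f) (diag g) A A' true false) 1)
        (kron (Sop (diag f) (diag g) A A' true true) B') := by
  have hPP : (diag fun x : ι × κ => f x.1) * (diag fun x : ι × κ => f x.1) =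
      diag fun x : ι × κ => f x.1 := by
    rw [diag_mul_diag]; congr 1; funext x; exact hf x.1
  have hA : kron A B = kron A 1 * kron 1 B := by rw [kron_mul, mul_one, one_mul]
  have hA' : kron A' B' = kron A' 1 * kron 1 B' := by rw [kron_mul, mul_one, one_mul]
  have e1 : kron (1 : LMat ι ℂ) B * kron 1 B' = 1 := by rw [kron_mul, h1, mul_one, kron_one_one]
  have e2 : kron (1 : LMat ι ℂ) B' * kron 1 B = 1 := by rw [kron_mul, h2, mul_one, kron_one_one]
  have cm : ∀ X : LMat ι ℂ, kron X (1 : LMat κ ℂ) * kron 1 B = kron 1 B * kron X 1 := by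
    intro X; rw [kron_mul, kron_mul]; simp
  have hP : (diag fun x : ι × κ => f x.1) * kron 1 B = kron 1 B * diag fun x : ι × κ => f x.1 := by
    rw [← kron_one_diag]; exact cm _
  have hQ : (diag fun x : ι × κ => g x.1) * kron 1 B = kron 1 B * diag fun x : ι × κ => g x.1 := by
    rw [← kron_one_diag]; exact cm _
  rw [hA, hA', Sop_prod hPP e1 e2 hP hQ (cm A) (cm A')]
  rw [← kron_one_diag, ← kron_one_diag]
  have hm := Sop_map (R := LMat ι ℂ) (R' := LMat (ι × κ) ℂ) (kronLA (ι := ι) κ : LMat ι ℂ →+* LMat (ι × κ) ℂ)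
    (fun x => map_smul (kronLA (ι := ι) κ) Complex.I x) (LMat.diag f) (LMat.diag g) A A'
  simp only [RingHom.coe_coe, kronLA_apply] at hm
  rw [← hm]
  set s := Sop (diag f) (diag g) A A'
  have hs : s.map (kronLA κ) = m2 (kron (s false false) 1) (kron (s false true) 1)
      (kron (s true false) 1) (kron (s true true) 1) := by
    apply m2_ext <;> rfl
  have hs' : (s.map fun a => kron a (1 : LMat κ ℂ)) = m2 (kron (s false false) 1)
      (kron (s false true) 1) (kron (s true false) 1) (kron (s true true) 1) := hs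
  first
    | rw [hs]
    | rw [hs']
  rw [m2_mul, m2_mul]
  congr 1
  · simp [kron_mul]
  · simp [kron_mul, h1]
  · simp [kron_mul]
  · simp [kron_mul]

end Vale.Agent.P228.Inv
end
end
end

section

section

/-! `LocalNewman` implies the Hilbert-Smith conjecture. -/

namespace Vale.Agent.P228.GRL

open Set Topology Metric

variable {p : ℕ} [Fact p.Prime]
variable {n : ℕ} {M : Type*} [TopologicalSpace M] [AddAction ℤ_[p] M] [ContinuousVAdd ℤ_[p] M]

/-- the fixed point set of `p ^ k ℤ_p` -/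
def fixG (p : ℕ) [Fact p.Prime] (M : Type*) [AddAction ℤ_[p] M] (k : ℕ) : Set M :=
  {m | ∀ u : ℤ_[p], ((p : ℤ_[p]) ^ k * u) +ᵥ m = m}

theorem isClosed_fixG [T2Space M] (k : ℕ) : IsClosed (fixG p M k) := by
  have : fixG p M k = ⋂ u : ℤ_[p], {m | ((p : ℤ_[p]) ^ k * u) +ᵥ m = m} := by
    ext m; simp [fixG]
  rw [this]
  exact isClosed_iInter fun u => isClosed_eq (continuous_const_vadd _) continuous_id

theorem chartMap_contAt (e : OpenPartialHomeomorph M (EuclideanSpace ℝ (Fin n))) {g : ℤ_[p]}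
    {x : EuclideanSpace ℝ (Fin n)} (hx : x ∈ e.target) (hgx : g +ᵥ e.symm x ∈ e.source) :
    ContinuousAt (fun z : ℤ_[p] × EuclideanSpace ℝ (Fin n) => chartMap e z.1 z.2) (g, x) := by
  have h1 : ContinuousAt (fun z : ℤ_[p] × EuclideanSpace ℝ (Fin n) => e.symm z.2) (g, x) :=
    (e.continuousAt_symm hx).comp (f := fun z : ℤ_[p] × EuclideanSpace ℝ (Fin n) => z.2)
      (x := (g, x)) continuousAt_snd
  have h2 : ContinuousAt (fun z : ℤ_[p] × EuclideanSpace ℝ (Fin n) => z.1 +ᵥ e.symm z.2) (g, x) :=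
    continuousAt_fst.vadd h1
  exact (e.continuousAt hgx).comp
    (f := fun z : ℤ_[p] × EuclideanSpace ℝ (Fin n) => z.1 +ᵥ e.symm z.2) (x := (g, x)) h2

theorem eventually_source (e : OpenPartialHomeomorph M (EuclideanSpace ℝ (Fin n))) {g : ℤ_[p]}
    {x : EuclideanSpace ℝ (Fin n)} (hx : x ∈ e.target) (hgx : g +ᵥ e.symm x ∈ e.source) :
    {z : ℤ_[p] × EuclideanSpace ℝ (Fin n) | z.1 +ᵥ e.symm z.2 ∈ e.source} ∈ 𝓝 (g, x) := by
  have h1 : ContinuousAt (fun z : ℤ_[p] × EuclideanSpace ℝ (Fin n) => e.symm z.2) (g, x) :=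
    (e.continuousAt_symm hx).comp (f := fun z : ℤ_[p] × EuclideanSpace ℝ (Fin n) => z.2)
      (x := (g, x)) continuousAt_snd
  have h2 : ContinuousAt (fun z : ℤ_[p] × EuclideanSpace ℝ (Fin n) => z.1 +ᵥ e.symm z.2) (g, x) :=
    continuousAt_fst.vadd h1
  exact h2.preimage_mem_nhds (e.open_source.mem_nhds hgx)

/-- small subgroups act in the chart with small displacement -/
theorem exists_small_disp (e : OpenPartialHomeomorph M (EuclideanSpace ℝ (Fin n)))
    {C : Set (EuclideanSpace ℝ (Fin n))} (hC : IsCompact C)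
    (hCt : C ⊆ e.target) {δ : ℝ} (hδ : 0 < δ) :
    ∃ k₀ : ℕ, ∀ k ≥ k₀, ∀ u : ℤ_[p], ∀ x ∈ C, ((p : ℤ_[p]) ^ k * u) +ᵥ e.symm x ∈ e.source ∧
      dist (chartAct e k u x) x < δ := by
  apply exists_pow_tube hC (O := {z : ℤ_[p] × EuclideanSpace ℝ (Fin n) |
    z.1 +ᵥ e.symm z.2 ∈ e.source ∧ dist (chartMap e z.1 z.2) z.2 < δ})
  intro x hx
  have hx0 : (0 : ℤ_[p]) +ᵥ e.symm x ∈ e.source := by
    rw [zero_vadd]; exact e.map_target (hCt hx)
  refine Filter.inter_mem (eventually_source e (hCt hx) hx0) ?_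
  have h1 := chartMap_contAt e (hCt hx) hx0
  have h2 : ContinuousAt (fun z : ℤ_[p] × EuclideanSpace ℝ (Fin n) =>
      dist (chartMap e z.1 z.2) z.2) (0, x) := h1.dist continuousAt_snd
  have h3 : dist (chartMap e (0 : ℤ_[p]) x) x < δ := by
    simp only [chartMap, zero_vadd, e.right_inv (hCt hx), dist_self]; exact hδ
  exact h2.preimage_mem_nhds (Iio_mem_nhds h3)

omit [ContinuousVAdd ℤ_[p] M] in
/-- points fixed in the chart are fixed in `M`. -/
theorem mem_fixG_of_chartAct (e : OpenPartialHomeomorph M (EuclideanSpace ℝ (Fin n))) {k : ℕ}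
    {y : EuclideanSpace ℝ (Fin n)}
    (hs : ∀ u : ℤ_[p], ((p : ℤ_[p]) ^ k * u) +ᵥ e.symm y ∈ e.source)
    (h : ∀ u : ℤ_[p], chartAct (p := p) e k u y = y) : e.symm y ∈ fixG p M k := by
  intro u
  have h2 := h u
  simp only [chartAct, chartMap] at h2
  rw [← e.left_inv (hs u), h2]

omit [ContinuousVAdd ℤ_[p] M] in
/-- from the chart to `M`. -/
theorem mem_interior_fixG_of_chart (e : OpenPartialHomeomorph M (EuclideanSpace ℝ (Fin n)))
    {k : ℕ} {c : EuclideanSpace ℝ (Fin n)} (hct : c ∈ e.target)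
    (h1 : ∀ᶠ y in 𝓝 c, e.symm y ∈ fixG p M k) : e.symm c ∈ interior (fixG p M k) := by
  rw [mem_interior_iff_mem_nhds]
  have h5 : ContinuousAt e (e.symm c) := e.continuousAt (e.map_target hct)
  have h7 : ∀ᶠ y in 𝓝 (e (e.symm c)), e.symm y ∈ fixG p M k := by
    rw [e.right_inv hct]
    exact h1
  have h6 : ∀ᶠ m in 𝓝 (e.symm c), e.symm (e m) ∈ fixG p M k := h5.eventually h7
  filter_upwards [h6, e.open_source.mem_nhds (e.map_target hct)] with m' hm' hms
  rwa [e.left_inv hms] at hm'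

/-- step 1: every point has a neighbourhood on which a small subgroup acts trivially. -/
theorem loc_fixed (hLN : LocalNewman p n)
    (e : OpenPartialHomeomorph M (EuclideanSpace ℝ (Fin n))) {x₁ : M} (hx₁ : x₁ ∈ e.source) :
    ∃ k, x₁ ∈ interior (fixG p M k) := by
  obtain ⟨c₀, hc₀, H⟩ := hLN.scaled
  have hct : e x₁ ∈ e.target := e.map_source hx₁
  obtain ⟨R, hR, hRs⟩ := nhds_basis_closedBall.mem_iff.1 (e.open_target.mem_nhds hct)
  obtain ⟨k, hk⟩ := exists_small_disp (p := p) e (isCompact_closedBall (e x₁) R) hRs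
    (show 0 < c₀ * (R / 2) by positivity)
  have hk' := hk k le_rfl
  refine ⟨k, ?_⟩
  let B : Set M := e.symm '' ball (e x₁) R
  have hBR : ball (e x₁) R ⊆ e.target := ball_subset_closedBall.trans hRs
  have hBopen : IsOpen B := e.symm.isOpen_image_of_subset_source isOpen_ball hBR
  let Nn : Set M := saturate (p := p) k B
  have hNopen : IsOpen Nn := isOpen_saturate k hBopen
  have hNs : Nn ⊆ e.source := by
    apply saturate_subset
    rintro u _ ⟨x, hx, rfl⟩
    exact (hk' u x (ball_subset_closedBall hx)).1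
  have act : LocAct p (e '' Nn) (chartAct (p := p) e k) :=
    locAct_chartAct e k hNs (fun u m hm => saturate_inv k B u hm)
  have hW : IsOpen (e '' Nn) := isOpen_chart_image e hNopen hNs
  have hballW : ball (e x₁) R ⊆ e '' Nn := by
    intro x hx
    exact ⟨e.symm x, subset_saturate k B ⟨x, hx, rfl⟩, e.right_inv (hBR hx)⟩
  have h1 : ∀ᶠ y in 𝓝 (e x₁), e.symm y ∈ fixG p M k := by
    filter_upwards [ball_mem_nhds (e x₁) (show 0 < R / 4 by positivity)] with y hy
    have hsub : closedBall y (R / 2) ⊆ ball (e x₁) R := by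
      apply closedBall_subset_ball'
      rw [mem_ball] at hy
      linarith
    refine mem_fixG_of_chartAct e (fun u => (hk' u y ?_).1) (fun u => ?_)
    · exact ball_subset_closedBall (hsub (mem_closedBall_self (by positivity)))
    · refine H _ _ hW act y (R / 2) (by positivity) (hsub.trans hballW) ?_ u
      intro u x hx
      rw [← dist_eq_norm]
      exact (hk' u x (ball_subset_closedBall (hsub hx))).2.le
  have h2 := mem_interior_fixG_of_chart e hct h1
  rwa [e.left_inv hx₁] at h2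

/-- step 2: the interior of the fixed set of `p ^ k ℤ_p` is closed. -/
theorem touch_closed (hLN : LocalNewman p n) [T2Space M]
    (e : OpenPartialHomeomorph M (EuclideanSpace ℝ (Fin n)))
    {x₁ : M} (hx₁ : x₁ ∈ e.source) {k : ℕ}
    (hcl : x₁ ∈ closure (interior (fixG p M k))) : x₁ ∈ interior (fixG p M k) := by
  by_contra hx₁V
  have hfix₁ : x₁ ∈ fixG p M k := (isClosed_fixG k).closure_subset_iff.2 interior_subset hcl
  set c₁ := e x₁ with hc₁
  have hc₁t : c₁ ∈ e.target := e.map_source hx₁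
  -- the tube around `c₁`
  obtain ⟨V₁, hV₁, hV₁O⟩ := exists_nhds_tube (p := p) (x₀ := c₁)
    (O := {z : ℤ_[p] × EuclideanSpace ℝ (Fin n) |
      ((p : ℤ_[p]) ^ k * z.1) +ᵥ e.symm z.2 ∈ e.source}) (by
      intro u
      have h1 : ((p : ℤ_[p]) ^ k * u) +ᵥ e.symm c₁ ∈ e.source := by
        rw [e.left_inv hx₁, hfix₁]; exact hx₁
      have h2 := eventually_source e hc₁t h1
      have h3 : ContinuousAt (fun z : ℤ_[p] × EuclideanSpace ℝ (Fin n) =>
        ((p : ℤ_[p]) ^ k * z.1, z.2)) (u, c₁) := by fun_prop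
      exact h3.preimage_mem_nhds h2)
  obtain ⟨R, hR, hRs⟩ : ∃ R > 0, closedBall c₁ R ⊆ V₁ ∩ e.target := by
    have := Filter.inter_mem hV₁ (e.open_target.mem_nhds hc₁t)
    exact nhds_basis_closedBall.mem_iff.1 this
  have hRt : closedBall c₁ R ⊆ e.target := fun x hx => (hRs hx).2
  have hRsrc : ∀ u : ℤ_[p], ∀ x ∈ closedBall c₁ R, ((p : ℤ_[p]) ^ k * u) +ᵥ e.symm x ∈ e.source :=
    fun u x hx => hV₁O u x (hRs hx).1
  -- the open set `𝒱`
  set 𝒱 : Set (EuclideanSpace ℝ (Fin n)) := e.target ∩ e.symm ⁻¹' interior (fixG p M k) with h𝒱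
  have h𝒱o : IsOpen 𝒱 := e.symm.isOpen_inter_preimage isOpen_interior
  have hc₁𝒱 : c₁ ∉ 𝒱 := by
    rintro ⟨-, h⟩
    rw [mem_preimage, hc₁, e.left_inv hx₁] at h
    exact hx₁V h
  obtain ⟨v, hv𝒱, hvc₁⟩ : ∃ v ∈ 𝒱, dist v c₁ < R / 8 := by
    have h1 : e ⁻¹' ball c₁ (R / 8) ∈ 𝓝 x₁ :=
      (e.continuousAt hx₁).preimage_mem_nhds (ball_mem_nhds c₁ (by positivity))
    obtain ⟨z, hz, hzV⟩ := mem_closure_iff_nhds.1 hcl _
      (Filter.inter_mem h1 (e.open_source.mem_nhds hx₁))
    refine ⟨e z, ⟨e.map_source hz.2, ?_⟩, hz.1⟩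
    rw [mem_preimage, e.left_inv hz.2]
    exact hzV
  -- the nearest point
  set C : Set (EuclideanSpace ℝ (Fin n)) := closedBall c₁ (R / 2) \ 𝒱 with hC
  have hCcpt : IsCompact C := (isCompact_closedBall c₁ (R / 2)).diff h𝒱o
  have hCne : C.Nonempty := ⟨c₁, mem_closedBall_self (by positivity), hc₁𝒱⟩
  obtain ⟨c, hcC, hcmin⟩ := hCcpt.exists_isMinOn hCne
    (f := fun x => dist x v) (by fun_prop)
  set ρ := dist c v with hρdef
  have hcmin' : ∀ x ∈ C, ρ ≤ dist x v := fun x hx => hcmin hx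
  have hρpos : 0 < ρ := by
    rw [hρdef, dist_pos]
    rintro rfl
    exact hcC.2 hv𝒱
  have hρR : ρ < R / 8 := by
    have h1 := hcmin' c₁ ⟨mem_closedBall_self (by positivity), hc₁𝒱⟩
    rw [dist_comm] at hvc₁
    linarith
  have hcc₁ : dist c c₁ < R / 4 := by
    have := dist_triangle c v c₁
    linarith
  have hballv : ∀ y, dist y v < ρ → y ∈ 𝒱 := by
    intro y hy
    by_contra hcon
    have h1 : y ∈ C := by
      refine ⟨?_, hcon⟩
      rw [mem_closedBall]
      have := dist_triangle y v c₁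
      linarith
    have := hcmin' y h1
    linarith
  have hcR : c ∈ ball c₁ (R / 2) := by
    rw [mem_ball]; linarith
  have hct : c ∈ e.target := hRt (ball_subset_closedBall (ball_subset_ball (by linarith) hcR))
  -- `c` is fixed
  have hcfixM : e.symm c ∈ fixG p M k := by
    have h1 : c ∈ closure (ball v ρ) := by
      rw [closure_ball v hρpos.ne']
      exact le_of_eq hρdef.symm
    have h2 : e.symm c ∈ closure (fixG p M k) :=
      (e.continuousAt_symm hct).continuousWithinAt.mem_closure h1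
        (fun y hy => interior_subset (hballv y hy).2)
    rwa [(isClosed_fixG k).closure_eq] at h2
  have hcfix : ∀ u, chartAct (p := p) e k u c = c := by
    intro u
    simp only [chartAct, chartMap]
    rw [hcfixM, e.right_inv hct]
  -- the small invariant neighbourhood
  obtain ⟨V₂, hV₂, hV₂O⟩ := exists_nhds_tube (p := p) (x₀ := c)
    (O := {z : ℤ_[p] × EuclideanSpace ℝ (Fin n) |
      chartAct e k z.1 z.2 ∈ ball c (ρ / 2)}) (by
      intro u
      have h1 : ((p : ℤ_[p]) ^ k * u) +ᵥ e.symm c ∈ e.source := by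
        rw [hcfixM]; exact e.map_target hct
      have h2 := chartMap_contAt e hct h1
      have h3 : ContinuousAt (fun z : ℤ_[p] × EuclideanSpace ℝ (Fin n) =>
        ((p : ℤ_[p]) ^ k * z.1, z.2)) (u, c) := by fun_prop
      have h4 : ContinuousAt (fun z : ℤ_[p] × EuclideanSpace ℝ (Fin n) =>
        chartAct e k z.1 z.2) (u, c) := h2.comp (f := fun z : ℤ_[p] × EuclideanSpace ℝ (Fin n) =>
        ((p : ℤ_[p]) ^ k * z.1, z.2)) (x := (u, c)) h3
      apply h4.preimage_mem_nhds
      change ball c (ρ / 2) ∈ 𝓝 (chartAct e k u c)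
      rw [hcfix]
      exact ball_mem_nhds c (by positivity))
  obtain ⟨s₃, hs₃, hs₃s⟩ : ∃ s₃ > 0, ball c s₃ ⊆ V₂ ∩ ball c₁ (R / 2) :=
    Metric.mem_nhds_iff.1 (Filter.inter_mem hV₂ (isOpen_ball.mem_nhds hcR))
  have hs₃R : ball c s₃ ⊆ closedBall c₁ R := fun x hx =>
    ball_subset_closedBall (ball_subset_ball (by linarith) (hs₃s hx).2)
  let B : Set M := e.symm '' ball c s₃
  have hBopen : IsOpen B := e.symm.isOpen_image_of_subset_source isOpen_ball (hs₃R.trans hRt)
  let Nn : Set M := saturate (p := p) k B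
  have hNopen : IsOpen Nn := isOpen_saturate k hBopen
  have hNs : Nn ⊆ e.source := by
    apply saturate_subset
    rintro u _ ⟨x, hx, rfl⟩
    exact hRsrc u x (hs₃R hx)
  have act : LocAct p (e '' Nn) (chartAct (p := p) e k) :=
    locAct_chartAct e k hNs (fun u m hm => saturate_inv k B u hm)
  have hW : IsOpen (e '' Nn) := isOpen_chart_image e hNopen hNs
  have hballW : ball c s₃ ⊆ e '' Nn := by
    intro x hx
    exact ⟨e.symm x, subset_saturate k B ⟨x, hx, rfl⟩, e.right_inv (hRt (hs₃R hx))⟩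
  have hWball : ∀ y ∈ e '' Nn, y ∈ ball c (ρ / 2) := by
    rintro _ ⟨m', hm', rfl⟩
    obtain ⟨u, _, ⟨x, hx, rfl⟩, rfl⟩ := mem_iUnion.1 hm'
    exact hV₂O u x (hs₃s hx).1
  have hfar : ∀ y ∈ e '' Nn, ρ / 2 ≤ dist y v := by
    intro y hy
    have h1 := hWball y hy
    rw [mem_ball] at h1
    have h2 := dist_triangle c y v
    rw [dist_comm c y] at h2
    linarith
  have hnf : ∀ y ∈ e '' Nn, (¬ ∀ u, chartAct (p := p) e k u y = y) → ρ ≤ dist y v := by
    intro y hy hcon
    by_contra hlt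
    apply hcon
    intro u
    have h1 := hballv y (not_le.1 hlt)
    have h2 : e.symm y ∈ fixG p M k := interior_subset h1.2
    simp only [chartAct, chartMap]
    rw [h2, e.right_inv h1.1]
  have hev := radial_fixed hLN hW act hρpos hρdef.symm (hballW (mem_ball_self hs₃)) hfar hnf
  -- contradiction
  apply hcC.2
  refine ⟨hct, mem_interior_fixG_of_chart e hct ?_⟩
  filter_upwards [hev, ball_mem_nhds c hs₃] with y hy hys
  exact mem_fixG_of_chartAct e (fun u => hRsrc u y (hs₃R hys)) hy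

/-- `LocalNewman` implies that some open subgroup acts trivially on a connected manifold. -/
theorem exists_trivial_of_localNewman (hLN : LocalNewman p n) [T2Space M]
    [ChartedSpace (EuclideanSpace ℝ (Fin n)) M] [PreconnectedSpace M] :
    ∃ k : ℕ, ∀ (u : ℤ_[p]) (m : M), ((p : ℤ_[p]) ^ k * u) +ᵥ m = m := by
  rcases isEmpty_or_nonempty M with hM | ⟨⟨x₀⟩⟩
  · exact ⟨0, fun u m => hM.elim m⟩
  obtain ⟨k, hk⟩ := loc_fixed hLN (chartAt (EuclideanSpace ℝ (Fin n)) x₀) (mem_chart_source _ x₀)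
  have hclopen : IsClopen (interior (fixG p M k)) := by
    refine ⟨isClosed_of_closure_subset fun x hx => ?_, isOpen_interior⟩
    exact touch_closed hLN (chartAt (EuclideanSpace ℝ (Fin n)) x) (mem_chart_source _ x) hx
  have huniv : interior (fixG p M k) = univ := hclopen.eq_univ ⟨x₀, hk⟩
  refine ⟨k, fun u m => ?_⟩
  have h1 : m ∈ interior (fixG p M k) := by rw [huniv]; trivial
  exact interior_subset h1 u

/-- `LocalNewman` implies the Hilbert-Smith conjecture for `ℤ_[p]`-actions. -/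
theorem hilbertSmith_of_localNewman (hLN : LocalNewman p n) [T2Space M]
    [ChartedSpace (EuclideanSpace ℝ (Fin n)) M] [PreconnectedSpace M] :
    ¬ FaithfulVAdd ℤ_[p] M := by
  intro hf
  obtain ⟨k, h⟩ := exists_trivial_of_localNewman (M := M) hLN
  have h1 : (p : ℤ_[p]) ^ k * 1 = 0 := by
    apply hf.eq_of_vadd_eq_vadd
    intro m
    rw [h, zero_vadd]
  rw [mul_one] at h1
  have h2 : (p : ℤ_[p]) ≠ 0 := by exact_mod_cast (Fact.out : p.Prime).ne_zero
  exact pow_ne_zero k h2 h1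

end Vale.Agent.P228.GRL
end
end

section

section

/-! The Hilbert-Smith conjecture for `ℤ_[p]` from the local Newman statement in the dimensions
`2 * m`, `m ≥ 1`. -/

namespace Vale.Agent.P228.GR

/-- the local statement in all even dimensions implies that `ℤ_[p]` has no faithful continuous
action on a connected manifold. -/
theorem not_faithful_of_even {p : ℕ} [Fact p.Prime]
    (h : ∀ m : ℕ, 0 < m → LocalNewman p (2 * m)) (n : ℕ)
    {M : Type*} [TopologicalSpace M] [T2Space M] [PreconnectedSpace M]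
    [ChartedSpace (EuclideanSpace ℝ (Fin n)) M] [AddAction ℤ_[p] M] [ContinuousVAdd ℤ_[p] M] :
    ¬ FaithfulVAdd ℤ_[p] M := by
  have h1 : GRL.LocalNewman p n := localNewman_of_even h n
  exact GRL.hilbertSmith_of_localNewman h1

end Vale.Agent.P228.GR
end
end

section

section

/-! # The one-line formula for the hermitian form `θ = J (d + A ε - h)`

Generic star-ring version.  `d` is a differential, `ε` the grading involution, `J` a strict
hermitian duality with `J d = d^* J`, `A` a `J`-selfadjoint chain map with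
`A^2 = 1 + d h + h d`. Then `(d + A ε - h)^2 = 1 + K`, `K = h^2 + (A h - h A) ε` raises the
degree, hence is nilpotent. -/

namespace Vale.Agent.P228.Alg

open Finset

section Grading

variable {R : Type*} [Ring R]

/-- a finite grading of the ring by orthogonal idempotents `π 0, …, π n`. -/
structure Grading (R : Type*) [Ring R] (n : ℕ) where
  /-- the projections -/
  π : ℕ → R
  idem : ∀ i, π i * π i = π i
  orth : ∀ i j, i ≠ j → π i * π j = 0
  sum_one : ∑ i ∈ range (n + 1), π i = 1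
  zero_of_gt : ∀ i, n < i → π i = 0

/-- `X` raises the degree by at least `m`. -/
def Grading.Up {n : ℕ} (g : Grading R n) (m : ℕ) (X : R) : Prop :=
  ∀ i j, j < i + m → g.π j * X * g.π i = 0

variable {n : ℕ} (g : Grading R n)

theorem Grading.Up.add {g : Grading R n} {m : ℕ} {X Y : R} (hX : g.Up m X) (hY : g.Up m Y) :
    g.Up m (X + Y) := by
  intro i j hij
  rw [mul_add, add_mul, hX i j hij, hY i j hij, add_zero]

end Grading

section Words

variable {R : Type*} [Ring R]

/-- `G = d + A ε - h` -/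
def gG (d e A h : R) : R := d + A * e - h

/-- the nilpotent correction `K = h^2 + (A h - h A) ε`. -/
def gK (e A h : R) : R := h * h + (A * h - h * A) * e

/-- the inverse of `1 + K` -/
def gN (n : ℕ) (K : R) : R := ∑ i ∈ range (n + 1), (-K) ^ i

theorem gN_mul (n : ℕ) {K : R} (hK : K ^ (n + 1) = 0) : gN n K * (1 + K) = 1 := by
  have h := geom_sum_mul_neg (-K) (n + 1)
  have h2 : (-K) ^ (n + 1) = 0 := by rw [neg_pow, hK, mul_zero]
  rw [h2, sub_zero] at h
  have h3 : (1 : R) - -K = 1 + K := by rw [sub_neg_eq_add]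
  rw [h3] at h
  exact h

theorem mul_gN (n : ℕ) {K : R} (hK : K ^ (n + 1) = 0) : (1 + K) * gN n K = 1 := by
  have h := mul_neg_geom_sum (-K) (n + 1)
  have h2 : (-K) ^ (n + 1) = 0 := by rw [neg_pow, hK, mul_zero]
  rw [h2, sub_zero] at h
  have h3 : (1 : R) - -K = 1 + K := by rw [sub_neg_eq_add]
  rw [h3] at h
  exact h

/-- relations needed for the square of `G`. -/
structure Pt (d e A h : R) : Prop where
  dd : d * d = 0
  ee : e * e = 1
  ed : e * d = -(d * e)
  eh : e * h = -(h * e)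
  eA : e * A = A * e
  Ad : A * d = d * A
  AA : A * A = 1 + d * h + h * d

theorem gG_sq {d e A h : R} (H : Pt d e A h) : gG d e A h * gG d e A h = 1 + gK e A h := by
  obtain ⟨dd, ee, ed, eh, eA, Ad, AA⟩ := H
  have h1 : A * e * d = -(d * A * e) := by
    rw [mul_assoc, ed, mul_neg, ← mul_assoc, Ad]
  have h2 : A * e * (A * e) = 1 + d * h + h * d := by
    calc A * e * (A * e) = A * (e * A) * e := by noncomm_ring
      _ = A * A * (e * e) := by rw [eA]; noncomm_ring
      _ = 1 + d * h + h * d := by rw [ee, mul_one, AA]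
  have h3 : A * e * h = -(A * h * e) := by
    rw [mul_assoc, eh, mul_neg, ← mul_assoc]
  calc gG d e A h * gG d e A h
      = d * d + (d * A * e + A * e * d) + A * e * (A * e) - d * h - h * d - A * e * h
        - h * A * e + h * h := by unfold gG; noncomm_ring
    _ = 1 + gK e A h := by
        rw [h1, h2, h3, dd]; unfold gK; noncomm_ring

/-- the inverse of `G` -/
def gG' (n : ℕ) (d e A h : R) : R := gG d e A h * gN n (gK e A h)

theorem gG_mul_gG' {n : ℕ} {d e A h : R} (H : Pt d e A h) (hK : gK e A h ^ (n + 1) = 0) :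
    gG d e A h * gG' n d e A h = 1 := by
  unfold gG'
  rw [← mul_assoc, gG_sq H, mul_gN n hK]

theorem gG'_mul_gG {n : ℕ} {d e A h : R} (H : Pt d e A h) (hK : gK e A h ^ (n + 1) = 0) :
    gG' n d e A h * gG d e A h = 1 := by
  have h1 : gN n (gK e A h) * (gG d e A h * gG d e A h) = 1 := by
    rw [gG_sq H, gN_mul n hK]
  have h2 := gG_mul_gG' H hK
  have h3 : gN n (gK e A h) * gG d e A h = gG' n d e A h := by
    calc gN n (gK e A h) * gG d e A h
        = gN n (gK e A h) * gG d e A h * (gG d e A h * gG' n d e A h) := by rw [h2, mul_one]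
      _ = (gN n (gK e A h) * (gG d e A h * gG d e A h)) * gG' n d e A h := by noncomm_ring
      _ = gG' n d e A h := by rw [h1, one_mul]
  calc gG' n d e A h * gG d e A h = gN n (gK e A h) * gG d e A h * gG d e A h := by rw [h3]
    _ = 1 := by rw [mul_assoc, h1]

/-- the hermitian form `θ = J (d + A ε - h)` -/
def theta (d e J A h : R) : R := J * gG d e A h

/-- the inverse of `θ` -/
def theta' (n : ℕ) (d e Ji A h : R) : R := gG' n d e A h * Ji

/-- if `K = 0` no correction is needed -/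
theorem gN_zero (n : ℕ) : gN n (0 : R) = 1 := by
  unfold gN
  rw [Finset.sum_range_succ']
  simp

end Words

section Star

variable {R : Type*} [Ring R] [StarRing R]

theorem Good.pt {d e J Ji A h : R} (F : Good d e J A h) (D : Cx d e J Ji) : Pt d e A h :=
  ⟨D.dd, D.ee, D.ed, by rw [F.he, neg_neg], F.Ae.symm, F.Ad, F.AA⟩

theorem Good.star_theta {d e J Ji A h : R} (F : Good d e J A h) (D : Cx d e J Ji) :
    star (theta d e J A h) = theta d e J A h := by
  have h1 : star (J * d) = J * d := by rw [star_mul, D.sJ, D.Jd]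
  have h2 : star (J * (A * e)) = J * (A * e) := by
    calc star (J * (A * e)) = e * (star A * J) := by
          rw [star_mul, star_mul, D.se, D.sJ, mul_assoc]
      _ = e * J * A := by rw [← F.JA, mul_assoc]
      _ = J * (e * A) := by rw [← D.Je, mul_assoc]
      _ = J * (A * e) := by rw [F.Ae]
  have h3 : star (J * h) = J * h := by rw [star_mul, D.sJ, F.Jh]
  unfold theta gG
  rw [mul_sub, mul_add, star_sub, star_add, h1, h2, h3]

theorem Good.theta_mul {n : ℕ} {d e J Ji A h : R} (F : Good d e J A h) (D : Cx d e J Ji)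
    (hK : gK e A h ^ (n + 1) = 0) : theta d e J A h * theta' n d e Ji A h = 1 := by
  unfold theta theta'
  calc J * gG d e A h * (gG' n d e A h * Ji) = J * (gG d e A h * gG' n d e A h) * Ji := by
        noncomm_ring
    _ = 1 := by rw [gG_mul_gG' (F.pt D) hK, mul_one, D.JJi]

theorem Good.mul_theta {n : ℕ} {d e J Ji A h : R} (F : Good d e J A h) (D : Cx d e J Ji)
    (hK : gK e A h ^ (n + 1) = 0) : theta' n d e Ji A h * theta d e J A h = 1 := by
  unfold theta theta'
  calc gG' n d e A h * Ji * (J * gG d e A h) = gG' n d e A h * (Ji * J) * gG d e A h := by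
        noncomm_ring
    _ = 1 := by rw [D.JiJ, mul_one, gG'_mul_gG (F.pt D) hK]

theorem Good.star_theta' {n : ℕ} {d e J Ji A h : R} (F : Good d e J A h) (D : Cx d e J Ji)
    (hK : gK e A h ^ (n + 1) = 0) : star (theta' n d e Ji A h) = theta' n d e Ji A h := by
  have h1 := F.theta_mul D hK
  have h2 := F.mul_theta D hK
  have h3 : star (theta' n d e Ji A h) * theta d e J A h = 1 := by
    have := congrArg star h1
    rwa [star_mul, F.star_theta D, star_one] at this
  calc star (theta' n d e Ji A h)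
      = star (theta' n d e Ji A h) * (theta d e J A h * theta' n d e Ji A h) := by
        rw [h1, mul_one]
    _ = theta' n d e Ji A h := by rw [← mul_assoc, h3, one_mul]

omit [StarRing R] in
/-- the value at `h = 0`, `A = a` a central sign -/
theorem theta_sign (d e J a : R) : theta d e J a 0 = J * (d + a * e) := by
  unfold theta gG; rw [sub_zero]

omit [StarRing R] in
theorem gK_sign {e a : R} : gK e a 0 = 0 := by
  unfold gK; simp

omit [StarRing R] in
theorem theta'_sign (n : ℕ) (d e Ji a : R) : theta' n d e Ji a 0 = (d + a * e) * Ji := by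
  unfold theta' gG' gG
  rw [gK_sign, gN_zero, mul_one, sub_zero]

end Star

section Map

variable {R S : Type*} [Ring R] [Ring S]

theorem map_gG (f : R →+* S) (d e A h : R) : f (gG d e A h) = gG (f d) (f e) (f A) (f h) := by
  simp only [gG, map_sub, map_add, map_mul]

theorem map_gK (f : R →+* S) (e A h : R) : f (gK e A h) = gK (f e) (f A) (f h) := by
  simp only [gK, map_add, map_mul, map_sub]

theorem map_gN (f : R →+* S) (n : ℕ) (K : R) : f (gN n K) = gN n (f K) := by
  simp only [gN, map_sum, map_pow, map_neg]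

theorem map_theta (f : R →+* S) (d e J A h : R) :
    f (theta d e J A h) = theta (f d) (f e) (f J) (f A) (f h) := by
  simp only [theta, map_mul, map_gG]

theorem map_theta' (f : R →+* S) (n : ℕ) (d e Ji A h : R) :
    f (theta' n d e Ji A h) = theta' n (f d) (f e) (f Ji) (f A) (f h) := by
  simp [theta', gG', map_gG, map_gK, map_gN]

end Map

section Filt

variable {R : Type*} [Ring R]

/-- membership of the words in a filtration `L r` (e.g. propagation `≤ r`) -/
theorem theta_mem_filt (L : ℕ → R → Prop) (Ladd : ∀ k x y, L k x → L k y → L k (x + y))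
    (Lneg : ∀ k x, L k x → L k (-x)) (Lmul : ∀ k l x y, L k x → L l y → L (k + l) (x * y))
    (Lmono : ∀ k l x, k ≤ l → L k x → L l x) {r : ℕ} {d e J A h : R}
    (hd : L r d) (he : L 0 e) (hJ : L r J) (hA : L r A) (hh : L r h) :
    L (2 * r) (theta d e J A h) := by
  have h1 : L r (gG d e A h) := by
    unfold gG
    rw [sub_eq_add_neg]
    refine Ladd _ _ _ (Ladd _ _ _ hd ?_) (Lneg _ _ hh)
    simpa using Lmul r 0 _ _ hA he
  have h2 := Lmul r r _ _ hJ h1
  exact Lmono _ _ _ (by omega) h2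

theorem theta'_mem_filt (L : ℕ → R → Prop) (Ladd : ∀ k x y, L k x → L k y → L k (x + y))
    (Lneg : ∀ k x, L k x → L k (-x)) (Lmul : ∀ k l x y, L k x → L l y → L (k + l) (x * y))
    (Lone : L 0 1) (Lmono : ∀ k l x, k ≤ l → L k x → L l x) {r n : ℕ} {d e Ji A h : R}
    (hd : L r d) (he : L 0 e) (hJ : L r Ji) (hA : L r A) (hh : L r h) :
    L ((2 * n + 2) * r) (theta' n d e Ji A h) := by
  have h1 : L r (gG d e A h) := by
    unfold gG
    rw [sub_eq_add_neg]
    refine Ladd _ _ _ (Ladd _ _ _ hd ?_) (Lneg _ _ hh)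
    simpa using Lmul r 0 _ _ hA he
  have hK : L (2 * r) (-gK e A h) := by
    refine Lneg _ _ ?_
    unfold gK
    refine Ladd _ _ _ ?_ ?_
    · exact Lmono _ _ _ (by omega) (Lmul r r _ _ hh hh)
    · have h3 : L (2 * r) (A * h) := Lmono _ _ _ (by omega) (Lmul r r _ _ hA hh)
      have h4 : L (2 * r) (h * A) := Lmono _ _ _ (by omega) (Lmul r r _ _ hh hA)
      have h5 : L (2 * r) (A * h - h * A) := by
        rw [sub_eq_add_neg]; exact Ladd _ _ _ h3 (Lneg _ _ h4)
      simpa using Lmul (2 * r) 0 _ _ h5 he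
  have hp : ∀ m, L (m * (2 * r)) ((-gK e A h) ^ m) := by
    intro m
    induction m with
    | zero => rw [pow_zero, zero_mul]; exact Lone
    | succ m ih =>
      rw [pow_succ]
      exact Lmono _ _ _ (by ring_nf; omega) (Lmul _ _ _ _ ih hK)
  have h0 : L 0 (0 : R) := by
    have := Ladd _ _ _ Lone (Lneg _ _ Lone)
    simpa only [add_neg_cancel] using this
  have hN : L (n * (2 * r)) (gN n (gK e A h)) := by
    unfold gN
    have key : ∀ s : Finset ℕ, (∀ i ∈ s, i ≤ n) →
        L (n * (2 * r)) (∑ i ∈ s, (-gK e A h) ^ i) := by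
      intro s
      induction s using Finset.induction_on with
      | empty => intro _; simpa only [sum_empty] using Lmono 0 _ _ (by omega) h0
      | insert a s ha ih =>
        intro hs
        rw [Finset.sum_insert ha]
        refine Ladd _ _ _ ?_ (ih fun i hi => hs i (Finset.mem_insert_of_mem hi))
        exact Lmono _ _ _ (Nat.mul_le_mul_right _ (hs a (Finset.mem_insert_self _ _))) (hp a)
    exact key _ fun i hi => by have := Finset.mem_range.1 hi; omega
  unfold theta' gG'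
  have h2 := Lmul _ _ _ _ (Lmul _ _ _ _ h1 hN) hJ
  exact Lmono _ _ _ (by ring_nf; (clear * -; omega)) h2

end Filt

section Homotopy

variable {R : Type*} [Ring R]

end Homotopy

end Vale.Agent.P228.Alg
end
end

section

section

/-!
# P228, block A (helper144): specialisation to locally finite matrices

`LMat ι (GK q)`, `GK q = (ZMod q → ℂ)`, `mon g` the group elements (helper234, Kos/Graded).
-/

namespace Vale.Agent.P228.Alg

open Finset Kos

section Conv

variable {R : Type*} [Ring R] [StarRing R]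

/-- conversion to helper528's predicate -/
theorem Dual.cx (c : Dual R) : Cx c.d c.e c.J c.Ji :=
  ⟨c.dd, c.ee, c.se, by rw [c.de, neg_neg], c.JJi, c.JiJ, c.sJ, c.Jd, c.Je⟩

/-- conversion to helper528's predicate -/
theorem Fam.good [Algebra ℝ R] [StarModule ℝ R] {c : Dual R} {q : ℕ} [NeZero q] (F : Fam c q) :
    Good c.d c.e c.J F.A F.h where
  Ae := F.A_even
  Ad := F.A_d
  JA := c.sh_eq_iff.1 F.A_sh
  he := F.h_odd
  Jh := c.sh_eq_iff.1 F.h_sh
  AA := by rw [F.A_sq, Dual.br, add_assoc]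

end Conv

/-! ### degree calculus on locally finite matrices -/

section Degree

variable {ι K : Type*} [Ring K] {deg : ι → ℕ}

/-- `X` raises the degree by at least `m` -/
def Up (deg : ι → ℕ) (m : ℕ) (X : LMat ι K) : Prop := ∀ x y, X x y ≠ 0 → deg y + m ≤ deg x

theorem Up.mono {m m' : ℕ} {X : LMat ι K} (h : Up deg m X) (hm : m' ≤ m) : Up deg m' X :=
  fun x y hxy => by have := h x y hxy; omega

theorem Up.zero (m : ℕ) : Up deg m (0 : LMat ι K) := fun x y h => by simp at h

theorem Up.add {m : ℕ} {X Y : LMat ι K} (hX : Up deg m X) (hY : Up deg m Y) :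
    Up deg m (X + Y) := by
  intro x y h
  rw [LMat.add_apply] at h
  by_cases h1 : X x y = 0
  · rw [h1, zero_add] at h; exact hY x y h
  · exact hX x y h1

theorem Up.neg {m : ℕ} {X : LMat ι K} (hX : Up deg m X) : Up deg m (-X) := by
  intro x y h
  rw [LMat.neg_apply] at h
  exact hX x y fun h0 => h (by rw [h0, neg_zero])

theorem Up.sub {m : ℕ} {X Y : LMat ι K} (hX : Up deg m X) (hY : Up deg m Y) :
    Up deg m (X - Y) := by
  rw [sub_eq_add_neg]; exact hX.add hY.neg

theorem Up.smul {S : Type*} [Semiring S] [Module S K] (s : S) {m : ℕ} {X : LMat ι K}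
    (hX : Up deg m X) : Up deg m (s • X) := by
  intro x y h
  rw [LMat.smul_apply] at h
  exact hX x y fun h0 => h (by rw [h0, smul_zero])

theorem Up.sum {α : Type*} {s : Finset α} {m : ℕ} {f : α → LMat ι K}
    (h : ∀ a ∈ s, Up deg m (f a)) : Up deg m (∑ a ∈ s, f a) := by
  classical
  induction s using Finset.induction_on with
  | empty => exact Up.zero m
  | insert a s ha ih =>
    rw [Finset.sum_insert ha]
    exact (h a (Finset.mem_insert_self _ _)).add
      (ih fun b hb => h b (Finset.mem_insert_of_mem hb))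

theorem Up.mul {m m' : ℕ} {X Y : LMat ι K} (hX : Up deg m X) (hY : Up deg m' Y) :
    Up deg (m + m') (X * Y) := by
  intro x y h
  obtain ⟨z, h1, h2⟩ := LMat.exists_of_mul_ne_zero h
  have := hX x z h1
  have := hY z y h2
  omega

theorem Up.diag (f : ι → K) : Up deg 0 (LMat.diag f) := by
  classical
  intro x y h
  by_cases hxy : x = y
  · subst hxy; simp
  · exact absurd (LMat.diag_apply_ne f hxy) h

theorem Up.one : Up deg 0 (1 : LMat ι K) := Up.diag _

theorem Up.pow {X : LMat ι K} (hX : Up deg 1 X) (m : ℕ) : Up deg m (X ^ m) := by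
  induction m with
  | zero => rw [pow_zero]; exact Up.one
  | succ m ih => rw [pow_succ]; exact ih.mul hX

theorem Up.eq_zero {n : ℕ} (hn : ∀ x, deg x ≤ n) {X : LMat ι K} (hX : Up deg (n + 1) X) :
    X = 0 := by
  ext x y
  by_contra h
  have := hX x y h
  have := hn x
  omega

/-- `X` lowers the degree by one -/
def Down (deg : ι → ℕ) (X : LMat ι K) : Prop := ∀ x y, X x y ≠ 0 → deg y = deg x + 1

/-- `X` is a duality: `deg x + deg y = n` -/
def Flip (deg : ι → ℕ) (n : ℕ) (X : LMat ι K) : Prop := ∀ x y, X x y ≠ 0 → deg x + deg y = n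

theorem Up.br [StarRing K] {c : Dual (LMat ι K)} (hd : Down deg c.d) {m : ℕ} {X : LMat ι K}
    (hX : Up deg (m + 1) X) : Up deg m (c.br X) := by
  refine Up.add ?_ ?_
  · intro x y h
    obtain ⟨z, h1, h2⟩ := LMat.exists_of_mul_ne_zero h
    have := hd x z h1
    have := hX z y h2
    omega
  · intro x y h
    obtain ⟨z, h1, h2⟩ := LMat.exists_of_mul_ne_zero h
    have := hX x z h1
    have := hd z y h2
    omega

theorem Up.sh [StarRing K] {c : Dual (LMat ι K)} {n : ℕ} (hJ : Flip deg n c.J)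
    (hJi : Flip deg n c.Ji) {m : ℕ} {X : LMat ι K}
    (hX : Up deg m X) : Up deg m (c.sh X) := by
  intro x y h
  unfold Dual.sh at h
  obtain ⟨b, h1, h2⟩ := LMat.exists_of_mul_ne_zero h
  obtain ⟨a, h3, h4⟩ := LMat.exists_of_mul_ne_zero h1
  have h5 := hJi x a h3
  have h6 := hJ b y h2
  have h7 : X b a ≠ 0 := fun h0 => h4 (by rw [LMat.star_apply, h0, star_zero])
  have := hX b a h7
  omega

/-- `gK` is nilpotent -/
theorem gK_pow_LMat {n : ℕ} (hn : ∀ x, deg x ≤ n) {e A h : LMat ι K} (he : Up deg 0 e)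
    (hA : Up deg 0 A) (hh : Up deg 1 h) : gK e A h ^ (n + 1) = 0 := by
  have hK : Up deg 1 (gK e A h) := by
    unfold gK
    refine Up.add ((hh.mul hh).mono (by omega)) ?_
    have h1 : Up deg 1 (A * h) := by simpa using hA.mul hh
    have h2 : Up deg 1 (h * A) := by simpa using hh.mul hA
    simpa using (h1.sub h2).mul he
  exact Up.eq_zero hn (hK.pow (n + 1))

variable [StarRing K] [Algebra ℝ K] {c : Dual (LMat ι K)} {q : ℕ} [NeZero q] {F : Fam c q}

theorem Fam.eh_up (hT : ∀ g, Up deg 0 (F.T g)) : Up deg 0 F.eh := (Up.sum fun g _ => hT g).smul _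

theorem Fam.Bb_up (hB : ∀ g, Up deg 1 (F.Bh g)) : Up deg 1 F.Bb := (Up.sum fun g _ => hB g).smul _

theorem Fam.Hb_up (hH : ∀ g k, Up deg 1 (F.H g k)) : Up deg 1 F.Hb :=
  (Up.sum fun g _ => Up.sum fun k _ => hH g k).smul _

theorem Fam.A_up (hd : Down deg c.d) (hT : ∀ g, Up deg 0 (F.T g))
    (hB : ∀ g, Up deg 1 (F.Bh g)) : Up deg 0 F.A :=
  Up.one.sub (((Fam.eh_up hT).add ((Up.br hd (Fam.Bb_up hB)).smul _)).smul _)

theorem Fam.eta_up (hd : Down deg c.d) (hT : ∀ g, Up deg 0 (F.T g))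
    (hB : ∀ g, Up deg 1 (F.Bh g)) (hH : ∀ g k, Up deg 1 (F.H g k)) : Up deg 1 F.eta := by
  have h1 : Up deg 1 (F.eh * F.Bb) := by simpa using (Fam.eh_up hT).mul (Fam.Bb_up hB)
  have h2 : Up deg 1 (F.Bb * F.eh) := by simpa using (Fam.Bb_up hB).mul (Fam.eh_up hT)
  have h3 : Up deg 1 (F.Bb * c.br F.Bb) := by
    simpa using (Fam.Bb_up hB).mul (Up.br hd (Fam.Bb_up hB))
  exact (((Fam.Hb_up hH).add ((h1.add h2).smul _)).add (h3.smul _)).sub ((Fam.Bb_up hB).smul _)

theorem Fam.h_up {n : ℕ} (hd : Down deg c.d) (hJ : Flip deg n c.J) (hJi : Flip deg n c.Ji)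
    (hT : ∀ g, Up deg 0 (F.T g)) (hB : ∀ g, Up deg 1 (F.Bh g))
    (hH : ∀ g k, Up deg 1 (F.H g k)) : Up deg 1 F.h :=
  ((Fam.eta_up hd hT hB hH).add (Up.sh hJ hJi (Fam.eta_up hd hT hB hH))).smul _

theorem Fam.kap_up {n : ℕ} (hJ : Flip deg n c.J) (hJi : Flip deg n c.Ji) {k : ZMod q → LMat ι K}
    (hk : ∀ g, Up deg 1 (k g)) : Up deg 1 (Fam.kap c k) := by
  have h1 : Up deg 1 ((q : ℝ)⁻¹ • ∑ g, k g) := (Up.sum fun g _ => hk g).smul _
  exact (h1.add (Up.sh hJ hJi h1)).neg

end Degree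

/-! ### constants and evaluation -/

section Eval

variable {ι : Type*} {q : ℕ}

/-- constant coefficients -/
noncomputable def cst (q : ℕ) : LMat ι ℂ →+* LMat ι (GK q) :=
  LMat.map (Pi.constRingHom (ZMod q) ℂ)

/-- evaluation at the character `j` -/
noncomputable def ev (j : ZMod q) : LMat ι (GK q) →+* LMat ι ℂ :=
  LMat.map (Pi.evalRingHom (fun _ : ZMod q => ℂ) j)

@[simp] theorem cst_apply (a : LMat ι ℂ) (x y : ι) (j : ZMod q) : cst q a x y j = a x y := rfl

@[simp] theorem ev_apply (j : ZMod q) (a : LMat ι (GK q)) (x y : ι) : ev j a x y = a x y j := rfl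

@[simp] theorem ev_cst (j : ZMod q) (a : LMat ι ℂ) : ev j (cst q a) = a := by
  ext x y; simp only [ev_apply, cst_apply]

theorem cst_star (a : LMat ι ℂ) : cst q (star a) = star (cst q a) := by
  ext x y; simp only [cst_apply, LMat.star_apply, RCLike.star_def, Pi.star_apply]

theorem ev_star (j : ZMod q) (a : LMat ι (GK q)) : ev j (star a) = star (ev j a) := by
  ext x y; simp only [ev_apply, LMat.star_apply, Pi.star_apply, RCLike.star_def]

theorem ev_smul (j : ZMod q) (r : ℝ) (a : LMat ι (GK q)) : ev j (r • a) = r • ev j a := by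
  ext x y; simp only [ev_apply, LMat.smul_apply, Pi.smul_apply, Complex.real_smul]

theorem ev_smulK (j : ZMod q) (f : GK q) (a : LMat ι (GK q)) :
    ev j (f • a) = f j • ev j a := by
  ext x y; simp only [ev_apply, LMat.smul_apply, Pi.smul_apply', smul_eq_mul]

end Eval

/-! ### the family over `GK q` and its characters -/

section Hat

variable {ι : Type*} {q : ℕ} [NeZero q] {c : Dual (LMat ι ℂ)} (F : Fam c q)

theorem mon_add (g k : ZMod q) : (mon (g + k) : GK q) = mon g * mon k := (mon_mul g k).symm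

/-- the dual data with constant coefficients -/
noncomputable def Dual.hat (c : Dual (LMat ι ℂ)) (q : ℕ) : Dual (LMat ι (GK q)) :=
  c.map (cst q) cst_star

/-- the universal family `T g = [g] Θ_g` -/
noncomputable def Fam.hat : Fam (c.hat q) q :=
  (F.map (cst q) cst_star).twist (mon : ZMod q → GK q) mon_add star_mon

/-- the family `T g = χ(g)^j Θ_g` -/
noncomputable def Fam.at (j : ZMod q) : Fam c q :=
  F.twist (fun g => (mon g : GK q) j)
    (fun g k => by rw [mon_add]; rfl) (fun g => by rw [← star_mon]; rfl)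

theorem Fam.hat_T (g : ZMod q) : F.hat.T g = (mon g : GK q) • cst q (F.T g) := rfl
theorem Fam.hat_H (g k : ZMod q) : F.hat.H g k = (mon (g + k) : GK q) • cst q (F.H g k) := rfl
theorem Fam.hat_Bh (g : ZMod q) : F.hat.Bh g = (mon (-g) : GK q) • cst q (F.Bh g) := rfl
theorem Fam.at_T (j g : ZMod q) : (F.at j).T g = (mon g : GK q) j • F.T g := rfl
theorem Fam.at_H (j g k : ZMod q) : (F.at j).H g k = (mon (g + k) : GK q) j • F.H g k := rfl
theorem Fam.at_Bh (j g : ZMod q) : (F.at j).Bh g = (mon (-g) : GK q) j • F.Bh g := rfl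

omit [NeZero q] in
theorem ev_br (j : ZMod q) (x : LMat ι (GK q)) : ev j ((c.hat q).br x) = c.br (ev j x) := by
  simp only [Dual.br, Dual.hat, Dual.map_d, map_add, map_mul, ev_cst]

omit [NeZero q] in
theorem ev_sh (j : ZMod q) (x : LMat ι (GK q)) : ev j ((c.hat q).sh x) = c.sh (ev j x) := by
  simp only [Dual.sh, Dual.hat, Dual.map_Ji, Dual.map_J, map_mul, ev_cst, ev_star]

theorem Fam.ev_eh (j : ZMod q) : ev j F.hat.eh = (F.at j).eh := by
  simp only [Fam.eh, ev_smul, map_sum, Fam.hat_T, Fam.at_T, ev_smulK, ev_cst]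

theorem Fam.ev_Bb (j : ZMod q) : ev j F.hat.Bb = (F.at j).Bb := by
  simp only [Fam.Bb, ev_smul, map_sum, Fam.hat_Bh, Fam.at_Bh, ev_smulK, ev_cst]

theorem Fam.ev_Hb (j : ZMod q) : ev j F.hat.Hb = (F.at j).Hb := by
  simp only [Fam.Hb, ev_smul, map_sum, Fam.hat_H, Fam.at_H, ev_smulK, ev_cst]

theorem Fam.ev_A (j : ZMod q) : ev j F.hat.A = (F.at j).A := by
  simp only [Fam.A, Fam.E, map_sub, map_add, map_one, ev_smul, F.ev_eh, ev_br, F.ev_Bb]

theorem Fam.ev_eta (j : ZMod q) : ev j F.hat.eta = (F.at j).eta := by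
  simp only [Fam.eta, map_sub, map_add, map_mul, ev_smul, F.ev_eh, ev_br, F.ev_Bb, F.ev_Hb]

theorem Fam.ev_h (j : ZMod q) : ev j F.hat.h = (F.at j).h := by
  simp only [Fam.h, map_add, ev_smul, F.ev_eta, ev_sh]

theorem ev_theta (j : ZMod q) :
    ev j (theta (c.hat q).d (c.hat q).e (c.hat q).J F.hat.A F.hat.h)
      = theta c.d c.e c.J (F.at j).A (F.at j).h := by
  rw [map_theta, F.ev_A, F.ev_h]
  simp only [Dual.hat, Dual.map_d, ev_cst, Dual.map_e, Dual.map_J]

theorem ev_theta' (n : ℕ) (j : ZMod q) :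
    ev j (theta' n (c.hat q).d (c.hat q).e (c.hat q).Ji F.hat.A F.hat.h)
      = theta' n c.d c.e c.Ji (F.at j).A (F.at j).h := by
  rw [map_theta', F.ev_A, F.ev_h]
  simp [Dual.hat]

theorem sum_mon (j : ZMod q) :
    ∑ g : ZMod q, (mon g : GK q) j = if j = 0 then (q : ℂ) else 0 := by
  have h1 : ∀ g : ZMod q, (mon g : GK q) j = ZMod.stdAddChar (j * g) := by
    intro g; rw [mon_apply, mul_comm]
  rw [Finset.sum_congr rfl fun g _ => h1 g]
  split_ifs with h
  · simp only [h, zero_mul, AddChar.map_zero_eq_one, sum_const, card_univ, ZMod.card, nsmul_eq_mul, mul_one]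
  · exact AddChar.sum_eq_zero_of_ne_one (ZMod.isPrimitive_stdAddChar q h)

/-- the coarse form of the `j`-th involution: `A_j = a_j + [d, κ_j]`, `a_j = -1` iff `j = 0` -/
theorem Fam.at_A_coarse {k : ZMod q → LMat ι ℂ} (hk : ∀ g, F.T g = 1 + c.br (k g)) (j : ZMod q) :
    (F.at j).A = (if j = 0 then (-1 : ℝ) else 1) • (1 : LMat ι ℂ)
      + c.br (Fam.kap c fun g => (mon g : GK q) j • k g) := by
  have hq : (q : ℂ) ≠ 0 := Nat.cast_ne_zero.mpr (NeZero.ne q)
  have h1 := Fam.A_coarse (F := F.at j) (K := fun g => (mon g : GK q) j • k g)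
    (cg := fun g => (mon g : GK q) j • (1 : LMat ι ℂ)) (δ := if j = 0 then 1 else 0)
    (fun g => by rw [F.at_T, hk, c.br_smulS, smul_add]) (by
      rw [← Finset.sum_smul, sum_mon]
      split_ifs with h
      · rw [← Complex.coe_smul, smul_smul, ← Complex.coe_smul]
        congr 1
        push_cast
        exact inv_mul_cancel₀ hq
      · simp)
  rw [h1]
  congr 2
  split_ifs <;> norm_num

end Hat

end Vale.Agent.P228.Alg
end
end

section

section

/-!
# P228, block A (helper144): supports, and the final package of block A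

* `NearRel ι q` : composable symmetric graded relation `rel g r x y` (read `x ≈ g • y`, `r` steps);
* `supFil N : Fil (LMat ι (GK q))` : `T x y ∈ gr {g | N.rel g r x y}`;
* `CRel ι`, `relFil E : Fil (LMat ι K)` : ungraded version;
* `ChainIn` : the input from the chain block, and the outputs
  `th, th' : LMat ι (GK q)` with all properties.
-/

namespace Vale.Agent.P228.Alg

open Finset Kos

/-- composable symmetric graded relation -/
structure NearRel (ι : Type*) (q : ℕ) where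
  rel : ZMod q → ℕ → ι → ι → Prop
  refl : ∀ x, rel 0 0 x x
  symm : ∀ {g r x y}, rel g r x y → rel (-g) r y x
  trans : ∀ {g h r s x y z}, rel g r x y → rel h s y z → rel (g + h) (r + s) x z
  mono : ∀ {g r s x y}, r ≤ s → rel g r x y → rel g s x y

/-- composable symmetric relation -/
structure CRel (ι : Type*) where
  rel : ℕ → ι → ι → Prop
  refl : ∀ x, rel 0 x x
  symm : ∀ {r x y}, rel r x y → rel r y x
  trans : ∀ {r s x y z}, rel r x y → rel s y z → rel (r + s) x z
  mono : ∀ {r s x y}, r ≤ s → rel r x y → rel s x y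

section Fils

variable {ι : Type*} {q : ℕ}

theorem real_smul_gr [NeZero q] {A : Set (ZMod q)} (r : ℝ) {f : GK q} (hf : f ∈ gr A) :
    r • f ∈ gr A := by
  have : r • f = (r : ℂ) • f := by funext j; simp
  rw [this]; exact (gr A).smul_mem _ hf

/-- the graded support filtration -/
noncomputable def supFil [NeZero q] (N : NearRel ι q) : Fil (LMat ι (GK q)) where
  L r :=
    { carrier := {T | ∀ x y, T x y ∈ gr {g | N.rel g r x y}}
      add_mem' := fun ha hb x y => (gr _).add_mem (ha x y) (hb x y)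
      zero_mem' := fun x y => by
        rw [LMat.zero_apply]; exact (gr _).zero_mem
      smul_mem' := fun r a ha x y => by
        rw [LMat.smul_apply]; exact real_smul_gr r (ha x y) }
  mono := fun r s h T hT x y => gr_mono (fun g hg => N.mono h hg) (hT x y)
  one_mem := fun x y => by
    classical
    rw [LMat.one_apply]
    split_ifs with h
    · subst h; exact one_mem_gr (N.refl x)
    · exact (gr _).zero_mem
  mul_mem := fun {r s a b} ha hb x y => by
    rw [LMat.mul_apply]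
    refine (gr _).sum_mem fun z _ => ?_
    exact mul_mem_gr (fun g hg h hh => N.trans hg hh) (ha x z) (hb z y)
  star_mem := fun {r a} ha x y => by
    rw [LMat.star_apply]
    exact star_mem_gr (fun g hg => N.symm hg) (ha y x)

/-- the ungraded support filtration -/
noncomputable def relFil {K : Type*} [Ring K] [StarRing K] [Algebra ℝ K] (E : CRel ι) :
    Fil (LMat ι K) where
  L r :=
    { carrier := {T | ∀ x y, T x y ≠ 0 → E.rel r x y}
      add_mem' := fun {a b} ha hb x y h => by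
        rw [LMat.add_apply] at h
        by_cases h1 : a x y = 0
        · rw [h1, zero_add] at h; exact hb x y h
        · exact ha x y h1
      zero_mem' := fun x y h => by simp at h
      smul_mem' := fun r a ha x y h => ha x y fun h0 => h (by
        rw [LMat.smul_apply, h0, smul_zero]) }
  mono := fun r s h T hT x y hxy => E.mono h (hT x y hxy)
  one_mem := fun x y h => by
    classical
    rw [LMat.one_apply] at h
    split_ifs at h with hxy
    · subst hxy; exact E.refl x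
    · exact absurd rfl h
  mul_mem := fun {r s a b} ha hb x y h => by
    obtain ⟨z, h1, h2⟩ := LMat.exists_of_mul_ne_zero h
    exact E.trans (ha x z h1) (hb z y h2)
  star_mem := fun {r a} ha x y h => by
    rw [LMat.star_apply] at h
    exact E.symm (ha y x fun h0 => h (by rw [h0, star_zero]))

theorem smulC_mem_relFil {E : CRel ι} {r : ℕ} {T : LMat ι ℂ} (z : ℂ)
    (h : T ∈ (relFil E).L r) : z • T ∈ (relFil E).L r := fun x y hxy =>
  h x y fun h0 => hxy (by rw [LMat.smul_apply, h0, smul_zero])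

/-- a group ring monomial times a constant matrix -/
theorem mon_cst_mem [NeZero q] {N : NearRel ι q} {r : ℕ} {g : ZMod q} {T : LMat ι ℂ}
    (h : ∀ x y, T x y ≠ 0 → N.rel g r x y) : (mon g : GK q) • cst q T ∈ (supFil N).L r := by
  intro x y
  rw [LMat.smul_apply]
  have h1 : (mon g : GK q) • cst q T x y = (T x y) • (mon g : GK q) := by
    funext j; simp only [Pi.smul_apply', cst_apply, smul_eq_mul, Pi.smul_apply, mul_comm]
  rw [h1]
  by_cases h0 : T x y = 0
  · rw [h0, zero_smul]; exact (gr _).zero_mem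
  · exact (gr _).smul_mem _ (mon_mem_gr (h x y h0))

theorem cst_mem [NeZero q] {N : NearRel ι q} {r : ℕ} {T : LMat ι ℂ}
    (h : ∀ x y, T x y ≠ 0 → N.rel 0 r x y) : cst q T ∈ (supFil N).L r := by
  have := mon_cst_mem (q := q) (g := 0) (T := T) h
  rwa [mon_zero, one_smul] at this

/-- the support of the evaluation at a character -/
theorem ev_supp [NeZero q] {N : NearRel ι q} {r : ℕ} {T : LMat ι (GK q)} (h : T ∈ (supFil N).L r)
    (j : ZMod q) {x y : ι} (hxy : ev j T x y ≠ 0) : ∃ g, N.rel g r x y := by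
  by_contra hc
  push Not at hc
  have h1 : {g | N.rel g r x y} = ∅ := Set.eq_empty_iff_forall_notMem.2 fun g hg => hc g hg
  have h2 := h x y
  rw [h1] at h2
  have h3 : T x y = 0 := by simpa only [gr, Set.image_empty, Submodule.span_empty, Submodule.mem_bot] using h2
  exact hxy (by rw [ev_apply, h3]; rfl)

theorem ev_mem_relFil [NeZero q] {N : NearRel ι q} {E : CRel ι}
    (hNE : ∀ g r x y, N.rel g r x y → E.rel r x y) {r : ℕ} {T : LMat ι (GK q)}
    (h : T ∈ (supFil N).L r) (j : ZMod q) : ev j T ∈ (relFil (K := ℂ) E).L r := by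
  intro x y hxy
  obtain ⟨g, hg⟩ := ev_supp h j hxy
  exact hNE g r x y hg

end Fils

/-! ### words -/

section Words

variable {R : Type*} [Ring R] [StarRing R] [Algebra ℝ R] (L : Fil R)

theorem theta_mem {r : ℕ} {d e J A h : R} (hd : d ∈ L.L r) (he : e ∈ L.L 0) (hJ : J ∈ L.L r)
    (hA : A ∈ L.L r) (hh : h ∈ L.L r) : theta d e J A h ∈ L.L (2 * r) :=
  theta_mem_filt (fun k x => x ∈ L.L k) (fun k _ _ => (L.L k).add_mem)
    (fun k _ => (L.L k).neg_mem) (fun _ _ _ _ => L.mul_mem) (fun _ _ _ h hx => L.le h hx) hd he hJ hA hh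

theorem theta'_mem {r n : ℕ} {d e Ji A h : R} (hd : d ∈ L.L r) (he : e ∈ L.L 0)
    (hJ : Ji ∈ L.L r) (hA : A ∈ L.L r) (hh : h ∈ L.L r) :
    theta' n d e Ji A h ∈ L.L ((2 * n + 2) * r) :=
  theta'_mem_filt (fun k x => x ∈ L.L k) (fun k _ _ => (L.L k).add_mem)
    (fun k _ => (L.L k).neg_mem) (fun _ _ _ _ => L.mul_mem) L.one_mem
    (fun _ _ _ h hx => L.le h hx) hd he hJ hA hh

end Words

/-! ### the input from the chain block and the output of block A -/

/-- what the chain block delivers (everything with complex coefficients on the cells `ι`) -/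
structure ChainIn (ι : Type*) (q n : ℕ) [NeZero q] (N : NearRel ι q) (E : CRel ι) where
  c : Dual (LMat ι ℂ)
  F : Fam c q
  k : ZMod q → LMat ι ℂ
  deg : ι → ℕ
  deg_le : ∀ x, deg x ≤ n
  /-- coarse null-homotopies of `Θ_g - 1` -/
  k_odd : ∀ g, c.IsOdd (k g)
  T_eq : ∀ g, F.T g = 1 + c.br (k g)
  /-- degrees -/
  e_up : Up deg 0 c.e
  d_down : Down deg c.d
  J_flip : Flip deg n c.J
  Ji_flip : Flip deg n c.Ji
  T_up : ∀ g, Up deg 0 (F.T g)
  H_up : ∀ g g', Up deg 1 (F.H g g')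
  Bh_up : ∀ g, Up deg 1 (F.Bh g)
  k_up : ∀ g, Up deg 1 (k g)
  /-- fine supports (one step) -/
  e_sup : ∀ x y, c.e x y ≠ 0 → N.rel 0 0 x y
  d_sup : ∀ x y, c.d x y ≠ 0 → N.rel 0 1 x y
  J_sup : ∀ x y, c.J x y ≠ 0 → N.rel 0 1 x y
  Ji_sup : ∀ x y, c.Ji x y ≠ 0 → N.rel 0 1 x y
  T_sup : ∀ g x y, F.T g x y ≠ 0 → N.rel g 1 x y
  H_sup : ∀ g g' x y, F.H g g' x y ≠ 0 → N.rel (g + g') 1 x y
  Bh_sup : ∀ g x y, F.Bh g x y ≠ 0 → N.rel (-g) 1 x y
  /-- coarse supports -/
  k_sup : ∀ g x y, k g x y ≠ 0 → E.rel 1 x y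
  N_E : ∀ g r x y, N.rel g r x y → E.rel r x y

namespace ChainIn

variable {ι : Type*} {q n : ℕ} [NeZero q] {N : NearRel ι q} {E : CRel ι}
  (C : ChainIn ι q n N E)

/-- the universal form -/
noncomputable def th : LMat ι (GK q) :=
  theta (C.c.hat q).d (C.c.hat q).e (C.c.hat q).J C.F.hat.A C.F.hat.h

/-- its inverse -/
noncomputable def th' : LMat ι (GK q) :=
  theta' n (C.c.hat q).d (C.c.hat q).e (C.c.hat q).Ji C.F.hat.A C.F.hat.h

omit [NeZero q] in
theorem up_cst {m : ℕ} {T : LMat ι ℂ} {deg : ι → ℕ} (h : Up deg m T) : Up deg m (cst q T) := by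
  intro x y hxy
  refine h x y fun h0 => hxy ?_
  funext j
  rw [cst_apply, h0]; rfl

theorem hatT_up (g : ZMod q) : Up C.deg 0 (C.F.hat.T g) := by
  rw [Fam.hat_T]; exact (up_cst (C.T_up g)).smul _
theorem hatH_up (g g' : ZMod q) : Up C.deg 1 (C.F.hat.H g g') := by
  rw [Fam.hat_H]; exact (up_cst (C.H_up g g')).smul _
theorem hatBh_up (g : ZMod q) : Up C.deg 1 (C.F.hat.Bh g) := by
  rw [Fam.hat_Bh]; exact (up_cst (C.Bh_up g)).smul _

theorem hatd_down : Down C.deg (C.c.hat q).d := by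
  intro x y hxy
  refine C.d_down x y fun h0 => hxy ?_
  funext j
  show cst q C.c.d x y j = 0
  rw [cst_apply, h0]

theorem hatJ_flip : Flip C.deg n (C.c.hat q).J := by
  intro x y hxy
  refine C.J_flip x y fun h0 => hxy ?_
  funext j
  show cst q C.c.J x y j = 0
  rw [cst_apply, h0]

theorem hatJi_flip : Flip C.deg n (C.c.hat q).Ji := by
  intro x y hxy
  refine C.Ji_flip x y fun h0 => hxy ?_
  funext j
  show cst q C.c.Ji x y j = 0
  rw [cst_apply, h0]

theorem hatA_up : Up C.deg 0 C.F.hat.A := Fam.A_up C.hatd_down C.hatT_up C.hatBh_up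

theorem hath_up : Up C.deg 1 C.F.hat.h :=
  Fam.h_up C.hatd_down C.hatJ_flip C.hatJi_flip C.hatT_up C.hatBh_up C.hatH_up

theorem gK_hat : gK (C.c.hat q).e C.F.hat.A C.F.hat.h ^ (n + 1) = 0 :=
  gK_pow_LMat C.deg_le (up_cst C.e_up) C.hatA_up C.hath_up

theorem star_th : star C.th = C.th := C.F.hat.good.star_theta (C.c.hat q).cx

theorem star_th' : star C.th' = C.th' := C.F.hat.good.star_theta' (C.c.hat q).cx C.gK_hat

theorem th_mul_th' : C.th * C.th' = 1 := C.F.hat.good.theta_mul (C.c.hat q).cx C.gK_hat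

theorem th'_mul_th : C.th' * C.th = 1 := C.F.hat.good.mul_theta (C.c.hat q).cx C.gK_hat

/-- support constant of `A`, `h` -/
theorem d_mem : (C.c.hat q).d ∈ (supFil N).L 1 := cst_mem C.d_sup
theorem e_mem : (C.c.hat q).e ∈ (supFil N).L 0 := cst_mem C.e_sup
theorem J_mem : (C.c.hat q).J ∈ (supFil N).L 1 := cst_mem C.J_sup
theorem Ji_mem : (C.c.hat q).Ji ∈ (supFil N).L 1 := cst_mem C.Ji_sup
theorem T_mem (g : ZMod q) : C.F.hat.T g ∈ (supFil N).L 1 := mon_cst_mem (C.T_sup g)
theorem H_mem (g g' : ZMod q) : C.F.hat.H g g' ∈ (supFil N).L 1 := mon_cst_mem (C.H_sup g g')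
theorem Bh_mem (g : ZMod q) : C.F.hat.Bh g ∈ (supFil N).L 1 := mon_cst_mem (C.Bh_sup g)

theorem d_mem5 : (C.c.hat q).d ∈ (supFil N).L 5 := (supFil N).le (by norm_num) C.d_mem
theorem J_mem5 : (C.c.hat q).J ∈ (supFil N).L 5 := (supFil N).le (by norm_num) C.J_mem
theorem Ji_mem5 : (C.c.hat q).Ji ∈ (supFil N).L 5 := (supFil N).le (by norm_num) C.Ji_mem

theorem A_mem : C.F.hat.A ∈ (supFil N).L 5 := by
  have h : C.F.hat.A ∈ (supFil N).L (2 * 1) := Fam.A_mem C.d_mem C.T_mem C.Bh_mem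
  exact (supFil N).le (by norm_num) h

theorem h_mem : C.F.hat.h ∈ (supFil N).L 5 :=
  Fam.h_mem (a := 1) C.d_mem C.J_mem C.Ji_mem C.T_mem C.Bh_mem C.H_mem

/-- the universal form has support in `10` steps -/
theorem th_mem : C.th ∈ (supFil N).L 10 :=
  theta_mem (r := 5) (supFil N) C.d_mem5 C.e_mem C.J_mem5 C.A_mem C.h_mem

/-- its inverse has support in `(2 n + 2) * 5` steps -/
theorem th'_mem : C.th' ∈ (supFil N).L ((2 * n + 2) * 5) :=
  theta'_mem (r := 5) (supFil N) C.d_mem5 C.e_mem C.Ji_mem5 C.A_mem C.h_mem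

end ChainIn

end Vale.Agent.P228.Alg
end
end

section

section

/-! Boxes are acyclic in the cubical complex. -/

namespace Vale.Agent.P228.Cub

open Finsupp

variable {k : Type*} [Field k] {ι : Type*} [Fintype ι] [LinearOrder ι]

theorem lift_mem {i : ι} {u : ℤ × Bool → (ℤ × Bool →₀ k)} {c b : Cell ι}
    (h : b ∈ (lift i u (single c (1 : k))).support) :
    ∃ w ∈ (u (c i)).support, b = Function.update c i w := by
  classical
  rw [lift_single] at h
  obtain ⟨w, hw, rfl⟩ := Finset.mem_image.1 (Finsupp.mapDomain_support h)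
  exact ⟨w, hw, rfl⟩

theorem od_mem {i : ι} {u : ℤ × Bool → (ℤ × Bool →₀ k)} {c b : Cell ι}
    (h : b ∈ (od i u (single c (1 : k))).support) :
    ∃ w ∈ (u (c i)).support, b = Function.update c i w := by
  classical
  rw [od_single] at h
  obtain ⟨w, hw, rfl⟩ := Finset.mem_image.1 (Finsupp.mapDomain_support (Finsupp.support_smul h))
  exact ⟨w, hw, rfl⟩

/-- `b` is a codimension one face of `c`. -/
def Face (b c : Cell ι) : Prop :=
  ∃ i, (c i).2 = true ∧ (b = Function.update c i ((c i).1, false) ∨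
    b = Function.update c i ((c i).1 + 1, false))

theorem bdry_mem {c b : Cell ι} (h : b ∈ (bdry (single c (1 : k))).support) : Face b c := by
  classical
  rw [bdry, LinearMap.sum_apply] at h
  obtain ⟨i, _, hi⟩ := Finset.mem_biUnion.1 (Finsupp.support_finsetSum h)
  obtain ⟨w, hw, rfl⟩ := od_mem hi
  obtain ⟨h1, h2, h3⟩ := bd_mem hw
  refine ⟨i, h1, ?_⟩
  rcases w with ⟨w1, w2⟩
  simp only at h2 h3
  subst h2
  rcases h3 with rfl | rfl
  · exact Or.inl rfl
  · exact Or.inr rfl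

theorem Face.dg {b c : Cell ι} (h : Face b c) : dg b + 1 = dg c := by
  obtain ⟨i, h1, h2 | h2⟩ := h
  · have := dg_update i c ((c i).1, false)
    rw [h1] at this
    subst h2
    simpa only [↓reduceIte, Bool.false_eq_true, add_zero] using this
  · have := dg_update i c ((c i).1 + 1, false)
    rw [h1] at this
    subst h2
    simpa only [↓reduceIte, Bool.false_eq_true, add_zero] using this

theorem sup_bdry (c : Cell ι) : Sup (fun b => dg b + 1 = dg c) (bdry (single c (1 : k))) :=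
  fun _ hb => (bdry_mem hb).dg

variable (k ι) in
/-- the cubical complex as a based augmented complex -/
noncomputable def cub : BCx k (Cell ι) where
  deg := dg
  d := bdry
  e := aug
  hd := sup_bdry
  hdd := bdry_bdry
  hed := aug_bdry

/-- the cells contained in the box with corners `lo`, `hi`. -/
def Box (lo hi : ι → ℤ) (c : Cell ι) : Prop :=
  ∀ i, lo i ≤ (c i).1 ∧ (c i).1 + (if (c i).2 then 1 else 0) ≤ hi i

theorem Box.update {lo hi : ι → ℤ} {c : Cell ι} (h : Box lo hi c) {i : ι} {w : ℤ × Bool}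
    (h1 : lo i ≤ w.1) (h2 : w.1 + (if w.2 then 1 else 0) ≤ hi i) :
    Box lo hi (Function.update c i w) := by
  intro j
  by_cases hji : j = i
  · subst hji; rw [Function.update_self]; exact ⟨h1, h2⟩
  · rw [Function.update_of_ne hji]; exact h j

/-- the vertex at position `v` -/
def vtx (v : ι → ℤ) : Cell ι := fun i => (v i, false)

theorem dg_vtx (v : ι → ℤ) : dg (vtx v) = 0 := by
  simp only [dg, vtx, Bool.false_eq_true, Finset.filter_false, Finset.card_empty]

theorem box_vtx {lo hi v : ι → ℤ} (h1 : lo ≤ v) (h2 : v ≤ hi) : Box lo hi (vtx v) := by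
  intro i
  simpa only [vtx, Bool.false_eq_true, ↓reduceIte, add_zero] using ⟨h1 i, h2 i⟩

theorem aug_vtx (v : ι → ℤ) : aug (single (vtx v) (1 : k)) = 1 := by
  rw [aug_single, if_pos (dg_vtx v)]

theorem box_retract {lo hi : ι → ℤ} (m : ℕ) (x : Cell ι →₀ k)
    (hx : Sup (fun c => Box lo hi c ∧ dg c = m) x) (hdx : bdry x = 0) (s : Finset ι) :
    ∃ x' y : Cell ι →₀ k, Sup (fun c => Box lo hi c ∧ dg c = m + 1) y ∧
      Sup (fun c => (Box lo hi c ∧ dg c = m) ∧ ∀ i ∈ s, c i = (lo i, false)) x' ∧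
      bdry x' = 0 ∧ aug x' = aug x ∧ x = x' + bdry y := by
  classical
  induction s using Finset.induction_on with
  | empty =>
    exact ⟨x, 0, sup_zero _, sup_mono (fun c hc => ⟨hc, by simp⟩) hx, hdx, rfl, by simp⟩
  | insert i s hi ih =>
    obtain ⟨x', y, hy, hx', hdx', hax', he⟩ := ih
    refine ⟨lift i (rho (lo i)) x', y + od i (pth (lo i)) x', sup_add hy ?_, ?_, ?_, ?_, ?_⟩
    · refine sup_lin (od i (pth (lo i))) x' fun c hc b hb => ?_
      obtain ⟨⟨h1, h2⟩, _⟩ := hx' c hc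
      obtain ⟨w, hw, rfl⟩ := od_mem hb
      obtain ⟨h3, h4, h5⟩ := pth_mem hw
      have hbox := h1 i
      rw [h3] at hbox
      simp only [Bool.false_eq_true, if_false, add_zero] at hbox
      refine ⟨h1.update ?_ ?_, ?_⟩
      · omega
      · rw [h4]; simp only [if_true]; omega
      · have := dg_update i c w
        rw [h3, h4] at this
        simp at this
        omega
    · refine sup_lin (lift i (rho (lo i))) x' fun c hc b hb => ?_
      obtain ⟨⟨h1, h2⟩, hs⟩ := hx' c hc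
      obtain ⟨w, hw, rfl⟩ := lift_mem hb
      obtain ⟨h3, h4⟩ := rho_mem hw
      have hbox := h1 i
      rw [h3] at hbox
      simp only [Bool.false_eq_true, if_false, add_zero] at hbox
      subst h4
      refine ⟨⟨h1.update le_rfl ?_, ?_⟩, ?_⟩
      · simp only [Bool.false_eq_true, if_false, add_zero]; omega
      · rw [dg_update_same (by simp [h3]), h2]
      · intro j hj
        by_cases hji : j = i
        · subst hji; rw [Function.update_self]
        · rw [Function.update_of_ne hji]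
          exact hs j ((Finset.mem_insert.1 hj).resolve_left hji)
    · have := LinearMap.congr_fun (bdry_rho (k := k) (ι := ι) i (lo i)) x'
      rw [Module.End.mul_apply, Module.End.mul_apply, hdx', map_zero] at this
      exact this
    · rw [aug_rho, hax']
    · have := LinearMap.congr_fun (bdry_homotopy (k := k) (ι := ι) i (lo i)) x'
      rw [LinearMap.add_apply, Module.End.mul_apply, Module.End.mul_apply, hdx', map_zero,
        add_zero, LinearMap.sub_apply, Module.End.one_apply] at this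
      rw [map_add, this, he]
      abel

/-- **Boxes are acyclic.** -/
theorem box_acyc {lo hi : ι → ℤ} (h : lo ≤ hi) : (cub k ι).Acyc (Box lo hi) := by
  classical
  refine ⟨⟨single (vtx lo) 1, sup_single ⟨box_vtx le_rfl h, dg_vtx lo⟩, aug_vtx lo⟩, ?_⟩
  intro m x hx hdx h0
  obtain ⟨x', y, hy, hx', hdx', hax', he⟩ := box_retract m x hx hdx Finset.univ
  have hx0 : x' = 0 := by
    have hsup : ∀ c ∈ x'.support, c = vtx lo ∧ m = 0 := by
      intro c hc
      obtain ⟨⟨h1, h2⟩, h3⟩ := hx' c hc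
      have hcv : c = vtx lo := by funext i; exact h3 i (Finset.mem_univ i)
      refine ⟨hcv, ?_⟩
      rw [hcv, dg_vtx] at h2
      exact h2.symm
    by_contra hne
    obtain ⟨c, hc⟩ := Finsupp.support_nonempty_iff.2 hne
    obtain ⟨hcv, hm⟩ := hsup c hc
    have hsing : x' = single (vtx lo) (x' (vtx lo)) := by
      apply Finsupp.eq_single_iff.2
      exact ⟨fun b hb => Finset.mem_singleton.2 (hsup b hb).1, rfl⟩
    have h1 : aug x' = x' (vtx lo) := by
      conv_lhs => rw [hsing]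
      rw [← mul_one (x' (vtx lo)), ← smul_eq_mul, ← Finsupp.smul_single, map_smul, aug_vtx]
    have h2 : aug x' = 0 := by rw [hax']; exact h0 hm
    rw [h2] at h1
    subst hcv
    exact Finsupp.mem_support_iff.1 hc h1.symm
  rw [hx0, zero_add] at he
  exact ⟨y, hy, he.symm⟩

end Vale.Agent.P228.Cub
end
end

section

section

/-! Vertices of cells, hulls of images of cells, location dependent box carriers (helper819). -/

namespace Vale.Agent.P228.Cub

open Finsupp

variable {ι : Type*} [Fintype ι] [LinearOrder ι]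

/-- vertices of a cell -/
def vt (c : Cell ι) : Finset (ι → ℤ) :=
  Fintype.piFinset fun i => if (c i).2 then {(c i).1, (c i).1 + 1} else {(c i).1}

theorem mem_vt {c : Cell ι} {v : ι → ℤ} :
    v ∈ vt c ↔ ∀ i, v i = (c i).1 ∨ ((c i).2 = true ∧ v i = (c i).1 + 1) := by
  unfold vt
  rw [Fintype.mem_piFinset]
  refine forall_congr' fun i => ?_
  by_cases h : (c i).2 = true
  · simp only [h, ↓reduceIte, Finset.mem_insert, Finset.mem_singleton, true_and]
  · simp [h]

theorem pos_mem_vt (c : Cell ι) : (fun i => (c i).1) ∈ vt c := mem_vt.2 fun _ => Or.inl rfl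

theorem vt_nonempty (c : Cell ι) : (vt c).Nonempty := ⟨_, pos_mem_vt c⟩

/-- two vertices of a cell have distance at most one -/
theorem vt_close {c : Cell ι} {v w : ι → ℤ} (hv : v ∈ vt c) (hw : w ∈ vt c) (i : ι) :
    |v i - w i| ≤ 1 := by
  rw [abs_le]
  rcases mem_vt.1 hv i with h1 | ⟨_, h1⟩ <;> rcases mem_vt.1 hw i with h2 | ⟨_, h2⟩ <;>
    rw [h1, h2] <;> constructor <;> omega

theorem vt_face {c c' : Cell ι} (h : Face c' c) : vt c' ⊆ vt c := by
  obtain ⟨i, h1, h2⟩ := h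
  intro v hv
  rw [mem_vt] at hv ⊢
  intro j
  have h3 := hv j
  by_cases hj : j = i
  · subst hj
    rcases h2 with rfl | rfl
    · rw [Function.update_self] at h3
      rcases h3 with h3 | ⟨h3, _⟩
      · exact Or.inl h3
      · cases h3
    · rw [Function.update_self] at h3
      rcases h3 with h3 | ⟨h3, _⟩
      · exact Or.inr ⟨h1, h3⟩
      · cases h3
  · rcases h2 with rfl | rfl <;> rwa [Function.update_of_ne hj] at h3

theorem vt_vtx (v : ι → ℤ) : vt (vtx v) = {v} := by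
  ext w
  rw [mem_vt, Finset.mem_singleton]
  constructor
  · intro h
    funext i
    rcases h i with h1 | ⟨h1, _⟩
    · exact h1
    · cases h1
  · rintro rfl i
    exact Or.inl rfl

/-- a cell lies in a box iff all its vertices do -/
theorem box_vt {lo hi : ι → ℤ} {c : Cell ι} :
    Box lo hi c ↔ ∀ v ∈ vt c, ∀ i, lo i ≤ v i ∧ v i ≤ hi i := by
  constructor
  · intro h v hv i
    have h1 := h i
    rcases mem_vt.1 hv i with h2 | ⟨h3, h2⟩
    · rw [h2]
      refine ⟨h1.1, ?_⟩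
      have h4 := h1.2
      split_ifs at h4 with h5
      · omega
      · omega
    · rw [if_pos h3] at h1
      omega
  · intro h i
    have h1 := h _ (pos_mem_vt c) i
    refine ⟨h1.1, ?_⟩
    by_cases hi : (c i).2 = true
    · rw [if_pos hi]
      have h2 := h (fun j => if j = i then (c i).1 + 1 else (c j).1) (mem_vt.2 fun j => by
        by_cases hj : j = i
        · subst hj
          rw [if_pos rfl]
          exact Or.inr ⟨hi, rfl⟩
        · rw [if_neg hj]
          exact Or.inl rfl) i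
      simpa only [Order.add_one_le_iff, gt_iff_lt, ↓reduceIte] using h2.2
    · rw [if_neg hi, add_zero]
      exact h1.2

/-- lower corner of the hull of the image of a cell -/
def hlo (G : (ι → ℤ) → ι → ℤ) (ρ : ℕ) (c : Cell ι) (i : ι) : ℤ :=
  (vt c).inf' (vt_nonempty c) (fun v => G v i) - ρ

/-- upper corner of the hull of the image of a cell -/
def hhi (G : (ι → ℤ) → ι → ℤ) (ρ : ℕ) (c : Cell ι) (i : ι) : ℤ :=
  (vt c).sup' (vt_nonempty c) (fun v => G v i) + ρ

theorem hlo_le_hhi (G : (ι → ℤ) → ι → ℤ) (ρ : ℕ) (c : Cell ι) (i : ι) :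
    hlo G ρ c i ≤ hhi G ρ c i := by
  unfold hlo hhi
  have h1 := Finset.inf'_le (fun v => G v i) (pos_mem_vt c)
  have h2 := Finset.le_sup' (fun v => G v i) (pos_mem_vt c)
  have h3 : (0 : ℤ) ≤ ρ := Int.natCast_nonneg ρ
  linarith

/-- the carrier given by the hull of the image -/
def hullC (G : (ι → ℤ) → ι → ℤ) (ρ : ℕ) (c c' : Cell ι) : Prop :=
  Box (hlo G ρ c) (hhi G ρ c) c'

theorem hull_iff {G : (ι → ℤ) → ι → ℤ} {ρ : ℕ} {c c' : Cell ι} :
    hullC G ρ c c' ↔ ∀ w ∈ vt c', ∀ i, (∃ v ∈ vt c, G v i - ρ ≤ w i) ∧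
      ∃ v ∈ vt c, w i ≤ G v i + ρ := by
  unfold hullC
  rw [box_vt]
  unfold hlo hhi
  refine forall_congr' fun w => forall_congr' fun _ => forall_congr' fun i =>
    and_congr ?_ ?_
  · rw [sub_le_iff_le_add, Finset.inf'_le_iff]
    simp only [sub_le_iff_le_add]
  · rw [← sub_le_iff_le_add, Finset.le_sup'_iff]
    simp only [sub_le_iff_le_add]

/-- points of the hull are close to all image points -/
theorem hull_close {G : (ι → ℤ) → ι → ℤ} {ρ r : ℕ} {c c' : Cell ι}
    (hG : ∀ v ∈ vt c, ∀ v' ∈ vt c, ∀ i, |G v i - G v' i| ≤ (r : ℤ))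
    (h : hullC G ρ c c') {w v : ι → ℤ} (hw : w ∈ vt c') (hv : v ∈ vt c) (i : ι) :
    |w i - G v i| ≤ ((r + ρ : ℕ) : ℤ) := by
  obtain ⟨⟨v1, hv1, h1⟩, v2, hv2, h2⟩ := hull_iff.1 h w hw i
  have h3 := abs_le.1 (hG v1 hv1 v hv i)
  have h4 := abs_le.1 (hG v2 hv2 v hv i)
  rw [abs_le]
  push_cast
  constructor <;> linarith only [h1, h3, h2, h4]

/-- a cell whose vertices are close to image points lies in the hull -/
theorem hull_of_close {G : (ι → ℤ) → ι → ℤ} {ρ : ℕ} {c c' : Cell ι}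
    (h : ∀ w ∈ vt c', ∃ v ∈ vt c, ∀ i, |w i - G v i| ≤ (ρ : ℤ)) : hullC G ρ c c' := by
  rw [hull_iff]
  intro w hw i
  obtain ⟨v, hv, h1⟩ := h w hw
  have h2 := abs_le.1 (h1 i)
  exact ⟨⟨v, hv, by linarith⟩, v, hv, by linarith⟩

theorem hull_mono {G : (ι → ℤ) → ι → ℤ} {ρ ρ' : ℕ} (hρ : ρ ≤ ρ') {c₁ c c' : Cell ι}
    (h : vt c₁ ⊆ vt c) (h1 : hullC G ρ c₁ c') : hullC G ρ' c c' := by
  rw [hull_iff] at h1 ⊢
  have hρ' : (ρ : ℤ) ≤ ρ' := by exact_mod_cast hρ
  intro w hw i
  obtain ⟨⟨v1, hv1, h2⟩, v2, hv2, h3⟩ := h1 w hw i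
  exact ⟨⟨v1, h hv1, by linarith⟩, v2, h hv2, by linarith only [hρ, h3]⟩

/-- all vertices in the box of radius `Rin` -/
def Inner (Rin : ℕ) (c : Cell ι) : Prop := ∀ v ∈ vt c, ∀ i, |v i| ≤ (Rin : ℤ)

theorem Inner.face {Rin : ℕ} {c c' : Cell ι} (h : vt c' ⊆ vt c) (hc : Inner Rin c) :
    Inner Rin c' := fun v hv => hc v (h hv)

/-- location dependent carrier: fine (hull of the image under `G`, margin `ρ`) on inner cells,
coarse (margin `ρ'` around the cell) on the others -/
def locC (Rin : ℕ) (G : (ι → ℤ) → ι → ℤ) (ρ ρ' : ℕ) (c c' : Cell ι) : Prop :=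
  (Inner Rin c ∧ hullC G ρ c c') ∨ (¬ Inner Rin c ∧ hullC id ρ' c c')

theorem hull_coarse {G : (ι → ℤ) → ι → ℤ} {ρ ρ' e : ℕ}
    (hG : ∀ v i, |G v i - v i| ≤ (e : ℤ)) (he : ρ + e ≤ ρ') {c c' : Cell ι}
    (h : hullC G ρ c c') : hullC id ρ' c c' := by
  rw [hull_iff] at h ⊢
  have he' : (ρ : ℤ) + e ≤ ρ' := by exact_mod_cast he
  intro w hw i
  obtain ⟨⟨v1, hv1, h2⟩, v2, hv2, h3⟩ := h w hw i
  have h4 := abs_le.1 (hG v1 i)
  have h5 := abs_le.1 (hG v2 i)
  exact ⟨⟨v1, hv1, by simp only [id]; linarith⟩, v2, hv2, by simp only [id]; linarith only [he, h3, h5]⟩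

theorem locC_face {Rin : ℕ} {G : (ι → ℤ) → ι → ℤ} {ρ ρ' e : ℕ}
    (hG : ∀ v i, |G v i - v i| ≤ (e : ℤ)) (he : ρ + e ≤ ρ') {c₁ c c' : Cell ι}
    (hf : vt c₁ ⊆ vt c) (h : locC Rin G ρ ρ' c₁ c') : locC Rin G ρ ρ' c c' := by
  by_cases hc : Inner Rin c
  · rcases h with ⟨_, h⟩ | ⟨h0, _⟩
    · exact Or.inl ⟨hc, hull_mono le_rfl hf h⟩
    · exact absurd (hc.face hf) h0
  · refine Or.inr ⟨hc, ?_⟩
    rcases h with ⟨_, h⟩ | ⟨_, h⟩
    · exact hull_mono le_rfl hf (hull_coarse hG he h)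
    · exact hull_mono le_rfl hf h

theorem hull_acyc (k : Type*) [Field k] (G : (ι → ℤ) → ι → ℤ) (ρ : ℕ) (c : Cell ι) :
    (cub k ι).Acyc (hullC G ρ c) := box_acyc fun i => hlo_le_hhi G ρ c i

/-- hull carriers are acyclic carriers -/
theorem hull_carr (k : Type*) [Field k] (G : (ι → ℤ) → ι → ℤ) (ρ : ℕ) :
    (cub k ι).Carr (hullC G ρ) where
  acyc := hull_acyc k G ρ
  mono := fun _ _ hb _ h => hull_mono le_rfl (vt_face (bdry_mem hb)) h

/-- location dependent carriers are acyclic carriers -/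
theorem loc_carr (k : Type*) [Field k] (Rin : ℕ) {G : (ι → ℤ) → ι → ℤ} {ρ ρ' e : ℕ}
    (hG : ∀ v i, |G v i - v i| ≤ (e : ℤ)) (he : ρ + e ≤ ρ') :
    (cub k ι).Carr (locC Rin G ρ ρ') where
  acyc := fun c => by
    by_cases hc : Inner Rin c
    · have h := hull_acyc k G ρ c
      have e1 : locC Rin G ρ ρ' c = hullC G ρ c := by
        funext c'
        unfold locC
        simp [hc]
      rw [e1]
      exact h
    · have h := hull_acyc k id ρ' c
      have e1 : locC Rin G ρ ρ' c = hullC id ρ' c := by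
        funext c'
        unfold locC
        simp [hc]
      rw [e1]
      exact h
  mono := fun _ _ hb _ h => locC_face hG he (vt_face (bdry_mem hb)) h

end Vale.Agent.P228.Cub
end
end

section

section

/-! Homotopies and supports for the lattice maps of `Geo.Maps` (helper819). -/

namespace Vale.Agent.P228.Cub

open Finsupp Geo

variable {k : Type*} [Field k] {n q K₀ L : ℕ}

theorem pos_mem (c : Cell (Fin n)) : pos c ∈ vt c := pos_mem_vt c

theorem cl_mono {r r' : ℕ} {v w : Fin n → ℤ} (hc : Close r v w) (h : r ≤ r') :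
    Close r' v w := fun i => (hc i).trans (by exact_mod_cast h)

theorem cl_symm {r : ℕ} {v w : Fin n → ℤ} (hc : Close r v w) : Close r w v := fun i => by
  rw [abs_sub_comm]; exact hc i

theorem cl_trans {r s : ℕ} {u v w : Fin n → ℤ} (h1 : Close r u v) (h2 : Close s v w) :
    Close (r + s) u w := fun i => by
  have := abs_sub_le (u i) (v i) (w i)
  push_cast
  linarith only [this, h1 i, h2 i]

theorem vt_Close {c : Cell (Fin n)} {v w : Fin n → ℤ} (hv : v ∈ vt c) (hw : w ∈ vt c) :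
    Close 1 v w := fun i => by exact_mod_cast vt_close hv hw i

theorem ib_close {r s : ℕ} {v w : Fin n → ℤ} (hw : InBox r w) (h : Close s v w) :
    InBox (r + s) v := fun i => by
  have h1 := h i
  have h2 := hw i
  have h3 : |v i| ≤ |v i - w i| + |w i| := by
    have := abs_add_le (v i - w i) (w i)
    simpa only [ge_iff_le, sub_add_cancel] using this
  push_cast
  linarith

theorem ib_mono {r s : ℕ} {v : Fin n → ℤ} (hv : InBox r v) (h : r ≤ s) : InBox s v :=
  fun i => (hv i).trans (by exact_mod_cast h)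

variable (D : Maps n q K₀ L)

theorem Rl_le (i : ℕ) (hi : i < L) (hK : 1 ≤ K₀) : D.Rl i ≤ D.Rl (i + 1) :=
  (Nat.le_mul_of_pos_left _ hK).trans (D.Rl_step i hi)

theorem Rl_mono {i j : ℕ} (hij : i ≤ j) (hj : j ≤ L) (hK : 1 ≤ K₀) : D.Rl i ≤ D.Rl j := by
  induction j, hij using Nat.le_induction with
  | base => exact le_rfl
  | succ j hij ih => exact (ih (by omega)).trans (Rl_le D j (by omega) hK)

theorem Rl_one_le (i : ℕ) (hi : i ≤ L) (hK : 1 ≤ K₀) : 1 ≤ D.Rl i :=
  D.Rl_pos.trans (Rl_mono D (Nat.zero_le i) hi hK)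

theorem F_lip1 (hL : 2 ≤ L) (hK : 1 ≤ K₀) (g : ZMod q) {v w : Fin n → ℤ} (h : Close 1 v w) :
    Close (D.Rl 1) (D.F g v) (D.F g w) :=
  D.F_lip 0 (by omega) g v w (cl_mono h (Nat.one_le_iff_ne_zero.2
    (Nat.mul_ne_zero (by omega) (by have := D.Rl_pos; omega))))

/-! ### supports -/

theorem inner_of_inBox {r Rin : ℕ} (hr : r + 1 ≤ Rin) {c : Cell (Fin n)} (h : InBox r (pos c)) :
    Inner Rin c := fun _ hv => ib_mono (ib_close h (vt_Close hv (pos_mem c))) hr

end Vale.Agent.P228.Cub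
end
end

section

section

/-!
# P228, block C: the symmetrised family (helper540)

`symT T g = (T g + (T (-g))♯) / 2` for a family `T` of chain maps: exactly `♯`-equivariant,
`(symT T g)♯ = symT T (-g)`, and its support (in terms of the lattice maps `F g`).
-/

namespace Vale.Agent.P228.Cub

open Alg

section Star

variable {R : Type*} [Ring R] [StarRing R] [Algebra ℝ R] (c : Dual R)
  {Γ : Type*} [AddGroup Γ]

/-- symmetrisation of a family of operators -/
noncomputable def symT (T : Γ → R) (g : Γ) : R := (1 / 2 : ℝ) • (T g + c.sh (T (-g)))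

variable {c}

theorem symT_zero {T : Γ → R} (h : T 0 = 1) : symT c T 0 = 1 := by
  unfold symT
  rw [neg_zero, h, c.sh_one]
  module

theorem symT_d {T : Γ → R} (h : ∀ g, T g * c.d = c.d * T g) (g : Γ) :
    symT c T g * c.d = c.d * symT c T g := by
  unfold symT
  have h1 : c.sh (T (-g)) * c.d = c.d * c.sh (T (-g)) := by
    have := congrArg c.sh (h (-g))
    rw [c.sh_mul, c.sh_mul, c.sh_d] at this
    exact this.symm
  rw [smul_mul_assoc, mul_smul_comm, add_mul, mul_add, h, h1]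

theorem symT_even {T : Γ → R} (h : ∀ g, c.IsEven (T g)) (g : Γ) : c.IsEven (symT c T g) :=
  ((h g).add (h (-g)).sh).smul _

theorem symT_odd {T : Γ → R} (h : ∀ g, c.IsOdd (T g)) (g : Γ) : c.IsOdd (symT c T g) :=
  ((h g).add (h (-g)).sh).smul _

/-- coarse homotopy to the identity -/
theorem symT_coarse {T L : Γ → R} (h : ∀ g, T g = 1 + c.br (L g)) (g : Γ) :
    symT c T g = 1 + c.br (symT c L g) := by
  unfold symT
  rw [h g, h (-g), c.sh_add, c.sh_one, c.sh_br, c.br_smul, c.br_add]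
  module

variable [StarModule ℝ R]

theorem sh_symT (T : Γ → R) (g : Γ) : c.sh (symT c T g) = symT c T (-g) := by
  unfold symT
  rw [c.sh_smul, c.sh_add, c.sh_sh, neg_neg, add_comm]

end Star

section Supp

variable {n : ℕ} {𝕜 : Type*} [Ring 𝕜] [StarRing 𝕜]

/-- all vertices of `c'` are `r`-close to all vertices of `c` -/
def NearV (r : ℕ) (c' c : Cell (Fin n)) : Prop :=
  ∀ w ∈ vt c', ∀ v ∈ vt c, Geo.Close r w v

/-- all vertices of `c'` are `r`-close to the images of all vertices of `c` -/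
def NearF (G : (Fin n → ℤ) → Fin n → ℤ) (r : ℕ) (c' c : Cell (Fin n)) : Prop :=
  ∀ w ∈ vt c', ∀ v ∈ vt c, Geo.Close r w (G v)

theorem close_tri {r s : ℕ} {x y z : Fin n → ℤ} (h1 : Geo.Close r x y) (h2 : Geo.Close s y z) :
    Geo.Close (r + s) x z := by
  intro i
  have := abs_le.1 (h1 i)
  have := abs_le.1 (h2 i)
  rw [abs_le]; push_cast
  constructor <;> linarith

theorem close_symm {r : ℕ} {x y : Fin n → ℤ} (h1 : Geo.Close r x y) : Geo.Close r y x := by
  intro i; rw [abs_sub_comm]; exact h1 i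

theorem close_mono {r s : ℕ} (hrs : r ≤ s) {x y : Fin n → ℤ} (h1 : Geo.Close r x y) :
    Geo.Close s x y := by
  intro i
  exact (h1 i).trans (by exact_mod_cast hrs)

theorem NearF.mono {G : (Fin n → ℤ) → Fin n → ℤ} {r s : ℕ} (hrs : r ≤ s) {c' c : Cell (Fin n)}
    (h : NearF G r c' c) : NearF G s c' c :=
  fun w hw v hv => close_mono hrs (h w hw v hv)

theorem NearV.mono {r s : ℕ} (hrs : r ≤ s) {c' c : Cell (Fin n)}
    (h : NearV r c' c) : NearV s c' c :=
  fun w hw v hv => close_mono hrs (h w hw v hv)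

/-- Support statement for a product `Ji * star T * J`, `T` carried by `G'`, an almost inverse
of `G`. -/
theorem sh_supp {T J Ji : LMat (Cell (Fin n)) 𝕜} {G G' : (Fin n → ℤ) → Fin n → ℤ}
    {r₀ r₁ r₂ s e Rin Rad : ℕ}
    (hlip : ∀ v w, Geo.Close s v w → Geo.Close r₂ (G v) (G w)) (hs : r₀ + r₁ ≤ s)
    (hdisp : ∀ v, Geo.Close e (G' v) v)
    (hmul : ∀ v, Geo.InBox Rad v → Geo.Close r₁ (G (G' v)) v)
    (hRin : Rin + (r₀ + r₁ + e) ≤ Rad)
    (hJ : ∀ x y, J x y ≠ 0 → NearV r₀ x y ∧ dg x + dg y = n)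
    (hJi : ∀ x y, Ji x y ≠ 0 → NearV r₀ x y ∧ dg x + dg y = n)
    (hT : ∀ x y, T x y ≠ 0 → NearF G' r₁ x y ∧ dg x = dg y)
    {c' c : Cell (Fin n)} (h : (Ji * star T * J) c' c ≠ 0) :
    dg c' = dg c ∧ NearV (2 * r₀ + r₁ + e) c' c ∧
      (Inner Rin c → NearF G (r₀ + r₁ + r₂) c' c) := by
  obtain ⟨y, h1, h2⟩ := LMat.exists_of_mul_ne_zero h
  obtain ⟨x, h3, h4⟩ := LMat.exists_of_mul_ne_zero h1
  rw [LMat.star_apply] at h4
  have h5 : T y x ≠ 0 := fun h0 => h4 (by rw [h0, star_zero])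
  obtain ⟨a1, b1⟩ := hJi _ _ h3
  obtain ⟨a2, b2⟩ := hT _ _ h5
  obtain ⟨a3, b3⟩ := hJ _ _ h2
  refine ⟨by omega, ?_, ?_⟩
  · intro w hw v hv
    obtain ⟨u, hu⟩ := vt_nonempty x
    obtain ⟨z, hz⟩ := vt_nonempty y
    have e1 := a1 w hw u hu
    have e2 := a2 z hz u hu
    have e3 := a3 z hz v hv
    have e4 := close_tri (close_tri e1 (close_symm (hdisp u)))
      (close_tri (close_symm e2) e3)
    refine close_mono ?_ e4
    omega
  · intro hin w hw v hv
    obtain ⟨u, hu⟩ := vt_nonempty x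
    obtain ⟨z, hz⟩ := vt_nonempty y
    have e1 := a1 w hw u hu
    have e2 := a2 z hz u hu
    have e3 := a3 z hz v hv
    have e5 : Geo.Close s v (G' u) := close_mono hs (close_tri (close_symm e3) e2)
    have e6 : Geo.Close r₂ (G v) (G (G' u)) := hlip _ _ e5
    have hu2 : Geo.InBox Rad u := by
      have e7 : Geo.Close (r₀ + r₁ + e) v u :=
        close_tri (close_tri (close_symm e3) e2) (hdisp u)
      intro i
      have e8 := abs_le.1 (e7 i)
      have e9 := abs_le.1 (hin v hv i)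
      have e11 : ((r₀ + r₁ + e : ℕ) : ℤ) + Rin ≤ Rad := by
        have : r₀ + r₁ + e + Rin ≤ Rad := by omega
        exact_mod_cast this
      rw [abs_le]
      constructor <;> linarith only [e8, e9, e11]
    have e12 : Geo.Close r₁ (G (G' u)) u := hmul u hu2
    refine close_mono ?_ (close_tri e1 (close_tri (close_symm e12) (close_symm e6)))
    omega

/-- support of the adjoint of a coarse odd operator -/
theorem sh_supp_odd {T J Ji : LMat (Cell (Fin n)) 𝕜} {r₀ r : ℕ}
    (hJ : ∀ x y, J x y ≠ 0 → NearV r₀ x y ∧ dg x + dg y = n)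
    (hJi : ∀ x y, Ji x y ≠ 0 → NearV r₀ x y ∧ dg x + dg y = n)
    (hT : ∀ x y, T x y ≠ 0 → NearV r x y ∧ dg x = dg y + 1)
    {c' c : Cell (Fin n)} (h : (Ji * star T * J) c' c ≠ 0) :
    dg c' = dg c + 1 ∧ NearV (2 * r₀ + r) c' c := by
  obtain ⟨y, h1, h2⟩ := LMat.exists_of_mul_ne_zero h
  obtain ⟨x, h3, h4⟩ := LMat.exists_of_mul_ne_zero h1
  rw [LMat.star_apply] at h4
  have h5 : T y x ≠ 0 := fun h0 => h4 (by rw [h0, star_zero])
  obtain ⟨a1, b1⟩ := hJi _ _ h3
  obtain ⟨a2, b2⟩ := hT _ _ h5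
  obtain ⟨a3, b3⟩ := hJ _ _ h2
  refine ⟨by omega, ?_⟩
  intro w hw v hv
  obtain ⟨u, hu⟩ := vt_nonempty x
  obtain ⟨z, hz⟩ := vt_nonempty y
  refine close_mono ?_ (close_tri (close_tri (a1 w hw u hu) (close_symm (a2 z hz u hu)))
    (a3 z hz v hv))
  (clear * -; omega)

end Supp

section SymSupp

variable {n : ℕ} {Γ : Type*} [AddGroup Γ] (c : Dual (LMat (Cell (Fin n)) ℂ))

/-- **Support of the symmetrised family.** -/
theorem symT_supp {F : Γ → (Fin n → ℤ) → Fin n → ℤ} {T : Γ → LMat (Cell (Fin n)) ℂ}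
    {r₀ r₁ r₂ s e Rin Rad : ℕ}
    (hlip : ∀ g v w, Geo.Close s v w → Geo.Close r₂ (F g v) (F g w)) (hs : r₀ + r₁ ≤ s)
    (hdisp : ∀ g v, Geo.Close e (F g v) v)
    (hmul : ∀ g v, Geo.InBox Rad v → Geo.Close r₁ (F g (F (-g) v)) v)
    (hRin : Rin + (r₀ + r₁ + e) ≤ Rad)
    (hJ : ∀ x y, c.J x y ≠ 0 → NearV r₀ x y ∧ dg x + dg y = n)
    (hJi : ∀ x y, c.Ji x y ≠ 0 → NearV r₀ x y ∧ dg x + dg y = n)
    (hT : ∀ g x y, T g x y ≠ 0 → NearF (F g) r₁ x y ∧ dg x = dg y)
    {g : Γ} {b' b : Cell (Fin n)} (h : symT c T g b' b ≠ 0) :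
    dg b' = dg b ∧ NearV (2 * r₀ + r₁ + e) b' b ∧
      (Inner Rin b → NearF (F g) (r₀ + r₁ + r₂) b' b) := by
  have h1 : T g b' b ≠ 0 ∨ (c.Ji * star (T (-g)) * c.J) b' b ≠ 0 := by
    by_contra hcon
    push Not at hcon
    apply h
    unfold symT Dual.sh
    rw [LMat.smul_apply, LMat.add_apply, hcon.1, hcon.2]
    simp only [one_div, add_zero, smul_zero]
  rcases h1 with h1 | h1
  · obtain ⟨h2, h3⟩ := hT _ _ _ h1
    refine ⟨h3, fun w hw v hv => ?_, fun _ => h2.mono (by omega)⟩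
    refine close_mono ?_ (close_tri (h2 w hw v hv) (hdisp g v))
    omega
  · exact sh_supp (hlip g) hs (hdisp (-g)) (hmul g) hRin hJ hJi
      (fun x y hxy => hT (-g) x y hxy) h1

/-- support of the symmetrised coarse homotopies -/
theorem symT_supp_odd {T : Γ → LMat (Cell (Fin n)) ℂ} {r₀ r : ℕ}
    (hJ : ∀ x y, c.J x y ≠ 0 → NearV r₀ x y ∧ dg x + dg y = n)
    (hJi : ∀ x y, c.Ji x y ≠ 0 → NearV r₀ x y ∧ dg x + dg y = n)
    (hT : ∀ g x y, T g x y ≠ 0 → NearV r x y ∧ dg x = dg y + 1)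
    {g : Γ} {b' b : Cell (Fin n)} (h : symT c T g b' b ≠ 0) :
    dg b' = dg b + 1 ∧ NearV (2 * r₀ + r) b' b := by
  have h1 : T g b' b ≠ 0 ∨ (c.Ji * star (T (-g)) * c.J) b' b ≠ 0 := by
    by_contra hcon
    push Not at hcon
    apply h
    unfold symT Dual.sh
    rw [LMat.smul_apply, LMat.add_apply, hcon.1, hcon.2]
    simp
  rcases h1 with h1 | h1
  · obtain ⟨h2, h3⟩ := hT _ _ _ h1
    exact ⟨h3, h2.mono (by (clear * -; omega))⟩
  · exact sh_supp_odd hJ hJi (fun x y hxy => hT (-g) x y hxy) h1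

end SymSupp

end Vale.Agent.P228.Cub
end
end

section

section

/-! # P228, block C: the output structure -/

namespace Vale.Agent.P228.Cub

open Finsupp Geo LMat

/-- hypotheses on the duality used by block C: `d`, `e` are the cubical boundary and the sign
`(-1)^dim`, `J` and `J⁻¹` exchange dimensions `j` and `n - j` and move cells by at most `κ`. -/
structure CubDual {n : ℕ} (κ : ℕ) (c : Alg.Dual (LMat (Cell (Fin n)) ℂ)) : Prop where
  hd : c.d = dL ℂ (Fin n)
  he : c.e = epsD dg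
  hJ : ∀ x y, c.J x y ≠ 0 → NearV κ x y ∧ dg x + dg y = n
  hJi : ∀ x y, c.Ji x y ≠ 0 → NearV κ x y ∧ dg x + dg y = n

/-- output of block C: symmetrised chain maps `T g`, homotopies `H g k` for their composition,
coarse homotopies `L g` to the identity, with supports in the one-step relation. -/
structure ChainData {n q K₀ L₀ : ℕ} (c : Alg.Dual (LMat (Cell (Fin n)) ℂ))
    (D : Maps n q K₀ L₀) (Rin : ℕ) where
  /-- chain maps -/
  T : ZMod q → LMat (Cell (Fin n)) ℂ
  /-- composition homotopies -/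
  H : ZMod q → ZMod q → LMat (Cell (Fin n)) ℂ
  /-- coarse homotopies to the identity -/
  L : ZMod q → LMat (Cell (Fin n)) ℂ
  T_d : ∀ g, T g * c.d = c.d * T g
  T_even : ∀ g, c.IsEven (T g)
  T_sh : ∀ g, c.sh (T g) = T (-g)
  H_odd : ∀ g k, c.IsOdd (H g k)
  T_mul : ∀ g k, T g * T k = T (g + k) + c.br (H g k)
  L_odd : ∀ g, c.IsOdd (L g)
  T_one : ∀ g, T g = 1 + c.br (L g)
  T_sup : ∀ g x y, T g x y ≠ 0 → dg x = dg y ∧ D.St Rin g (pos x) (pos y)
  H_sup : ∀ g k x y, H g k x y ≠ 0 → dg x = dg y + 1 ∧ D.St Rin (g + k) (pos x) (pos y)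
  L_sup : ∀ g x y, L g x y ≠ 0 → dg x = dg y + 1 ∧ Close (K₀ * D.e) (pos x) (pos y)

end Vale.Agent.P228.Cub
end
end

section

section

/-! The standard strictly self-dual complex satisfies the hypotheses of block C. -/

namespace Vale.Agent.P228.Std

open LMat Cub

section abs

variable {R : Type*} [Ring R] [StarRing R] (c : Alg.Dual R)

theorem Je_star : star (c.J * c.e) = c.J * c.e := by
  rw [star_mul, c.se, c.sJ, c.Je]

theorem Je_mul : c.J * c.e * (c.e * c.Ji) = 1 := by
  rw [mul_assoc, ← mul_assoc c.e, c.ee, one_mul, c.JJi]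

theorem mul_Je : c.e * c.Ji * (c.J * c.e) = 1 := by
  rw [mul_assoc, ← mul_assoc c.Ji, c.JiJ, one_mul, c.ee]

theorem eJi_star : star (c.e * c.Ji) = c.e * c.Ji := by
  calc star (c.e * c.Ji) = star (c.e * c.Ji) * (c.J * c.e * (c.e * c.Ji)) := by
        rw [Je_mul, mul_one]
    _ = star (c.e * c.Ji) * star (c.J * c.e) * (c.e * c.Ji) := by
        rw [Je_star, ← mul_assoc]
    _ = star (c.J * c.e * (c.e * c.Ji)) * (c.e * c.Ji) := by
        rw [← star_mul]
    _ = c.e * c.Ji := by rw [Je_mul, star_one, one_mul]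

end abs

theorem nearV_of_close {n : ℕ} {f g : Cell (Fin n)} (h : ∀ i, |(f i).1 - (g i).1| ≤ 1) :
    NearV 2 f g := by
  intro w hw v hv i
  have h1 := mem_vt.1 hw i
  have h2 := mem_vt.1 hv i
  have h3 := abs_le.1 (h i)
  rw [abs_le]
  push_cast
  rcases h1 with h1 | h1 <;> rcases h2 with h2 | h2 <;> omega

theorem cubDual_spec (m : ℕ) : CubDual 2 (cubDual m) where
  hd := cubDual_d m
  he := cubDual_e m
  hJ _ _ h := ⟨nearV_of_close (cubDual_J_supp m h).1, (cubDual_J_supp m h).2⟩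
  hJi _ _ h := ⟨nearV_of_close (cubDual_Ji_supp m h).1, (cubDual_Ji_supp m h).2⟩

/-- the standard form `σ = J e` on the cells of `ℤ^(2m)` -/
noncomputable def sigma (m : ℕ) : LMat (Cell (Fin (2 * m))) ℂ := (cubDual m).J * (cubDual m).e

/-- its inverse -/
noncomputable def sigma' (m : ℕ) : LMat (Cell (Fin (2 * m))) ℂ := (cubDual m).e * (cubDual m).Ji

theorem sigma_mul (m : ℕ) : sigma m * sigma' m = 1 := Je_mul (cubDual m)

theorem mul_sigma (m : ℕ) : sigma' m * sigma m = 1 := mul_Je (cubDual m)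

theorem star_sigma (m : ℕ) : star (sigma m) = sigma m := Je_star (cubDual m)

theorem sigma_supp (m : ℕ) {f g : Cell (Fin (2 * m))} (h : sigma m f g ≠ 0) :
    ∀ i, |(f i).1 - (g i).1| ≤ 1 := by
  unfold sigma at h
  rw [cubDual_e, mul_epsD_apply] at h
  exact (cubDual_J_supp m (left_ne_zero_of_mul h)).1

theorem sigma'_supp (m : ℕ) {f g : Cell (Fin (2 * m))} (h : sigma' m f g ≠ 0) :
    ∀ i, |(f i).1 - (g i).1| ≤ 1 := by
  unfold sigma' at h
  rw [cubDual_e, epsD_mul_apply] at h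
  exact (cubDual_Ji_supp m (right_ne_zero_of_mul h)).1

/-- the standard form is the reindexed iterated Kronecker product -/
theorem sigma_eq (m : ℕ) : sigma m = LMat.reindex (cellR m) ((dualR m).J * (dualR m).e) :=
  cubDual_Je m

theorem sigma'_eq (m : ℕ) : sigma' m = LMat.reindex (cellR m) ((dualR m).e * (dualR m).Ji) :=
  cubDual_eJi m

/-- `J e` and its inverse on the product model -/
noncomputable def etaR (m : ℕ) : LMat (CellR m) ℂ := (dualR m).J * (dualR m).e

/-- the inverse of `etaR`. -/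
noncomputable def etaR' (m : ℕ) : LMat (CellR m) ℂ := (dualR m).e * (dualR m).Ji

theorem etaR'_succ (m : ℕ) : etaR' (m + 1) = kron (dual2.e * dual2.Ji) (etaR' m) := by
  show (tensor dual2 (dualR m)).e * (tensor dual2 (dualR m)).Ji = _
  rw [tensor_e, tensor_Ji, kron_mul]
  rfl

theorem etaR_zero : etaR 0 = (1 : LMat Unit ℂ) := by
  show (1 : LMat Unit ℂ) * 1 = 1
  rw [mul_one]

end Vale.Agent.P228.Std
end
end

section

section

/-! Ball carriers: boxes of radius `rad c` around a centre `ctr c`. -/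

namespace Vale.Agent.P228.Cub

open Finsupp

variable {k : Type*} [Field k] {ι : Type*} [Fintype ι] [LinearOrder ι]

/-- base vertex of a cell -/
def base (c : Cell ι) : ι → ℤ := fun i => (c i).1

omit [Fintype ι] in
theorem Face.base {b c : Cell ι} (h : Face b c) (i : ι) : |base b i - base c i| ≤ 1 := by
  obtain ⟨j, _, h2 | h2⟩ := h
  · subst h2
    by_cases hij : i = j
    · subst hij; simp only [Cub.base, Function.update_self, sub_self, abs_zero, zero_le_one]
    · simp only [Cub.base, Function.update_of_ne hij, sub_self, abs_zero, zero_le_one]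
  · subst h2
    by_cases hij : i = j
    · subst hij; simp only [Cub.base, Function.update_self, add_sub_cancel_left, abs_one, Std.le_refl]
    · simp only [Cub.base, Function.update_of_ne hij, sub_self, abs_zero, zero_le_one]

end Vale.Agent.P228.Cub
end
end

section

section

/-! The chain maps `Θ_g`, on top of helper819's hull carriers (helper176). -/

namespace Vale.Agent.P228.Cub

open Finsupp

variable {k : Type*} [Field k] {ι : Type*} [Fintype ι] [LinearOrder ι]

/-- `c` lies in the hull of the image of its vertices if the map moves them by at most the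
margin. -/
theorem hullC_self {G : (ι → ℤ) → ι → ℤ} {ρ : ℕ} {c : Cell ι}
    (h : ∀ v ∈ vt c, ∀ i, |v i - G v i| ≤ (ρ : ℤ)) : hullC G ρ c c :=
  hull_of_close fun w hw => ⟨w, hw, h w hw⟩

/-- **Existence of the chain maps `Θ_g`**, carried by the hull boxes of the vertex maps, with
`Θ_0 = 1` and prescribed on the vertices. -/
theorem exists_theta {G : Type*} [Zero G] (F : G → (ι → ℤ) → (ι → ℤ)) (h0 : ∀ v, F 0 v = v) :
    ∃ Θ : G → Module.End k (Cell ι →₀ k), Θ 0 = 1 ∧
      (∀ g, (cub k ι).IsMap (hullC (F g) 0) 1 (Θ g)) ∧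
      ∀ g v, Θ g (single (vtx v) 1) = single (vtx (F g v)) 1 := by
  classical
  have hex : ∀ g, ∃ f : Module.End k (Cell ι →₀ k), (cub k ι).IsMap (hullC (F g) 0) 1 f ∧
      ∀ v, f (single (vtx v) 1) = single (vtx (F g v)) 1 := by
    intro g
    obtain ⟨f, h1, h2⟩ := BCx.exists_map_vert (hull_carr k (F g) 0)
      (fun c => vtx (F g (fun i => (c i).1))) (fun c hc => by
        refine ⟨hull_of_close fun w hw => ⟨_, pos_mem_vt c, fun i => ?_⟩, dg_vtx _, ?_⟩
        · rw [vt_vtx, Finset.mem_singleton] at hw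
          rw [hw]; simp
        · have hc' : dg c = 0 := hc
          show aug _ = aug _
          rw [aug_vtx, aug_single, if_pos hc'])
    refine ⟨f, h1, fun v => ?_⟩
    rw [h2 (vtx v) (dg_vtx v)]
    rfl
  refine ⟨fun g => if g = 0 then 1 else (hex g).choose, by simp, fun g => ?_, fun g v => ?_⟩
  · by_cases hg : g = 0
    · subst hg
      simp only [if_true]
      exact BCx.IsMap.id fun c => hullC_self fun v _ i => by rw [h0 v]; simp only [sub_self, abs_zero, CharP.cast_eq_zero, Std.le_refl]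
    · simp only [hg, if_false]
      exact (hex g).choose_spec.1
  · by_cases hg : g = 0
    · subst hg
      simp only [if_true]
      rw [h0 v]; rfl
    · simp only [hg, if_false]
      exact (hex g).choose_spec.2 v

/-- support of `Θ_g c`: every vertex of every cell occurring is within `R` of `F g v`, for every
vertex `v` of `c`; dimensions agree. -/
theorem theta_close {G : Type*} {F : G → (ι → ℤ) → (ι → ℤ)}
    {Θ : G → Module.End k (Cell ι →₀ k)} {R : ℕ}
    (hF : ∀ g v w, (∀ i, |v i - w i| ≤ 1) → ∀ i, |F g v i - F g w i| ≤ (R : ℤ))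
    (hΘ : ∀ g, (cub k ι).IsMap (hullC (F g) 0) 1 (Θ g)) {g : G} {c c' : Cell ι}
    (h : c' ∈ (Θ g (single c 1)).support) :
    dg c' = dg c ∧ ∀ w ∈ vt c', ∀ v ∈ vt c, ∀ i, |w i - F g v i| ≤ (R : ℤ) := by
  have h1 := (hΘ g).sup c c' h
  refine ⟨h1.2, fun w hw v hv i => ?_⟩
  have h2 := hull_close (r := R) (fun v hv v' hv' i => hF g v v' (fun i => vt_close hv hv' i) i)
    h1.1 hw hv i
  simpa only [ge_iff_le, add_zero] using h2

end Vale.Agent.P228.Cub
end
end

section

section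

/-!
P228, block [S]: base change of `sInv` to a slice of a product.
-/

open Matrix

noncomputable section

namespace Vale.Agent.P228.Inv

open LMat Std

variable {B₁ B₂ : Type}

end Vale.Agent.P228.Inv
end
end
end

section

section

section

/-! A Baire category argument in a product. -/

namespace Vale.Agent.P228

open Set Topology

/-- If for every `y` the sections over `y` of countably many closed sets cover residually many
points of the open set `O`, then one of the closed sets contains a box. -/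
theorem exists_box_of_residual {G Y ι : Type*} [TopologicalSpace G] [SecondCountableTopology G]
    [BaireSpace G] [TopologicalSpace Y] [BaireSpace Y] [Nonempty Y] [Countable ι]
    (A : ι → Set (G × Y)) (hA : ∀ i, IsClosed (A i)) {O : Set G} (hO : IsOpen O)
    (hOne : O.Nonempty) (hcov : ∀ y, ∀ᶠ g in residual G, g ∈ O → ∃ i, (g, y) ∈ A i) :
    ∃ i, ∃ U : Set G, ∃ V : Set Y, IsOpen U ∧ IsOpen V ∧ U.Nonempty ∧ V.Nonempty ∧ U ⊆ O ∧
      U ×ˢ V ⊆ A i := by
  by_contra hcon
  push Not at hcon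
  obtain ⟨B, hBc, hBe, hB⟩ := TopologicalSpace.exists_countable_basis G
  have hd : ∀ bi : B × ι, (bi.1 : Set G) ⊆ O → Dense {y | ∃ g ∈ (bi.1 : Set G), (g, y) ∉ A bi.2} ∧
      IsOpen {y | ∃ g ∈ (bi.1 : Set G), (g, y) ∉ A bi.2} := by
    rintro ⟨⟨b, hb⟩, i⟩ hbO
    have hbne : b.Nonempty := by
      rw [nonempty_iff_ne_empty]
      rintro rfl
      exact hBe hb
    have hopen : IsOpen {y | ∃ g ∈ b, (g, y) ∉ A i} := by
      have : {y | ∃ g ∈ b, (g, y) ∉ A i} = ⋃ g ∈ b, (fun y => (g, y)) ⁻¹' (A i)ᶜ := by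
        ext y; simp only [mem_ofPred_eq, preimage_compl, mem_iUnion, mem_compl_iff, mem_preimage, exists_prop]
      rw [this]
      exact isOpen_biUnion fun g _ => (hA i).isOpen_compl.preimage (by fun_prop)
    refine ⟨?_, hopen⟩
    rw [dense_iff_inter_open]
    intro V hV hVne
    by_contra hemp
    rw [not_nonempty_iff_eq_empty] at hemp
    apply hcon i b V (hB.isOpen hb) hV hbne hVne hbO
    rintro ⟨g, y⟩ ⟨hg, hy⟩
    by_contra hgy
    have : y ∈ V ∩ {y | ∃ g ∈ b, (g, y) ∉ A i} := ⟨hy, g, hg, hgy⟩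
    rw [hemp] at this
    exact this
  have hBct : Countable B := hBc.to_subtype
  have hdense : Dense (⋂ bi : B × ι, {y | (bi.1 : Set G) ⊆ O → ∃ g ∈ (bi.1 : Set G),
      (g, y) ∉ A bi.2}) := by
    apply dense_iInter_of_isOpen
    · intro bi
      by_cases hbi : (bi.1 : Set G) ⊆ O
      · simpa only [hbi, forall_const] using (hd bi hbi).2
      · simp only [hbi, IsEmpty.forall_iff, ofPred_true, isOpen_univ]
    · intro bi
      by_cases hbi : (bi.1 : Set G) ⊆ O
      · simpa only [hbi, forall_const] using (hd bi hbi).1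
      · simp only [hbi, IsEmpty.forall_iff, ofPred_true, dense_univ]
  obtain ⟨y, hy⟩ := hdense.nonempty
  rw [mem_iInter] at hy
  -- sections over `y` are nowhere dense in `O`
  have hsec : ∀ i, IsNowhereDense {g | g ∈ O ∧ (g, y) ∈ A i} := by
    intro i
    have hcl : IsClosed {g | (g, y) ∈ A i} := (hA i).preimage (by fun_prop)
    have hempty : interior {g | (g, y) ∈ A i} ∩ O = ∅ := by
      by_contra hne
      obtain ⟨g, hg1, hg2⟩ := nonempty_iff_ne_empty.2 hne
      obtain ⟨b, hb, hgb, hbs⟩ := hB.exists_subset_of_mem_open (show g ∈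
        interior {g | (g, y) ∈ A i} ∩ O from ⟨hg1, hg2⟩) (isOpen_interior.inter hO)
      obtain ⟨g', hg', hg'2⟩ := hy (⟨b, hb⟩, i) (fun z hz => (hbs hz).2)
      have h3 : g' ∈ {g | (g, y) ∈ A i} := interior_subset (hbs hg').1
      exact hg'2 h3
    rw [IsNowhereDense]
    by_contra hne
    obtain ⟨g, hg⟩ := nonempty_iff_ne_empty.2 hne
    have h1 : interior (closure {g | g ∈ O ∧ (g, y) ∈ A i}) ⊆ closure O :=
      interior_subset.trans (closure_mono fun g hg => hg.1)
    obtain ⟨g', hg'1, hg'2⟩ := mem_closure_iff.1 (h1 hg) _ isOpen_interior hg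
    have h2 : interior (closure {g | g ∈ O ∧ (g, y) ∈ A i}) ⊆ interior {g | (g, y) ∈ A i} :=
      interior_mono (closure_minimal (fun g hg => hg.2) hcl)
    have : g' ∈ interior {g | (g, y) ∈ A i} ∩ O := ⟨h2 hg'1, hg'2⟩
    rw [hempty] at this
    exact this
  have hmea : IsMeagre (⋃ i, {g | g ∈ O ∧ (g, y) ∈ A i}) :=
    isMeagre_iUnion fun i => (hsec i).isMeagre
  have hres : ∀ᶠ g in residual G, g ∉ O := by
    filter_upwards [hcov y, hmea] with g hg1 hg2 hgO
    obtain ⟨i, hi⟩ := hg1 hgO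
    exact hg2 (mem_iUnion.2 ⟨i, hgO, hi⟩)
  have hdO : Dense Oᶜ := dense_of_mem_residual hres
  obtain ⟨g, hg1, hg2⟩ := hdO.inter_open_nonempty O hO hOne
  exact hg2 hg1

end Vale.Agent.P228
end
end
end
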