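import Vale.Agent.P228.MathlibUsed
import Vale.Agent.P228.Bdl.B1
import Vale.Agent.P228.Bdl.B2
import Vale.Agent.P228.Bdl.B3
import Vale.Agent.P228.DefsPt

set_option linter.all false

namespace AFasta0853ex9a
@[reducible] noncomputable def a0 {x1 : ℕ} : MeasureTheory.MeasureSpace (EuclideanSpace ℝ (Fin x1)) := inferInstance
theorem a1 {x1 : ℕ} : FiniteDimensional ℝ (Fin x1 → ℝ) := inferInstance
theorem a2 : CovariantClass ℝ ℝ (Function.swap fun x1 x2 => x1 + x2) fun x1 x2 => x1 ≤ x2 := inferInstance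
theorem a3 : AddRightReflectLE ℝ := inferInstance
theorem a4 {x1 : ℕ} : ProperSpace (EuclideanSpace ℝ (Fin x1)) := inferInstance
@[reducible] noncomputable def a5 {x1 : Type} : SMul ℝ (Vale.Agent.P228.LMat x1 ℂ) := inferInstance
theorem a6 {x1 : Nat} : @MeasureTheory.Measure.IsAddHaarMeasure (Fin x1 → Real) (@Pi.addGroup (Fin x1) (fun a => Real) fun i => @SeminormedAddGroup.toAddGroup ((fun a => Real) i) ((fun i => @SeminormedAddCommGroup.toSeminormedAddGroup ((fun a => Real) i) (@NormedAddCommGroup.toSeminormedAddCommGroup ((fun a => Real) i) ((fun i => Real.normedAddCommGroup) i))) i)) (@Pi.topologicalSpace (Fin x1) (fun a => Real) fun i => @UniformSpace.toTopologicalSpace ((fun a => Real) i) ((fun i => @PseudoEMetricSpace.toUniformSpace ((fun a => Real) i) ((fun b => @PseudoMetricSpace.toPseudoEMetricSpace ((fun a => Real) b) ((fun b => @SeminormedAddGroup.toPseudoMetricSpace ((fun a => Real) b) ((fun i => @SeminormedAddCommGroup.toSeminormedAddGroup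 ((fun a => Real) i) (@NormedAddCommGroup.toSeminormedAddCommGroup ((fun a => Real) i) ((fun i => Real.normedAddCommGroup) i))) b)) b)) i)) i)) (@MeasureTheory.MeasureSpace.toMeasurableSpace (Fin x1 → Real) (@MeasureTheory.MeasureSpace.pi (Fin x1) (Fin.fintype x1) (fun a => Real) fun i => Real.measureSpace)) (@MeasureTheory.volume (Fin x1 → Real) (@MeasureTheory.MeasureSpace.pi (Fin x1) (Fin.fintype x1) (fun a => Real) fun i => Real.measureSpace)) := inferInstance
theorem a7 : CharZero ℝ := inferInstance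
@[reducible] noncomputable def a8 : SMulZeroClass ℝ ℂ := inferInstance
theorem a9 : AddLeftMono ℝ := inferInstance
@[reducible] noncomputable def a10 : DistribSMul ℝ ℂ := inferInstance
@[reducible] def a11 : SMulZeroClass ℂ ℂ := inferInstance
@[reducible] noncomputable def a12 : DistribMulAction ℝ ℂ := inferInstance
theorem a13 : IsRightCancelAdd ℝ := inferInstance
@[reducible] noncomputable def a14.{u1} {x1 : Type u1} : Module ℝ (Vale.Agent.P228.LMat x1 ℂ) := inferInstance
theorem a15 {x1 : ℕ} : T2Space (Fin x1 → ℝ) := inferInstance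
theorem a16 : AddLeftReflectLE ℝ := inferInstance
theorem a17 : ContravariantClass ℝ ℝ (fun x1 x2 => x1 + x2) fun x1 x2 => x1 < x2 := inferInstance
theorem a18 : ContravariantClass ℝ ℝ (Function.swap fun x1 x2 => x1 + x2) fun x1 x2 => x1 < x2 := inferInstance
@[reducible] def a19 {x1 : Type} : SMul ℂ (Vale.Agent.P228.LMat x1 ℂ) := inferInstance
@[reducible] noncomputable def a20 : NormedSpace ℝ ℝ := inferInstance
theorem a21 : IsLeftCancelAdd ℝ := inferInstance
theorem a22 : PosMulReflectLT ℝ := inferInstance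
@[reducible] def a23 {x1 : ℕ} : SMulZeroClass ℝ (Fin x1 → ℝ) := inferInstance
@[reducible] def a24 {x1 : ℕ} : Zero (EuclideanSpace ℝ (Fin x1)) := inferInstance
theorem a25 : PosMulReflectLE ℝ := inferInstance
theorem a26 : OrderClosedTopology ℝ := inferInstance
theorem a27 {x1 : ℕ} : SeparatelyContinuousAdd (EuclideanSpace ℝ (Fin x1)) := inferInstance
theorem a28 {x1 : ℕ} : ContinuousSMul ℝ (Fin x1 → ℝ) := inferInstance
@[reducible] def a29 {x1 : ℕ} : Sub (EuclideanSpace ℝ (Fin x1)) := inferInstance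
@[reducible] def a30 {x1 : ℕ} : SubNegMonoid (EuclideanSpace ℝ (Fin x1)) := inferInstance
theorem a31 {x1 : ℕ} : IsTopologicalAddGroup (EuclideanSpace ℝ (Fin x1)) := inferInstance
@[reducible] def a32 : AddMonoidWithOne ENNReal := inferInstance
@[reducible] def a33 : Monoid ℂ := inferInstance
theorem a34 : PosMulStrictMono ℝ := inferInstance
theorem a35 : IsTopologicalSemiring ℂ := inferInstance
@[reducible] noncomputable def a36 {x1 : Type} : StarMul (Vale.Agent.P228.LMat x1 ℂ) := inferInstance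
@[reducible] def a37 {x1 : ℕ} : AddGroup (EuclideanSpace ℝ (Fin x1)) := inferInstance
@[reducible] def a38 {x1 : ℕ} : DistribSMul ℝ (Fin x1 → ℝ) := inferInstance
@[reducible] def a39 {x1 : ℕ} : AddCommMonoid (EuclideanSpace ℝ (Fin x1)) := inferInstance
@[reducible] noncomputable def a40 {x1 : Type} : Semiring (Vale.Agent.P228.LMat x1 ℂ) := inferInstance
@[reducible] def a41 {x1 : Type} {x2 : Type} [x3 : Ring x2] [x4 : Algebra ℂ x2] : SMul ℂ (Vale.Agent.P228.LMat x1 x2) := inferInstance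
@[reducible] noncomputable def a42 {x1 : Type} : NonAssocSemiring (Vale.Agent.P228.LMat x1 ℂ) := inferInstance
theorem a43 {x1 : ℕ} : ContinuousSub (Fin x1 → ℝ) := inferInstance
@[reducible] noncomputable def a44 {x1 : Nat} : @InnerProductSpace Real (@PiLp (@OfNat.ofNat ENNReal (nat_lit 2) (@instOfNatAtLeastTwo ENNReal (nat_lit 2) (@AddMonoidWithOne.toNatCast ENNReal (@AddCommMonoidWithOne.toAddMonoidWithOne ENNReal ENNReal.instAddCommMonoidWithOne)) ⋯)) (Fin x1) fun x => Real) Real.instRCLike (@PiLp.seminormedAddCommGroup (@OfNat.ofNat ENNReal (nat_lit 2) (@instOfNatAtLeastTwo ENNReal (nat_lit 2) (@AddMonoidWithOne.toNatCast ENNReal (@AddCommMonoidWithOne.toAddMonoidWithOne ENNReal ENNReal.instAddCommMonoidWithOne)) ⋯)) (Fin x1) (fun x => Real) fact_one_le_two_ennreal (Fin.fintype x1) fun i => @NormedAddCommGroup.toSeminormedAddCommGroup Real Real.normedAddCommGroup) := inferInstance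
theorem a45 {x1 : ℕ} [x2 : Fact (Nat.Prime x1)] : IsTopologicalRing ℤ_[x1] := inferInstance
@[reducible] noncomputable def a46 {x1 : Type} : Module ℝ (Vale.Agent.P228.LMat x1 ℂ) := inferInstance
theorem a47 : IsTopologicalRing ℂ := inferInstance
@[reducible] def a48 {x1 : ℕ} : Add (EuclideanSpace ℝ (Fin x1)) := inferInstance
theorem a49 : ClosedIicTopology ℝ := inferInstance
@[reducible] def a50 {x1 : Type} {x2 : Type} : SMul ℂ (Vale.Agent.P228.LMat (x1 × x2) ℂ) := inferInstance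
@[reducible] noncomputable def a51 {x1 : ℕ} [x2 : Fact (Nat.Prime x1)] : Monoid ℤ_[x1] := inferInstance
theorem a52 {x1 : ℕ} : ContinuousAdd (EuclideanSpace ℝ (Fin x1)) := inferInstance
@[reducible] noncomputable def a53 {x1 : Type} : MulOneClass (Vale.Agent.P228.LMat x1 ℂ) := inferInstance
theorem a54 {x1 : ℕ} [x2 : Fact (Nat.Prime x1)] : IsSemitopologicalRing ℤ_[x1] := inferInstance
@[reducible] noncomputable def a55 {x1 : ℕ} [x2 : Fact (Nat.Prime x1)] : Pow ℤ_[x1] ℕ := inferInstance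
@[reducible] noncomputable def a56 {x1 : Type} : MulZeroOneClass (Vale.Agent.P228.LMat x1 ℂ) := inferInstance
@[reducible] noncomputable def a57 {x1 : ℕ} [x2 : Fact (Nat.Prime x1)] : NPow ℤ_[x1] := inferInstance
@[reducible] noncomputable def a58 {x1 : ℕ} {x2 : Fin x1} : NormedSpace ℝ ((fun x => ℝ) x2) := inferInstance
@[reducible] def a59 {x1 : ℕ} : AddCommMagma (EuclideanSpace ℝ (Fin x1)) := inferInstance
@[reducible] def a60 {x1 : ℕ} : AddCommSemigroup (EuclideanSpace ℝ (Fin x1)) := inferInstance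
@[reducible] def a61 : Pow ℂ ℕ := inferInstance
@[reducible] noncomputable def a62.{u1, u2} {x1 : Type u1} {x2 : Type u2} [x3 : CommRing x2] : AddCommMonoid (Vale.Agent.P228.LMat x1 x2) := inferInstance
@[reducible] noncomputable def a63 {x1 : ℕ} [x2 : Fact (Nat.Prime x1)] : TopologicalSpace ℤ_[x1] := inferInstance
theorem a64 {x1 : ℕ} : NormSMulClass ℝ (Fin x1 → ℝ) := inferInstance
@[reducible] noncomputable def a65 {x1 : ℕ} : NormedSpace ℝ (Fin x1 → ℝ) := inferInstance
end AFasta0853ex9a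
attribute [local instance] AFasta0853ex9a.a0 AFasta0853ex9a.a1 AFasta0853ex9a.a2 AFasta0853ex9a.a3
  AFasta0853ex9a.a4 AFasta0853ex9a.a5 AFasta0853ex9a.a6 AFasta0853ex9a.a7 AFasta0853ex9a.a8
  AFasta0853ex9a.a9 AFasta0853ex9a.a10 AFasta0853ex9a.a11 AFasta0853ex9a.a12 AFasta0853ex9a.a13
  AFasta0853ex9a.a14 AFasta0853ex9a.a15 AFasta0853ex9a.a16 AFasta0853ex9a.a17 AFasta0853ex9a.a18
  AFasta0853ex9a.a19 AFasta0853ex9a.a20 AFasta0853ex9a.a21 AFasta0853ex9a.a22 AFasta0853ex9a.a23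
  AFasta0853ex9a.a24 AFasta0853ex9a.a25 AFasta0853ex9a.a26 AFasta0853ex9a.a27 AFasta0853ex9a.a28
  AFasta0853ex9a.a29 AFasta0853ex9a.a30 AFasta0853ex9a.a31 AFasta0853ex9a.a32 AFasta0853ex9a.a33
  AFasta0853ex9a.a34 AFasta0853ex9a.a35 AFasta0853ex9a.a36 AFasta0853ex9a.a37 AFasta0853ex9a.a38
  AFasta0853ex9a.a39 AFasta0853ex9a.a40 AFasta0853ex9a.a41 AFasta0853ex9a.a42 AFasta0853ex9a.a43
  AFasta0853ex9a.a44 AFasta0853ex9a.a45 AFasta0853ex9a.a46 AFasta0853ex9a.a47 AFasta0853ex9a.a48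
  AFasta0853ex9a.a49 AFasta0853ex9a.a50 AFasta0853ex9a.a51 AFasta0853ex9a.a52 AFasta0853ex9a.a53
  AFasta0853ex9a.a54 AFasta0853ex9a.a55 AFasta0853ex9a.a56 AFasta0853ex9a.a57 AFasta0853ex9a.a58
  AFasta0853ex9a.a59 AFasta0853ex9a.a60 AFasta0853ex9a.a61 AFasta0853ex9a.a62 AFasta0853ex9a.a63
  AFasta0853ex9a.a64 AFasta0853ex9a.a65
namespace AFasta0853ex9b
theorem a0 {x1 : ℕ} : SigmaCompactSpace (EuclideanSpace ℝ (Fin x1)) := inferInstance
theorem a1 {x1 : ℕ} [x2 : Fact (Nat.Prime x1)] : AddMonoidHomClass (ℤ_[x1] →+* ZMod x1) ℤ_[x1] (ZMod x1) := inferInstance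
theorem a2 {x1 : ℕ} : LocallyCompactSpace (EuclideanSpace ℝ (Fin x1)) := inferInstance
theorem a3 {x1 : ℕ} : AddHomClass (Vale.Agent.P228.LMat (Vale.Agent.P228.Cub.Cell (Fin x1)) ℂ →+* Module.End ℂ (Vale.Agent.P228.Cub.Cell (Fin x1) →₀ ℂ)) (Vale.Agent.P228.LMat (Vale.Agent.P228.Cub.Cell (Fin x1)) ℂ) (Module.End ℂ (Vale.Agent.P228.Cub.Cell (Fin x1) →₀ ℂ)) := inferInstance
theorem a4 {x1 : ℕ} : WeaklyLocallyCompactSpace (EuclideanSpace ℝ (Fin x1)) := inferInstance
theorem a5 {x1 : ℕ} : ContinuousSub (EuclideanSpace ℝ (Fin x1)) := inferInstance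
theorem a6.{u1, u2} {x1 : Type u1} {x2 : Type u2} [x3 : CommRing x1] [x4 : StarRing x1] : NonUnitalStarRingHomClass (Matrix Bool Bool (Vale.Agent.P228.LMat x2 x1) ≃⋆ₐ[x1] Vale.Agent.P228.LMat (x2 × Bool) x1) (Matrix Bool Bool (Vale.Agent.P228.LMat x2 x1)) (Vale.Agent.P228.LMat (x2 × Bool) x1) := inferInstance
@[reducible] noncomputable def a7 : Module ℝ ℂ := inferInstance
theorem a8 {x1 : ℕ} : AddMonoidHomClass (Vale.Agent.P228.LMat (Vale.Agent.P228.Cub.Cell (Fin x1)) ℂ →+* Module.End ℂ (Vale.Agent.P228.Cub.Cell (Fin x1) →₀ ℂ)) (Vale.Agent.P228.LMat (Vale.Agent.P228.Cub.Cell (Fin x1)) ℂ) (Module.End ℂ (Vale.Agent.P228.Cub.Cell (Fin x1) →₀ ℂ)) := inferInstance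
theorem a9 {x1 : Type} : MulHomClass (Vale.Agent.P228.LMat x1 C(↑unitInterval, ℂ) →+* Vale.Agent.P228.LMat x1 ℂ) (Vale.Agent.P228.LMat x1 C(↑unitInterval, ℂ)) (Vale.Agent.P228.LMat x1 ℂ) := inferInstance
theorem a10 {x1 : Type} : NonUnitalRingHomClass (Vale.Agent.P228.LMat x1 C(↑unitInterval, ℂ) →+* Vale.Agent.P228.LMat x1 ℂ) (Vale.Agent.P228.LMat x1 C(↑unitInterval, ℂ)) (Vale.Agent.P228.LMat x1 ℂ) := inferInstance
theorem a11 {x1 : ℕ} [x2 : Fact (Nat.Prime x1)] : AddHomClass (ℤ_[x1] →+* ZMod x1) ℤ_[x1] (ZMod x1) := inferInstance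
theorem a12.{u1, u2} {x1 : Type u1} {x2 : Type u2} [x3 : CommRing x1] [x4 : StarRing x1] : NonUnitalAlgHomClass (Matrix Bool Bool (Vale.Agent.P228.LMat x2 x1) ≃⋆ₐ[x1] Vale.Agent.P228.LMat (x2 × Bool) x1) x1 (Matrix Bool Bool (Vale.Agent.P228.LMat x2 x1)) (Vale.Agent.P228.LMat (x2 × Bool) x1) := inferInstance
theorem a13 {x1 : ℕ} : AddMonoidHomClass ((Fin x1 → ℝ) →L[ℝ] Fin x1 → ℝ) (Fin x1 → ℝ) (Fin x1 → ℝ) := inferInstance
theorem a14 {x1 : ℕ} : DistribMulActionSemiHomClass ((Fin x1 → ℝ) →L[ℝ] Fin x1 → ℝ) (⇑(RingHom.id ℝ)) (Fin x1 → ℝ) (Fin x1 → ℝ) := inferInstance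
theorem a15.{u1, u2} {x1 : Type u1} {x2 : Type u2} [x3 : CommRing x1] [x4 : StarRing x1] : StarHomClass (Matrix Bool Bool (Vale.Agent.P228.LMat x2 x1) ≃⋆ₐ[x1] Vale.Agent.P228.LMat (x2 × Bool) x1) (Matrix Bool Bool (Vale.Agent.P228.LMat x2 x1)) (Vale.Agent.P228.LMat (x2 × Bool) x1) := inferInstance
theorem a16 {x1 : ℕ} {x2 : Set (EuclideanSpace ℝ (Fin x1))} : MeasureTheory.SFinite (MeasureTheory.volume.restrict x2) := inferInstance
theorem a17 {x1 : ℕ} : SemilinearMapClass ((Fin x1 → ℝ) →L[ℝ] Fin x1 → ℝ) (RingHom.id ℝ) (Fin x1 → ℝ) (Fin x1 → ℝ) := inferInstance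
@[reducible] noncomputable def a18 : SMulZeroClass Vale.Agent.P228.Std.Lau (Fin 4 → Vale.Agent.P228.Std.Lau) := inferInstance
@[reducible] noncomputable def a19 : DistribSMul Vale.Agent.P228.Std.Lau (Fin 4 → Vale.Agent.P228.Std.Lau) := inferInstance
@[reducible] noncomputable def a20 : DistribMulAction Vale.Agent.P228.Std.Lau (Fin 4 → Vale.Agent.P228.Std.Lau) := inferInstance
theorem a21 : AddHomClass (Vale.Agent.P228.Std.Lau →ₐ[ℂ] Vale.Agent.P228.LMat (ℤ × ℤ) ℂ) Vale.Agent.P228.Std.Lau (Vale.Agent.P228.LMat (ℤ × ℤ) ℂ) := inferInstance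
theorem a22 {x1 : ℕ} : MeasurableAdd (EuclideanSpace ℝ (Fin x1)) := inferInstance
theorem a23 : LinearMapClass (Vale.Agent.P228.Std.Lau →ₐ[ℂ] Vale.Agent.P228.LMat (ℤ × ℤ) ℂ) ℂ Vale.Agent.P228.Std.Lau (Vale.Agent.P228.LMat (ℤ × ℤ) ℂ) := inferInstance
theorem a24 {x1 : ℕ} : MulHomClass (Vale.Agent.P228.LMat (Vale.Agent.P228.Cub.Cell (Fin x1)) ℂ →+* Module.End ℂ (Vale.Agent.P228.Cub.Cell (Fin x1) →₀ ℂ)) (Vale.Agent.P228.LMat (Vale.Agent.P228.Cub.Cell (Fin x1)) ℂ) (Module.End ℂ (Vale.Agent.P228.Cub.Cell (Fin x1) →₀ ℂ)) := inferInstance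
theorem a25.{u1, u2} {x1 : Type u1} {x2 : Type u2} [x3 : CommRing x1] [x4 : StarRing x1] : MulHomClass (Matrix Bool Bool (Vale.Agent.P228.LMat x2 x1) ≃⋆ₐ[x1] Vale.Agent.P228.LMat (x2 × Bool) x1) (Matrix Bool Bool (Vale.Agent.P228.LMat x2 x1)) (Vale.Agent.P228.LMat (x2 × Bool) x1) := inferInstance
theorem a26.{u1, u2} {x1 : Type u1} {x2 : Type u2} [x3 : CommRing x1] [x4 : StarRing x1] : MonoidHomClass (Matrix Bool Bool (Vale.Agent.P228.LMat x2 x1) ≃⋆ₐ[x1] Vale.Agent.P228.LMat (x2 × Bool) x1) (Matrix Bool Bool (Vale.Agent.P228.LMat x2 x1)) (Vale.Agent.P228.LMat (x2 × Bool) x1) := inferInstance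
theorem a27.{u1, u2} {x1 : Type u1} {x2 : Type u2} [x3 : CommRing x1] [x4 : StarRing x1] : OneHomClass (Matrix Bool Bool (Vale.Agent.P228.LMat x2 x1) ≃⋆ₐ[x1] Vale.Agent.P228.LMat (x2 × Bool) x1) (Matrix Bool Bool (Vale.Agent.P228.LMat x2 x1)) (Vale.Agent.P228.LMat (x2 × Bool) x1) := inferInstance
end AFasta0853ex9b
attribute [local instance] AFasta0853ex9b.a0 AFasta0853ex9b.a1 AFasta0853ex9b.a2 AFasta0853ex9b.a3
  AFasta0853ex9b.a4 AFasta0853ex9b.a5 AFasta0853ex9b.a6 AFasta0853ex9b.a7 AFasta0853ex9b.a8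
  AFasta0853ex9b.a9 AFasta0853ex9b.a10 AFasta0853ex9b.a11 AFasta0853ex9b.a12 AFasta0853ex9b.a13
  AFasta0853ex9b.a14 AFasta0853ex9b.a15 AFasta0853ex9b.a16 AFasta0853ex9b.a17 AFasta0853ex9b.a18
  AFasta0853ex9b.a19 AFasta0853ex9b.a20 AFasta0853ex9b.a21 AFasta0853ex9b.a22 AFasta0853ex9b.a23
  AFasta0853ex9b.a24 AFasta0853ex9b.a25 AFasta0853ex9b.a26 AFasta0853ex9b.a27
section

section

/-! # Row calculus, one step of the slicing operator in `LMat (ι × Bool) ℂ`, and its iteration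

* `wallF base P : ι → ℂ` the indicator of the wall `P : B → Prop`;
* `SS base P Q th th'`, `SS' ..` the slicing operator and its inverse in `LMat (ι × Bool) ℂ`;
* `SS_flow`: `(S, S⁻¹)` has the flow `i ↦ U (8 i)`;
* `SS_row`, `SS'_row`: over `U 0` the rows are those of `stdB` if `P` or `Q` is constant on `U 4`;
* `Dat`, `Dat.iter`: iteration along a list of pairs of walls; `Dat.iter_row`: the rows of the last
  matrix over `U 0` are standard if one of the walls is constant on `U (8 ^ length)`. -/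

open Matrix

set_option linter.unusedSectionVars false

noncomputable section

namespace Vale.Agent.P228.Inv

variable {ι B : Type*}

section transfer

variable {K : Type*} [CommRing K] [StarRing K] {base : ι → B} {U V : Set B}
  {M M' : Matrix Bool Bool (LMat ι K)}

theorem supT_toBlk : SupT (base ∘ Prod.fst) U V (LMat.toBlk M) ↔ SupM base U V M := by
  constructor
  · intro h i j x y hx hne
    exact h (x, i) (y, j) hx hne
  · rintro h ⟨x, i⟩ ⟨y, j⟩ hx hne
    exact h i j x y hx hne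

theorem req_toBlk : REq (base ∘ Prod.fst) U (LMat.toBlk M) (LMat.toBlk M') ↔
    REqM base U M M' := by
  constructor
  · intro h i j x hx y
    exact h (x, i) hx (y, j)
  · rintro h ⟨x, i⟩ hx ⟨y, j⟩
    exact h i j x hx y

end transfer

section step

variable {K : Type*} [CommRing K] [StarRing K] [Algebra ℂ K] [StarModule ℂ K]

open Classical in
/-- the indicator function of the wall `P` -/
def wallF (K : Type*) [CommRing K] (base : ι → B) (P : B → Prop) : ι → K :=
  fun x => if P (base x) then 1 else 0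

omit [StarRing K] [Algebra ℂ K] [StarModule ℂ K] in
theorem wallF_idem (base : ι → B) (P : B → Prop) (x : ι) :
    wallF K base P x * wallF K base P x = wallF K base P x := by
  unfold wallF
  split <;> simp

omit [Algebra ℂ K] [StarModule ℂ K] in
theorem star_wallF (base : ι → B) (P : B → Prop) (x : ι) :
    star (wallF K base P x) = wallF K base P x := by
  unfold wallF
  split <;> simp

/-- the diagonal matrix of the wall -/
def wall (K : Type*) [CommRing K] (base : ι → B) (P : B → Prop) : LMat ι K :=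
  LMat.diag (wallF K base P)

omit [StarRing K] [Algebra ℂ K] [StarModule ℂ K] in
theorem wall_mul_self (base : ι → B) (P : B → Prop) :
    wall K base P * wall K base P = wall K base P := by
  unfold wall
  rw [LMat.diag_mul_diag]
  congr 1
  funext x
  exact wallF_idem base P x

omit [Algebra ℂ K] [StarModule ℂ K] in
theorem star_wall (base : ι → B) (P : B → Prop) : star (wall K base P) = wall K base P := by
  unfold wall
  rw [LMat.star_diag]
  congr 1
  funext x
  exact star_wallF base P x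

/-- the slicing operator on `LMat` -/
def SS (base : ι → B) (P Q : B → Prop) (th th' : LMat ι K) : LMat (ι × Bool) K :=
  LMat.toBlk (Sop (wall K base P) (wall K base Q) th th')

/-- its inverse -/
def SS' (base : ι → B) (P Q : B → Prop) (th th' : LMat ι K) : LMat (ι × Bool) K :=
  LMat.toBlk (SopInv (wall K base P) (wall K base Q) th th')

/-- the standard form -/
def stdB (K : Type*) [CommRing K] [StarRing K] [Algebra ℂ K] (base : ι → B) (Q : B → Prop) :
    LMat (ι × Bool) K := LMat.toBlk (Std (wallF K base Q))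

variable {base : ι → B} {P Q : B → Prop} {th th' : LMat ι K} {U : ℕ → Set B}

theorem SS_mul_SS' : SS base P Q th th' * SS' base P Q th th' = 1 := by
  unfold SS SS'
  rw [← map_mul, Sop_mul_SopInv (wall_mul_self _ _) (wall_mul_self _ _), map_one]

theorem SS'_mul_SS : SS' base P Q th th' * SS base P Q th th' = 1 := by
  unfold SS SS'
  rw [← map_mul, SopInv_mul_Sop (wall_mul_self _ _) (wall_mul_self _ _), map_one]

theorem star_SS (h : star th = th) (h' : star th' = th') :
    star (SS base P Q th th') = SS base P Q th th' := by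
  unfold SS
  rw [← map_star, Sop_star (wall_mul_self _ _) (star_wall _ _) (star_wall _ _) h h']

theorem star_SS' (h : star th = th) (h' : star th' = th') :
    star (SS' base P Q th th') = SS' base P Q th th' := by
  unfold SS'
  rw [← map_star, SopInv_star (wall_mul_self _ _) (star_wall _ _) (star_wall _ _) h h']

/-- a wall is constant on a set of locations -/
def WConst (P : B → Prop) (V : Set B) : Prop := (∀ b ∈ V, P b) ∨ (∀ b ∈ V, ¬ P b)

omit [CommRing K] [StarRing K] [Algebra ℂ K] [StarModule ℂ K] in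
theorem WConst.mono {P : B → Prop} {V V' : Set B} (h : WConst P V) (hV : V' ⊆ V) :
    WConst P V' := by
  rcases h with h | h
  · exact Or.inl fun b hb => h b (hV hb)
  · exact Or.inr fun b hb => h b (hV hb)

omit [StarRing K] [Algebra ℂ K] [StarModule ℂ K] in
theorem WConst.const {V : Set B} (h : WConst P V) : Const base (wallF K base P) V := by
  rcases h with h | h
  · exact Or.inr fun x hx => by unfold wallF; rw [if_pos (h _ hx)]
  · exact Or.inl fun x hx => by unfold wallF; rw [if_neg (h _ hx)]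

omit [CommRing K] [StarRing K] [Algebra ℂ K] [StarModule ℂ K] in
theorem WConst.singleton (P : B → Prop) (b : B) : WConst P {b} := by
  by_cases h : P b
  · exact Or.inl fun c hc => by rw [Set.mem_singleton_iff.1 hc]; exact h
  · exact Or.inr fun c hc => by rw [Set.mem_singleton_iff.1 hc]; exact h

theorem SS_flow {n : ℕ} (F : Flow base th th' (8 * n) U) :
    Flow (base ∘ Prod.fst) (SS base P Q th th') (SS' base P Q th th') n (fun i => U (8 * i)) := by
  have hF : ∀ i < n, Flow base th th' 8 (fun j => U (8 * i + j)) := fun i hi =>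
    ⟨fun j hj => F.mono (8 * i + j) (by omega), fun j hj => F.sup (8 * i + j) (by (clear * - hi hj; omega)),
      fun j hj => F.sup' (8 * i + j) (by omega)⟩
  refine ⟨fun i hi => ?_, fun i hi => ?_, fun i hi => ?_⟩
  · exact F.mono_le (by omega) (by (clear * - hi; omega))
  · exact supT_toBlk.2 (Sop_sup (wallF K base P) (wallF K base Q) (hF i hi))
  · exact supT_toBlk.2 (SopInv_sup (wallF K base P) (wallF K base Q) (hF i hi))

theorem SS_row (F : Flow base th th' 4 U) (h : WConst P (U 4) ∨ WConst Q (U 4))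
    (h3 : th * th' = 1) (h4 : th' * th = 1) :
    REq (base ∘ Prod.fst) (U 0) (SS base P Q th th') (stdB K base Q) :=
  req_toBlk.2 (Sop_row F (h.imp WConst.const WConst.const) h3 h4 (wallF_idem base P))

theorem SS'_row (F : Flow base th th' 4 U) (h : WConst P (U 4) ∨ WConst Q (U 4))
    (h3 : th * th' = 1) (h4 : th' * th = 1) :
    REq (base ∘ Prod.fst) (U 0) (SS' base P Q th th') (stdB K base Q) :=
  req_toBlk.2 (SopInv_row F (h.imp WConst.const WConst.const) h3 h4 (wallF_idem base P))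

theorem stdB_sup (V : Set B) : SupT (base ∘ Prod.fst) V V (stdB K base Q) :=
  supT_toBlk.2 (Std_sup _)

/-- rows which are standard give a constant flow at each location -/
theorem flow_of_row (F : Flow base th th' 4 U) (h : WConst P (U 4) ∨ WConst Q (U 4))
    (h3 : th * th' = 1) (h4 : th' * th = 1) {b : B} (hb : b ∈ U 0) (n : ℕ) :
    Flow (base ∘ Prod.fst) (SS base P Q th th') (SS' base P Q th th') n (fun _ => {b}) := by
  have hs : ({b} : Set B) ⊆ U 0 := Set.singleton_subset_iff.2 hb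
  exact Flow.of_diag ((stdB_sup {b}).congr ((SS_row F h h3 h4).mono hs))
    ((stdB_sup {b}).congr ((SS'_row F h h3 h4).mono hs)) n

end step

/-! ### naturality in the coefficients -/

section coeff

variable {K L : Type*} [CommRing K] [StarRing K] [Algebra ℂ K] [StarModule ℂ K]
  [CommRing L] [StarRing L] [Algebra ℂ L] [StarModule ℂ L]

end coeff

/-! ### iteration -/

/-- a pair of mutually inverse matrices over a set of locations -/
structure Dat (K : Type*) [CommRing K] (B : Type*) where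
  /-- index type -/
  ι : Type
  /-- location -/
  base : ι → B
  /-- the form -/
  th : LMat ι K
  /-- its inverse -/
  th' : LMat ι K

section iteration

variable {K : Type*} [CommRing K] [StarRing K] [Algebra ℂ K] [StarModule ℂ K]

/-- one slicing step -/
def Dat.step (D : Dat K B) (w : (B → Prop) × (B → Prop)) : Dat K B :=
  ⟨D.ι × Bool, D.base ∘ Prod.fst, SS D.base w.1 w.2 D.th D.th', SS' D.base w.1 w.2 D.th D.th'⟩

/-- slicing along a list of pairs of walls -/
def Dat.iter (D : Dat K B) : List ((B → Prop) × (B → Prop)) → Dat K B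
  | [] => D
  | w :: ws => (D.step w).iter ws

/-- mutually inverse -/
structure Dat.IsInv (D : Dat K B) : Prop where
  mul : D.th * D.th' = 1
  mul' : D.th' * D.th = 1

/-- hermitian -/
structure Dat.Herm (D : Dat K B) : Prop where
  st : star D.th = D.th
  st' : star D.th' = D.th'

theorem Dat.IsInv.step (D : Dat K B) (w : (B → Prop) × (B → Prop)) : (D.step w).IsInv :=
  ⟨SS_mul_SS', SS'_mul_SS⟩

theorem Dat.Herm.step {D : Dat K B} (h : D.Herm) (w : (B → Prop) × (B → Prop)) :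
    (D.step w).Herm := ⟨star_SS h.st h.st', star_SS' h.st h.st'⟩

/-- the rows over `U` are standard: location-diagonal, and equal to `K0 (2 Q - 1)`. -/
inductive RowStd : Dat K B → Set B → Prop
  | mk (D : Dat K B) (Q : B → Prop) (w₁ : B → Prop) (U : Set B)
      (h : REq (D.base ∘ Prod.fst) U (SS D.base w₁ Q D.th D.th') (stdB K D.base Q))
      (h' : REq (D.base ∘ Prod.fst) U (SS' D.base w₁ Q D.th D.th') (stdB K D.base Q)) :
      RowStd (D.step (w₁, Q)) U

/-- supports along the iteration -/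
theorem Dat.iter_flow {D : Dat K B} {U : ℕ → Set B} (ws : List ((B → Prop) × (B → Prop))) {n : ℕ}
    (F : Flow D.base D.th D.th' (8 ^ ws.length * n) U) :
    Flow (D.iter ws).base (D.iter ws).th (D.iter ws).th' n (fun i => U (8 ^ ws.length * i)) := by
  induction ws generalizing D U n with
  | nil =>
    simp only [List.length_nil, pow_zero, one_mul] at F ⊢
    exact F
  | cons w ws ih =>
    have hn : 8 ^ (w :: ws).length * n = 8 * (8 ^ ws.length * n) := by
      rw [List.length_cons]; ring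
    rw [hn] at F
    have h2 := ih (D := D.step w) (U := fun i => U (8 * i)) (n := n) (SS_flow F)
    have e : (fun i => U (8 ^ (w :: ws).length * i)) =
        (fun i => U (8 * (8 ^ ws.length * i))) := by
      funext i; congr 1; rw [List.length_cons]; ring
    rw [e]
    exact h2

/-- **iterated row lemma**: if a wall of the list is constant on `U (8 ^ length)`, then the rows
of the last matrix over `U 0` are standard. -/
theorem Dat.iter_row {D : Dat K B} (hD : D.IsInv) {U : ℕ → Set B}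
    (ws : List ((B → Prop) × (B → Prop)))
    (F : Flow D.base D.th D.th' (8 ^ ws.length) U)
    (hw : ∃ w ∈ ws, WConst w.1 (U (8 ^ ws.length)) ∨ WConst w.2 (U (8 ^ ws.length)))
    {b : B} (hb : b ∈ U 0) :
    RowStd (D.iter ws) {b} := by
  induction ws generalizing D U with
  | nil => obtain ⟨w, hw, _⟩ := hw; simp at hw
  | cons w ws ih =>
    have hn : 8 ^ (w :: ws).length = 8 * 8 ^ ws.length := by
      rw [List.length_cons]; ring
    rw [hn] at F
    have hpos : 0 < 8 ^ ws.length := by positivity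
    have F4 : Flow D.base D.th D.th' 4 U := F.of_le (by omega)
    have hsub : ({b} : Set B) ⊆ U 0 := Set.singleton_subset_iff.2 hb
    -- does the first pair already contain a constant wall?
    by_cases h1 : WConst w.1 (U (8 ^ (w :: ws).length)) ∨ WConst w.2 (U (8 ^ (w :: ws).length))
    · have hm : U 4 ⊆ U (8 ^ (w :: ws).length) := by
        rw [hn]; exact F.mono_le (by omega) le_rfl
      have h2 : WConst w.1 (U 4) ∨ WConst w.2 (U 4) := h1.imp (·.mono hm) (·.mono hm)
      have r1 := (SS_row (base := D.base) F4 h2 hD.mul hD.mul').mono hsub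
      have r2 := (SS'_row (base := D.base) F4 h2 hD.mul hD.mul').mono hsub
      cases ws with
      | nil => exact RowStd.mk D w.2 w.1 {b} r1 r2
      | cons w' ws' =>
        have hF := flow_of_row (base := D.base) F4 h2 hD.mul hD.mul' hb
          (8 ^ (w' :: ws').length)
        refine ih (D := D.step w) (Dat.IsInv.step D w) (U := fun _ => {b}) hF ?_ rfl
        exact ⟨w', List.mem_cons_self, Or.inl (WConst.singleton _ _)⟩
    · obtain ⟨w', hw', hc⟩ := hw
      rcases List.mem_cons.1 hw' with rfl | hw'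
      · exact absurd hc h1
      · refine ih (D := D.step w) (Dat.IsInv.step D w) (U := fun i => U (8 * i)) (SS_flow F)
          ⟨w', hw', ?_⟩ hb
        rw [hn] at hc
        exact hc

/-- change of coefficients -/
def Dat.map {L : Type*} [CommRing L] (f : K →+* L) (D : Dat K B) : Dat L B :=
  ⟨D.ι, D.base, LMat.map f D.th, LMat.map f D.th'⟩

end iteration

/-- `k`-step reachability for a one-step relation on locations -/
def Reach (E : B → B → Prop) : ℕ → B → B → Prop
  | 0, x, y => x = y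
  | k + 1, x, y => ∃ z, Reach E k x z ∧ (z = y ∨ E z y)

theorem reach_succ_of_reach {E : B → B → Prop} {k : ℕ} {x y : B} (h : Reach E k x y) :
    Reach E (k + 1) x y := ⟨y, h, Or.inl rfl⟩

/-- the reachability flow of a support relation -/
theorem reach_flow {K : Type*} [CommRing K] {base : ι → B} {th th' : LMat ι K} {E : B → B → Prop}
    (h : ∀ x y, th x y ≠ 0 → E (base x) (base y)) (h' : ∀ x y, th' x y ≠ 0 → E (base x) (base y))
    (b : B) (n : ℕ) : Flow base th th' n (fun k => {y | Reach E k b y}) := by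
  refine ⟨fun i _ y hy => reach_succ_of_reach hy, fun i _ x y hx hne => ?_,
    fun i _ x y hx hne => ?_⟩
  · exact ⟨base x, hx, Or.inr (h x y hne)⟩
  · exact ⟨base x, hx, Or.inr (h' x y hne)⟩

end Vale.Agent.P228.Inv
end
end
end

section

section

/-!
P228, block [S]: path invariance and vanishing of `sInv` from the rows of the final matrices.
-/

open Matrix

set_option linter.unusedSectionVars false
set_option linter.unusedSimpArgs false

noncomputable section

namespace Vale.Agent.P228.Inv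

open LMat Sgn

variable {B : Type}

/-- the final matrices of the recursion of `sInv` satisfy `Φ` -/
def FinP {K : Type*} [CommRing K] [StarRing K] [Algebra ℂ K]
    (Φ : ∀ {ι : Type}, (ι → B) → LMat ι K → LMat ι K → Prop) :
    List (Wall B) → {ι : Type} → (ι → B) → LMat ι K → LMat ι K → Prop
  | [], _, base, th, th' => Φ base th th'
  | w :: ws, _, base, th, th' =>
    FinP Φ ws (fun x : _ × Bool => base x.1) (stepS w base th th') (stepI w base th th')

theorem FinP_cons {K : Type*} [CommRing K] [StarRing K] [Algebra ℂ K]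
    (Φ : ∀ {ι : Type}, (ι → B) → LMat ι K → LMat ι K → Prop) (w : Wall B) (ws : List (Wall B))
    {ι : Type} (base : ι → B) (th th' : LMat ι K) :
    FinP Φ (w :: ws) base th th' ↔
      FinP Φ ws (fun x : ι × Bool => base x.1) (stepS w base th th') (stepI w base th th') :=
  Iff.rfl

theorem FinP.imp {K : Type*} [CommRing K] [StarRing K] [Algebra ℂ K]
    {Φ Ψ : ∀ {ι : Type}, (ι → B) → LMat ι K → LMat ι K → Prop}
    (h : ∀ {ι : Type} (base : ι → B) (th th' : LMat ι K), Φ base th th' → Ψ base th th')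
    (ws : List (Wall B)) {ι : Type} (base : ι → B) (th th' : LMat ι K)
    (hf : FinP Φ ws base th th') : FinP Ψ ws base th th' := by
  induction ws generalizing ι with
  | nil => exact h base th th' hf
  | cons w ws ih => exact ih _ _ _ hf

/-- the row over `b` is location-diagonal and anticommutes with a sign -/
def Null (b : B) {ι : Type} (base : ι → B) (M _ : LMat ι ℂ) : Prop :=
  ∃ σ : ι → Bool, ∀ x y, base x = b → M x y ≠ 0 → base y = b ∧ σ x ≠ σ y

/-- the rows over `b` are supported over `e` -/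
def Clo (e : Finset B) (b : B) {ι : Type} (base : ι → B) (M _ : LMat ι ℂ) : Prop :=
  ∀ x y, base x = b → M x y ≠ 0 → base y ∈ e

theorem finite_fibre {ι : Type} {base : ι → B} (hf : ∀ b, {x | base x = b}.Finite)
    (e : Finset B) : Finite {i : ι // base i ∈ e} := by
  have : {i : ι | base i ∈ e} = ⋃ b ∈ e, {x | base x = b} := by
    ext i; simp only [Set.mem_ofPred_eq, Set.mem_iUnion, exists_prop, exists_eq_right']
  have h2 : {i : ι | base i ∈ e}.Finite := by
    rw [this]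
    exact e.finite_toSet.biUnion fun b _ => hf b
  exact h2.to_subtype

theorem finite_fibre_step {ι : Type} {base : ι → B} (hf : ∀ b, {x | base x = b}.Finite) (b : B) :
    {x : ι × Bool | base x.1 = b}.Finite := by
  have : {x : ι × Bool | base x.1 = b} = {x | base x = b} ×ˢ Set.univ := by
    ext x; simp only [Set.mem_ofPred_eq, Bool.univ_eq, Set.mem_prod, Set.mem_insert_iff, Set.mem_singleton_iff, Bool.eq_false_or_eq_true_self, and_true]
  rw [this]
  exact (hf b).prod Set.finite_univ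

theorem sgnOn_eq_zero (e : Finset B) {ι : Type} (base : ι → B) (M M' : LMat ι ℂ)
    (h : ∀ b ∈ e, Null b base M M') : sgnOn e base M = 0 := by
  classical
  by_cases hfin : Finite {i : ι // base i ∈ e}
  · let _ : Fintype {i : ι // base i ∈ e} := Fintype.ofFinite _
    choose! σ hσ using h
    rw [sgnOn_eq]
    set D : Matrix {i : ι // base i ∈ e} {i : ι // base i ∈ e} ℂ :=
      Matrix.diagonal fun i => if σ (base i.1) i.1 then (1 : ℂ) else -1 with hD
    have hDD : D * D = 1 := by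
      rw [hD, Matrix.diagonal_mul_diagonal, ← Matrix.diagonal_one]
      congr 1; funext i; split_ifs <;> simp
    have hDs : Dᴴ = D := by
      rw [hD, Matrix.diagonal_conjTranspose]
      congr 1; funext i
      simp only [Pi.star_apply]
      split_ifs <;> simp
    have key : Dᴴ * restr e base M * D = -restr e base M := by
      rw [hDs]
      ext i j
      rw [hD, Matrix.mul_diagonal, Matrix.diagonal_mul, Matrix.neg_apply]
      by_cases hM : M i.1 j.1 = 0
      · have : restr e base M i j = 0 := hM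
        rw [this]; simp only [mul_zero, mul_ite, mul_one, mul_neg, neg_zero, ite_self]
      · obtain ⟨h1, h2⟩ := hσ (base i.1) i.2 i.1 j.1 rfl hM
        rw [h1]
        cases h3 : σ (base i.1) i.1 <;> cases h4 : σ (base i.1) j.1 <;> simp_all
    have := sgn_congr (A := restr e base M) hDD hDD key
    rw [sgn_neg] at this
    omega
  · unfold sgnOn
    rw [dif_neg hfin]

/-- vanishing of `sInv` if all rows of the final matrix over `e` are null -/
theorem sInv_eq_zero (e : Finset B) (ws : List (Wall B)) {ι : Type} (base : ι → B)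
    (th th' : LMat ι ℂ) (h : ∀ b ∈ e, FinP (Null b) ws base th th') :
    sInv e ws base th th' = 0 := by
  induction ws generalizing ι with
  | nil => exact sgnOn_eq_zero e base th th' h
  | cons w ws ih => exact ih _ _ _ h

/-! ### paths -/

/-- evaluation at `t` -/
abbrev evI (t : unitInterval) : C(unitInterval, ℂ) →+* ℂ :=
  (ContinuousMap.evalAlgHom ℂ ℂ t : C(unitInterval, ℂ) →ₐ[ℂ] ℂ).toRingHom

theorem evI_I (t : unitInterval) (f : C(unitInterval, ℂ)) :
    evI t (Complex.I • f) = Complex.I • evI t f := rfl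

theorem sInv_path_aux (e : Finset B) (ws : List (Wall B)) {ι : Type} (base : ι → B)
    (hfin : ∀ b, {x | base x = b}.Finite)
    (H K : LMat ι C(unitInterval, ℂ)) (hH : star H = H) (hK : star K = K) (h2 : K * H = 1)
    (hcl : ∀ b ∈ e, ∀ t, FinP (Clo e b) ws base (LMat.map (evI t) H) (LMat.map (evI t) K))
    (s t : unitInterval) :
    sInv e ws base (LMat.map (evI s) H) (LMat.map (evI s) K) =
      sInv e ws base (LMat.map (evI t) H) (LMat.map (evI t) K) := by
  induction ws generalizing ι with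
  | nil =>
    classical
    rw [sInv_nil, sInv_nil]
    have := finite_fibre hfin e
    let _ : Fintype {i : ι // base i ∈ e} := Fintype.ofFinite _
    rw [sgnOn_eq, sgnOn_eq]
    refine sgn_const (X := unitInterval) (A := fun t => restr e base (LMat.map (evI t) H))
      (B := fun t => restr e base (LMat.map (evI t) K)) ?_ ?_ ?_ s t
    · refine continuous_matrix fun i j => ?_
      exact (H i.1 j.1).continuous
    · intro u
      have := congrArg (LMat.map (evI u)) hH
      rw [LMat.map_star (evI u) (fun _ => rfl)] at this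
      unfold Matrix.IsHermitian
      rw [← restr_star, this]
    · intro u
      have hHu : star (LMat.map (evI u) H) = LMat.map (evI u) H := by
        rw [← LMat.map_star (evI u) (fun _ => rfl), hH]
      rw [← restr_mul', ← map_mul, h2, map_one, restr_one]
      intro x y hy hxy
      refine hcl (base y) hy u y x rfl ?_
      rw [← hHu, LMat.star_apply]
      exact star_ne_zero.mpr hxy
  | cons w ws ih =>
    rw [sInv_cons, sInv_cons]
    simp only [← map_stepS _ (evI_I _), ← map_stepI _ (evI_I _)]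
    refine ih _ (finite_fibre_step hfin) _ _ (stepS_star w base hH hK) (stepI_star w base hH hK)
      (stepI_mul_stepS w base H K) ?_
    intro b hb u
    have := hcl b hb u
    rw [FinP_cons, ← map_stepS _ (evI_I _), ← map_stepI _ (evI_I _)] at this
    exact this

/-- a path of matrices with locally finite support as a matrix over `C([0,1], ℂ)` -/
def pathMat {ι : Type} (base : ι → B) (hfin : ∀ b, {x | base x = b}.Finite)
    {E : B → B → Prop} (hE : ∀ b, {b' | E b b'}.Finite) (hE' : ∀ b, {b' | E b' b}.Finite)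
    (h : ℝ → LMat ι ℂ) (hc : ∀ x y, Continuous fun t => h t x y)
    (hs : ∀ t ∈ Set.Icc (0 : ℝ) 1, Top.Supp base E (h t)) : LMat ι C(unitInterval, ℂ) where
  toFun x y := ⟨fun t => h t x y, (hc x y).comp continuous_subtype_val⟩
  row_finite x := by
    refine ((hE (base x)).biUnion fun b _ => hfin b).subset ?_
    intro y hy
    simp only [Set.mem_iUnion]
    by_contra hcon
    push Not at hcon
    apply hy
    ext t
    by_contra ht
    exact hcon (base y) (hs t.1 t.2 x y ht) rfl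
  col_finite y := by
    refine ((hE' (base y)).biUnion fun b _ => hfin b).subset ?_
    intro x hx
    simp only [Set.mem_iUnion]
    by_contra hcon
    push Not at hcon
    apply hx
    ext t
    by_contra ht
    exact hcon (base x) (hs t.1 t.2 x y ht) rfl

theorem ext_pathMat {ι : Type} {A A' : LMat ι C(unitInterval, ℂ)}
    (h : ∀ t, LMat.map (evI t) A = LMat.map (evI t) A') : A = A' := by
  ext x y t
  exact congrArg (fun M : LMat ι ℂ => M x y) (h t)

/-- path invariance of `sInv` -/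
theorem sInv_path (e : Finset B) (ws : List (Wall B)) {ι : Type} (base : ι → B)
    (hfin : ∀ b, {x | base x = b}.Finite)
    {E : B → B → Prop} (hE : ∀ b, {b' | E b b'}.Finite) (hE' : ∀ b, {b' | E b' b}.Finite)
    (h k : ℝ → LMat ι ℂ) (hch : ∀ x y, Continuous fun t => h t x y)
    (hck : ∀ x y, Continuous fun t => k t x y)
    (hform : ∀ t ∈ Set.Icc (0 : ℝ) 1, Top.Form base E (h t) (k t))
    (hcl : ∀ b ∈ e, ∀ t ∈ Set.Icc (0 : ℝ) 1, FinP (Clo e b) ws base (h t) (k t)) :
    sInv e ws base (h 0) (k 0) = sInv e ws base (h 1) (k 1) := by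
  set H := pathMat base hfin hE hE' h hch (fun t ht => (hform t ht).supp) with hHdef
  set K := pathMat base hfin hE hE' k hck (fun t ht => (hform t ht).supp') with hKdef
  have eH : ∀ t : unitInterval, LMat.map (evI t) H = h t := fun t => rfl
  have eK : ∀ t : unitInterval, LMat.map (evI t) K = k t := fun t => rfl
  have hk : ∀ t ∈ Set.Icc (0 : ℝ) 1, star (k t) = k t := by
    intro t ht
    have f := hform t ht
    have h1 : star (k t) * h t = 1 := by
      have h3 : star (h t * k t) = star (k t) * star (h t) := star_mul (h t) (k t)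
      rw [f.mul, f.herm] at h3
      rw [← h3]
      exact star_one (LMat ι ℂ)
    calc star (k t) = star (k t) * (h t * k t) := by rw [f.mul, mul_one]
      _ = k t := by rw [← mul_assoc, h1, one_mul]
  have := sInv_path_aux e ws base hfin H K
    (ext_pathMat fun t => by
      rw [LMat.map_star (evI t) (fun _ => rfl), eH]; exact (hform t.1 t.2).herm)
    (ext_pathMat fun t => by
      rw [LMat.map_star (evI t) (fun _ => rfl), eK]; exact hk t.1 t.2)
    (ext_pathMat fun t => by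
      rw [map_mul, eH, eK, map_one]; exact (hform t.1 t.2).mul')
    (fun b hb t => by rw [eH, eK]; exact hcl b hb t.1 t.2) 0 1
  rw [eH, eK, eH, eK] at this
  simpa only [Set.Icc.coe_zero, Set.Icc.coe_one] using this

end Vale.Agent.P228.Inv
end
end
end

section

section

/-! Label sets of a local action of `ℤ_[p]`: invariant sets on which the residue mod `p` of the
group element is determined by the end points. -/

namespace Vale.Agent.P228.Lab

open Set Topology Metric

set_option linter.unusedSectionVars false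

variable {p : ℕ} [Fact p.Prime]
variable {E : Type*} [NormedAddCommGroup E] [NormedSpace ℝ E]
variable {W : Set E} {a : ℤ_[p] → E → E}

/-- a point fixed by a unit is fixed by everything. -/
theorem fixed_of_unit (act : LocAct p W a) {x : E} (hx : x ∈ W) {u : ℤ_[p]} (hu : IsUnit u)
    (h : a u x = x) (v : ℤ_[p]) : a v x = x := by
  have act' : LocAct p W (fun v => a (u * v)) := by
    refine ⟨fun v x hx => act.maps _ x hx, ?_, ?_, ?_⟩
    · intro x hx
      simpa using act.zero x hx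
    · intro v w x hx
      simp only [mul_add]
      exact act.add _ _ x hx
    · have h1 : ContinuousOn (fun q : ℤ_[p] × E => (u * q.1, q.2)) (univ ×ˢ W) := by fun_prop
      exact act.cont.comp h1 (fun q hq => ⟨trivial, hq.2⟩)
  have h1 := act'.fixed_of_one hx (by simpa only [mul_one] using h)
  obtain ⟨u', rfl⟩ := hu
  have h2 := h1 (↑u'⁻¹ * v)
  simpa using h2

theorem isUnit_of_toZMod_ne {u : ℤ_[p]} (h : PadicInt.toZMod u ≠ 0) : IsUnit u := by
  by_contra hu
  apply h
  have h1 : u ∈ IsLocalRing.maximalIdeal ℤ_[p] := (IsLocalRing.mem_maximalIdeal u).2 hu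
  rwa [← PadicInt.ker_toZMod, RingHom.mem_ker] at h1

/-- the gap at a point which is not fixed. -/
theorem exists_gap (act : LocAct p W a) {x₀ : E} (hx₀ : x₀ ∈ W) (hne : ∃ u, a u x₀ ≠ x₀) :
    ∃ m > 0, ∀ u : ℤ_[p], PadicInt.toZMod u ≠ 0 → 5 * m ≤ dS a (a u x₀) x₀ := by
  have hc : Continuous (fun u : ℤ_[p] => ‖a u x₀ - x₀‖) :=
    ((act.cont_left hx₀).sub continuous_const).norm
  obtain ⟨u₀, hu₀, hmin⟩ := (isCompact_sphere (0 : ℤ_[p]) 1).exists_isMinOn
    ⟨1, by simp only [mem_sphere_iff_norm, sub_zero, norm_one]⟩ hc.continuousOn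
  have hpos : 0 < ‖a u₀ x₀ - x₀‖ := by
    rw [norm_pos_iff, sub_ne_zero]
    intro h
    obtain ⟨u, hu⟩ := hne
    apply hu
    apply fixed_of_unit act hx₀ _ h
    rw [PadicInt.isUnit_iff]
    simpa only [mem_sphere_iff_norm, sub_zero] using hu₀
  refine ⟨‖a u₀ x₀ - x₀‖ / 5, by (clear * - hpos; positivity), fun u hu => ?_⟩
  have h1 : u ∈ sphere (0 : ℤ_[p]) 1 := by
    have := isUnit_of_toZMod_ne hu
    rw [PadicInt.isUnit_iff] at this
    simpa only [mem_sphere_iff_norm, sub_zero] using this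
  have h2 := hmin h1
  simp only [mem_ofPred_eq] at h2
  have h3 := norm_sub_le_dS act (act.maps u x₀ hx₀) hx₀
  (clear hne hc hu₀ hpos; linarith)

/-- the `r`-neighbourhood (in the invariant metric) of the orbit of `x₀`. -/
def orbNbhd (W : Set E) (a : ℤ_[p] → E → E) (x₀ : E) (r : ℝ) : Set E :=
  {y | y ∈ W ∧ ∃ v, dS a (a v x₀) y < r}

open Classical in
/-- the label. -/
noncomputable def labOf (a : ℤ_[p] → E → E) (x₀ : E) (m : ℝ) (y : E) : ZMod p :=
  if h : ∃ v, dS a (a v x₀) y < m then PadicInt.toZMod h.choose else 0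

theorem toZMod_eq_of_close (act : LocAct p W a) {x₀ : E} (hx₀ : x₀ ∈ W) {m : ℝ}
    (hgap : ∀ u : ℤ_[p], PadicInt.toZMod u ≠ 0 → 5 * m ≤ dS a (a u x₀) x₀) {v w : ℤ_[p]}
    (h : dS a (a v x₀) (a w x₀) < 5 * m) : PadicInt.toZMod v = PadicInt.toZMod w := by
  by_contra hne
  have h1 : PadicInt.toZMod (v - w) ≠ 0 := by
    rw [map_sub]
    exact sub_ne_zero.2 hne
  have h2 := hgap _ h1
  have h3 := dS_inv act w (act.maps (v - w) x₀ hx₀) hx₀
  rw [← act.add, add_sub_cancel] at h3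
  · linarith
  · exact hx₀

theorem labOf_eq (act : LocAct p W a) {x₀ : E} (hx₀ : x₀ ∈ W) {m : ℝ}
    (hgap : ∀ u : ℤ_[p], PadicInt.toZMod u ≠ 0 → 5 * m ≤ dS a (a u x₀) x₀) {y : E} (hy : y ∈ W)
    {v : ℤ_[p]} (h : dS a (a v x₀) y < m) : labOf a x₀ m y = PadicInt.toZMod v := by
  have hex : ∃ v, dS a (a v x₀) y < m := ⟨v, h⟩
  have h1 := hex.choose_spec
  unfold labOf
  rw [dif_pos hex]
  apply toZMod_eq_of_close act hx₀ hgap
  have h2 := dS_tri act (act.maps hex.choose x₀ hx₀) hy (act.maps v x₀ hx₀)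
  rw [dS_comm a y] at h2
  have h3 := dS_nonneg a (a v x₀) y
  linarith

/-- finitely many label sets covering a compact set without fixed points. -/
theorem exists_labels (act : LocAct p W a) {K : Set E} (hK : IsCompact K) (hKW : K ⊆ W)
    (hne : ∀ x ∈ K, ∃ u, a u x ≠ x) {κ : ℝ} (hκ : 0 < κ) :
    ∃ (d : ℕ) (U U' : Fin d → Set E) (lab : Fin d → E → ZMod p) (m : ℝ), 0 < m ∧
      (∀ k, U' k ⊆ U k) ∧ (∀ k, U k ⊆ W) ∧
      (∀ k, ∀ x ∈ U k, ∃ x₀ ∈ K, ∃ v, dS a (a v x₀) x < κ) ∧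
      (∀ x ∈ K, ∃ k, x ∈ U' k) ∧
      (∀ k u, ∀ x ∈ U k, a u x ∈ U k ∧ lab k (a u x) = lab k x + PadicInt.toZMod u) ∧
      (∀ k u, ∀ x ∈ U' k, a u x ∈ U' k) ∧
      (∀ k u, ∀ x ∈ U k, ∀ y ∈ U k, dS a (a u x) y ≤ m →
        lab k y = lab k x + PadicInt.toZMod u) ∧
      (∀ k u, ∀ x ∈ U' k, ∀ y ∈ W, dS a (a u x) y ≤ m → y ∈ U k) := by
  classical
  -- the radius at each point
  have hgap : ∀ x ∈ K, ∃ m > 0, m ≤ κ ∧
      ∀ u : ℤ_[p], PadicInt.toZMod u ≠ 0 → 5 * m ≤ dS a (a u x) x := by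
    intro x hx
    obtain ⟨m, hm, h⟩ := exists_gap act (hKW hx) (hne x hx)
    refine ⟨min m κ, lt_min hm hκ, min_le_right _ _, fun u hu => ?_⟩
    have := h u hu
    have h2 := min_le_left m κ
    linarith
  choose! m hm hmκ hmgap using hgap
  -- compactness
  have hnh : ∀ x ∈ K, orbNbhd W a x (m x / 2) ∈ 𝓝[K] x := by
    intro x hx
    obtain ⟨μ, hμ, h⟩ := dS_modulus act hK hKW (δ := m x / 4) (by have := hm x hx; (clear * - this; positivity))
    rw [mem_nhdsWithin]
    refine ⟨ball x μ, isOpen_ball, mem_ball_self hμ, ?_⟩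
    rintro y ⟨hy, hyK⟩
    refine ⟨hKW hyK, 0, ?_⟩
    rw [act.zero x (hKW hx)]
    have h1 := h x hx y hyK (by rw [← dist_eq_norm, dist_comm]; exact hy)
    have := hm x hx
    linarith
  obtain ⟨t, htK, hcov⟩ := hK.elim_nhdsWithin_subcover _ hnh
  -- enumerate
  obtain ⟨d, ⟨e⟩⟩ : ∃ d, Nonempty (Fin d ≃ t) := ⟨t.card, ⟨(t.equivFin).symm⟩⟩
  have heK : ∀ k, (e k : E) ∈ K := fun k => htK _ (e k).2
  -- the common margin
  obtain ⟨m₀, hm₀, hm₀le⟩ : ∃ m₀ > 0, ∀ k, m₀ ≤ m (e k) / 2 := by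
    rcases isEmpty_or_nonempty (Fin d) with hd | hd
    · exact ⟨1, one_pos, fun k => (hd.false k).elim⟩
    · obtain ⟨k₀, hk₀⟩ := Finite.exists_min (fun k => m (e k) / 2)
      refine ⟨m (e k₀) / 2, by have := hm _ (heK k₀); (clear * - this; positivity), hk₀⟩
  refine ⟨d, fun k => orbNbhd W a (e k) (m (e k)), fun k => orbNbhd W a (e k) (m (e k) / 2),
    fun k => labOf a (e k) (m (e k)), m₀, hm₀, ?_, ?_, ?_, ?_, ?_, ?_, ?_, ?_⟩
  · rintro k y ⟨hy, v, hv⟩
    refine ⟨hy, v, hv.trans ?_⟩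
    have := hm _ (heK k)
    linarith only [this]
  · rintro k y ⟨hy, -⟩
    exact hy
  · rintro k y ⟨hy, v, hv⟩
    exact ⟨e k, heK k, v, hv.trans_le (hmκ _ (heK k))⟩
  · intro x hx
    have h1 := hcov hx
    simp only [mem_iUnion, exists_prop] at h1
    obtain ⟨y, hy, hxy⟩ := h1
    refine ⟨e.symm ⟨y, hy⟩, ?_⟩
    simpa only [Equiv.apply_symm_apply] using hxy
  · rintro k u x ⟨hx, v, hv⟩
    have h1 : dS a (a (u + v) (e k)) (a u x) < m (e k) := by
      rw [act.add u v _ (hKW (heK k)), dS_inv act u (act.maps v _ (hKW (heK k))) hx]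
      exact hv
    refine ⟨⟨act.maps u x hx, u + v, h1⟩, ?_⟩
    beta_reduce
    rw [labOf_eq act (hKW (heK k)) (hmgap _ (heK k)) (act.maps u x hx) h1,
      labOf_eq act (hKW (heK k)) (hmgap _ (heK k)) hx hv, map_add, add_comm]
  · rintro k u x ⟨hx, v, hv⟩
    refine ⟨act.maps u x hx, u + v, ?_⟩
    rw [act.add u v _ (hKW (heK k)), dS_inv act u (act.maps v _ (hKW (heK k))) hx]
    exact hv
  · rintro k u x ⟨hx, v, hv⟩ y ⟨hy, w, hw⟩ hxy
    beta_reduce
    rw [labOf_eq act (hKW (heK k)) (hmgap _ (heK k)) hy hw,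
      labOf_eq act (hKW (heK k)) (hmgap _ (heK k)) hx hv, ← map_add]
    apply toZMod_eq_of_close act (hKW (heK k)) (hmgap _ (heK k))
    have hek := hKW (heK k)
    have h1 := dS_tri act (act.maps w _ hek) hy (act.maps (v + u) _ hek)
    have h2 := dS_tri act hy (act.maps u x hx) (act.maps (v + u) _ hek)
    have h3 : dS a (a u x) (a (v + u) (e k)) = dS a (a v (e k)) x := by
      rw [add_comm v u, act.add u v _ hek, dS_inv act u hx (act.maps v _ hek), dS_comm]
    have h2' := dS_comm a y (a u x)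
    have h4 := hm₀le k
    have h5 := hm _ (heK k)
    (clear hK hne κ hκ hm hmκ hmgap hnh hcov h5; linarith)
  · rintro k u x ⟨hx, v, hv⟩ y hy hxy
    have hek := hKW (heK k)
    refine ⟨hy, u + v, ?_⟩
    have h1 := dS_tri act (act.maps (u + v) _ hek) (act.maps u x hx) hy
    have h3 : dS a (a (u + v) (e k)) (a u x) = dS a (a v (e k)) x := by
      rw [act.add u v _ hek, dS_inv act u (act.maps v _ hek) hx]
    have h4 := hm₀le k
    linarith

/-- the displacement function. -/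
noncomputable def disp (a : ℤ_[p] → E → E) (x : E) : ℝ := ⨆ u : ℤ_[p], ‖a u x - x‖

theorem disp_bdd (act : LocAct p W a) {x : E} (hx : x ∈ W) :
    BddAbove (range fun u : ℤ_[p] => ‖a u x - x‖) := by
  have h := isCompact_univ.bddAbove_image (f := fun u : ℤ_[p] => ‖a u x - x‖)
    ((act.cont_left hx).sub continuous_const).norm.continuousOn
  rwa [image_univ] at h

theorem le_disp (act : LocAct p W a) {x : E} (hx : x ∈ W) (u : ℤ_[p]) :
    ‖a u x - x‖ ≤ disp a x :=
  le_ciSup (disp_bdd act hx) u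

theorem disp_le {x : E} {C : ℝ} (h : ∀ u, ‖a u x - x‖ ≤ C) : disp a x ≤ C := ciSup_le h

theorem disp_sub_le (act : LocAct p W a) {x y : E} (hx : x ∈ W) (hy : y ∈ W) :
    disp a x ≤ disp a y + 2 * dS a x y := by
  apply disp_le
  intro u
  have h1 := le_dS act hx hy u
  have h2 := le_disp act hy u
  have h3 := norm_sub_le_dS act hx hy
  have h4 : a u x - x = (a u x - a u y) + (a u y - y) - (x - y) := by abel
  rw [h4]
  have h5 := norm_sub_le ((a u x - a u y) + (a u y - y)) (x - y)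
  have h6 := norm_add_le (a u x - a u y) (a u y - y)
  linarith

theorem disp_contOn (act : LocAct p W a) {K : Set E} (hK : IsCompact K) (hKW : K ⊆ W) :
    ContinuousOn (disp a) K := by
  rw [Metric.continuousOn_iff]
  intro x hx ε hε
  obtain ⟨μ, hμ, h⟩ := dS_modulus act hK hKW (δ := ε / 4) (by positivity)
  refine ⟨μ, hμ, fun y hy hyx => ?_⟩
  have h1 := h y hy x hx (by rwa [← dist_eq_norm])
  have h2 := disp_sub_le act (hKW hx) (hKW hy)
  have h3 := disp_sub_le act (hKW hy) (hKW hx)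
  rw [dS_comm] at h2
  rw [Real.dist_eq, abs_lt]
  constructor <;> linarith

/-- The geometric input of the locality argument: constants `r₀`, `η` with `C η < r₀` and
finitely many label sets which cover the points of the ball `‖x‖ ≤ R` which are not (almost fixed
and outside of the ball of radius `r₀`). -/
theorem exists_geometry [ProperSpace E] (act : LocAct p W a) {R : ℝ} (hR : 0 ≤ R)
    (hball : closedBall (0 : E) R ⊆ W) (hne : ∃ u, a u 0 ≠ 0) {C κ : ℝ} (hC : 0 ≤ C) (hκ : 0 < κ) :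
    ∃ r₀ > 0, r₀ ≤ κ ∧ ∃ η > 0, C * η < r₀ ∧
    ∃ (d : ℕ) (U U' : Fin d → Set E) (lab : Fin d → E → ZMod p) (m : ℝ), 0 < m ∧
      (∀ x ∈ closedBall (0 : E) R, (∃ k, x ∈ U' k) ∨ (r₀ < ‖x‖ ∧ ∀ u, ‖a u x - x‖ < η)) ∧
      (∀ k, U' k ⊆ U k) ∧ (∀ k, U k ⊆ W) ∧
      (∀ k, ∀ x ∈ U k, ∃ x₀ ∈ closedBall (0 : E) R, ∃ v, dS a (a v x₀) x < κ) ∧
      (∀ k u, ∀ x ∈ U k, a u x ∈ U k ∧ lab k (a u x) = lab k x + PadicInt.toZMod u) ∧
      (∀ k u, ∀ x ∈ U' k, a u x ∈ U' k) ∧
      (∀ k u, ∀ x ∈ U k, ∀ y ∈ U k, dS a (a u x) y ≤ m →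
        lab k y = lab k x + PadicInt.toZMod u) ∧
      (∀ k u, ∀ x ∈ U' k, ∀ y ∈ W, dS a (a u x) y ≤ m → y ∈ U k) := by
  have hB : IsCompact (closedBall (0 : E) R) := isCompact_closedBall 0 R
  have h0B : (0 : E) ∈ closedBall (0 : E) R := by simpa only [mem_closedBall, dist_self] using hR
  have hdc := disp_contOn act hB hball
  -- the displacement is positive near `0`
  have hd0 : 0 < disp a 0 := by
    obtain ⟨u, hu⟩ := hne
    have h1 := le_disp act (hball h0B) u
    have h2 : 0 < ‖a u 0 - 0‖ := by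
      rw [norm_pos_iff, sub_ne_zero]; exact hu
    linarith
  obtain ⟨r₁, hr₁, hr₁d⟩ : ∃ r₁ > 0, ∀ x ∈ closedBall (0 : E) R, ‖x‖ < r₁ → 0 < disp a x := by
    have h1 := Metric.continuousOn_iff.1 hdc 0 h0B (disp a 0) hd0
    obtain ⟨r, hr, h⟩ := h1
    refine ⟨r, hr, fun x hx hxr => ?_⟩
    have h2 := h x hx (by simpa using hxr)
    rw [Real.dist_eq, abs_lt] at h2
    linarith
  set r₀ := min (r₁ / 2) κ with hr₀
  have hr₀pos : 0 < r₀ := lt_min (by (clear * - hr₁; positivity)) hκ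
  set η := r₀ / (2 * (C + 1)) with hη
  have hηpos : 0 < η := by positivity
  have hCη : C * η < r₀ := by
    rw [hη, mul_div_assoc', div_lt_iff₀ (by positivity)]
    nlinarith only [hr₀pos, hC]
  -- the compact set
  set K : Set E := {x | x ∈ closedBall (0 : E) R ∧ (‖x‖ ≤ r₀ ∨ η ≤ disp a x)} with hKdef
  have hKB : K ⊆ closedBall (0 : E) R := fun x hx => hx.1
  have hKc : IsCompact K := by
    have h1 : K = (closedBall (0 : E) R ∩ closedBall (0 : E) r₀) ∪
        (closedBall (0 : E) R ∩ disp a ⁻¹' (Ici η)) := by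
      ext x
      simp only [hKdef, mem_ofPred_eq, mem_union, mem_inter_iff, mem_preimage, mem_Ici,
        mem_closedBall_zero_iff]
      tauto
    rw [h1]
    apply IsCompact.union
    · exact hB.inter_right isClosed_closedBall
    · exact hB.of_isClosed_subset (hdc.preimage_isClosed_of_isClosed isClosed_closedBall isClosed_Ici)
        inter_subset_left
  have hKne : ∀ x ∈ K, ∃ u, a u x ≠ x := by
    intro x hx
    by_contra hcon
    push Not at hcon
    have h1 : disp a x ≤ 0 := disp_le (fun u => by rw [hcon u, sub_self, norm_zero])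
    rcases hx.2 with h | h
    · have h2 : ‖x‖ < r₁ := by
        have := min_le_left (r₁ / 2) κ
        linarith only [hr₀pos, h, this]
      have := hr₁d x hx.1 h2
      linarith
    · linarith
  obtain ⟨d, U, U', lab, m, hm, h1, h2, h3, h4, h5, h6, h7, h8⟩ :=
    exists_labels act hKc (hKB.trans hball) hKne hκ
  refine ⟨r₀, hr₀pos, min_le_right _ _, η, hηpos, hCη, d, U, U', lab, m, hm, ?_, h1, h2, ?_, h5, h6,
    h7, h8⟩
  · intro x hx
    by_cases hxK : x ∈ K
    · exact Or.inl (h4 x hxK)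
    · right
      have h9 : ¬ (‖x‖ ≤ r₀ ∨ η ≤ disp a x) := fun h => hxK ⟨hx, h⟩
      push Not at h9
      exact ⟨h9.1, fun u => (le_disp act (hball hx) u).trans_lt h9.2⟩
  · intro k x hx
    obtain ⟨x₀, hx₀, v, hv⟩ := h3 k x hx
    exact ⟨x₀, hKB hx₀, v, hv⟩

end Vale.Agent.P228.Lab
end
end

section

section

/-! Chains of fine steps stay near one orbit. -/

namespace Vale.Agent.P228.Geo

open Set Metric Topology Vale.Agent.P228.Lab

variable {p : ℕ} [Fact p.Prime] {n : ℕ}

theorem Close.refl (r : ℕ) (v : Fin n → ℤ) : Close r v v := by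
  intro i; simp only [sub_self, abs_zero, Nat.cast_nonneg]

theorem InBox.mono {r s : ℕ} {v : Fin n → ℤ} (h : InBox r v) (hrs : r ≤ s) : InBox s v := by
  intro i
  exact (h i).trans (by exact_mod_cast hrs)

theorem InBox.of_close {r s : ℕ} {v w : Fin n → ℤ} (h : InBox r v) (h' : Close s w v) :
    InBox (r + s) w := by
  intro i
  have h1 := h i
  have h2 := h' i
  push_cast
  calc |w i| = |v i + (w i - v i)| := by ring_nf
    _ ≤ |v i| + |w i - v i| := abs_add_le _ _
    _ ≤ _ := add_le_add h1 h2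

theorem toZMod_eq_cast {k : ℕ} (hk : 1 ≤ k) (u : ℤ_[p]) :
    (ZMod.cast (PadicInt.toZModPow k u) : ZMod p) = PadicInt.toZMod u := by
  have hdvd : p ∣ p ^ k := dvd_pow_self p (by omega)
  have h1 : ((ZMod.castHom hdvd (ZMod p)).comp (PadicInt.toZModPow k)) u = PadicInt.toZMod u := by
    have h2 : u - ((PadicInt.toZMod u).val : ℤ_[p]) ∈ IsLocalRing.maximalIdeal ℤ_[p] := by
      rw [← PadicInt.ker_toZMod, RingHom.mem_ker, map_sub, map_natCast, ZMod.natCast_zmod_val,
        sub_self]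
    rw [PadicInt.maximalIdeal_eq_span_p, Ideal.mem_span_singleton] at h2
    obtain ⟨w, hw⟩ := h2
    have h3 : u = ((PadicInt.toZMod u).val : ℤ_[p]) + (p : ℤ_[p]) * w := by
      rw [← hw]; ring
    conv_lhs => rw [h3]
    rw [map_add, map_mul, map_natCast, map_natCast, ZMod.natCast_self, zero_mul, add_zero,
      ZMod.natCast_zmod_val]
  simpa only [RingHom.coe_comp, Function.comp_apply, ZMod.castHom_apply] using h1

variable {W : Set (EuclideanSpace ℝ (Fin n))}
  {a : ℤ_[p] → EuclideanSpace ℝ (Fin n) → EuclideanSpace ℝ (Fin n)}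

/-- chains of at most `M` fine steps starting in the window stay near one orbit. -/
theorem chain_lemma (act : LocAct p W a)
    (hB : closedBall (0 : EuclideanSpace ℝ (Fin n)) 1 ⊆ W) {c : ℝ} (hc : c ≤ 1 / 8)
    (hd : ∀ u, ∀ x ∈ closedBall (0 : EuclideanSpace ℝ (Fin n)) 1, ‖a u x - x‖ ≤ c)
    {k N K₀ L : ℕ} (hN : 0 < N) (D : Maps n (p ^ k) K₀ L) (hF : D.F = Fd a k N)
    {Rin Win : ℕ} {δ : ℝ} (hδ : 0 ≤ δ)
    (hRin : ∀ v : Fin n → ℤ, InBox (Rin + K₀ * D.e) v → ‖pt N v‖ ≤ 1 / 2)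
    (hfine : ∀ x ∈ closedBall (0 : EuclideanSpace ℝ (Fin n)) 1, ∀ y ∈ closedBall
      (0 : EuclideanSpace ℝ (Fin n)) 1,
      ‖x - y‖ ≤ n * (((K₀ * D.Rl L : ℕ) : ℝ) / N) + n / N → dS a x y ≤ δ / 2)
    (hsmall : ∀ u : ℤ_[p], PadicInt.toZModPow k u = 0 →
      ∀ x ∈ closedBall (0 : EuclideanSpace ℝ (Fin n)) 1, dS a (a u x) x ≤ δ / 2)
    {M : ℕ} (hM : (N : ℝ) * (M * δ + c) ≤ 2 * D.e) (hWin : Win + 2 * D.e ≤ Rin)
    {g : ZMod (p ^ k)} {r : ℕ} {x y : Fin n → ℤ} (hr : r ≤ M) (h : D.Near Rin g r x y)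
    (hy : InBox Win y) :
    InBox (Rin + K₀ * D.e) x ∧ Close (2 * D.e) x y ∧
      ∃ u : ℤ_[p], PadicInt.toZModPow k u = g ∧ dS a (pt N x) (a u (pt N y)) ≤ r * δ := by
  have hN' : (0 : ℝ) < N := by exact_mod_cast hN
  have hstep : ∀ x y : Fin n → ℤ, InBox (Rin + K₀ * D.e) x → InBox (Rin + K₀ * D.e) y →
      ∀ g : ZMod (p ^ k), Close (K₀ * D.Rl L) x (D.F g y) →
        dS a (pt N x) (a (rep g) (pt N y)) ≤ δ / 2 := by
    intro x y hx hy g hxy
    have hx1 := hRin x hx
    have hy1 := hRin y hy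
    have hyB : pt N y ∈ closedBall (0 : EuclideanSpace ℝ (Fin n)) 1 := by
      simp only [mem_closedBall, dist_zero_right]; linarith only [hy1]
    have e1 : glob a (rep g) (pt N y) = a (rep g) (pt N y) := glob_eq a _ (by linarith only [hy1])
    have hgy : ‖a (rep g) (pt N y)‖ ≤ 3 / 4 := by
      have h1 := hd (rep g) _ hyB
      have h2 : ‖a (rep g) (pt N y)‖ ≤ ‖a (rep g) (pt N y) - pt N y‖ + ‖pt N y‖ := by
        simpa only [sub_add_cancel] using norm_add_le (a (rep g) (pt N y) - pt N y) (pt N y)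
      linarith
    apply hfine _ (by simp only [mem_closedBall, dist_zero_right]; linarith only [hx1]) _
      (by simp only [mem_closedBall, dist_zero_right]; linarith)
    have h1 := norm_pt_sub_le' (N := N) hxy
    have h2 : D.F g y = rnd N (a (rep g) (pt N y)) := by
      rw [hF]; unfold Fd; rw [e1]
    have h3 := norm_pt_rnd_sub_le hN (a (rep g) (pt N y))
    rw [← h2] at h3
    calc _ ≤ ‖pt N x - pt N (D.F g y)‖ + ‖pt N (D.F g y) - a (rep g) (pt N y)‖ :=
          norm_sub_le_norm_sub_add_norm_sub _ _ _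
      _ ≤ _ := add_le_add h1 h3
  induction h with
  | zero x =>
    refine ⟨hy.mono (by (clear * - hWin; omega)), Close.refl _ _, 0, by simp only [map_zero], ?_⟩
    have hyN := hRin x (hy.mono (by omega))
    rw [act.zero _ (hB (by simp only [mem_closedBall, dist_zero_right]; linarith only [hyN])), dS_self]
    simp
  | @step g h r x x1 y hst _ ih =>
    obtain ⟨hx1, hx1y, v, hv, hvd⟩ := ih (by omega) hy
    have hx1in : InBox Rin x1 := (hy.of_close hx1y).mono hWin
    have hxin : InBox (Rin + K₀ * D.e) x := hx1in.of_close hst.1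
    have hyin : InBox (Rin + K₀ * D.e) y := hy.mono (by omega)
    have hBx : pt N x ∈ closedBall (0 : EuclideanSpace ℝ (Fin n)) 1 := by
      have := hRin x hxin
      simp only [mem_closedBall, dist_zero_right]; linarith only [this]
    have hBx1 : pt N x1 ∈ closedBall (0 : EuclideanSpace ℝ (Fin n)) 1 := by
      have := hRin x1 hx1
      simp only [mem_closedBall, dist_zero_right]; linarith only [this]
    have hBy : pt N y ∈ closedBall (0 : EuclideanSpace ℝ (Fin n)) 1 := by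
      have := hRin y hyin
      simp only [mem_closedBall, dist_zero_right]; linarith only [this]
    have hone : dS a (pt N x) (a (rep g) (pt N x1)) ≤ δ := by
      rcases hst.2 (Or.inr hx1in) with h1 | h1
      · have := hstep x x1 hxin hx1 g h1
        linarith
      · have h2 := hstep x1 x hx1 hxin (-g) h1
        have h3 : dS a (a (rep g) (pt N x1)) (a (rep g) (a (rep (-g)) (pt N x))) ≤ δ / 2 := by
          rw [dS_inv act _ (hB hBx1) (act.maps _ _ (hB hBx))]
          exact h2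
        rw [← act.add _ _ _ (hB hBx)] at h3
        have h4 := hsmall (rep g + rep (-g)) (by
          rw [map_add, toZModPow_rep, toZModPow_rep, add_neg_cancel]) _ hBx
        have h5 := dS_tri act (hB hBx) (act.maps (rep g + rep (-g)) _ (hB hBx))
          (act.maps (rep g) _ (hB hBx1))
        rw [dS_comm a (pt N x) (a (rep g + rep (-g)) (pt N x)),
          dS_comm a (a (rep g + rep (-g)) (pt N x)) (a (rep g) (pt N x1))] at h5
        linarith
    have hdist : dS a (pt N x) (a (rep g + v) (pt N y)) ≤ ((r + 1 : ℕ) : ℝ) * δ := by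
      have h5 := dS_tri act (hB hBx) (act.maps (rep g) _ (hB hBx1))
        (act.maps (rep g + v) _ (hB hBy))
      have h6 : dS a (a (rep g) (pt N x1)) (a (rep g + v) (pt N y)) =
          dS a (pt N x1) (a v (pt N y)) := by
        rw [act.add _ _ _ (hB hBy), dS_inv act _ (hB hBx1) (act.maps _ _ (hB hBy))]
      rw [h6] at h5
      push_cast
      (clear M hM hN' ih hr hv hyin hBy h6; linarith)
    refine ⟨hxin, ?_, rep g + v, ?_, hdist⟩
    · apply close_of_real
      intro i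
      have h7 := norm_sub_le_dS act (hB hBx) (act.maps (rep g + v) _ (hB hBy))
      have h8 := hd (rep g + v) _ hBy
      have h9 : ‖pt N x - pt N y‖ ≤ M * δ + c := by
        have h10 : ((r + 1 : ℕ) : ℝ) * δ ≤ M * δ :=
          mul_le_mul_of_nonneg_right (by exact_mod_cast hr) hδ
        have := norm_sub_le_norm_sub_add_norm_sub (pt N x) (a (rep g + v) (pt N y)) (pt N y)
        (clear hM hN' ih hv i; linarith)
      rcases abs_pt_sub (N := N) x y i with h10 | h10
      · calc _ ≤ _ := h10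
          _ ≤ (N : ℝ) * (M * δ + c) := mul_le_mul_of_nonneg_left h9 hN'.le
          _ ≤ 2 * D.e := hM
          _ = ((2 * D.e : ℕ) : ℝ) := by push_cast; ring
      · (clear * - hN h10; omega)
    · rw [map_add, toZModPow_rep, hv]

end Vale.Agent.P228.Geo
end
end

section

section

section

/-! Countable unions of sets of zero content. -/

namespace Vale.Agent.P228

open Set Topology MeasureTheory Metric
open scoped ENNReal

/-- `A` is covered by countably many sets of zero `r`-content for `D`. -/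
def SNull {X : Type*} (r : ℝ) (D : X → X → ℝ) (A : Set X) : Prop :=
  ∃ B : ℕ → Set X, A ⊆ ⋃ j, B j ∧ ∀ j, NullContent r D (B j)

theorem NullContent.sNull {X : Type*} {r : ℝ} {D : X → X → ℝ} {A : Set X}
    (h : NullContent r D A) : SNull r D A :=
  ⟨fun _ => A, subset_iUnion_of_subset 0 Subset.rfl, fun _ => h⟩

theorem SNull.mono {X : Type*} {r : ℝ} {D : X → X → ℝ} {A A' : Set X}
    (h : SNull r D A) (hA : A' ⊆ A) : SNull r D A' := by
  obtain ⟨B, hB, hN⟩ := h
  exact ⟨B, hA.trans hB, hN⟩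

theorem SNull.iUnion {X ι : Type*} [Countable ι] {r : ℝ} {D : X → X → ℝ} {A : ι → Set X}
    (h : ∀ i, SNull r D (A i)) : SNull r D (⋃ i, A i) := by
  rcases isEmpty_or_nonempty ι with hι | hι
  · refine ⟨fun _ => ∅, by simp, fun _ => ?_⟩
    intro ε hε
    exact ⟨0, fun j => j.elim0, fun j => j.elim0, by simp, fun j => j.elim0, fun j => j.elim0,
      by simpa only [Finset.univ_eq_empty, Finset.sum_empty] using hε.le⟩
  choose B hB hN using h
  obtain ⟨f, hf⟩ := exists_surjective_nat (ι × ℕ)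
  refine ⟨fun j => B (f j).1 (f j).2, ?_, fun j => hN _ _⟩
  intro x hx
  obtain ⟨i, hi⟩ := mem_iUnion.1 hx
  obtain ⟨k, hk⟩ := mem_iUnion.1 (hB i hi)
  obtain ⟨j, hj⟩ := hf (i, k)
  exact mem_iUnion.2 ⟨j, by rw [hj]; exact hk⟩

theorem SNull.image {X X' : Type*} {r C : ℝ} {D : X → X → ℝ} {D' : X' → X' → ℝ} {A : Set X}
    {B : Set X'} (h : SNull r D A) (g : X → X') (hB : B ⊆ g '' A) (hC : 0 ≤ C)
    (hD : ∀ x ∈ A, ∀ y ∈ A, D' (g x) (g y) ≤ C * D x y) : SNull r D' B := by
  obtain ⟨S, hS, hN⟩ := h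
  refine ⟨fun j => g '' (S j ∩ A), ?_, fun j => ?_⟩
  · intro y hy
    obtain ⟨x, hx, rfl⟩ := hB hy
    obtain ⟨j, hj⟩ := mem_iUnion.1 (hS hx)
    exact mem_iUnion.2 ⟨j, x, ⟨hj, hx⟩, rfl⟩
  · exact ((hN j).mono inter_subset_left).image g Subset.rfl hC
      (fun x hx y hy => hD x hx.2 y hy.2)

theorem SNull.measure_image_eq_zero {X V : Type*} [NormedAddCommGroup V] [NormedSpace ℝ V]
    [FiniteDimensional ℝ V] [MeasurableSpace V] [BorelSpace V] (μ : Measure V)
    [μ.IsAddHaarMeasure] {D : X → X → ℝ} {A : Set X}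
    (h : SNull (Module.finrank ℝ V : ℝ) D A) (f : X → V) {C : ℝ} (hC : 0 ≤ C)
    (hf : ∀ x ∈ A, ∀ y ∈ A, ‖f x - f y‖ ≤ C * D x y) : μ (f '' A) = 0 := by
  obtain ⟨S, hS, hN⟩ := h
  have h1 : f '' A ⊆ ⋃ j, f '' (S j ∩ A) := by
    rintro _ ⟨x, hx, rfl⟩
    obtain ⟨j, hj⟩ := mem_iUnion.1 (hS hx)
    exact mem_iUnion.2 ⟨j, x, ⟨hj, hx⟩, rfl⟩
  refine measure_mono_null h1 ?_
  rw [measure_iUnion_null_iff]
  intro j
  exact ((hN j).mono inter_subset_left).measure_image_eq_zero μ f hC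
    (fun x hx y hy => hf x hx.2 y hy.2)

end Vale.Agent.P228
end
end
end

section

section

section

namespace Vale.Agent.P228

open Set Topology MeasureTheory Metric
open scoped ENNReal

attribute [local instance] msZ bsZ

set_option linter.unusedSectionVars false

variable {p : ℕ} [Fact p.Prime]

section

variable {M E : Type*} [TopologicalSpace M] [PseudoMetricSpace E]
  [AddAction ℤ_[p] M] [ContinuousVAdd ℤ_[p] M]

theorem chartMap_contOn (e : OpenPartialHomeomorph M E) {g : ℤ_[p] → ℤ_[p]} (hg : Continuous g)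
    {B : Set E} (hB : B ⊆ e.target) (hBs : ∀ u, ∀ x ∈ B, g u +ᵥ e.symm x ∈ e.source) :
    ContinuousOn (Function.uncurry fun u x => chartMap e (g u) x) (univ ×ˢ B) := by
  have h1 : ContinuousOn (fun z : ℤ_[p] × E => e.symm z.2) (univ ×ˢ B) :=
    e.continuousOn_symm.comp continuousOn_snd (fun z hz => hB hz.2)
  have h2 : ContinuousOn (fun z : ℤ_[p] × E => (g z.1) +ᵥ e.symm z.2) (univ ×ˢ B) := by
    have h3 : ContinuousOn (fun z : ℤ_[p] × E => g z.1) (univ ×ˢ B) :=
      (hg.comp continuous_fst).continuousOn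
    exact h3.vadd h1
  exact e.continuousOn.comp h2 (fun z hz => hBs z.1 z.2 hz.2)

theorem chartMap_contAt (e : OpenPartialHomeomorph M E) {g : ℤ_[p]} {x : E} (hx : x ∈ e.target)
    (hgx : g +ᵥ e.symm x ∈ e.source) :
    ContinuousAt (fun z : ℤ_[p] × E => chartMap e z.1 z.2) (g, x) := by
  have h1 : ContinuousAt (fun z : ℤ_[p] × E => e.symm z.2) (g, x) :=
    (e.continuousAt_symm hx).comp (f := fun z : ℤ_[p] × E => z.2) (x := (g, x)) continuousAt_snd
  have h2 : ContinuousAt (fun z : ℤ_[p] × E => z.1 +ᵥ e.symm z.2) (g, x) :=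
    continuousAt_fst.vadd h1
  exact (e.continuousAt hgx).comp (f := fun z : ℤ_[p] × E => z.1 +ᵥ e.symm z.2) (x := (g, x)) h2

theorem eventually_source (e : OpenPartialHomeomorph M E) {g : ℤ_[p]} {x : E} (hx : x ∈ e.target)
    (hgx : g +ᵥ e.symm x ∈ e.source) :
    {z : ℤ_[p] × E | z.1 +ᵥ e.symm z.2 ∈ e.source} ∈ 𝓝 (g, x) := by
  have h1 : ContinuousAt (fun z : ℤ_[p] × E => e.symm z.2) (g, x) :=
    (e.continuousAt_symm hx).comp (f := fun z : ℤ_[p] × E => z.2) (x := (g, x)) continuousAt_snd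
  have h2 : ContinuousAt (fun z : ℤ_[p] × E => z.1 +ᵥ e.symm z.2) (g, x) :=
    continuousAt_fst.vadd h1
  exact h2.preimage_mem_nhds (e.open_source.mem_nhds hgx)

/-- small subgroups act in the chart with small displacement -/
theorem exists_small_disp (e : OpenPartialHomeomorph M E) {C : Set E} (hC : IsCompact C)
    (hCt : C ⊆ e.target) {δ : ℝ} (hδ : 0 < δ) :
    ∃ k₀ : ℕ, ∀ k ≥ k₀, ∀ u : ℤ_[p], ∀ x ∈ C, ((p : ℤ_[p]) ^ k * u) +ᵥ e.symm x ∈ e.source ∧
      dist (chartAct e k u x) x < δ := by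
  apply exists_pow_tube hC (O := {z : ℤ_[p] × E | z.1 +ᵥ e.symm z.2 ∈ e.source ∧
    dist (chartMap e z.1 z.2) z.2 < δ})
  intro x hx
  have hx0 : (0 : ℤ_[p]) +ᵥ e.symm x ∈ e.source := by
    rw [zero_vadd]; exact e.map_target (hCt hx)
  refine Filter.inter_mem (eventually_source e (hCt hx) hx0) ?_
  have h1 := chartMap_contAt e (hCt hx) hx0
  have h2 : ContinuousAt (fun z : ℤ_[p] × E => dist (chartMap e z.1 z.2) z.2) (0, x) :=
    h1.dist continuousAt_snd
  have h3 : dist (chartMap e (0 : ℤ_[p]) x) x < δ := by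
    simp only [chartMap, zero_vadd, e.right_inv (hCt hx), dist_self]; exact hδ
  exact h2.preimage_mem_nhds (Iio_mem_nhds h3)

end

variable {n : ℕ} {M : Type*} [TopologicalSpace M] [AddAction ℤ_[p] M] [ContinuousVAdd ℤ_[p] M]

end Vale.Agent.P228
end
end
end

section

section

section

namespace Vale.Agent.P228

open Set Topology MeasureTheory Metric
open scoped ENNReal

attribute [local instance] msZ bsZ

set_option linter.unusedSectionVars false

variable {p : ℕ} [Fact p.Prime]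
variable {E : Type*} [NormedAddCommGroup E] [NormedSpace ℝ E]

/-- distance from the orbit of `x` to the point `z`. -/
noncomputable def odist (a : ℤ_[p] → E → E) (z x : E) : ℝ := ⨅ v : ℤ_[p], dist1 a (a v x) z

variable {W : Set E} {a : ℤ_[p] → E → E}

theorem odist_bdd (a : ℤ_[p] → E → E) (z x : E) :
    BddBelow (range fun v : ℤ_[p] => dist1 a (a v x) z) :=
  ⟨0, by rintro _ ⟨v, rfl⟩; exact dist1_nonneg _ _ _⟩

theorem odist_le (a : ℤ_[p] → E → E) (z x : E) (v : ℤ_[p]) : odist a z x ≤ dist1 a (a v x) z :=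
  ciInf_le (odist_bdd a z x) v

theorem odist_le_self (act : LocAct p W a) (z : E) {x : E} (hx : x ∈ W) :
    odist a z x ≤ dist1 a x z := by
  have := odist_le a z x 0
  rwa [act.zero x hx] at this

theorem odist_sub_le (act : LocAct p W a) {x y z : E} (hx : x ∈ W) (hy : y ∈ W) (hz : z ∈ W) :
    odist a z x - odist a z y ≤ dist1 a x y := by
  have h : odist a z x - dist1 a x y ≤ odist a z y := by
    apply le_ciInf
    intro v
    have h1 := odist_le a z x v
    have h2 := dist1_tri act (act.maps v x hx) (act.maps v y hy) hz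
    rw [dist1_inv act v hx hy] at h2
    linarith
  linarith

theorem abs_odist_sub_le (act : LocAct p W a) {x y z : E} (hx : x ∈ W) (hy : y ∈ W)
    (hz : z ∈ W) : |odist a z x - odist a z y| ≤ dist1 a x y := by
  rw [abs_le]
  constructor
  · have := odist_sub_le act hy hx hz
    rw [dist1_comm] at this
    linarith
  · exact odist_sub_le act hx hy hz

theorem odist_inv (act : LocAct p W a) (w : ℤ_[p]) {x z : E} (hx : x ∈ W) :
    odist a z (a w x) = odist a z x := by
  unfold odist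
  apply le_antisymm
  · apply le_ciInf
    intro v
    have := odist_le a z (a w x) (v - w)
    rw [← act.add (v - w) w x hx, sub_add_cancel] at this
    exact this
  · apply le_ciInf
    intro v
    have := odist_le a z x (v + w)
    rw [act.add v w x hx] at this
    exact this

theorem odist_contOn (act : LocAct p W a) {z : E} (hz : z ∈ W) : ContinuousOn (odist a z) W := by
  intro x hx
  rw [ContinuousWithinAt, tendsto_iff_dist_tendsto_zero]
  have h1 : Filter.Tendsto (fun y => dist1 a y x) (𝓝[W] x) (𝓝 0) := by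
    have h2 : ContinuousWithinAt (fun z : E × E => dist1 a z.1 z.2) (W ×ˢ W) (x, x) :=
      dist1_contOn act (x, x) ⟨hx, hx⟩
    have h3 : ContinuousWithinAt (fun y : E => (y, x)) W x := by (clear * -; fun_prop)
    have h4 := ContinuousWithinAt.comp (f := fun y : E => (y, x))
      (g := fun z : E × E => dist1 a z.1 z.2) (x := x) (t := W ×ˢ W) (s := W) h2 h3
      (fun y hy => ⟨hy, hx⟩)
    have h5 : Filter.Tendsto (fun y => dist1 a y x) (𝓝[W] x) (𝓝 (dist1 a x x)) := h4
    rwa [dist1_self] at h5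
  refine squeeze_zero' (Filter.Eventually.of_forall fun _ => dist_nonneg) ?_ h1
  filter_upwards [self_mem_nhdsWithin] with y hy
  rw [Real.dist_eq]
  exact abs_odist_sub_le act hy hx hz

/-- the functions `odist a (xs k)` separate orbits. -/
theorem odist_sep (act : LocAct p W a) {xs : ℕ → E} (hxs : ∀ k, xs k ∈ W)
    (hd : ∀ y ∈ W, ∀ ε > 0, ∃ k, dist1 a y (xs k) < ε) {x y : E} (hx : x ∈ W) (hy : y ∈ W)
    (hne : ∀ v, a v x ≠ y) : ∃ k, odist a (xs k) x ≠ odist a (xs k) y := by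
  have hcont : Continuous (fun v : ℤ_[p] => dist1 a (a v x) y) := by
    have h1 : Continuous (fun v : ℤ_[p] => (a v x, y)) := (act.cont_left hx).prodMk continuous_const
    exact (dist1_contOn act).comp_continuous h1 (fun v => ⟨act.maps v x hx, hy⟩)
  obtain ⟨v₀, -, hv₀⟩ := isCompact_univ.exists_isMinOn (univ_nonempty (α := ℤ_[p]))
    hcont.continuousOn
  have hm : 0 < dist1 a (a v₀ x) y := by
    rcases (dist1_nonneg a (a v₀ x) y).lt_or_eq with h | h
    · exact h
    · exact absurd (eq_of_dist1_eq_zero act (act.maps v₀ x hx) hy h.symm) (hne v₀)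
  obtain ⟨k, hk⟩ := hd y hy (dist1 a (a v₀ x) y / 2) (by (clear xs hxs hd hcont hv₀; linarith))
  refine ⟨k, ?_⟩
  have h1 : odist a (xs k) y < dist1 a (a v₀ x) y / 2 := (odist_le_self act _ hy).trans_lt hk
  have h2 : dist1 a (a v₀ x) y / 2 ≤ odist a (xs k) x := by
    apply le_ciInf
    intro v
    have h3 : dist1 a (a v₀ x) y ≤ dist1 a (a v x) y := hv₀ (mem_univ v)
    have h4 := dist1_tri act (act.maps v x hx) (hxs k) hy
    rw [dist1_comm a (xs k) y] at h4
    linarith
  linarith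

/-- existence of a dense sequence. -/
theorem exists_dense_seq_dist1 [FiniteDimensional ℝ E] (act : LocAct p W a) (hne : W.Nonempty) :
    ∃ xs : ℕ → E, (∀ k, xs k ∈ W) ∧ ∀ y ∈ W, ∀ ε > 0, ∃ k, dist1 a y (xs k) < ε := by
  have : Nonempty W := hne.to_subtype
  have : SecondCountableTopology E := by
    have := FiniteDimensional.proper_real E
    infer_instance
  obtain ⟨s, hs⟩ := TopologicalSpace.exists_dense_seq W
  refine ⟨fun k => s k, fun k => (s k).2, ?_⟩
  intro y hy ε hε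
  have h1 : Continuous (fun z : W => dist1 a y z) := by
    have h2 : Continuous (fun z : W => (y, (z : E))) := by fun_prop
    exact (dist1_contOn act).comp_continuous h2 (fun z => ⟨hy, z.2⟩)
  have h3 : IsOpen {z : W | dist1 a y z < ε} := isOpen_lt h1 continuous_const
  have h4 : ({z : W | dist1 a y z < ε}).Nonempty := ⟨⟨y, hy⟩, by
    simp only [mem_ofPred_eq, dist1_self]; exact hε⟩
  obtain ⟨k, hk⟩ := hs.exists_mem_open h3 h4
  exact ⟨k, hk⟩

end Vale.Agent.P228
end
end
end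

section

section

end
end

section

section

section

namespace Vale.Agent.P228

open Set Topology MeasureTheory Metric
open scoped ENNReal

variable {p : ℕ} [Fact p.Prime]
variable {n : ℕ} {M : Type*} [TopologicalSpace M] [AddAction ℤ_[p] M] [ContinuousVAdd ℤ_[p] M]

theorem chartMap_eventually_contAt (e : OpenPartialHomeomorph M (EuclideanSpace ℝ (Fin n)))
    {g : ℤ_[p]} {x : M} (hx : x ∈ e.source) (hgx : g +ᵥ x ∈ e.source) :
    ∀ᶠ z in 𝓝 (e x), ContinuousAt (chartMap e g) z := by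
  have hx' : e x ∈ e.target := e.map_source hx
  have hgx' : g +ᵥ e.symm (e x) ∈ e.source := by rwa [e.left_inv hx]
  have h1 := eventually_source e hx' hgx'
  have h2 : ContinuousAt (fun z : EuclideanSpace ℝ (Fin n) => (g, z)) (e x) := by fun_prop
  have h3 := h2.preimage_mem_nhds h1
  filter_upwards [h3, e.open_target.mem_nhds hx'] with z hz hzt
  have h4 := chartMap_contAt e hzt hz
  exact h4.comp (f := fun z : EuclideanSpace ℝ (Fin n) => (g, z)) (x := z) (by fun_prop)

end Vale.Agent.P228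
end
end
end

section

section

/-!
P228, block [S]: `SProps` for the invariant `sInv`.
-/

open Matrix

set_option linter.unusedSectionVars false
set_option linter.unusedSimpArgs false

noncomputable section

namespace Vale.Agent.P228.Inv

open LMat Sgn

variable {B : Type}

section bridge

variable {K : Type*} [CommRing K] [StarRing K] [Algebra ℂ K] [StarModule ℂ K]

theorem FinP_iff (Φ : ∀ {ι : Type}, (ι → B) → LMat ι K → LMat ι K → Prop)
    (ws : List (Wall B)) {ι : Type} (base : ι → B) (th th' : LMat ι K) :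
    FinP Φ ws base th th' ↔ Φ ((Dat.mk ι base th th').iter ws).base
      ((Dat.mk ι base th th').iter ws).th ((Dat.mk ι base th th').iter ws).th' := by
  induction ws generalizing ι with
  | nil => exact Iff.rfl
  | cons w ws ih => exact ih _ _ _

end bridge

theorem Std_eq_m2 {ι : Type} (q : ι → ℂ) : (Std q : Matrix Bool Bool (LMat ι ℂ)) =
    m2 0 (LMat.diag fun i => Complex.I * (2 * q i - 1))
      (-LMat.diag fun i => Complex.I * (2 * q i - 1)) 0 := by
  have h : (Complex.I • (2 * LMat.diag q - 1) : LMat ι ℂ) =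
      LMat.diag fun i => Complex.I * (2 * q i - 1) := by
    rw [two_mul, LMat.add_diag, LMat.one_def, LMat.sub_diag, LMat.smul_diag]
    congr 1
    funext i
    rw [smul_eq_mul, two_mul]
  unfold Std
  rw [two_Dg, ← h]
  exact Sstd_eq _

theorem stdB_ne {ι : Type} {base : ι → B} {Q : B → Prop} {x y : ι × Bool}
    (h : stdB ℂ base Q x y ≠ 0) : x.1 = y.1 ∧ x.2 ≠ y.2 := by
  obtain ⟨i, a⟩ := x
  obtain ⟨j, b⟩ := y
  have e : stdB ℂ base Q (i, a) (j, b) = (Std (wallF ℂ base Q) a b) i j := rfl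
  rw [e, Std_eq_m2] at h
  have hd : ∀ f : ι → ℂ, ∀ i j, (LMat.diag f : LMat ι ℂ) i j ≠ 0 → i = j := by
    intro f i j hij
    by_contra hne
    exact hij (LMat.diag_apply_ne _ hne)
  cases a <;> cases b
  · exact absurd rfl h
  · exact ⟨hd _ _ _ h, by simp⟩
  · refine ⟨hd (fun i => Complex.I * (2 * wallF ℂ base Q i - 1)) _ _ ?_, by simp⟩
    intro h0
    apply h
    rw [m2_tf, LMat.neg_apply, h0, neg_zero]
  · exact absurd rfl h

theorem null_of_req {ι : Type} {base : ι → B} {Q : B → Prop} {b : B} {M M' : LMat (ι × Bool) ℂ}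
    (h : REq (base ∘ Prod.fst) {b} M (stdB ℂ base Q)) :
    Null b (base ∘ Prod.fst) M M' := by
  refine ⟨Prod.snd, fun x y hx hxy => ?_⟩
  have h1 := h x hx y
  have h2 : stdB ℂ base Q x y ≠ 0 := fun h0 => hxy (h1.trans h0)
  obtain ⟨h3, h4⟩ := stdB_ne h2
  refine ⟨?_, h4⟩
  change base y.1 = b
  rw [← h3]
  exact hx

theorem null_of_rowStd {D : Dat ℂ B} {b : B} (h : RowStd D {b}) :
    Null b D.base D.th D.th' := by
  cases h with
  | mk D Q w₁ _ h h' => exact null_of_req h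

theorem reach_iff {E : B → B → Prop} (hE : ∀ x, E x x) {k : ℕ} {x y : B} :
    Reach E k x y ↔ Top.Reach E k x y := by
  induction k generalizing y with
  | zero => exact Iff.rfl
  | succ k ih =>
    constructor
    · rintro ⟨z, hz, h | h⟩
      · subst h; exact ⟨z, ih.1 hz, hE z⟩
      · exact ⟨z, ih.1 hz, h⟩
    · rintro ⟨z, hz, h⟩
      exact ⟨z, ih.2 hz, Or.inr h⟩

/-- if not all walls cross at `b`, then the final rows over `b` are null -/
theorem finNull_of_not_cross {E : B → B → Prop} (hE : ∀ x, E x x) {ws : List (Wall B)}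
    {ι : Type} {base : ι → B} {h k : LMat ι ℂ} (hf : Top.Form base E h k) {b : B}
    (hw : ∃ w ∈ ws, ¬ Top.Crosses E (8 ^ ws.length) w.1 b ∨
      ¬ Top.Crosses E (8 ^ ws.length) w.2 b) :
    FinP (Null b) ws base h k := by
  rw [FinP_iff]
  apply null_of_rowStd
  refine Dat.iter_row (D := Dat.mk ι base h k) ⟨hf.mul, hf.mul'⟩ ws
    (reach_flow (E := E) hf.supp hf.supp' b _) ?_ (b := b) ?_
  · obtain ⟨w, hw, hc⟩ := hw
    refine ⟨w, hw, ?_⟩
    have key : ∀ P : Set B, ¬ Top.Crosses E (8 ^ ws.length) P b →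
        WConst P {y | Reach E (8 ^ ws.length) b y} := by
      intro P hP
      unfold Top.Crosses at hP
      rw [not_and_or] at hP
      rcases hP with hP | hP
      · right
        intro y hy hyP
        exact hP ⟨y, (reach_iff hE).1 hy, hyP⟩
      · left
        intro y hy
        by_contra hyP
        exact hP ⟨y, (reach_iff hE).1 hy, hyP⟩
    exact hc.imp (key _) (key _)
  · exact rfl

/-- if the rows over `b` are base-diagonal, then the final rows over `b` are null -/
theorem finNull_of_diag {ws : List (Wall B)} (hws : ws ≠ [])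
    {ι : Type} {base : ι → B} {h k : LMat ι ℂ} (h1 : h * k = 1) (h2 : k * h = 1) {b : B}
    (hh : ∀ x y, base x = b → h x y ≠ 0 → base x = base y)
    (hk : ∀ x y, base x = b → k x y ≠ 0 → base x = base y) :
    FinP (Null b) ws base h k := by
  rw [FinP_iff]
  apply null_of_rowStd
  refine Dat.iter_row (D := Dat.mk ι base h k) ⟨h1, h2⟩ ws
    (Flow.of_diag (b := b) ?_ ?_ _) ?_ (b := b) rfl
  · intro x y hx hxy
    exact (hh x y hx hxy).symm.trans hx
  · intro x y hx hxy
    exact (hk x y hx hxy).symm.trans hx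
  · obtain ⟨w, hw⟩ := List.exists_mem_of_ne_nil ws hws
    exact ⟨w, hw, Or.inl (WConst.singleton _ _)⟩

/-- supports of the final matrices -/
theorem finSupp {E : B → B → Prop} (hE : ∀ x, E x x) (ws : List (Wall B))
    {ι : Type} {base : ι → B} {h k : LMat ι ℂ} (hf : Top.Form base E h k) (b : B) :
    FinP (fun {_} base M _ => ∀ x y, base x = b → M x y ≠ 0 →
      Top.Reach E (8 ^ ws.length) b (base y)) ws base h k := by
  rw [FinP_iff]
  have F := Dat.iter_flow (D := Dat.mk ι base h k) ws (n := 1)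
    (reach_flow (E := E) hf.supp hf.supp' b _)
  intro x y hx hxy
  have h2 : Reach E (8 ^ ws.length * (0 + 1)) b _ :=
    F.sup 0 (by (clear * -; norm_num)) x y (by rw [hx]; exact rfl) hxy
  rw [zero_add, mul_one] at h2
  exact (reach_iff hE).1 h2

theorem null_clo {e : Finset B} {b : B} (hb : b ∈ e) {ι : Type} {base : ι → B}
    {M M' : LMat ι ℂ} (h : Null b base M M') : Clo e b base M M' := by
  obtain ⟨σ, hσ⟩ := h
  intro x y hx hxy
  rw [(hσ x y hx hxy).1]
  exact hb

/-- **the properties of the invariant** -/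
theorem sprops_sInv {E : B → B → Prop} (hE : ∀ x, E x x) (hsymm : ∀ x y, E x y → E y x)
    (hfin : ∀ b, {b' | E b b'}.Finite) {ps : List (Wall B)} (hps : ps ≠ []) {ws : List (Set B)}
    (hws : ∀ w ∈ ws, ∃ p ∈ ps, w = p.1 ∨ w = p.2) {e : Finset B}
    (he : Top.Corner E (8 ^ ps.length) ws ⊆ (e : Set B)) :
    Top.SProps E (Top.Corner E (8 ^ ps.length) ws) (fun {_} base h k => sInv e ps base h k) := by
  have hself : ∀ k b, Top.Reach E k b b := by
    intro k
    induction k with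
    | zero => intro b; exact rfl
    | succ k ih => intro b; exact ⟨b, ih b, hE b⟩
  have key : ∀ b : B, (∃ w ∈ ps, ¬ Top.Crosses E (8 ^ ps.length) w.1 b ∨
      ¬ Top.Crosses E (8 ^ ps.length) w.2 b) ∨
      (∀ w ∈ ws, Top.Crosses E (8 ^ ps.length) w b) := by
    intro b
    by_cases h : ∃ w ∈ ps, ¬ Top.Crosses E (8 ^ ps.length) w.1 b ∨
      ¬ Top.Crosses E (8 ^ ps.length) w.2 b
    · exact Or.inl h
    · right
      push Not at h
      intro w hw
      obtain ⟨p, hp, h1 | h1⟩ := hws w hw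
      · rw [h1]; exact (h p hp).1
      · rw [h1]; exact (h p hp).2
  refine ⟨?_, ?_, ?_, ?_⟩
  · intro ι base _ h k h' k' _ _
    exact sInv_blk e ps base h k h' k'
  · intro ι base _ h k _
    exact sInv_neg e ps base h k
  · intro ι base hb h k hch hck hform
    refine sInv_path e ps base hb hfin (fun b => (hfin b).subset fun b' hb' => hsymm _ _ hb')
      h k hch hck hform ?_
    intro b hbe t ht
    rcases key b with hc | hc
    · exact FinP.imp (fun base M M' h => null_clo hbe h) ps base _ _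
        (finNull_of_not_cross hE (hform t ht) hc)
    · refine FinP.imp (fun base M M' h => ?_) ps base _ _ (finSupp hE ps (hform t ht) b)
      intro x y hx hxy
      exact he ⟨b, hc, h x y hx hxy⟩
  · intro ι base hb h k hf hh hk
    refine sInv_eq_zero e ps base h k ?_
    intro b _
    rcases key b with hc | hc
    · exact finNull_of_not_cross hE hf hc
    · have hbC : b ∈ Top.Corner E (8 ^ ps.length) ws := ⟨b, hc, hself _ b⟩
      exact finNull_of_diag hps hf.mul hf.mul'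
        (fun x y hx hxy => hh x y (by rw [hx]; exact hbC) hxy)
        (fun x y hx hxy => hk x y (by rw [hx]; exact hbC) hxy)

end Vale.Agent.P228.Inv
end
end
end

section

section

/-!
# P228, top level: the graded relation used by block K, from `DiscData`

`KNear g r x y` is coarse with a FIXED coarse constant `c₁`, and it is an `r * r₀`-step fine chain
as soon as one of the two points lies in the window.
-/

namespace Vale.Agent.P228.Top

open Geo

section close

variable {n : ℕ} {a b : ℕ} {x y z : Fin n → ℤ}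

theorem close_refl (a : ℕ) (x : Fin n → ℤ) : Close a x x := fun i => by simp only [sub_self, abs_zero, Nat.cast_nonneg]

theorem close_symm (h : Close a x y) : Close a y x := fun i => by
  rw [abs_sub_comm]; exact h i

theorem close_trans (h : Close a x y) (h' : Close b y z) : Close (a + b) x z := fun i => by
  have h1 := h i
  have h2 := h' i
  rw [abs_le] at h1 h2 ⊢
  push_cast
  constructor <;> linarith only [h1, h2]

theorem close_mono (hab : a ≤ b) (h : Close a x y) : Close b x y := fun i =>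
  (h i).trans (by exact_mod_cast hab)

theorem inBox_mono (hab : a ≤ b) (h : InBox a x) : InBox b x := fun i =>
  (h i).trans (by exact_mod_cast hab)

theorem inBox_of_close (h : InBox a x) (h' : Close b x y) : InBox (a + b) y := fun i => by
  have h1 := h i
  have h2 := h' i
  rw [abs_le] at h1 h2 ⊢
  push_cast
  constructor <;> linarith [h1.1, h1.2, h2.1, h2.2]

end close

section maps

variable {n q K₀ L : ℕ} (D : Maps n q K₀ L) {Rin : ℕ}

theorem st_symm {g : ZMod q} {x y : Fin n → ℤ} (h : D.St Rin g x y) : D.St Rin (-g) y x := by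
  refine ⟨close_symm h.1, fun hxy => ?_⟩
  rcases h.2 hxy.symm with h1 | h1
  · right; rw [neg_neg]; exact h1
  · left; exact h1

theorem st_refl (x : Fin n → ℤ) : D.St Rin 0 x x := by
  refine ⟨close_refl _ _, fun _ => Or.inl ?_⟩
  rw [D.F_zero]; exact close_refl _ _

theorem near_one {g : ZMod q} {x y : Fin n → ℤ} (h : D.St Rin g x y) : D.Near Rin g 1 x y := by
  have := Maps.Near.step h (Maps.Near.zero (D := D) (Rin := Rin) y)
  rwa [add_zero, zero_add] at this

theorem near_trans {g h : ZMod q} {r s : ℕ} {x y z : Fin n → ℤ} (h1 : D.Near Rin g r x y)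
    (h2 : D.Near Rin h s y z) : D.Near Rin (g + h) (r + s) x z := by
  induction h1 with
  | zero x => rw [zero_add, zero_add]; exact h2
  | step hst _ ih =>
    have := Maps.Near.step hst (ih h2)
    rwa [← add_assoc, show ∀ a b : ℕ, a + b + 1 = a + 1 + b from fun a b => by omega] at this

theorem near_symm {g : ZMod q} {r : ℕ} {x y : Fin n → ℤ} (h : D.Near Rin g r x y) :
    D.Near Rin (-g) r y x := by
  induction h with
  | zero x => rw [neg_zero]; exact Maps.Near.zero x
  | step hst _ ih =>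
    have := near_trans D ih (near_one D (st_symm D hst))
    rwa [neg_add, add_comm (-_) (-_)]

theorem near_mono {g : ZMod q} {r s : ℕ} (hrs : r ≤ s) {x y : Fin n → ℤ}
    (h : D.Near Rin g r x y) : D.Near Rin g s x y := by
  induction s, hrs using Nat.le_induction with
  | base => exact h
  | succ s _ ih =>
    have := near_trans D ih (near_one D (st_refl D y))
    rwa [add_zero] at this

theorem near_close {g : ZMod q} {r : ℕ} {x y : Fin n → ℤ} (h : D.Near Rin g r x y) :
    Close (r * (K₀ * D.e)) x y := by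
  induction h with
  | zero x => exact close_refl _ _
  | step hst _ ih =>
    have := close_trans hst.1 ih
    rwa [add_comm, ← Nat.succ_mul] at this

end maps

variable {p n k K₀ L C M Dn : ℕ} (D : DiscData p n k K₀ L C M Dn)

/-- the graded relation of block K. -/
def KNear (r₀ c₁ : ℕ) (g : ZMod (p ^ k)) (r : ℕ) (x y : Fin n → ℤ) : Prop :=
  M < r * r₀ ∨ (Close c₁ x y ∧
    (InBox D.Win x ∨ InBox D.Win y → D.toMaps.Near D.Rin g (r * r₀) x y))

/-- the label sets, cut off to the window. -/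
def KV (j : Fin Dn) : Set (Fin n → ℤ) := {y | y ∈ D.U j ∧ InBox D.Win y}

variable {r₀ c₁ : ℕ}

theorem kNear_zero (x : Fin n → ℤ) : KNear D r₀ c₁ 0 0 x x := by
  right
  refine ⟨close_refl _ _, fun _ => ?_⟩
  rw [zero_mul]; exact Maps.Near.zero x

theorem kNear_refl (r : ℕ) (x : Fin n → ℤ) : KNear D r₀ c₁ 0 r x x := by
  right
  exact ⟨close_refl _ _, fun _ => near_mono _ (Nat.zero_le _) (Maps.Near.zero x)⟩

theorem kNear_symm {g : ZMod (p ^ k)} {r : ℕ} {x y : Fin n → ℤ} (h : KNear D r₀ c₁ g r x y) :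
    KNear D r₀ c₁ (-g) r y x := by
  rcases h with h | ⟨h1, h2⟩
  · exact Or.inl h
  · exact Or.inr ⟨close_symm h1, fun hxy => near_symm _ (h2 hxy.symm)⟩

theorem kNear_mono {g : ZMod (p ^ k)} {r s : ℕ} (hrs : r ≤ s) {x y : Fin n → ℤ}
    (h : KNear D r₀ c₁ g r x y) : KNear D r₀ c₁ g s x y := by
  have hm : r * r₀ ≤ s * r₀ := Nat.mul_le_mul_right _ hrs
  rcases h with h | ⟨h1, h2⟩
  · exact Or.inl (h.trans_le hm)
  · exact Or.inr ⟨h1, fun hxy => near_mono _ hm (h2 hxy)⟩

/-- composition through a point of the window: the coarse constant does not grow. -/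
theorem kNear_comp (hc : 4 * D.e ≤ c₁) {g h : ZMod (p ^ k)} {r s : ℕ} {x y z : Fin n → ℤ}
    (h1 : KNear D r₀ c₁ g r x y) (h2 : KNear D r₀ c₁ h s y z) (hy : InBox D.Win y) :
    KNear D r₀ c₁ (g + h) (r + s) x z := by
  by_cases hM : M < (r + s) * r₀
  · exact Or.inl hM
  rw [not_lt] at hM
  have hr : r * r₀ ≤ M := (Nat.mul_le_mul_right _ (Nat.le_add_right r s)).trans hM
  have hs : s * r₀ ≤ M := (Nat.mul_le_mul_right _ (Nat.le_add_left s r)).trans hM
  rcases h1 with h1 | ⟨-, h1⟩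
  · (clear * - hr h1; omega)
  rcases h2 with h2 | ⟨-, h2⟩
  · omega
  have n1 := h1 (Or.inr hy)
  have n2 := h2 (Or.inl hy)
  right
  constructor
  · have c2 := D.near_coarse _ _ _ _ hr n1 hy
    have c3 := D.near_coarse _ _ _ _ hs (near_symm _ n2) hy
    exact close_mono (by omega) (close_trans c2 (close_symm c3))
  · intro _
    have := near_trans _ n1 n2
    rwa [← add_mul] at this

/-- the label property. -/
theorem kNear_label {j : Fin Dn} {g : ZMod (p ^ k)} {r : ℕ} (hr : r * r₀ ≤ M)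
    {x y : Fin n → ℤ} (hx : x ∈ KV D j) (hy : y ∈ KV D j) (h : KNear D r₀ c₁ g r x y) :
    D.lab j x = D.lab j y + (ZMod.cast g : ZMod p) := by
  rcases h with h | ⟨-, h2⟩
  · omega
  exact D.near_label j g _ x y hr (h2 (Or.inr hy.2)) hy.2 hx.1 hy.1

/-- a chain of at most `r₀` steps is an element of `KNear _ 1`. -/
theorem kNear_of_near (hc : r₀ * (K₀ * D.e) ≤ c₁) {g : ZMod (p ^ k)} {r : ℕ} (hr : r ≤ r₀)
    {x y : Fin n → ℤ} (h : D.toMaps.Near D.Rin g r x y) : KNear D r₀ c₁ g 1 x y := by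
  right
  refine ⟨close_mono ((Nat.mul_le_mul_right _ hr).trans hc) (near_close _ h), fun _ => ?_⟩
  rw [one_mul]
  exact near_mono _ hr h

theorem kNear_close {g : ZMod (p ^ k)} {r : ℕ} (hr : r * r₀ ≤ M) {x y : Fin n → ℤ}
    (h : KNear D r₀ c₁ g r x y) : Close c₁ x y := by
  rcases h with h | ⟨h1, -⟩
  · omega
  · exact h1

/-- one-step relation of the forms of block K. -/
def KE (r₀ c₁ R : ℕ) (x y : Fin n → ℤ) : Prop := ∃ g, KNear D r₀ c₁ g R x y

theorem reach_close {R : ℕ} (hR : R * r₀ ≤ M) {m : ℕ} {x y : Fin n → ℤ}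
    (h : Reach (KE D r₀ c₁ R) m x y) : Close (m * c₁) x y := by
  induction m generalizing y with
  | zero => rw [show x = y from h]; exact close_refl _ _
  | succ m ih =>
    obtain ⟨z, hz, g, hg⟩ := h
    have := close_trans (ih hz) (kNear_close D hR hg)
    rwa [← Nat.succ_mul] at this

theorem reach_near {R : ℕ} (hR : R * r₀ ≤ M) {m W : ℕ} {x : Fin n → ℤ} (hx : InBox W x)
    (hW : W + m * c₁ ≤ D.Win) {y : Fin n → ℤ} (h : Reach (KE D r₀ c₁ R) m x y) :
    ∃ g, D.toMaps.Near D.Rin g (m * (R * r₀)) x y := by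
  induction m generalizing y with
  | zero =>
    rw [show x = y from h, zero_mul]
    exact ⟨0, Maps.Near.zero y⟩
  | succ m ih =>
    obtain ⟨z, hz, g, hg⟩ := h
    have hW' : W + m * c₁ ≤ D.Win := by
      rw [Nat.succ_mul] at hW; omega
    obtain ⟨g', hg'⟩ := ih hW' hz
    have hzb : InBox D.Win z := inBox_mono hW' (inBox_of_close hx (reach_close D hR hz))
    rcases hg with hg | ⟨-, hg⟩
    · omega
    have := near_trans _ hg' (hg (Or.inl hzb))
    refine ⟨g' + g, ?_⟩
    rwa [← Nat.succ_mul] at this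

/-- all coordinate walls are crossed near `x`, hence `x` is near `0`. -/
theorem crosses_inBox {R K : ℕ} (hR : R * r₀ ≤ M) {x : Fin n → ℤ}
    (hx : ∀ i, Crosses (KE D r₀ c₁ R) K {y | 0 ≤ y i} x) : InBox (K * c₁) x := by
  intro i
  obtain ⟨⟨y₁, h1, h3⟩, ⟨y₂, h2, h4⟩⟩ := hx i
  have c1 := reach_close D hR h1 i
  have c2 := reach_close D hR h2 i
  simp only [Set.mem_ofPred_eq, not_le] at h3 h4
  rw [abs_le] at c1 c2 ⊢
  constructor <;> linarith only [c2, h4, h3, c1]

/-- **Corner lemma.** Every point of the corner set of the coordinate walls through `0` is deep in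
one of the label sets. -/
theorem corner_deep {R K : ℕ} (hR : R * r₀ ≤ M) (hM : 2 * K * (R * r₀) ≤ M)
    (hW : (2 * K + 1) * c₁ ≤ D.Win) (hC : 1 ≤ C) {ws : List (Set (Fin n → ℤ))}
    (hws : ∀ i, {x : Fin n → ℤ | 0 ≤ x i} ∈ ws) {y : Fin n → ℤ}
    (hy : y ∈ Corner (KE D r₀ c₁ R) K ws) :
    ∃ j, ∀ z, KE D r₀ c₁ R y z → z ∈ KV D j := by
  obtain ⟨x, hx', hxy⟩ := hy
  have hx : ∀ i, Crosses (KE D r₀ c₁ R) K {y | 0 ≤ y i} x := fun i => hx' _ (hws i)
  have hW' : 2 * K * c₁ + c₁ ≤ D.Win := by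
    rw [add_mul, one_mul] at hW; exact hW
  have hxb := crosses_inBox D hR hx
  have hKW : K * c₁ + K * c₁ ≤ D.Win := by
    have : 2 * K * c₁ = K * c₁ + K * c₁ := by ring
    omega
  have hyb : InBox (2 * K * c₁) y := by
    have := inBox_of_close hxb (reach_close D hR hxy)
    rwa [show K * c₁ + K * c₁ = 2 * K * c₁ by ring] at this
  have hyW : InBox D.Win y := inBox_mono (by (clear * - hW'; omega)) hyb
  rcases D.cover y hyW with ⟨j, hj⟩ | ⟨h1, h2⟩
  · refine ⟨j, fun z ⟨g, hg⟩ => ?_⟩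
    have hc := kNear_close D hR hg
    refine ⟨?_, inBox_mono hW' (inBox_of_close hyb hc)⟩
    rcases hg with hg | ⟨-, hg⟩
    · omega
    exact hj _ _ z hR (near_symm _ (hg (Or.inl hyW)))
  · exfalso
    apply h1
    obtain ⟨g, hg⟩ := reach_near D hR hxb hKW hxy
    have key : ∀ z, Reach (KE D r₀ c₁ R) K x z → Close D.eta z y := by
      intro z hz
      obtain ⟨g', hg'⟩ := reach_near D hR hxb hKW hz
      have := near_trans _ (near_symm _ hg') hg
      refine h2 _ _ z ?_ this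
      have e : 2 * K * (R * r₀) = K * (R * r₀) + K * (R * r₀) := by ring
      (clear * - hM e; omega)
    have heta : D.eta ≤ D.rho := by
      have := D.eta_le
      nlinarith only [this, hC]
    intro i
    obtain ⟨⟨y₁, h3, h5⟩, ⟨y₂, h4, h6⟩⟩ := hx i
    have c1 := key y₁ h3 i
    have c2 := key y₂ h4 i
    have : (D.eta : ℤ) ≤ D.rho := by exact_mod_cast heta
    simp only [Set.mem_ofPred_eq, not_le] at h5 h6
    rw [abs_le] at c1 c2 ⊢
    constructor <;> linarith only [heta, c2, h6, h5, c1]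

/-- the relation with label sets of block K. -/
def kRel (hpq : p ∣ p ^ k) (r₀ c₁ R : ℕ) (hc : 4 * D.e ≤ c₁) (hR : R * r₀ ≤ M) :
    Kos.KRel p (p ^ k) hpq (Fin n → ℤ) where
  Near := KNear D r₀ c₁
  R := R
  D := Dn
  V := KV D
  lab := fun j x => - D.lab j x
  refl := kNear_zero D
  symm := kNear_symm D
  mono := fun h h' => kNear_mono D h h'
  comp := fun h1 h2 ⟨_, hy⟩ => kNear_comp D hc h1 h2 hy.2
  label := fun {g r x y} i hx hy hr h => by
    have h1 := kNear_label D (r₀ := r₀) (c₁ := c₁)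
      ((Nat.mul_le_mul_right _ hr).trans hR) hx hy h
    rw [h1, ZMod.castHom_apply]
    ring

theorem kE_refl {R : ℕ} (x : Fin n → ℤ) : KE D r₀ c₁ R x x := ⟨0, kNear_refl D R x⟩

theorem kE_symm {R : ℕ} {x y : Fin n → ℤ} (h : KE D r₀ c₁ R x y) : KE D r₀ c₁ R y x := by
  obtain ⟨g, hg⟩ := h
  exact ⟨-g, kNear_symm D hg⟩

theorem kE_close {R : ℕ} (hR : R * r₀ ≤ M) {x y : Fin n → ℤ} (h : KE D r₀ c₁ R x y) :
    Close c₁ x y := by
  obtain ⟨g, hg⟩ := h
  exact kNear_close D hR hg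

end Vale.Agent.P228.Top
end
end

section

section

/-!
# P228, top level: supports of the words of blocks C and A in terms of `Maps.Near`
-/

namespace Vale.Agent.P228.Top

open Geo Kos

variable {ι : Type} {n q K₀ L : ℕ} [NeZero q] (D : Maps n q K₀ L) (Rin : ℕ)
  (pos : ι → (Fin n → ℤ))

/-- the graded relation of `r`-step chains pulled back to the index set. -/
def NR (r : ℕ) : ZMod q → ι → ι → Prop := fun g x y => D.Near Rin g r (pos x) (pos y)

/-- support in `r`-step chains. -/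
def SuppN (r : ℕ) (T : LMat ι (GK q)) : Prop := SuppG (NR D Rin pos r) T

namespace SuppN

variable {D Rin pos} {r s : ℕ} {T T' : LMat ι (GK q)}

theorem add (h : SuppN D Rin pos r T) (h' : SuppN D Rin pos r T') :
    SuppN D Rin pos r (T + T') := SuppG.add h h'

theorem star (h : SuppN D Rin pos r T) : SuppN D Rin pos r (star T) :=
  SuppG.star h fun _ _ _ hg => near_symm D hg

end SuppN

variable {p k C M Dn : ℕ} [NeZero (p ^ k)] (E : DiscData p n k K₀ L C M Dn)

theorem SuppN.toGSup {pos : ι → (Fin n → ℤ)} {r₀ c₁ r R : ℕ} {T : LMat ι (GK (p ^ k))}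
    (hpq : p ∣ p ^ k) (h4 : 4 * E.e ≤ c₁) (hR : R * r₀ ≤ M)
    (hc : r₀ * (K₀ * E.e) ≤ c₁) (hr : r ≤ r₀)
    (h : SuppN E.toMaps E.Rin pos r T) : GSup (kRel E hpq r₀ c₁ R h4 hR) 1 pos T :=
  SuppG.mono (fun _ _ _ hg => kNear_of_near E hc hr hg) h

end Vale.Agent.P228.Top
end
end

section

section

/-!
# P228, block [E]: the local theorem `LocalNewman p (2 * m)` from the block statements

Every hypothesis of `localNewman_even` is the statement of one block:
* `Kos.K4Statement` : block [K] (Koszul iteration);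
* `InvStatement m σ σ'` : blocks [S] and [N] (the integer invariant, its value on `σ = J ε`);
* `FormStatement m p K₀ L r₀ cc σ σ'` : blocks [C] and [A];
* `DiscStatement p n K₀ L C` : blocks [G] and [L] (helper300: `exists_discData`).
-/

namespace Vale.Agent.P228.Top

open Set Metric
open Vale.Agent.P228.Kos Vale.Agent.P228.Geo

/-- lattice positions -/
abbrev Pos (n : ℕ) : Type := Fin n → ℤ

/-- cells of the cubical structure of `ℤ^n` -/
abbrev Cl (n : ℕ) : Type := Cub.Cell (Fin n)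

/-- position of a cell (its lower vertex) -/
def pos {n : ℕ} (c : Cl n) : Pos n := fun i => (c i).1

/-- the coordinate walls through the origin -/
def walls (n : ℕ) : List (Set (Pos n)) :=
  (List.finRange n).map fun i => {x | 0 ≤ x i}

/-! ## Blocks [S] + [N] -/

/-- the statement of the blocks [S] and [N] for `n = 2 m`: `K` is the number of steps of the corner
set; for every coarse radius `c` there is one invariant `s` (it may depend on `c`, e.g. through a
finite box containing the corner of `Close c`) which is good for all relations `E ≤ Close c`;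
`σ` (inverse `σ'`) is the standard form `J ε` of the cubical complex. -/
def InvStatement (m : ℕ) (σ σ' : LMat (Cl (2 * m)) ℂ) : Prop :=
  ∃ K : ℕ, ∀ c : ℕ, ∃ s : IntInv (Pos (2 * m)),
    (∀ (E : Pos (2 * m) → Pos (2 * m) → Prop), (∀ x, E x x) → (∀ x y, E x y → E y x) →
      (∀ x y, E x y → Close c x y) → SProps E (Corner E K (walls (2 * m))) s) ∧
    s pos σ σ' ≠ 0

/-! ## Blocks [C] + [A] -/

/-- output of the blocks [C] and [A] for the lattice maps `D`: the form over the group ring with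
graded support `r₀` steps of `D.Near Rin`, and its coarse values at the characters `0` and
`cp q p`. -/
structure FormOut (m p k K₀ L r₀ cc : ℕ) [NeZero (p ^ k)] (σ σ' : LMat (Cl (2 * m)) ℂ)
    (D : Maps (2 * m) (p ^ k) K₀ L) (Rin : ℕ) where
  θ : LMat (Cl (2 * m)) (GK (p ^ k))
  θ' : LMat (Cl (2 * m)) (GK (p ^ k))
  form : HForm θ θ'
  supp : SuppN D Rin pos r₀ θ
  supp' : SuppN D Rin pos r₀ θ'
  coarse_zero : ∀ s : IntInv (Pos (2 * m)), PathInv (Close (cc * D.e)) s →
    s pos (LMat.map (evJ (p ^ k) p 0) θ) (LMat.map (evJ (p ^ k) p 0) θ') = s pos (-σ) (-σ')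
  coarse_one : ∀ s : IntInv (Pos (2 * m)), PathInv (Close (cc * D.e)) s →
    s pos (LMat.map (evJ (p ^ k) p 1) θ) (LMat.map (evJ (p ^ k) p 1) θ') = s pos σ σ'

def FormStatement (m p : ℕ) [Fact p.Prime] (K₀ L r₀ cc : ℕ) (σ σ' : LMat (Cl (2 * m)) ℂ) : Prop :=
  ∀ (k : ℕ) [NeZero (p ^ k)], 1 ≤ k → ∀ (D : Maps (2 * m) (p ^ k) K₀ L) (Rin : ℕ),
    Rin + K₀ * D.e + K₀ ≤ D.Rad → Nonempty (FormOut m p k K₀ L r₀ cc σ σ' D Rin)

/-! ## Blocks [G] + [L] -/

/-- existence of the lattice data (helper300: `exists_discData`) -/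
def DiscStatement (p n K₀ L C : ℕ) [Fact p.Prime] : Prop :=
  ∃ c > (0 : ℝ), ∀ (W : Set (EuclideanSpace ℝ (Fin n)))
    (a : ℤ_[p] → EuclideanSpace ℝ (Fin n) → EuclideanSpace ℝ (Fin n)),
    IsOpen W → LocAct p W a → closedBall (0 : EuclideanSpace ℝ (Fin n)) 1 ⊆ W →
    (∀ u, ∀ x ∈ closedBall (0 : EuclideanSpace ℝ (Fin n)) 1, ‖a u x - x‖ ≤ c) →
    (∃ u, a u 0 ≠ 0) →
    ∃ D, ∀ M, ∃ k, Nonempty (DiscData p n k K₀ L C M D)

theorem localNewman_even (p m : ℕ) [Fact p.Prime] (K₀ L r₀ cc : ℕ)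
    (σ σ' : LMat (Cl (2 * m)) ℂ) (hσ : ∀ (c : ℕ), 1 ≤ c → Form pos (Close (n := 2 * m) c) σ σ')
    (hfin : FinFib (pos (n := 2 * m))) (hr₀ : 1 ≤ r₀)
    (hK : K4Statement) (hS : InvStatement m σ σ') (hF : FormStatement m p K₀ L r₀ cc σ σ')
    (hG : ∀ C, DiscStatement p (2 * m) K₀ L C) : GR.LocalNewman p (2 * m) := by
  obtain ⟨K, hS⟩ := hS
  obtain ⟨c, hc, H⟩ := hG ((2 * K + 1) * (r₀ * K₀ + 4))
  refine ⟨c, hc, fun W a hW act hB hd => ?_⟩
  by_contra hcon
  push Not at hcon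
  obtain ⟨D, hD⟩ := H W a hW act hB hd hcon
  set R := 5 ^ D * 1 with hR
  obtain ⟨k, ⟨X⟩⟩ := hD ((2 * K + 1) * (R * r₀))
  have : NeZero (p ^ k) := ⟨pow_ne_zero _ (Fact.out : p.Prime).ne_zero⟩
  have : NeZero p := ⟨(Fact.out : p.Prime).ne_zero⟩
  have hpq : p ∣ p ^ k := dvd_pow_self p (by have := X.k_pos; omega)
  set c₁ := (r₀ * K₀ + 4) * X.e with hc₁
  have h4 : 4 * X.e ≤ c₁ := Nat.mul_le_mul_right _ (by omega)
  have h5 : r₀ * (K₀ * X.e) ≤ c₁ := by
    rw [← mul_assoc]; exact Nat.mul_le_mul_right _ (by omega)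
  have hRM : R * r₀ ≤ (2 * K + 1) * (R * r₀) := Nat.le_mul_of_pos_left _ (by omega)
  have hKM : 2 * K * (R * r₀) ≤ (2 * K + 1) * (R * r₀) := Nat.mul_le_mul_right _ (by omega)
  have hWin : (2 * K + 1) * c₁ ≤ X.Win := by
    have := X.e_le
    rwa [mul_assoc] at this
  have hC1 : 1 ≤ (2 * K + 1) * (r₀ * K₀ + 4) := Nat.one_le_iff_ne_zero.2 (by (clear * - hr₀; positivity))
  obtain ⟨F⟩ := hF k X.k_pos X.toMaps X.Rin X.Rin_le
  obtain ⟨s, hs, hne⟩ := hS (c₁ + cc * X.e + 1)
  have hsK : SProps (kRel X hpq r₀ c₁ R h4 hRM).E (Corner (KE X r₀ c₁ R) K (walls (2 * m))) s := by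
    apply hs (KE X r₀ c₁ R)
    · exact kE_refl X
    · intro x y; exact kE_symm X
    · intro x y h; exact close_mono (by omega) (kE_close X hRM h)
  have e1 := hK p (p ^ k) hpq (Pos (2 * m)) (kRel X hpq r₀ c₁ R h4 hRM) _ s hsK (Cl (2 * m)) pos
    F.θ F.θ' 1 hfin F.form (F.supp.toGSup X hpq h4 hRM h5 le_rfl)
    (F.supp'.toGSup X hpq h4 hRM h5 le_rfl) le_rfl
    (fun b hb => corner_deep X hRM hKM hWin hC1
      (fun i => List.mem_map.2 ⟨i, List.mem_finRange i, rfl⟩) hb)
  have hcoarse : ∀ c : ℕ, c ≤ c₁ + cc * X.e + 1 →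
      SProps (Close (n := 2 * m) c) (Corner (Close c) K (walls (2 * m))) s := by
    intro c hc
    apply hs
    · exact close_refl c
    · intro x y h; exact close_symm h
    · intro x y h; exact close_mono hc h
  have e2 := F.coarse_zero s (hcoarse (cc * X.e) (by (clear σ σ' hσ hfin hr₀ hK hF hG hS c hc H W a hW act hB hd hcon hD hR hpq hc₁ h5 hRM hKM hWin hC1 F s hs hne hsK e1 hcoarse; omega))).path
  have e3 := F.coarse_one s (hcoarse (cc * X.e) (by omega)).path
  have e4 := (hcoarse 1 (by omega)).neg pos hfin σ σ' (hσ _ le_rfl)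
  rw [e2, e3, e4] at e1
  exact hne (by (clear K₀ L r₀ cc hσ hfin hr₀ hK hF hG K hS c hc H W a hW act hB hd hcon D hD R hR X hpq c₁ hc₁ h4 h5 hRM hKM hWin hC1 F hs hne hsK hcoarse e2 e3 e4; omega))

end Vale.Agent.P228.Top
end
end

section

section

/-!
P228, block [S]: `SProps` for the coordinate walls of `ℤ^(2m)` and a finite box.
-/

noncomputable section

namespace Vale.Agent.P228.Inv

open LMat Geo Vale.Agent.P228.Top

/-- the coordinate half space -/
def hs {n : ℕ} (i : Fin n) : Set (Fin n → ℤ) := {x | 0 ≤ x i}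

/-- the pairs of coordinate walls -/
def cpairs (m : ℕ) : List (Wall (Pos (2 * m))) :=
  (List.finRange m).map fun i => (hs ⟨2 * i.1, by omega⟩, hs ⟨2 * i.1 + 1, by omega⟩)

theorem cpairs_length (m : ℕ) : (cpairs m).length = m := by
  simp [cpairs]

theorem cpairs_ne_nil {m : ℕ} (hm : 0 < m) : cpairs m ≠ [] := by
  intro h
  have := congrArg List.length h
  rw [cpairs_length] at this
  simp only [List.length_nil] at this
  omega

theorem walls_mem {m : ℕ} : ∀ w ∈ walls (2 * m), ∃ p ∈ cpairs m, w = p.1 ∨ w = p.2 := by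
  intro w hw
  unfold walls at hw
  obtain ⟨i, _, rfl⟩ := List.mem_map.1 hw
  have hi : i.1 / 2 < m := by have := i.2; omega
  refine ⟨(hs ⟨2 * (i.1 / 2), by omega⟩, hs ⟨2 * (i.1 / 2) + 1, by omega⟩),
    List.mem_map.2 ⟨⟨i.1 / 2, hi⟩, List.mem_finRange _, rfl⟩, ?_⟩
  rcases Nat.mod_two_eq_zero_or_one i.1 with h | h
  · left
    have : (⟨2 * (i.1 / 2), by omega⟩ : Fin (2 * m)) = i := Fin.ext (by simp; omega)
    change _ = hs _
    rw [this]; rfl
  · right
    have : (⟨2 * (i.1 / 2) + 1, by omega⟩ : Fin (2 * m)) = i := Fin.ext (by simp; omega)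
    change _ = hs _
    rw [this]; rfl

/-- the box of radius `ρ` -/
def box (n ρ : ℕ) : Finset (Fin n → ℤ) := Fintype.piFinset fun _ => Finset.Icc (-(ρ : ℤ)) ρ

theorem mem_box {n ρ : ℕ} {x : Fin n → ℤ} : x ∈ box n ρ ↔ InBox ρ x := by
  unfold box InBox
  rw [Fintype.mem_piFinset]
  constructor
  · intro h i
    rw [abs_le]
    exact Finset.mem_Icc.1 (h i)
  · intro h i
    rw [Finset.mem_Icc]
    exact abs_le.1 (h i)

theorem close_finite {n : ℕ} (c : ℕ) (x : Fin n → ℤ) : {y | Close c x y}.Finite := by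
  refine (Finset.finite_toSet (Fintype.piFinset fun i =>
    Finset.Icc (x i - c) (x i + c))).subset ?_
  intro y hy
  rw [Finset.mem_coe, Fintype.mem_piFinset]
  intro i
  have := hy i
  rw [abs_le] at this
  rw [Finset.mem_Icc]
  constructor <;> linarith only [this]

theorem reach_close' {n c : ℕ} {E : (Fin n → ℤ) → (Fin n → ℤ) → Prop}
    (hE : ∀ x y, E x y → Close c x y) {k : ℕ} {x y : Fin n → ℤ} (h : Top.Reach E k x y) :
    Close (k * c) x y := by
  induction k generalizing y with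
  | zero =>
    have : x = y := h
    subst this
    exact close_refl _ _
  | succ k ih =>
    obtain ⟨z, hz, hzy⟩ := h
    have := close_trans (ih hz) (hE _ _ hzy)
    rwa [Nat.succ_mul]

theorem corner_box {m c : ℕ} {E : Pos (2 * m) → Pos (2 * m) → Prop}
    (hE : ∀ x y, E x y → Close c x y) (K : ℕ) :
    Corner E K (walls (2 * m)) ⊆ (box (2 * m) (2 * (K * c)) : Set (Fin (2 * m) → ℤ)) := by
  rintro y ⟨x, hx, hxy⟩
  rw [Finset.mem_coe, mem_box]
  intro i
  obtain ⟨⟨a, ha, ha'⟩, ⟨b, hb, hb'⟩⟩ := hx _ (List.mem_map.2 ⟨i, List.mem_finRange i, rfl⟩)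
  have h1 := reach_close' hE ha i
  have h2 := reach_close' hE hb i
  have h3 := reach_close' hE hxy i
  have h4 : 0 ≤ a i := ha'
  have h5 : ¬ 0 ≤ b i := hb'
  rw [abs_le] at h1 h2 h3 ⊢
  push_cast at h1 h2 h3 ⊢
  constructor <;> linarith only [h4, h1, h3, h5, h2]

/-- **block [S]**: the properties of the invariant for the coordinate walls -/
theorem sprops_box {m : ℕ} (hm : 0 < m) (c : ℕ) {e : Finset (Pos (2 * m))}
    (he : box (2 * m) (2 * (8 ^ m * c)) ⊆ e) (E : Pos (2 * m) → Pos (2 * m) → Prop)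
    (hE : ∀ x, E x x) (hsymm : ∀ x y, E x y → E y x) (hc : ∀ x y, E x y → Close c x y) :
    SProps E (Corner E (8 ^ m) (walls (2 * m))) (fun {_} base h k => sInv e (cpairs m) base h k) := by
  have h := sprops_sInv (ps := cpairs m) (ws := walls (2 * m)) (e := e) hE hsymm
    (fun b => (close_finite c b).subset fun b' hb' => hc _ _ hb') (cpairs_ne_nil hm) walls_mem
    (by
      rw [cpairs_length]
      exact (corner_box hc _).trans (by exact_mod_cast he))
  rwa [cpairs_length] at h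

/-- `InvStatement` from the value for all large boxes -/
theorem invStatement_of_value {m : ℕ} (hm : 0 < m) {σ σ' : LMat (Cl (2 * m)) ℂ}
    (hval : ∀ ρ₀, ∃ e : Finset (Pos (2 * m)), box (2 * m) ρ₀ ⊆ e ∧
      sInv e (cpairs m) pos σ σ' ≠ 0) : InvStatement m σ σ' := by
  refine ⟨8 ^ m, fun c => ?_⟩
  obtain ⟨e, he, hne⟩ := hval (2 * (8 ^ m * c))
  exact ⟨fun {_} base h k => sInv e (cpairs m) base h k,
    fun E hE hs hc => sprops_box hm c he E hE hs hc, hne⟩

end Vale.Agent.P228.Inv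
end
end
end

section

section

/-!
# P228, block A (helper144): the coarse path `θ(A_j, h_j) ⤳ θ(A_j, h') ⤳ J(d + a e) ⤳ a J e`

A path is the family of evaluations at `t : ℝ` of two polynomials with coefficients in
`LMat ι ℂ`.
-/

namespace Vale.Agent.P228.Alg

open Polynomial Vale.Agent.P228.Top

section Evt

variable {ι : Type}

/-- evaluation of a polynomial with coefficients in `LMat ι ℂ` at a real (central) element -/
noncomputable def evt (t : ℝ) : Polynomial (LMat ι ℂ) →+* LMat ι ℂ :=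
  Polynomial.eval₂RingHom' (RingHom.id _) (algebraMap ℝ (LMat ι ℂ) t)
    (fun a => (Algebra.commutes t a).symm)

@[simp] theorem evt_C (t : ℝ) (a : LMat ι ℂ) : evt t (C a) = a := by
  show Polynomial.eval₂ (RingHom.id _) _ (C a) = a
  rw [Polynomial.eval₂_C]; rfl

@[simp] theorem evt_X (t : ℝ) : evt t (X : Polynomial (LMat ι ℂ)) = algebraMap ℝ _ t := by
  show Polynomial.eval₂ (RingHom.id _) _ X = _
  rw [Polynomial.eval₂_X]

theorem evt_apply (t : ℝ) (P : Polynomial (LMat ι ℂ)) (x y : ι) :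
    evt t P x y = ∑ i ∈ Finset.range (P.natDegree + 1), ((t : ℂ) ^ i) * (P.coeff i) x y := by
  have h1 : evt t P = ∑ i ∈ Finset.range (P.natDegree + 1),
      P.coeff i * (algebraMap ℝ (LMat ι ℂ) t) ^ i := by
    show Polynomial.eval₂ _ _ P = _
    rw [Polynomial.eval₂_eq_sum_range]
    rfl
  rw [h1, LMat.sum_apply]
  refine Finset.sum_congr rfl fun i _ => ?_
  rw [← map_pow, ← Algebra.commutes, ← Algebra.smul_def, LMat.smul_apply, Complex.real_smul]
  push_cast
  rfl

theorem evt_continuous (P : Polynomial (LMat ι ℂ)) (x y : ι) :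
    Continuous fun t : ℝ => evt t P x y := by
  simp only [evt_apply]
  exact continuous_finsetSum _ fun i _ =>
    ((Complex.continuous_ofReal.pow i).mul continuous_const)

theorem cen_real (t : ℝ) : Cen (algebraMap ℝ (LMat ι ℂ) t) where
  comm := Algebra.commutes t
  st := by
    rw [Algebra.algebraMap_eq_smul_one, star_smul, star_one, star_trivial]

/-- path invariance along polynomial paths -/
theorem path_eq {B : Type} {base : ι → B} {E : B → B → Prop} {s : IntInv B} (hs : PathInv E s)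
    (hfin : ∀ b, {x | base x = b}.Finite) (P P' : Polynomial (LMat ι ℂ))
    (hf : ∀ t : ℝ, Form base E (evt t P) (evt t P')) :
    s base (evt 0 P) (evt 0 P') = s base (evt 1 P) (evt 1 P') :=
  hs base hfin (fun t => evt t P) (fun t => evt t P') (evt_continuous P) (evt_continuous P')
    fun t _ => hf t

end Evt

/-- pull back of a relation -/
def CRel.pull {ι B : Type*} (E : CRel B) (base : ι → B) : CRel ι where
  rel r x y := E.rel r (base x) (base y)
  refl _ := E.refl _
  symm := E.symm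
  trans := E.trans
  mono := E.mono

section Path

variable {ι B : Type} {base : ι → B} {E : CRel B} {n : ℕ}

/-- a good pair gives a form -/
theorem form_of_good {d e J Ji A h : LMat ι ℂ} (X : Cx d e J Ji) (G : Good d e J A h)
    {deg : ι → ℕ} (hdeg : ∀ x, deg x ≤ n) (he : Up deg 0 e) (hA : Up deg 0 A) (hh : Up deg 1 h)
    {r : ℕ} (md : d ∈ (relFil (K := ℂ) (E.pull base)).L r)
    (me : e ∈ (relFil (K := ℂ) (E.pull base)).L 0)
    (mJ : J ∈ (relFil (K := ℂ) (E.pull base)).L r) (mJi : Ji ∈ (relFil (K := ℂ) (E.pull base)).L r)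
    (mA : A ∈ (relFil (K := ℂ) (E.pull base)).L r) (mh : h ∈ (relFil (K := ℂ) (E.pull base)).L r) :
    Form base (E.rel ((2 * n + 2) * r)) (theta d e J A h) (theta' n d e Ji A h) where
  herm := G.star_theta X
  mul := G.theta_mul X (gK_pow_LMat hdeg he hA hh)
  mul' := G.mul_theta X (gK_pow_LMat hdeg he hA hh)
  supp := by
    have h1 := theta_mem (relFil (K := ℂ) (E.pull base)) md me mJ mA mh
    have h2 : theta d e J A h ∈ (relFil (K := ℂ) (E.pull base)).L ((2 * n + 2) * r) :=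
      (relFil (K := ℂ) (E.pull base)).le (Nat.mul_le_mul_right r (by (clear * -; omega))) h1
    exact fun x y hxy => h2 x y hxy
  supp' := by
    have h1 := theta'_mem (n := n) (relFil (K := ℂ) (E.pull base)) md me mJi mA mh
    exact fun x y hxy => h1 x y hxy

theorem up_algebraMap {deg : ι → ℕ} (t : ℝ) : Up deg 0 (algebraMap ℝ (LMat ι ℂ) t) := by
  rw [Algebra.algebraMap_eq_smul_one]; exact Up.one.smul _

theorem mem_algebraMap {E' : CRel ι} (t : ℝ) :
    algebraMap ℝ (LMat ι ℂ) t ∈ (relFil (K := ℂ) E').L 0 := by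
  rw [Algebra.algebraMap_eq_smul_one]
  exact ((relFil (K := ℂ) E').L 0).smul_mem _ (relFil (K := ℂ) E').one_mem

/-- **the coarse path** -/
theorem coarse_path {c : Dual (LMat ι ℂ)} {A h k : LMat ι ℂ} {a : ℝ} (ha : a * a = 1)
    (G : Good c.d c.e c.J A h) (hk : c.IsOdd k) (hk' : c.sh k = k)
    (hA : A = a • (1 : LMat ι ℂ) + c.br k)
    {deg : ι → ℕ} (hdeg : ∀ x, deg x ≤ n) (ue : Up deg 0 c.e) (ud : Down deg c.d)
    (uA : Up deg 0 A) (uh : Up deg 1 h) (uk : Up deg 1 k)
    (md : c.d ∈ (relFil (K := ℂ) (E.pull base)).L 1)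
    (me : c.e ∈ (relFil (K := ℂ) (E.pull base)).L 0)
    (mJ : c.J ∈ (relFil (K := ℂ) (E.pull base)).L 1)
    (mJi : c.Ji ∈ (relFil (K := ℂ) (E.pull base)).L 1)
    (mA : A ∈ (relFil (K := ℂ) (E.pull base)).L 7) (mh : h ∈ (relFil (K := ℂ) (E.pull base)).L 7)
    (mk : k ∈ (relFil (K := ℂ) (E.pull base)).L 3)
    (hfin : ∀ b, {x | base x = b}.Finite) {s : IntInv B}
    (hs : PathInv (E.rel ((2 * n + 2) * 7)) s) :
    s base (theta c.d c.e c.J A h) (theta' n c.d c.e c.Ji A h) =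
      s base (a • (c.J * c.e)) (a • (c.e * c.Ji)) := by
  set L := relFil (K := ℂ) (E.pull base) with hL
  have md7 : c.d ∈ L.L 7 := L.le (by norm_num) md
  have mJ7 : c.J ∈ L.L 7 := L.le (by norm_num) mJ
  have mJi7 : c.Ji ∈ L.L 7 := L.le (by norm_num) mJi
  have hkJ : c.J * k = star k * c.J := c.sh_eq_iff.1 hk'
  have hX := c.cx
  set a' : LMat ι ℂ := algebraMap ℝ (LMat ι ℂ) a with ha'
  set hf : LMat ι ℂ := algebraMap ℝ (LMat ι ℂ) (1 / 2) with hhf
  have hca : Cen a' := cen_real a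
  have hch : Cen hf := cen_real _
  have haa : a' * a' = 1 := by rw [ha', ← map_mul, ha, map_one]
  have h2 : hf + hf = 1 := by rw [hhf, ← map_add]; norm_num
  have hAeq : A = a' + (c.d * k + k * c.d) := by
    rw [hA, ha', Algebra.algebraMap_eq_smul_one]; rfl
  -- words used below
  have ubr : Up deg 0 (c.d * k + k * c.d) := Up.br (c := c) ud (m := 0) uk
  have ucdc : Up deg 1 (k * c.d * k) := by
    intro x y hxy
    obtain ⟨z, h1, h3⟩ := LMat.exists_of_mul_ne_zero hxy
    obtain ⟨w, h4, h5⟩ := LMat.exists_of_mul_ne_zero h1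
    have := uk x w h4
    have := ud w z h5
    have := uk z y h3
    omega
  have udcc : Up deg 1 (c.d * k * k) := by
    intro x y hxy
    obtain ⟨z, h1, h3⟩ := LMat.exists_of_mul_ne_zero hxy
    obtain ⟨w, h4, h5⟩ := LMat.exists_of_mul_ne_zero h1
    have := ud x w h4
    have := uk w z h5
    have := uk z y h3
    omega
  have uccd : Up deg 1 (k * k * c.d) := by
    intro x y hxy
    obtain ⟨z, h1, h3⟩ := LMat.exists_of_mul_ne_zero hxy
    obtain ⟨w, h4, h5⟩ := LMat.exists_of_mul_ne_zero h1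
    have := uk x w h4
    have := uk w z h5
    have := ud z y h3
    omega
  have mdk : c.d * k ∈ L.L 4 := L.mul_mem md mk
  have mkd : k * c.d ∈ L.L 4 := L.mul_mem mk md
  have mbr : c.d * k + k * c.d ∈ L.L 7 := L.le (by norm_num) ((L.L 4).add_mem mdk mkd)
  have mkdk : k * c.d * k ∈ L.L 7 := L.mul_mem mkd mk
  have mdkk : c.d * k * k ∈ L.L 7 := L.mul_mem mdk mk
  have mkkd : k * k * c.d ∈ L.L 7 := L.mul_mem (r := 6) (s := 1) (L.mul_mem (r := 3) mk mk) md
  have scal_mem : ∀ (t : ℝ) {x : LMat ι ℂ} {r : ℕ}, x ∈ L.L r →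
      algebraMap ℝ (LMat ι ℂ) t * x ∈ L.L r := by
    intro t x r hx
    rw [← Algebra.smul_def]; exact (L.L r).smul_mem _ hx
  have scal_up : ∀ (t : ℝ) {x : LMat ι ℂ} {r : ℕ}, Up deg r x →
      Up deg r (algebraMap ℝ (LMat ι ℂ) t * x) := by
    intro t x r hx
    rw [← Algebra.smul_def]; exact hx.smul _
  have hcon_mem : ∀ t : ℝ, hcon c.d k a' (algebraMap ℝ (LMat ι ℂ) t) hf ∈ L.L 7 := by
    intro t
    unfold hcon
    have m1 : a' * algebraMap ℝ (LMat ι ℂ) t * k ∈ L.L 7 := by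
      rw [ha', ← map_mul]; exact L.le (by norm_num) (scal_mem _ mk)
    refine (L.L 7).add_mem ((L.L 7).add_mem m1 m1) ?_
    rw [← map_mul]
    exact scal_mem _ ((L.L 7).add_mem mkdk (scal_mem _ ((L.L 7).add_mem mdkk mkkd)))
  have hcon_up : ∀ t : ℝ, Up deg 1 (hcon c.d k a' (algebraMap ℝ (LMat ι ℂ) t) hf) := by
    intro t
    unfold hcon
    have m1 : Up deg 1 (a' * algebraMap ℝ (LMat ι ℂ) t * k) := by
      rw [ha', ← map_mul]; exact scal_up _ uk
    refine (m1.add m1).add ?_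
    rw [← map_mul]
    exact scal_up _ (ucdc.add (scal_up _ (udcc.add uccd)))
  have one_al : algebraMap ℝ (LMat ι ℂ) 1 = 1 := map_one _
  have zero_al : algebraMap ℝ (LMat ι ℂ) 0 = 0 := map_zero _
  -- the good pair at time t of stage 2
  have G2 : ∀ t : ℝ, Good c.d c.e c.J (a' + algebraMap ℝ (LMat ι ℂ) t * (c.d * k + k * c.d))
      (hcon c.d k a' (algebraMap ℝ (LMat ι ℂ) t) hf) := fun t =>
    Good.contract hX hca haa (cen_real t) hch h2 hk hkJ
  set h' := hcon c.d k a' 1 hf with hh'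
  have Gh' : Good c.d c.e c.J A h' := by
    have := G2 1
    rw [one_al, one_mul, ← hAeq] at this
    exact this
  have mh' : h' ∈ L.L 7 := by
    have := hcon_mem 1
    rwa [one_al] at this
  have uh' : Up deg 1 h' := by
    have := hcon_up 1
    rwa [one_al] at this
  -- stage 1
  have e1 : s base (theta c.d c.e c.J A h) (theta' n c.d c.e c.Ji A h)
      = s base (theta c.d c.e c.J A h') (theta' n c.d c.e c.Ji A h') := by
    have key := path_eq (base := base) hs hfin
      (theta (C c.d) (C c.e) (C c.J) (C A) (C h + X * (C h' - C h)))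
      (theta' n (C c.d) (C c.e) (C c.Ji) (C A) (C h + X * (C h' - C h)))
    simp only [map_theta, evt_C, map_add, map_mul, evt_X, map_sub, map_theta'] at key
    rw [one_al, zero_al, zero_mul, one_mul, add_zero, add_sub_cancel] at key
    apply key
    intro t
    exact form_of_good hX (G.segment Gh' (cen_real t)) hdeg ue uA
      (uh.add (scal_up _ (uh'.sub uh))) md7 me mJ7 mJi7 mA
      ((L.L 7).add_mem mh (scal_mem _ ((L.L 7).sub_mem mh' mh)))
  -- stage 2
  have e2 : s base (theta c.d c.e c.J A h') (theta' n c.d c.e c.Ji A h')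
      = s base (theta c.d c.e c.J a' 0) (theta' n c.d c.e c.Ji a' 0) := by
    have key := path_eq (base := base) hs hfin
      (theta (C c.d) (C c.e) (C c.J) (C a' + X * (C c.d * C k + C k * C c.d))
        (hcon (C c.d) (C k) (C a') X (C hf)))
      (theta' n (C c.d) (C c.e) (C c.Ji) (C a' + X * (C c.d * C k + C k * C c.d))
        (hcon (C c.d) (C k) (C a') X (C hf)))
    simp only [map_theta, map_theta', map_add, map_mul, map_hcon, evt_C, evt_X] at key
    rw [one_al, zero_al, zero_mul, one_mul, add_zero, hcon_zero, ← hAeq] at key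
    refine (key ?_).symm
    intro t
    exact form_of_good hX (G2 t) hdeg ue ((up_algebraMap a).add (scal_up _ ubr)) (hcon_up t)
      md7 me mJ7 mJi7 ((L.L 7).add_mem (L.le (by norm_num) (mem_algebraMap a))
        (scal_mem _ mbr)) (hcon_mem t)
  -- stage 3
  have e3 : s base (theta c.d c.e c.J a' 0) (theta' n c.d c.e c.Ji a' 0)
      = s base (a • (c.J * c.e)) (a • (c.e * c.Ji)) := by
    have key := path_eq (base := base) hs hfin
      (theta (X * C c.d) (C c.e) (C c.J) (C a') 0)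
      (theta' n (X * C c.d) (C c.e) (C c.Ji) (C a') 0)
    simp only [map_theta, map_theta', map_mul, evt_C, evt_X, map_zero] at key
    rw [one_al, zero_mul, one_mul] at key
    have f1 : theta 0 c.e c.J a' 0 = a • (c.J * c.e) := by
      rw [theta_sign, zero_add, ← mul_assoc, ← hca.comm, mul_assoc, ha', ← Algebra.smul_def]
    have f2 : theta' n 0 c.e c.Ji a' 0 = a • (c.e * c.Ji) := by
      rw [theta'_sign, zero_add, mul_assoc, ha', ← Algebra.smul_def]
    rw [f1, f2] at key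
    refine (key ?_).symm
    intro t
    exact form_of_good (hX.scale (cen_real t)) (Good.sign hca haa) hdeg ue (up_algebraMap a)
      (Up.zero 1) (scal_mem _ md7) me mJ7 mJi7 (L.le (by norm_num) (mem_algebraMap a))
      (L.L 7).zero_mem
  rw [e1, e2, e3]

end Path

end Vale.Agent.P228.Alg
end
end

section

section

/-!
# P228, block A (helper144): the value of a path invariant functional at the characters
-/

namespace Vale.Agent.P228.Alg

open Kos Vale.Agent.P228.Top

namespace ChainIn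

section

variable {ι : Type*} {q n : ℕ} [NeZero q] {N : NearRel ι q} {E : CRel ι}
  (C : ChainIn ι q n N E) (j : ZMod q)

theorem at_A_mem : (C.F.at j).A ∈ (relFil (K := ℂ) E).L 5 := by
  rw [← Fam.ev_A]; exact ev_mem_relFil C.N_E C.A_mem j

theorem at_h_mem : (C.F.at j).h ∈ (relFil (K := ℂ) E).L 5 := by
  rw [← Fam.ev_h]; exact ev_mem_relFil C.N_E C.h_mem j

theorem cd_mem : C.c.d ∈ (relFil (K := ℂ) E).L 1 := fun x y h => C.N_E 0 1 x y (C.d_sup x y h)
theorem ce_mem : C.c.e ∈ (relFil (K := ℂ) E).L 0 := fun x y h => C.N_E 0 0 x y (C.e_sup x y h)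
theorem cJ_mem : C.c.J ∈ (relFil (K := ℂ) E).L 1 := fun x y h => C.N_E 0 1 x y (C.J_sup x y h)
theorem cJi_mem : C.c.Ji ∈ (relFil (K := ℂ) E).L 1 := fun x y h =>
  C.N_E 0 1 x y (C.Ji_sup x y h)

theorem at_T_up (g : ZMod q) : Up C.deg 0 ((C.F.at j).T g) := by
  rw [Fam.at_T]; exact (C.T_up g).smul _

theorem at_H_up (g g' : ZMod q) : Up C.deg 1 ((C.F.at j).H g g') := by
  rw [Fam.at_H]; exact (C.H_up g g').smul _

theorem at_Bh_up (g : ZMod q) : Up C.deg 1 ((C.F.at j).Bh g) := by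
  rw [Fam.at_Bh]; exact (C.Bh_up g).smul _

theorem at_A_up : Up C.deg 0 (C.F.at j).A :=
  Fam.A_up C.d_down (C.at_T_up j) (C.at_Bh_up j)

theorem at_h_up : Up C.deg 1 (C.F.at j).h :=
  Fam.h_up C.d_down C.J_flip C.Ji_flip (C.at_T_up j) (C.at_Bh_up j) (C.at_H_up j)

/-- the weighted coarse homotopies -/
noncomputable def wk (g : ZMod q) : LMat ι ℂ := (mon g : GK q) j • C.k g

theorem wk_odd (g : ZMod q) : C.c.IsOdd (C.wk j g) := C.c.isOdd_smulS _ (C.k_odd g)

theorem wk_up (g : ZMod q) : Up C.deg 1 (C.wk j g) := (C.k_up g).smul ((mon g : GK q) j)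

theorem wk_mem (g : ZMod q) : C.wk j g ∈ (relFil (K := ℂ) E).L 1 :=
  smulC_mem_relFil _ (fun x y h => C.k_sup g x y h)

theorem kap_mem' : Fam.kap C.c (C.wk j) ∈ (relFil (K := ℂ) E).L 3 :=
  Fam.kap_mem (L := relFil (K := ℂ) E) (a := 1) C.cJ_mem C.cJi_mem (C.wk_mem j)

/-- the sign at the character `j` -/
noncomputable def sg (j : ZMod q) : ℝ := if j = 0 then -1 else 1

omit [NeZero q] in
theorem sg_sq (j : ZMod q) : sg j * sg j = 1 := by
  unfold sg; split_ifs <;> norm_num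

theorem at_A_eq : (C.F.at j).A = sg j • (1 : LMat ι ℂ) + C.c.br (Fam.kap C.c (C.wk j)) :=
  C.F.at_A_coarse C.T_eq j

end

section

variable {ι B : Type} {q n : ℕ} [NeZero q] {N : NearRel ι q} {base : ι → B} {E : CRel B}
  (C : ChainIn ι q n N (E.pull base)) (j : ZMod q)

/-- **the value at the character `j`** -/
theorem value (hfin : ∀ b, {x | base x = b}.Finite) {s : IntInv B}
    (hs : PathInv (E.rel ((2 * n + 2) * 7)) s) :
    s base (ev j C.th) (ev j C.th') =
      s base (sg j • (C.c.J * C.c.e)) (sg j • (C.c.e * C.c.Ji)) := by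
  have e1 : ev j C.th = theta C.c.d C.c.e C.c.J (C.F.at j).A (C.F.at j).h := ev_theta C.F j
  have e2 : ev j C.th' = theta' n C.c.d C.c.e C.c.Ji (C.F.at j).A (C.F.at j).h :=
    ev_theta' C.F n j
  rw [e1, e2]
  exact coarse_path (base := base) (E := E) (n := n) (deg := C.deg) (k := Fam.kap C.c (C.wk j))
    (sg_sq j) (C.F.at j).good (Fam.kap_odd (C.wk_odd j)) Fam.kap_sh (C.at_A_eq j) C.deg_le
    C.e_up C.d_down (C.at_A_up j) (C.at_h_up j) (Fam.kap_up C.J_flip C.Ji_flip (C.wk_up j))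
    C.cd_mem C.ce_mem C.cJ_mem C.cJi_mem
    ((relFil (K := ℂ) (E.pull base)).le (by norm_num) (C.at_A_mem j))
    ((relFil (K := ℂ) (E.pull base)).le (by norm_num) (C.at_h_mem j))
    (C.kap_mem' j) hfin hs

end

end ChainIn

end Vale.Agent.P228.Alg
end
end

section

section

section

open Set Topology Complex

namespace Vale.Agent.P228

/-- angle of `z` measured from the direction `k * δ`. -/
noncomputable def ang (δ : ℝ) (k : ℤ) (z : ℂ) : ℝ := arg (z * exp (-((k * δ : ℝ) : ℂ) * I))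

lemma ang_of_eq {δ α : ℝ} {k : ℤ} {z : ℂ} (h : z = exp (((k * δ + α : ℝ) : ℂ) * I))
    (hα : α ∈ Ioc (-Real.pi) Real.pi) : ang δ k z = α := by
  have h1 : z * exp (-((k * δ : ℝ) : ℂ) * I) = exp ((α : ℂ) * I) := by
    rw [h, ← exp_add]
    congr 1
    push_cast
    ring
  rw [ang, h1, arg_exp_mul_I, toIocMod_eq_self]
  constructor
  · exact hα.1
  · have := hα.2
    linarith

lemma ang_mem (δ : ℝ) (k : ℤ) (z : ℂ) : ang δ k z ∈ Ioc (-Real.pi) Real.pi :=
  arg_mem_Ioc _

lemma norm_exp_mul (δ : ℝ) (k : ℤ) {z : ℂ} (hz : ‖z‖ = 1) :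
    ‖z * exp (-((k * δ : ℝ) : ℂ) * I)‖ = 1 := by
  rw [norm_mul, hz, one_mul, norm_exp]
  simp

lemma ang_rep (δ : ℝ) (k : ℤ) {z : ℂ} (hz : ‖z‖ = 1) :
    z = exp (((k * δ + ang δ k z : ℝ) : ℂ) * I) := by
  have h1 := norm_mul_exp_arg_mul_I (z * exp (-((k * δ : ℝ) : ℂ) * I))
  rw [norm_exp_mul δ k hz] at h1
  have h2 : exp (((k * δ + ang δ k z : ℝ) : ℂ) * I)
      = exp (((k * δ : ℝ) : ℂ) * I) * exp ((ang δ k z : ℂ) * I) := by
    rw [← exp_add]
    congr 1
    push_cast
    ring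
  rw [h2]
  have h3 : exp ((ang δ k z : ℂ) * I) = z * exp (-((k * δ : ℝ) : ℂ) * I) := by
    rw [← h1]
    simp only [ang, ofReal_mul, ofReal_intCast, neg_mul, ofReal_one, one_mul]
  rw [h3, mul_comm, mul_assoc, ← exp_add]
  simp

lemma ang_shift {δ : ℝ} {k j : ℤ} {z : ℂ} (hz : ‖z‖ = 1)
    (h : ang δ k z + j * δ ∈ Ioc (-Real.pi) Real.pi) :
    ang δ (k - j) z = ang δ k z + j * δ := by
  apply ang_of_eq _ h
  have h1 := ang_rep δ k hz
  have h2 : ((k - j : ℤ) : ℝ) * δ + (ang δ k z + j * δ) = k * δ + ang δ k z := by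
    push_cast; ring
  rw [h2]
  exact h1

lemma ang_period {δ : ℝ} {q : ℕ} (hδ : q * δ = 2 * Real.pi) (k : ℤ) (z : ℂ) :
    ang δ (k + q) z = ang δ k z := by
  have h1 : exp (-(((k + q : ℤ) * δ : ℝ) : ℂ) * I) = exp (-((k * δ : ℝ) : ℂ) * I) := by
    rw [exp_eq_exp_iff_exists_int]
    refine ⟨-1, ?_⟩
    have h2 : (((k + q : ℤ) * δ : ℝ) : ℂ) = ((k * δ : ℝ) : ℂ) + 2 * Real.pi := by
      have : ((k + q : ℤ) * δ : ℝ) = k * δ + 2 * Real.pi := by
        push_cast
        rw [add_mul, hδ]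
      rw [this]
      push_cast
      ring
    rw [h2]
    push_cast
    ring
  rw [ang, ang, h1]

lemma ang_period' {δ : ℝ} {q : ℕ} (hδ : q * δ = 2 * Real.pi) (k m : ℤ) (z : ℂ) :
    ang δ (k + m * q) z = ang δ k z := by
  induction m using Int.induction_on with
  | zero => simp
  | succ i ih =>
    rw [← ih, ← ang_period hδ (k + i * q)]
    congr 1
    ring
  | pred i ih =>
    rw [← ih, ← ang_period hδ (k + (-i - 1) * q)]
    congr 1
    ring

/-- `z` is a power of the `q`-th root of unity iff some angle vanishes -/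
lemma pow_eq_one_of_ang {δ : ℝ} {q : ℕ} (hδ : q * δ = 2 * Real.pi) {k : ℤ} {z : ℂ}
    (hz : ‖z‖ = 1) {j : ℤ} (h : ang δ k z = j * δ) : z ^ q = 1 := by
  have h1 := ang_rep δ k hz
  rw [h] at h1
  rw [h1, ← exp_nat_mul]
  rw [exp_eq_one_iff]
  refine ⟨k + j, ?_⟩
  have h2 : (q : ℂ) * (((k * δ + j * δ : ℝ) : ℂ) * I) = ((k + j : ℤ) : ℂ) * ((q * δ : ℝ) : ℂ) * I := by
    push_cast; ring
  rw [h2, hδ]
  push_cast
  ring

lemma exists_ang_mem {δ : ℝ} {q : ℕ} (hq : 0 < q) (hδ0 : 0 < δ) (hδπ : δ ≤ Real.pi)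
    (hδ : q * δ = 2 * Real.pi)
    {z : ℂ} (hz : ‖z‖ = 1) (hzq : z ^ q ≠ 1) :
    ∃ k ∈ Finset.range q, ang δ (k : ℤ) z ∈ Ioo 0 δ := by
  set m : ℤ := ⌊ang δ 0 z / δ⌋ with hm
  have h1 : (m : ℝ) ≤ ang δ 0 z / δ := Int.floor_le _
  have h2 : ang δ 0 z / δ < m + 1 := Int.lt_floor_add_one _
  rw [le_div_iff₀ hδ0] at h1
  rw [div_lt_iff₀ hδ0] at h2
  have h3 : ang δ 0 z + ((-m : ℤ) : ℝ) * δ ∈ Ico 0 δ := by
    push_cast
    constructor
    · linarith only [h1]
    · nlinarith only [h2]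
  have h4 : ang δ (0 - (-m)) z = ang δ 0 z + ((-m : ℤ) : ℝ) * δ := by
    apply ang_shift hz
    exact ⟨by linarith only [hδ0, hδπ, h3.1], by linarith only [hδπ, h3.2]⟩
  rw [zero_sub, neg_neg] at h4
  have h5 : ang δ m z ∈ Ioo 0 δ := by
    rw [h4]
    refine ⟨lt_of_le_of_ne h3.1 ?_, h3.2⟩
    intro h0
    rw [← h4] at h0
    exact hzq (pow_eq_one_of_ang hδ hz (k := m) (j := 0) (by simpa using h0.symm))
  have hqz : (0 : ℤ) < q := by exact_mod_cast hq
  have h6 := Int.emod_add_mul_ediv m q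
  have h7 : 0 ≤ m % q := Int.emod_nonneg _ hqz.ne'
  have h8 : m % q < q := Int.emod_lt_of_pos _ hqz
  refine ⟨(m % q).toNat, ?_, ?_⟩
  · rw [Finset.mem_range]
    omega
  · rw [Int.toNat_of_nonneg h7]
    have h9 := ang_period' hδ (m % q) (m / q) z
    rw [← h9]
    have h10 : m % (q : ℤ) + m / (q : ℤ) * q = m := by
      rw [mul_comm]; exact h6
    rw [h10]
    exact h5

lemma ang_disjoint {δ : ℝ} {q : ℕ} (hδ0 : 0 < δ) (hδ : q * δ = 2 * Real.pi)
    {z : ℂ} (hz : ‖z‖ = 1) {k k' : ℕ} (hk : k < q) (hk' : k' < q)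
    (h : ang δ (k : ℤ) z ∈ Ioo 0 δ) (h' : ang δ (k' : ℤ) z ∈ Ioo 0 δ) : k = k' := by
  have h1 := ang_rep δ (k : ℤ) hz
  have h2 := ang_rep δ (k' : ℤ) hz
  have h12 := h2.symm.trans h1
  rw [exp_eq_exp_iff_exists_int] at h12
  obtain ⟨m, hm⟩ := h12
  set s := ang δ (k : ℤ) z
  set s' := ang δ (k' : ℤ) z
  have h3 : ((k' : ℤ) : ℝ) * δ + s' = ((k : ℤ) : ℝ) * δ + s + m * (2 * Real.pi) := by
    have h4 : (((((k' : ℤ) : ℝ) * δ + s' : ℝ)) : ℂ) * I
        = (((((k : ℤ) : ℝ) * δ + s + m * (2 * Real.pi) : ℝ)) : ℂ) * I := by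
      rw [hm]
      push_cast
      ring
    have h5 := mul_right_cancel₀ I_ne_zero h4
    exact_mod_cast h5
  rw [← hδ] at h3
  have h6 : (((k' : ℤ) - k - m * q : ℤ) : ℝ) * δ = s - s' := by
    push_cast at h3 ⊢
    linarith only [h3]
  have h7 : |(((k' : ℤ) - k - m * q : ℤ) : ℝ) * δ| < δ := by
    rw [h6, abs_lt]
    constructor <;> linarith only [h.1, h'.2, h.2, h'.1]
  rw [abs_mul, abs_of_pos hδ0] at h7
  have h8 : |(((k' : ℤ) - k - m * q : ℤ) : ℝ)| < 1 := by
    by_contra h9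
    push Not at h9
    nlinarith only [hδ0, h7, h9]
  have h9 : ((k' : ℤ) - k - m * q : ℤ) = 0 := by
    have : |((k' : ℤ) - k - m * q : ℤ)| < 1 := by exact_mod_cast h8
    exact Int.abs_lt_one_iff.1 this
  have hqz : (0 : ℤ) < q := by
    have : 0 < q := lt_of_le_of_lt (Nat.zero_le _) hk
    exact_mod_cast this
  have h10 : m = 0 := by
    by_contra hm0
    rcases lt_or_gt_of_ne hm0 with h11 | h11
    · have : m * q ≤ -q := by nlinarith only [h11]
      omega
    · have : (q : ℤ) ≤ m * q := by nlinarith only [h11]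
      omega
  rw [h10] at h9
  omega

/-- continuity of the angle -/
lemma continuousAt_ang {δ : ℝ} {k : ℤ} {z : ℂ} (hz : z ≠ 0) (h : ang δ k z ≠ Real.pi) :
    ContinuousAt (ang δ k) z := by
  have h1 : z * exp (-((k * δ : ℝ) : ℂ) * I) ∈ slitPlane := by
    rw [mem_slitPlane_iff_arg]
    exact ⟨h, mul_ne_zero hz (exp_ne_zero _)⟩
  exact (continuousAt_arg h1).comp (f := fun z : ℂ => z * exp (-((k * δ : ℝ) : ℂ) * I))
    (by fun_prop)

lemma cos_ang (δ : ℝ) (k : ℤ) {z : ℂ} (hz : ‖z‖ = 1) :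
    Real.cos (ang δ k z) = (z * exp (-((k * δ : ℝ) : ℂ) * I)).re := by
  have h1 := norm_mul_exp_arg_mul_I (z * exp (-((k * δ : ℝ) : ℂ) * I))
  rw [norm_exp_mul δ k hz] at h1
  have h2 : z * exp (-((k * δ : ℝ) : ℂ) * I) = exp ((ang δ k z : ℂ) * I) := by
    rw [← h1]
    simp only [ofReal_one, ofReal_mul, ofReal_intCast, neg_mul, one_mul, ang]
  rw [h2, exp_ofReal_mul_I_re]

lemma abs_ang_le_iff {δ r : ℝ} {k : ℤ} {z : ℂ} (hz : ‖z‖ = 1) (hr0 : 0 ≤ r) (hr : r ≤ Real.pi) :
    |ang δ k z| ≤ r ↔ Real.cos r ≤ (z * exp (-((k * δ : ℝ) : ℂ) * I)).re := by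
  have hm := ang_mem δ k z
  have habs : |ang δ k z| ≤ Real.pi := abs_le.2 ⟨hm.1.le, hm.2⟩
  rw [← cos_ang δ k hz, ← Real.cos_abs (ang δ k z)]
  constructor
  · intro h
    exact Real.cos_le_cos_of_nonneg_of_le_pi (abs_nonneg _) hr h
  · intro h
    by_contra h1
    push Not at h1
    have := Real.cos_lt_cos_of_nonneg_of_le_pi hr0 habs h1
    linarith only [h, this]

lemma ang_nonneg_iff {δ : ℝ} {k : ℤ} {z : ℂ} :
    0 ≤ ang δ k z ↔ 0 ≤ (z * exp (-((k * δ : ℝ) : ℂ) * I)).im := arg_nonneg_iff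

end Vale.Agent.P228
end
end
end

section

section

/-! Homotopies between the chain maps of almost commuting lattice maps (helper819). -/

namespace Vale.Agent.P228.Cub

open Finsupp

variable {k : Type*} [Field k] {ι : Type*} [Fintype ι] [LinearOrder ι]

theorem hull_self {G : (ι → ℤ) → ι → ℤ} {e : ℕ} (hG : ∀ v i, |G v i - v i| ≤ (e : ℤ))
    (c : Cell ι) : hullC G e c c :=
  hull_of_close fun w hw => ⟨w, hw, fun i => by
    have := hG w i
    rwa [abs_sub_comm] at this⟩

/-- **coarse homotopies `Θ_f ≃ 1`** -/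
theorem exists_K {f : (ι → ℤ) → ι → ℤ} {e ρ : ℕ} (hfe : ∀ v i, |f v i - v i| ≤ (e : ℤ))
    (hρ : e ≤ ρ) {T : (Cell ι →₀ k) →ₗ[k] (Cell ι →₀ k)}
    (hT : (cub k ι).IsMap (hullC f 0) 1 T) :
    ∃ K, (cub k ι).IsHom (hullC id ρ) (T - LinearMap.id) K :=
  BCx.exists_hom (hull_carr k id ρ)
    (hT.mono fun _ _ h => hull_coarse hfe (by omega) h)
    (BCx.IsMap.id fun c => hull_mono (Nat.zero_le ρ) (Finset.Subset.refl _)
      (hull_self (e := 0) (fun v i => by simp) c))

end Vale.Agent.P228.Cub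
end
end

section

section

/-! Homotopies for an arbitrary family `T g` of chain maps carried by the location dependent
carriers of `F g` (helper819). -/

namespace Vale.Agent.P228.Cub

open Finsupp Geo

variable {k : Type*} [Field k] {n q K₀ L : ℕ}

theorem loc_of_near {G : (Fin n → ℤ) → Fin n → ℤ} {Rin ρ ρ' : ℕ} {c c' : Cell (Fin n)}
    (h1 : NearV ρ' c' c) (h2 : Inner Rin c → NearF G ρ c' c) : locC Rin G ρ ρ' c c' := by
  obtain ⟨v, hv⟩ := vt_nonempty c
  by_cases hc : Inner Rin c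
  · exact Or.inl ⟨hc, hull_of_close fun w hw => ⟨v, hv, h2 hc w hw v hv⟩⟩
  · exact Or.inr ⟨hc, hull_of_close fun w hw => ⟨v, hv, h1 w hw v hv⟩⟩

theorem nearV_of_hull {ρ : ℕ} {c c' : Cell (Fin n)}
    (h : hullC (id : (Fin n → ℤ) → Fin n → ℤ) ρ c c') : NearV (1 + ρ) c' c :=
  fun _ hw _ hv i => hull_close (G := id) (r := 1)
    (fun _ ha _ hb i => by exact_mod_cast vt_close ha hb i) h hw hv i

variable (D : Maps n q K₀ L)

theorem nearF_of_hull (hL : 2 ≤ L) (hK : 1 ≤ K₀) {g : ZMod q} {ρ : ℕ} {c c' : Cell (Fin n)}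
    (h : hullC (D.F g) ρ c c') : NearF (D.F g) (D.Rl 1 + ρ) c' c :=
  fun _ hw _ hv i => hull_close (r := D.Rl 1)
    (fun _ ha _ hb i => F_lip1 D hL hK g (vt_Close ha hb) i) h hw hv i

theorem nearV_of_loc {g : ZMod q} {Rin ρ ρ' : ℕ} (hρ : ρ + D.e ≤ ρ') {c c' : Cell (Fin n)}
    (h : locC Rin (D.F g) ρ ρ' c c') : NearV (1 + ρ') c' c := by
  rcases h with ⟨_, h⟩ | ⟨_, h⟩
  · exact nearV_of_hull (hull_coarse (fun v i => D.F_disp g v i) hρ h)
  · exact nearV_of_hull h

theorem nearF_of_loc (hL : 2 ≤ L) (hK : 1 ≤ K₀) {g : ZMod q} {Rin ρ ρ' : ℕ}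
    {c c' : Cell (Fin n)} (h : locC Rin (D.F g) ρ ρ' c c') (hc : Inner Rin c) :
    NearF (D.F g) (D.Rl 1 + ρ) c' c := by
  rcases h with ⟨_, h⟩ | ⟨h0, _⟩
  · exact nearF_of_hull D hL hK h
  · exact absurd hc h0

/-- entries in a location dependent carrier satisfy the one-step relation `St` -/
theorem st_of_loc' (hL : 2 ≤ L) (hK : 1 ≤ K₀) {Rin Rin' : ℕ} {g : ZMod q} {ρ ρ' : ℕ}
    (hRin : Rin + ρ' + 2 ≤ Rin') (hρ : D.Rl 1 + ρ ≤ K₀ * D.Rl L) (hρ' : 1 + ρ' ≤ K₀ * D.e)
    (hρe : ρ + D.e ≤ ρ') {x y : Cell (Fin n)} (h : locC Rin' (D.F g) ρ ρ' y x) :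
    D.St Rin g (base x) (base y) := by
  have h0 : Close (1 + ρ') (base x) (base y) :=
    nearV_of_loc D hρe h _ (pos_mem_vt x) _ (pos_mem_vt y)
  refine ⟨cl_mono h0 hρ', fun hb => Or.inl ?_⟩
  have hin : Inner Rin' y := by
    rcases hb with hb | hb
    · exact inner_of_inBox (r := Rin + (1 + ρ')) (by omega) (ib_close hb (cl_symm h0))
    · exact inner_of_inBox (by omega) hb
  exact cl_mono (nearF_of_loc D hL hK h hin _ (pos_mem_vt x) _ (pos_mem_vt y)) hρ

/-- composition of two location dependent carriers -/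
theorem comp_locT (hL : 3 ≤ L) {a b : ℕ} (hK : a + 1 ≤ K₀) (hab : a + 1 ≤ b) {Rh Rt : ℕ}
    (hRt : Rt ≤ D.Rad) (hRh : Rh + b * D.e + 1 ≤ Rt) {g h : ZMod q} {c c' c'' : Cell (Fin n)}
    (h1 : locC Rt (D.F h) (a * D.Rl 2) (b * D.e) c c')
    (h2 : locC Rt (D.F g) (a * D.Rl 2) (b * D.e) c' c'') :
    locC Rh (D.F (g + h)) ((a + 3) * D.Rl 3) ((2 * b + 2) * D.e) c c'' := by
  have hR12 : D.Rl 1 ≤ D.Rl 2 := Rl_mono D (by omega) (by omega) (by omega)
  have hR23 : D.Rl 2 ≤ D.Rl 3 := Rl_mono D (by omega) hL (by omega)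
  have hR2e : D.Rl 2 ≤ D.e := (Rl_mono D (by omega) le_rfl (by omega)).trans D.Rl_le_e
  have h1e : 1 ≤ D.e := (Rl_one_le D L le_rfl (by omega)).trans D.Rl_le_e
  have hae : a * D.Rl 2 + D.e ≤ b * D.e := by
    calc a * D.Rl 2 + D.e ≤ a * D.e + D.e := by (clear * - hR2e; gcongr)
      _ = (a + 1) * D.e := by ring
      _ ≤ b * D.e := by (clear * - hab; gcongr)
  have v1 := nearV_of_loc D hae h1
  have v2 := nearV_of_loc D hae h2
  obtain ⟨w, hw⟩ := vt_nonempty c'
  refine loc_of_near (fun x hx y hy => ?_) (fun hc x hx y hy => ?_)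
  · refine cl_mono (cl_trans (v2 x hx w hw) (v1 w hw y hy)) ?_
    linarith
  · have hc1 : Inner Rt c := fun v hv => ib_mono (hc v hv) (by omega)
    have hc2 : Inner Rt c' := fun v hv =>
      ib_mono (ib_close (hc y hy) (v1 v hv y hy)) (by (clear * - hRh; omega))
    have f1 := nearF_of_loc D (by omega) (by omega) h1 hc1
    have f2 := nearF_of_loc D (by omega) (by omega) h2 hc2
    have f3 : Close (D.Rl 3) (D.F g w) (D.F g (D.F h y)) := by
      refine D.F_lip 2 (by omega) g _ _ (cl_mono (f1 w hw y hy) ?_)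
      calc D.Rl 1 + a * D.Rl 2 ≤ D.Rl 2 + a * D.Rl 2 := by (clear * - hR12; gcongr)
        _ = (a + 1) * D.Rl 2 := by ring
        _ ≤ K₀ * D.Rl 2 := by (clear * - hK; gcongr)
    have f4 : Close (D.Rl 1) (D.F g (D.F h y)) (D.F (g + h) y) :=
      D.F_mul g h y (ib_mono (hc1 y hy) hRt)
    refine cl_mono (cl_trans (f2 x hx w hw) (cl_trans f3 f4)) ?_
    have : a * D.Rl 2 ≤ a * D.Rl 3 := Nat.mul_le_mul_left _ hR23
    nlinarith only [hR12, hR23]

/-- **homotopies `T_g T_h ≃ T_{g+h}`** for a family carried by location dependent carriers -/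
theorem exists_HT (hL : 3 ≤ L) {a b : ℕ} (hK : a + 1 ≤ K₀) (hab : a + 1 ≤ b) {Rh Rt : ℕ}
    (hRt : Rt ≤ D.Rad) (hRh : Rh + b * D.e + 1 ≤ Rt) (g h : ZMod q)
    {T : ZMod q → ((Cell (Fin n) →₀ k) →ₗ[k] (Cell (Fin n) →₀ k))}
    (hT : ∀ g, (cub k (Fin n)).IsMap (locC Rt (D.F g) (a * D.Rl 2) (b * D.e)) 1 (T g)) :
    ∃ H, (cub k (Fin n)).IsHom (locC Rh (D.F (g + h)) ((a + 3) * D.Rl 3) ((2 * b + 2) * D.e))
      (T g ∘ₗ T h - T (g + h)) H := by
  have hR23 : D.Rl 2 ≤ D.Rl 3 := Rl_mono D (by omega) hL (by omega)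
  have hR3e : D.Rl 3 ≤ D.e := (Rl_mono D hL le_rfl (by omega)).trans D.Rl_le_e
  have ha3 : a * D.Rl 2 ≤ (a + 3) * D.Rl 3 := Nat.mul_le_mul (by omega) hR23
  have hae : a * D.Rl 2 + D.e ≤ b * D.e := by
    calc a * D.Rl 2 + D.e ≤ a * D.e + D.e := by gcongr; exact hR23.trans hR3e
      _ = (a + 1) * D.e := by ring
      _ ≤ b * D.e := by gcongr
  have hbe : (a + 3) * D.Rl 3 + D.e ≤ (2 * b + 2) * D.e := by
    calc (a + 3) * D.Rl 3 + D.e ≤ (a + 3) * D.e + D.e := by (clear * - hR3e; gcongr)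
      _ = (a + 4) * D.e := by ring
      _ ≤ (2 * b + 2) * D.e := Nat.mul_le_mul_right _ (by omega)
  have hb2 : b * D.e + 1 ≤ (2 * b + 2) * D.e := by
    have h1e : 1 ≤ D.e := (Rl_one_le D L le_rfl (by omega)).trans D.Rl_le_e
    nlinarith only [h1e]
  have hf : (cub k (Fin n)).IsMap (locC Rh (D.F (g + h)) ((a + 3) * D.Rl 3)
      ((2 * b + 2) * D.e)) 1 (T g ∘ₗ T h) := by
    have := (hT h).comp (hT g) fun _ _ _ h1 h2 => comp_locT D hL hK hab hRt hRh h1 h2
    rwa [one_mul] at this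
  refine BCx.exists_hom (loc_carr k Rh (fun v i => D.F_disp (g + h) v i) hbe) hf
    ((hT (g + h)).mono fun c c' hcc => ?_)
  refine loc_of_near ((nearV_of_loc D hae hcc).mono (by omega)) fun hc => ?_
  obtain ⟨v, hv⟩ := vt_nonempty c
  have hc1 : Inner Rt c := fun v hv => ib_mono (hc v hv) (by omega)
  refine (nearF_of_loc D (by omega) (by omega) hcc hc1).mono ?_
  have hR13 : D.Rl 1 ≤ D.Rl 3 := Rl_mono D (by omega) hL (by omega)
  have : a * D.Rl 2 ≤ a * D.Rl 3 := Nat.mul_le_mul_left _ hR23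
  nlinarith only [hR13, this]

/-- **coarse homotopies `T_g ≃ 1`** -/
theorem exists_LT (hL : 2 ≤ L) (hK : 1 ≤ K₀) {a b : ℕ} (hab : a + 1 ≤ b) {Rt : ℕ} (g : ZMod q)
    {T : (Cell (Fin n) →₀ k) →ₗ[k] (Cell (Fin n) →₀ k)}
    (hT : (cub k (Fin n)).IsMap (locC Rt (D.F g) (a * D.Rl 2) (b * D.e)) 1 T) :
    ∃ H, (cub k (Fin n)).IsHom (hullC id (b * D.e)) (T - LinearMap.id) H := by
  have hR2e : D.Rl 2 ≤ D.e := (Rl_mono D hL le_rfl (by omega)).trans D.Rl_le_e
  have hae : a * D.Rl 2 + D.e ≤ b * D.e := by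
    calc a * D.Rl 2 + D.e ≤ a * D.e + D.e := by gcongr
      _ = (a + 1) * D.e := by ring
      _ ≤ b * D.e := by gcongr
  refine BCx.exists_hom (hull_carr k id _) (hT.mono fun c c' h => ?_)
    (BCx.IsMap.id fun c => hull_mono (Nat.zero_le _) (Finset.Subset.refl _)
      (hull_self (e := 0) (fun v i => by simp) c))
  rcases h with ⟨_, h⟩ | ⟨_, h⟩
  · exact hull_coarse (fun v i => D.F_disp g v i) hae h
  · exact h

/-- **all homotopies, with supports in `St` form** -/
theorem exists_HL (hL : 3 ≤ L) {a b : ℕ} (hK : 2 * b + 3 ≤ K₀) (hab : a + 1 ≤ b) {Rin Rt : ℕ}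
    (hRt : Rt ≤ D.Rad) (hRin : Rin + (3 * b + 2) * D.e + 3 ≤ Rt)
    {T : ZMod q → ((Cell (Fin n) →₀ k) →ₗ[k] (Cell (Fin n) →₀ k))}
    (hT : ∀ g, (cub k (Fin n)).IsMap (locC Rt (D.F g) (a * D.Rl 2) (b * D.e)) 1 (T g)) :
    (∀ g x y, (T g (single y 1)) x ≠ 0 → dg x = dg y ∧ D.St Rin g (base x) (base y)) ∧
    ∃ (H : ZMod q → ZMod q → ((Cell (Fin n) →₀ k) →ₗ[k] (Cell (Fin n) →₀ k)))
      (Λ : ZMod q → ((Cell (Fin n) →₀ k) →ₗ[k] (Cell (Fin n) →₀ k))),
      (∀ g h x, T g (T h x) = T (g + h) x + (bdry (H g h x) +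
        H g h (bdry x))) ∧
      (∀ g x, T g x = x + (bdry (Λ g x) + Λ g (bdry x))) ∧
      (∀ g h x y, (H g h (single y 1)) x ≠ 0 →
        dg x = dg y + 1 ∧ D.St Rin (g + h) (base x) (base y)) ∧
      (∀ g x y, (Λ g (single y 1)) x ≠ 0 →
        dg x = dg y + 1 ∧ Close (K₀ * D.e) (base x) (base y)) := by
  have hR2L : D.Rl 2 ≤ D.Rl L := Rl_mono D (by omega) le_rfl (by omega)
  have hR1L : D.Rl 1 ≤ D.Rl L := Rl_mono D (by omega) le_rfl (by omega)
  have hR3L : D.Rl 3 ≤ D.Rl L := Rl_mono D (by omega) le_rfl (by omega)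
  have hLe : D.Rl L ≤ D.e := D.Rl_le_e
  have h1e : 1 ≤ D.e := (Rl_one_le D L le_rfl (by omega)).trans D.Rl_le_e
  have hae : a * D.Rl 2 + D.e ≤ b * D.e := by
    calc a * D.Rl 2 + D.e ≤ a * D.e + D.e := by gcongr; exact hR2L.trans hLe
      _ = (a + 1) * D.e := by ring
      _ ≤ b * D.e := by gcongr
  have hbe : (a + 3) * D.Rl 3 + D.e ≤ (2 * b + 2) * D.e := by
    calc (a + 3) * D.Rl 3 + D.e ≤ (a + 3) * D.e + D.e := by gcongr; exact hR3L.trans hLe
      _ = (a + 4) * D.e := by ring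
      _ ≤ (2 * b + 2) * D.e := Nat.mul_le_mul_right _ (by (clear * - hab; omega))
  have hbK : 1 + b * D.e ≤ K₀ * D.e := by
    calc 1 + b * D.e ≤ D.e + b * D.e := by (clear * - h1e; gcongr)
      _ = (b + 1) * D.e := by ring
      _ ≤ K₀ * D.e := Nat.mul_le_mul_right _ (by omega)
  have h32 : (3 * b + 2) * D.e = b * D.e + (2 * b + 2) * D.e := by ring
  refine ⟨fun g x y hxy => ?_, ?_⟩
  · have h1 := (hT g).sup y x (Finsupp.mem_support_iff.2 hxy)
    refine ⟨h1.2, st_of_loc' D (by omega) (by omega) ?_ ?_ hbK hae h1.1⟩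
    · (clear * - hRin h32; omega)
    · calc D.Rl 1 + a * D.Rl 2 ≤ D.Rl L + a * D.Rl L := by (clear * - hR1L hR2L; gcongr)
        _ = (a + 1) * D.Rl L := by ring
        _ ≤ K₀ * D.Rl L := Nat.mul_le_mul_right _ (by (clear * - hK hab; omega))
  · have hH := fun g h => exists_HT (k := k) D hL (a := a) (b := b) (by omega) hab
      (Rh := Rt - (b * D.e + 1)) hRt (by omega) g h hT
    have hΛ := fun g => exists_LT (k := k) D (by omega) (by omega) hab g (hT g)
    choose H hH using hH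
    choose Λ hΛ using hΛ
    refine ⟨H, Λ, fun g h x => ?_, fun g x => ?_, fun g h x y hxy => ?_, fun g x y hxy => ?_⟩
    · have := (hH g h).eq x
      rw [LinearMap.sub_apply, LinearMap.comp_apply] at this
      rw [← sub_eq_iff_eq_add']
      exact this
    · have := (hΛ g).eq x
      rw [LinearMap.sub_apply, LinearMap.id_apply] at this
      rw [← sub_eq_iff_eq_add']
      exact this
    · have h1 := (hH g h).sup y x (Finsupp.mem_support_iff.2 hxy)
      refine ⟨h1.2, st_of_loc' D (by omega) (by omega) ?_ ?_ ?_ hbe h1.1⟩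
      · (clear * - hRin h32; omega)
      · calc D.Rl 1 + (a + 3) * D.Rl 3 ≤ D.Rl L + (a + 3) * D.Rl L := by (clear * - hR1L hR3L; gcongr)
          _ = (a + 4) * D.Rl L := by ring
          _ ≤ K₀ * D.Rl L := Nat.mul_le_mul_right _ (by omega)
      · calc 1 + (2 * b + 2) * D.e ≤ D.e + (2 * b + 2) * D.e := by (clear * - h1e; gcongr)
          _ = (2 * b + 3) * D.e := by ring
          _ ≤ K₀ * D.e := Nat.mul_le_mul_right _ (by omega)
    · have h1 := (hΛ g).sup y x (Finsupp.mem_support_iff.2 hxy)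
      exact ⟨h1.2, cl_mono (nearV_of_hull h1.1 _ (pos_mem_vt x) _ (pos_mem_vt y)) hbK⟩

end Vale.Agent.P228.Cub
end
end

section

section

/-!
# P228, block C: the symmetrised chain maps `T g` (helper540)

`T g = (Θ_g + J⁻¹ Θ_{-g}^* J) / 2` for the lattice maps of `Geo.Maps`: exactly `♯`-equivariant
chain maps, coarsely homotopic to the identity, carried by location dependent boxes.
-/

namespace Vale.Agent.P228.Cub

open Finsupp LMat

variable {n q K₀ : ℕ}

/-- location dependent carrier from closeness of vertices -/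
theorem locC_of_near {Z ρ ρ' : ℕ} {G : (Fin n → ℤ) → Fin n → ℤ} {b c : Cell (Fin n)}
    (h1 : NearV ρ' c b) (h2 : Inner Z b → NearF G ρ c b) : locC Z G ρ ρ' b c := by
  obtain ⟨v, hv⟩ := vt_nonempty b
  by_cases hb : Inner Z b
  · exact Or.inl ⟨hb, hull_of_close fun w hw => ⟨v, hv, fun i => h2 hb w hw v hv i⟩⟩
  · exact Or.inr ⟨hb, hull_of_close fun w hw => ⟨v, hv, fun i => h1 w hw v hv i⟩⟩

theorem cl_of_nearV {r : ℕ} {x y : Cell (Fin n)} (h : NearV r x y) : Cl r x y :=
  fun i => h _ (pos_mem_vt x) _ (pos_mem_vt y) i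

theorem exists_T (κ Z B : ℕ) (D : Geo.Maps n q K₀ 3) (c : Alg.Dual (LMat (Cell (Fin n)) ℂ))
    (hd : c.d = dL ℂ (Fin n)) (he : c.e = epsD dg)
    (hJ : ∀ x y, c.J x y ≠ 0 → NearV κ x y ∧ dg x + dg y = n)
    (hJi : ∀ x y, c.Ji x y ≠ 0 → NearV κ x y ∧ dg x + dg y = n)
    (hB : 2 * κ + 8 ≤ B) (hBK : B ≤ K₀) (hZ : Z + B * D.e ≤ D.Rad) :
    ∃ T L : ZMod q → LMat (Cell (Fin n)) ℂ,
      T 0 = 1 ∧
      (∀ g, T g * c.d = c.d * T g) ∧ (∀ g, c.IsEven (T g)) ∧ (∀ g, c.sh (T g) = T (-g)) ∧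
      (∀ g, c.IsOdd (L g)) ∧ (∀ g, T g = 1 + c.br (L g)) ∧
      (∀ g x y, T g x y ≠ 0 → dg x = dg y ∧ NearV (B * D.e) x y ∧
        (Inner Z y → NearF (D.F g) (3 * D.Rl 2) x y)) ∧
      (∀ g x y, L g x y ≠ 0 → dg x = dg y + 1 ∧ NearV (B * D.e) x y) ∧
      (∀ g, (cub ℂ (Fin n)).IsMap (locC Z (D.F g) (3 * D.Rl 2) (B * D.e)) 1 (ofL (T g))) := by
  classical
  have hK : 2 * κ + 8 ≤ K₀ := hB.trans hBK
  -- scales
  have s01 := D.Rl_step 0 (by omega)
  have s12 := D.Rl_step 1 (by omega)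
  have s23 := D.Rl_step 2 (by omega)
  simp only [zero_add, Nat.reduceAdd] at s01 s12 s23
  have s3e := D.Rl_le_e
  have hp := D.Rl_pos
  have hK1 : 1 ≤ K₀ := by omega
  have m0 : D.Rl 0 ≤ K₀ * D.Rl 0 := Nat.le_mul_of_pos_left _ hK1
  have m1 : D.Rl 1 ≤ K₀ * D.Rl 1 := Nat.le_mul_of_pos_left _ hK1
  have m2 : D.Rl 2 ≤ K₀ * D.Rl 2 := Nat.le_mul_of_pos_left _ hK1
  have hr1 : 1 ≤ D.Rl 1 := by (clear * - s01 hp m0; omega)
  have m1' : K₀ ≤ K₀ * D.Rl 1 := Nat.le_mul_of_pos_right _ (by omega)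
  have hr12 : D.Rl 1 ≤ D.Rl 2 := by omega
  have hr2e : D.Rl 2 ≤ D.e := by omega
  have hκ2 : κ ≤ D.Rl 2 := by omega
  have hee : (2 * κ + 8) * D.e ≤ B * D.e := Nat.mul_le_mul_right _ hB
  have he1 : 1 ≤ D.e := by omega
  have hκe : κ ≤ κ * D.e := Nat.le_mul_of_pos_right _ he1
  have hbig : 2 * κ + D.Rl 1 + 7 * D.e ≤ B * D.e := by
    have : (2 * κ + 8) * D.e = 2 * (κ * D.e) + 8 * D.e := by ring
    omega
  -- the maps
  have lip1 : ∀ g v w, Geo.Close 1 v w → Geo.Close (D.Rl 1) (D.F g v) (D.F g w) := by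
    intro g v w h
    refine D.F_lip 0 (by omega) g v w (close_mono ?_ h)
    exact Nat.one_le_iff_ne_zero.2 (Nat.mul_ne_zero (by omega) (by (clear * - hp; omega)))
  have lip2 : ∀ g v w, Geo.Close (K₀ * D.Rl 1) v w → Geo.Close (D.Rl 2) (D.F g v) (D.F g w) :=
    fun g v w h => D.F_lip 1 (by omega) g v w h
  obtain ⟨Θ, hΘ0, hΘm, _⟩ := exists_theta (k := ℂ) D.F D.F_zero
  have hK' : ∀ g, ∃ K, (cub ℂ (Fin n)).IsHom (hullC id D.e) (Θ g - LinearMap.id) K := fun g =>
    exists_K (fun v i => D.F_disp g v i) le_rfl (hΘm g)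
  choose Kh hKh using hK'
  -- entries of `Θ` and `K`
  have hΘs : ∀ g x y, Θ g (single y 1) x ≠ 0 → NearF (D.F g) (D.Rl 1) x y ∧ dg x = dg y := by
    intro g x y hxy
    have h1 := theta_close (R := D.Rl 1) (F := D.F)
      (fun g v w hvw i => lip1 g v w (fun j => by exact_mod_cast hvw j) i) hΘm
      (g := g) (c := y) (c' := x) (Finsupp.mem_support_iff.2 hxy)
    exact ⟨fun w hw v hv i => h1.2 w hw v hv i, h1.1⟩
  have hKs : ∀ g x y, Kh g (single y 1) x ≠ 0 → NearV (1 + D.e) x y ∧ dg x = dg y + 1 := by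
    intro g x y hxy
    have h1 := (hKh g).sup y x (Finsupp.mem_support_iff.2 hxy)
    refine ⟨fun w hw v hv i => ?_, h1.2⟩
    exact hull_close (G := id) (r := 1) (fun _ ha _ hb i => by exact_mod_cast vt_close ha hb i)
      h1.1 hw hv i
  have hΘr : ∀ g, RowFin (Θ g) := fun g => rowFin_of_Cl ((D.Rl 1 + D.e : ℕ) : ℤ) fun x y hxy => by
    refine cl_of_nearV (fun w hw v hv => ?_)
    exact close_tri ((hΘs g x y hxy).1 w hw v hv) (D.F_disp g v)
  have hKr : ∀ g, RowFin (Kh g) := fun g => rowFin_of_Cl ((1 + D.e : ℕ) : ℤ) fun x y hxy =>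
    cl_of_nearV (hKs g x y hxy).1
  set T0 : ZMod q → LMat (Cell (Fin n)) ℂ := fun g => toL (Θ g) (hΘr g) with hT0
  set L0 : ZMod q → LMat (Cell (Fin n)) ℂ := fun g => toL (Kh g) (hKr g) with hL0
  have hT0s : ∀ g x y, T0 g x y ≠ 0 → NearF (D.F g) (D.Rl 1) x y ∧ dg x = dg y :=
    fun g x y hxy => hΘs g x y hxy
  have hL0s : ∀ g x y, L0 g x y ≠ 0 → NearV (1 + D.e) x y ∧ dg x = dg y + 1 :=
    fun g x y hxy => hKs g x y hxy
  have hT00 : T0 0 = 1 := by
    apply ofL_injective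
    simp only [hT0, hΘ0, ofL_toL, map_one]
  have hT0d : ∀ g, T0 g * c.d = c.d * T0 g := by
    intro g
    apply ofL_injective
    rw [hd, map_mul, map_mul, ofL_dL]
    simp only [hT0, ofL_toL]
    refine LinearMap.ext fun x => ?_
    exact ((hΘm g).comm x).symm
  have hT0c : ∀ g, T0 g = 1 + c.br (L0 g) := by
    intro g
    apply ofL_injective
    rw [Alg.Dual.br, hd, map_add, map_add, map_mul, map_mul, ofL_dL, map_one]
    simp only [hT0, ofL_toL, hL0]
    refine LinearMap.ext fun x => ?_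
    have h1 := (hKh g).eq x
    have h2 : Θ g x - x = bdry (Kh g x) + Kh g (bdry x) := h1
    show Θ g x = x + (bdry (Kh g x) + Kh g (bdry x))
    rw [← h2]; abel
  have hT0e : ∀ g, c.IsEven (T0 g) := by
    intro g
    unfold Alg.Dual.IsEven
    rw [he]
    refine mul_epsD_of_even fun i j hij => ?_
    rw [(hT0s g i j hij).2]
    exact ⟨dg j, rfl⟩
  have hL0o : ∀ g, c.IsOdd (L0 g) := by
    intro g
    unfold Alg.Dual.IsOdd
    rw [he]
    refine mul_epsD_of_odd fun i j hij => ?_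
    rw [(hL0s g i j hij).2]
    exact ⟨dg j, by ring⟩
  -- the symmetrised family
  have hTs : ∀ g x y, symT c T0 g x y ≠ 0 → dg x = dg y ∧ NearV (B * D.e) x y ∧
      (Inner Z y → NearF (D.F g) (3 * D.Rl 2) x y) := by
    intro g x y hxy
    have h1 := symT_supp c (F := D.F) (T := T0) (r₀ := κ) (r₁ := D.Rl 1) (r₂ := D.Rl 2)
      (s := K₀ * D.Rl 1) (e := D.e) (Rin := Z) (Rad := D.Rad) lip2
      (by
        have : (κ + 1) * D.Rl 1 ≤ K₀ * D.Rl 1 := Nat.mul_le_mul_right _ (by omega)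
        have h3 : κ ≤ κ * D.Rl 1 := Nat.le_mul_of_pos_right _ hr1
        have h4 : (κ + 1) * D.Rl 1 = κ * D.Rl 1 + D.Rl 1 := by ring
        omega)
      (fun g v => D.F_disp g v)
      (fun g v hv => by
        have := D.F_mul g (-g) v hv
        rwa [add_neg_cancel, D.F_zero] at this)
      (by omega) hJ hJi hT0s hxy
    exact ⟨h1.1, h1.2.1.mono (by omega), fun hy => (h1.2.2 hy).mono (by omega)⟩
  have hLs : ∀ g x y, symT c L0 g x y ≠ 0 → dg x = dg y + 1 ∧ NearV (B * D.e) x y := by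
    intro g x y hxy
    have h1 := symT_supp_odd c (T := L0) (r₀ := κ) (r := 1 + D.e) hJ hJi hL0s hxy
    exact ⟨h1.1, h1.2.mono (by (clear * - s01 he1 hbig; omega))⟩
  have hTc : ∀ g, symT c T0 g = 1 + c.br (symT c L0 g) := symT_coarse hT0c
  have hTd : ∀ g, symT c T0 g * c.d = c.d * symT c T0 g := symT_d hT0d
  refine ⟨symT c T0, symT c L0, symT_zero hT00, hTd, symT_even hT0e, sh_symT T0,
    symT_odd hL0o, hTc, hTs, hLs, fun g => ⟨fun b => ?_, fun x => ?_, fun b hb => ?_⟩⟩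
  · intro x hx
    have hx' : symT c T0 g x b ≠ 0 := by
      have := Finsupp.mem_support_iff.1 hx
      rwa [ofL_single_apply] at this
    obtain ⟨h1, h2, h3⟩ := hTs g x b hx'
    exact ⟨locC_of_near h2 h3, h1⟩
  · have h1 := congrArg ofL (hTd g)
    rw [map_mul, map_mul, hd, ofL_dL] at h1
    exact (LinearMap.congr_fun h1 x).symm
  · rw [one_mul]
    refine BCx.aug_of_hom (C := cub ℂ (Fin n)) (H := ofL (symT c L0 g)) (fun x => ?_) hb
    have h1 := congrArg ofL (hTc g)
    rw [Alg.Dual.br, map_add, map_add, map_mul, map_mul, hd, ofL_dL, map_one] at h1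
    have h2 := LinearMap.congr_fun h1 x
    have h3 : ofL (symT c T0 g) x
        = x + (bdry (ofL (symT c L0 g) x) + ofL (symT c L0 g) (bdry x)) := h2
    rw [h3]
    show x + _ - x = bdry (ofL (symT c L0 g) x) + ofL (symT c L0 g) (bdry x)
    abel

end Vale.Agent.P228.Cub
end
end

section

section

/-! # P228, block C: assembly -/

namespace Vale.Agent.P228.Cub

open Finsupp Geo LMat

variable {n q K₀ L₀ : ℕ}

theorem rowFin_of_close {r : ℕ} {H : Module.End ℂ (Cell (Fin n) →₀ ℂ)}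
    (h : ∀ x y, H (single y 1) x ≠ 0 → Close r (base x) (base y)) : RowFin H :=
  rowFin_of_Cl (r : ℤ) fun x y hxy => h x y hxy

/-- **Block C.** -/
theorem exists_chainData (n κ : ℕ) (c : Alg.Dual (LMat (Cell (Fin n)) ℂ)) (hc : CubDual κ c)
    (K₀ : ℕ) (hK : 8 * κ + 34 ≤ K₀) (q : ℕ) (D : Maps n q K₀ 3) (Rin : ℕ)
    (hR : Rin + K₀ * D.e + K₀ ≤ D.Rad) : Nonempty (ChainData c D Rin) := by
  classical
  obtain ⟨hd, he, hJ, hJi⟩ := hc
  set B := 2 * κ + 8 with hB
  have hZ : (Rin + (3 * B + 2) * D.e + 3) + B * D.e ≤ D.Rad := by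
    have h1 : (3 * B + 2) * D.e + B * D.e ≤ K₀ * D.e := by
      rw [← add_mul]; exact Nat.mul_le_mul_right _ (by omega)
    omega
  obtain ⟨T, L, _, T_d, T_even, T_sh, L_odd, T_one, T_sup, L_sup, T_map⟩ :=
    exists_T κ (Rin + (3 * B + 2) * D.e + 3) B D c hd he hJ hJi le_rfl (by (clear * - hK; omega)) hZ
  obtain ⟨hTs, H, _, hHeq, _, hHs, _⟩ := exists_HL D le_rfl (a := 3) (b := B) (by omega)
    (by omega) (Rin := Rin) (Rt := Rin + (3 * B + 2) * D.e + 3)
    (by have := Nat.zero_le (B * D.e); omega) le_rfl T_map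
  have hHrow : ∀ g k, RowFin (H g k : Module.End ℂ (Cell (Fin n) →₀ ℂ)) := fun g k =>
    rowFin_of_close fun x y hxy => (hHs g k x y hxy).2.1
  have hHsup : ∀ g k x y, toL (H g k) (hHrow g k) x y ≠ 0 →
      dg x = dg y + 1 ∧ D.St Rin (g + k) (pos x) (pos y) := fun g k x y hxy => hHs g k x y hxy
  refine ⟨{ T := T, H := fun g k => toL (H g k) (hHrow g k), L := L, T_d := T_d,
            T_even := T_even, T_sh := T_sh, H_odd := fun g k => ?_, T_mul := fun g k => ?_,
            L_odd := L_odd, T_one := T_one, T_sup := fun g x y hxy => ?_, H_sup := hHsup,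
            L_sup := fun g x y hxy => ?_ }⟩
  · unfold Alg.Dual.IsOdd
    rw [he]
    exact mul_epsD_of_odd fun x y hxy => by
      rw [(hHsup g k x y hxy).1]
      exact ⟨dg y, by ring⟩
  · apply ofL_injective
    rw [map_mul, map_add, Alg.Dual.br, map_add, map_mul, map_mul, ofL_toL, hd, ofL_dL]
    exact LinearMap.ext fun x => hHeq g k x
  · exact hTs g x y (by rwa [ofL_single_apply])
  · obtain ⟨h1, h2⟩ := L_sup g x y hxy
    refine ⟨h1, cl_mono (h2 _ (pos_mem_vt x) _ (pos_mem_vt y)) ?_⟩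
    exact Nat.mul_le_mul_right _ (by omega)

end Vale.Agent.P228.Cub
end
end

section

section

/-! Existence of the lattice data. -/

namespace Vale.Agent.P228.Geo

open Set Metric Topology Vale.Agent.P228.Lab

variable {p : ℕ} [Fact p.Prime] {n : ℕ}

/-- numerical lemma: the coarse scale. -/
theorem num_e {n C K₀ T : ℕ} (hn : 0 < n) {c : ℝ} (hc : c = 1 / (64 * n * (C + K₀ + 2)))
    (hT : (4 : ℝ) * (C + K₀ + 2) ≤ T) (hT2 : 3 ≤ (T : ℝ) * (8 * c)) :
    ∃ e : ℕ, ((8 * n * T : ℕ) : ℝ) * c + 3 ≤ e ∧ 2 * (((8 * n * T : ℕ) : ℝ) * c) ≤ e ∧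
      C * e ≤ T ∧ 2 * e ≤ T ∧ K₀ * e + K₀ ≤ 2 * T := by
  have hnR : (1 : ℝ) ≤ n := by exact_mod_cast hn
  have hC0 : (0 : ℝ) ≤ C := by (clear * -; positivity)
  have hK0 : (0 : ℝ) ≤ K₀ := by positivity
  have hCK : (0 : ℝ) < C + K₀ + 2 := by positivity
  have hNc : ((8 * n * T : ℕ) : ℝ) * c = T / (8 * (C + K₀ + 2)) := by
    rw [hc]; push_cast; field_simp; ring
  have hTc : (T : ℝ) * (8 * c) ≤ ((8 * n * T : ℕ) : ℝ) * c := by
    push_cast
    have h0 : 0 ≤ (T : ℝ) * (8 * c) := by rw [hc]; (clear * - hn; positivity)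
    calc (T : ℝ) * (8 * c) ≤ n * (T * (8 * c)) := by nlinarith only [hnR, hT2]
      _ = _ := by ring
  have hNc0 : 0 ≤ ((8 * n * T : ℕ) : ℝ) * c := by linarith only [hT2, hTc]
  obtain ⟨e, he1, he2⟩ : ∃ e : ℕ, 2 * (((8 * n * T : ℕ) : ℝ) * c) ≤ e ∧
      (e : ℝ) ≤ 2 * (((8 * n * T : ℕ) : ℝ) * c) + 1 :=
    ⟨⌈2 * (((8 * n * T : ℕ) : ℝ) * c)⌉₊, Nat.le_ceil _, (Nat.ceil_lt_add_one (by (clear * - hNc0; positivity))).le⟩
  have heT : (C + K₀ + 2 : ℝ) * e ≤ T / 2 := by
    have h1 : (C + K₀ + 2 : ℝ) * (2 * (((8 * n * T : ℕ) : ℝ) * c)) = T / 4 := by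
      rw [hNc]; field_simp; ring
    have h2 : (C + K₀ + 2 : ℝ) * e ≤ (C + K₀ + 2) * (2 * (((8 * n * T : ℕ) : ℝ) * c) + 1) :=
      mul_le_mul_of_nonneg_left he2 hCK.le
    rw [mul_add, h1] at h2
    linarith only [hT, h2]
  have he0 : (0 : ℝ) ≤ e := by (clear * -; positivity)
  have hCe : 0 ≤ (C : ℝ) * e := by (clear * -; positivity)
  have hKe : 0 ≤ (K₀ : ℝ) * e := by (clear * -; positivity)
  have hexp : (C + K₀ + 2 : ℝ) * e = C * e + K₀ * e + 2 * e := by ring
  rw [hexp] at heT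
  have hT0 : (0 : ℝ) ≤ T := by (clear * -; positivity)
  refine ⟨e, by linarith only [hT2, hTc, he1], he1, ?_, ?_, ?_⟩
  · have : (C : ℝ) * e ≤ T := by linarith only [heT, hKe]
    exact_mod_cast this
  · have : (2 : ℝ) * e ≤ T := by linarith only [heT, hCe, hKe]
    exact_mod_cast this
  · have : (K₀ : ℝ) * e + K₀ ≤ 2 * T := by linarith only [hT, heT, hCe]
    exact_mod_cast this

/-- numerical lemma: covering radius and fine displacement. -/
theorem num_rho {n C T : ℕ} (hn : 0 < n) {r₀ η : ℝ} (hr₀ : 0 < r₀) (hκ : r₀ ≤ 1 / 8) (hη : 0 < η)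
    (hC : 4 * n * C * η < r₀) (hT : (C : ℝ) + 1 ≤ T * r₀) :
    ∃ rho eta : ℕ, C * eta ≤ rho ∧ rho ≤ T ∧ (n : ℝ) * ((rho : ℝ) / (8 * n * T : ℕ)) ≤ r₀ ∧
      ((8 * n * T : ℕ) : ℝ) * (η + η) ≤ eta := by
  have hnR : (0 : ℝ) < n := by exact_mod_cast hn
  have hC0 : (0 : ℝ) ≤ C := by (clear * -; positivity)
  have hT0 : (0 : ℝ) < T := by
    by_contra h
    have h1 : (T : ℝ) * r₀ ≤ 0 := mul_nonpos_of_nonpos_of_nonneg (not_lt.1 h) hr₀.le
    linarith only [hT, h1]
  obtain ⟨rho, h1, h2⟩ : ∃ rho : ℕ, (rho : ℝ) ≤ 8 * T * r₀ ∧ 8 * T * r₀ < rho + 1 :=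
    ⟨⌊8 * T * r₀⌋₊, Nat.floor_le (by positivity), Nat.lt_floor_add_one _⟩
  obtain ⟨eta, h3, h4⟩ : ∃ eta : ℕ, ((8 * n * T : ℕ) : ℝ) * (η + η) ≤ eta ∧
      (eta : ℝ) ≤ ((8 * n * T : ℕ) : ℝ) * (η + η) + 1 :=
    ⟨⌈((8 * n * T : ℕ) : ℝ) * (η + η)⌉₊, Nat.le_ceil _, (Nat.ceil_lt_add_one (by (clear * - hη; positivity))).le⟩
  refine ⟨rho, eta, ?_, ?_, ?_, h3⟩
  · have h5 : (C : ℝ) * eta ≤ rho := by
      have h6 : (C : ℝ) * eta ≤ C * (((8 * n * T : ℕ) : ℝ) * (η + η) + 1) :=
        mul_le_mul_of_nonneg_left h4 hC0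
      have h7 : (C : ℝ) * (((8 * n * T : ℕ) : ℝ) * (η + η) + 1) = 4 * n * C * η * (4 * T) + C := by
        push_cast; ring
      have h8 : (4 * n * C * η : ℝ) * (4 * T) ≤ r₀ * (4 * T) :=
        mul_le_mul_of_nonneg_right hC.le (by (clear * - hT0; positivity))
      have h9 : r₀ * (4 * T) = 4 * (T * r₀) := by ring
      have h10 : 8 * T * r₀ = 8 * (T * r₀) := by ring
      linarith only [hT, h2, h6, h7, h8]
    exact_mod_cast h5
  · have h5 : (rho : ℝ) ≤ T := by
      have h6 : (8 : ℝ) * T * r₀ ≤ 8 * T * (1 / 8) := mul_le_mul_of_nonneg_left hκ (by (clear * - hT0; positivity))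
      linarith only [h1, h6]
    exact_mod_cast h5
  · rw [mul_div_assoc', div_le_iff₀ (by push_cast; (clear * - hn hT0; positivity))]
    push_cast
    have : (n : ℝ) * rho ≤ n * (8 * T * r₀) := mul_le_mul_of_nonneg_left h1 hnR.le
    linarith only [this]

/-- numerical lemma: the fine scale is small. -/
theorem num_fine {n K₀ T R : ℕ} (hn : 0 < n) (hT : 0 < T) {ρ μ : ℝ} (hμ : 0 < μ)
    (hρμ : (n : ℝ) * K₀ * ρ ≤ μ / 4) (hR : (R : ℝ) ≤ ((8 * n * T : ℕ) : ℝ) * ρ + 3)
    (hT3 : (3 * n * K₀ + n : ℝ) ≤ T * μ) :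
    (n : ℝ) * (((K₀ * R : ℕ) : ℝ) / (8 * n * T : ℕ)) + n / (8 * n * T : ℕ) < μ := by
  have hnR : (1 : ℝ) ≤ n := by exact_mod_cast hn
  have hN0 : (0 : ℝ) < (8 * n * T : ℕ) := by exact_mod_cast (by positivity : 0 < 8 * n * T)
  have hTN : 2 * (T : ℝ) ≤ (8 * n * T : ℕ) := by
    push_cast
    have : (0 : ℝ) ≤ T := by positivity
    (clear * - hnR; nlinarith)
  set N : ℝ := ((8 * n * T : ℕ) : ℝ)
  have h1 : (n : ℝ) * (((K₀ * R : ℕ) : ℝ) / N) + n / N = (n * K₀ * R + n) / N := by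
    push_cast; ring
  rw [h1, div_lt_iff₀ hN0]
  have h2 : (n : ℝ) * K₀ * R ≤ n * K₀ * (N * ρ + 3) := mul_le_mul_of_nonneg_left hR (by (clear * - hn; positivity))
  have h3 : (n : ℝ) * K₀ * (N * ρ + 3) = (n * K₀ * ρ) * N + 3 * n * K₀ := by ring
  have h4 : (n : ℝ) * K₀ * ρ * N ≤ μ / 4 * N := mul_le_mul_of_nonneg_right hρμ hN0.le
  have h5 : 2 * (T * μ) ≤ N * μ := by
    have := mul_le_mul_of_nonneg_right hTN hμ.le
    linarith only [this]
  have h6 : 0 < N * μ := by positivity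
  linarith only [hT3, h2, h4, h5, h6]

/-- numerical lemma: a large number. -/
theorem exists_large (x₁ x₂ x₃ x₄ x₅ : ℝ) : ∃ T : ℕ, 0 < T ∧ x₁ ≤ T ∧ x₂ ≤ T ∧ x₃ ≤ T ∧ x₄ ≤ T ∧
    x₅ ≤ T := by
  obtain ⟨T, hT⟩ := exists_nat_ge (max (max (max (max x₁ x₂) x₃) x₄) x₅)
  refine ⟨T + 1, by omega, ?_⟩
  push_cast
  simp only [max_le_iff] at hT
  obtain ⟨⟨⟨⟨h1, h2⟩, h3⟩, h4⟩, h5⟩ := hT
  exact ⟨by linarith only [h1], by linarith only [h2], by linarith, by linarith only [h4], by linarith⟩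

variable {W : Set (EuclideanSpace ℝ (Fin n))}
  {a : ℤ_[p] → EuclideanSpace ℝ (Fin n) → EuclideanSpace ℝ (Fin n)}

/-- lattice maps all of whose short chains follow orbits. -/
theorem exists_maps_chain (hn : 0 < n) (K₀ L C : ℕ) {c : ℝ}
    (hcdef : c = 1 / (64 * n * (C + K₀ + 2))) (hW : IsOpen W) (act : LocAct p W a)
    (hB : closedBall (0 : EuclideanSpace ℝ (Fin n)) 1 ⊆ W)
    (hd : ∀ u, ∀ x ∈ closedBall (0 : EuclideanSpace ℝ (Fin n)) 1, ‖a u x - x‖ ≤ c)
    {r₀ : ℝ} (hr₀ : 0 < r₀) (M : ℕ) {δ : ℝ} (hδ : 0 < δ) (hMc : (M : ℝ) * δ ≤ c) :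
    ∃ (k T : ℕ) (D : Maps n (p ^ k) K₀ L), 1 ≤ k ∧ 0 < T ∧ (C : ℝ) + 1 ≤ T * r₀ ∧
      2 * T + K₀ * D.e + K₀ ≤ D.Rad ∧ T + 2 * D.e ≤ 2 * T ∧ C * D.e ≤ T ∧
      (∀ v : Fin n → ℤ, InBox (2 * T + K₀ * D.e) v → ‖pt (8 * n * T) v‖ ≤ 1 / 2) ∧
      ∀ (g : ZMod (p ^ k)) (r : ℕ) (x y : Fin n → ℤ), r ≤ M →
        D.Near (2 * T) g r x y → InBox T y →
        InBox (2 * T + K₀ * D.e) x ∧ Close (2 * D.e) x y ∧
        ∃ u : ℤ_[p], PadicInt.toZModPow k u = g ∧
          dS a (pt (8 * n * T) x) (a u (pt (8 * n * T) y)) ≤ M * δ := by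
  have hnR : (1 : ℝ) ≤ n := by exact_mod_cast hn
  have hcpos : 0 < c := by rw [hcdef]; (clear * - hn; positivity)
  have hc8 : c ≤ 1 / 8 := by
    rw [hcdef]
    apply one_div_le_one_div_of_le (by norm_num)
    have : (0 : ℝ) ≤ C := by (clear * -; positivity)
    have : (0 : ℝ) ≤ K₀ := by (clear * -; positivity)
    nlinarith only [hnR]
  have hBc : IsCompact (closedBall (0 : EuclideanSpace ℝ (Fin n)) 1) := isCompact_closedBall 0 1
  obtain ⟨μ, hμ, hμ'⟩ := dS_modulus act hBc hB (δ := δ / 2) (by positivity)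
  obtain ⟨k₁, hk₁⟩ := small_diff act hB (ε := δ / 2) (by positivity)
  obtain ⟨ρ, hρ, hρc, hρμ⟩ : ∃ ρ : ℝ, 0 < ρ ∧ ρ ≤ c ∧ (n : ℝ) * K₀ * ρ ≤ μ / 4 := by
    refine ⟨min c (μ / (4 * n * (K₀ + 1))), lt_min hcpos (by positivity), min_le_left _ _, ?_⟩
    have h1 : min c (μ / (4 * n * (K₀ + 1))) ≤ μ / (4 * n * (K₀ + 1)) := min_le_right _ _
    calc (n : ℝ) * K₀ * min c (μ / (4 * n * (K₀ + 1))) ≤ n * K₀ * (μ / (4 * n * (K₀ + 1))) :=
          mul_le_mul_of_nonneg_left h1 (by (clear * - hn; positivity))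
      _ ≤ n * (K₀ + 1) * (μ / (4 * n * (K₀ + 1))) := by gcongr; linarith only []
      _ = μ / 4 := by field_simp
  obtain ⟨k₀, N₀, hmaps⟩ := exists_maps act hW hB hcpos.le hc8 hd K₀ L hρ
  obtain ⟨T, hTpos, hT1, hT2, hT3, hT4, hT5⟩ := exists_large (N₀ : ℝ) (3 / (8 * c))
    ((3 * n * K₀ + n) / μ) ((C + 1) / r₀) (4 * (C + K₀ + 2))
  rw [div_le_iff₀ (by positivity)] at hT2 hT3 hT4
  obtain ⟨e, he1, he2, heC, he2T, heK⟩ := num_e hn hcdef hT5 hT2
  have hNpos : 0 < 8 * n * T := by (clear * - hn hTpos; positivity)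
  have hNN₀ : N₀ ≤ 8 * n * T := by
    have h1 : N₀ ≤ T := by exact_mod_cast hT1
    calc N₀ ≤ T := h1
      _ = 1 * T := (one_mul T).symm
      _ ≤ 8 * n * T := Nat.mul_le_mul_right _ (by (clear * - hn; omega))
  have hNρ : ((8 * n * T : ℕ) : ℝ) * ρ ≤ ((8 * n * T : ℕ) : ℝ) * c :=
    mul_le_mul_of_nonneg_left hρc (by (clear * - hn hTpos; positivity))
  obtain ⟨D, hDRad, hDe, hDR, hDF⟩ := hmaps (max (max k₀ k₁) 1)
    ((le_max_left _ _).trans (le_max_left _ _)) (8 * n * T) hNN₀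
    hNpos (4 * T) e (le_of_eq (by ring)) (by linarith only [he1]) (by linarith only [he1, hNρ])
  have hRin : ∀ v : Fin n → ℤ, InBox (2 * T + K₀ * D.e) v → ‖pt (8 * n * T) v‖ ≤ 1 / 2 := by
    intro v hv
    rw [hDe] at hv
    have hv4 : InBox (4 * T) v := hv.mono (by (clear * - heK; omega))
    have h1 := norm_pt_le (N := 8 * n * T) hv4
    have hT0 : (T : ℝ) ≠ 0 := by exact_mod_cast hTpos.ne'
    have hn0 : (n : ℝ) ≠ 0 := by positivity
    calc _ ≤ _ := h1
      _ = 1 / 2 := by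
        push_cast
        field_simp
        norm_num
      _ ≤ 1 / 2 := le_refl _
  have hRlL := num_fine hn hTpos hμ hρμ hDR hT3
  have hM' : ((8 * n * T : ℕ) : ℝ) * (M * δ + c) ≤ 2 * D.e := by
    rw [hDe]
    have h1 : ((8 * n * T : ℕ) : ℝ) * (M * δ + c) ≤ (8 * n * T : ℕ) * (c + c) :=
      mul_le_mul_of_nonneg_left (by linarith only [hMc]) (by (clear * - hn hTpos; positivity))
    have h2 : ((8 * n * T : ℕ) : ℝ) * (c + c) = 2 * ((8 * n * T : ℕ) * c) := by ring
    have h3 : (0 : ℝ) ≤ e := by (clear * -; positivity)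
    linarith only [he1, h1]
  have hWin : T + 2 * D.e ≤ 2 * T := by rw [hDe]; omega
  refine ⟨max (max k₀ k₁) 1, T, D, le_max_right _ _, hTpos, hT4, ?_, hWin, ?_, hRin, ?_⟩
  · rw [hDe, hDRad]; omega
  · rw [hDe]; exact heC
  · intro g r x y hr hxy hy
    obtain ⟨h1, h2, u, h3, h4⟩ := chain_lemma act hB hc8 hd hNpos D hDF hδ.le hRin
      (fun x hx y hy hxy => hμ' x hx y hy (lt_of_le_of_lt hxy hRlL))
      (fun u hu x hx => dS_le fun v => by
        rw [← act.add v u x (hB hx)]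
        exact hk₁ _ ((le_max_right _ _).trans (le_max_left _ _)) _ _ (by
          rw [map_add, hu, add_zero]) x hx) hM' hWin hr hxy hy
    exact ⟨h1, h2, u, h3, h4.trans (mul_le_mul_of_nonneg_right (by exact_mod_cast hr) hδ.le)⟩

/-- **The geometric input.** A small local action of `ℤ_[p]` which does not fix the origin gives
lattice data for every number `M` of fine steps; the number `D` of label sets does not depend on
`M`. -/
theorem exists_discData (hn : 0 < n) (K₀ L C : ℕ) : ∃ c > (0 : ℝ),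
    ∀ (W : Set (EuclideanSpace ℝ (Fin n)))
      (a : ℤ_[p] → EuclideanSpace ℝ (Fin n) → EuclideanSpace ℝ (Fin n)),
      IsOpen W → LocAct p W a → closedBall (0 : EuclideanSpace ℝ (Fin n)) 1 ⊆ W →
      (∀ u, ∀ x ∈ closedBall (0 : EuclideanSpace ℝ (Fin n)) 1, ‖a u x - x‖ ≤ c) →
      (∃ u, a u 0 ≠ 0) → ∃ D, ∀ M, ∃ k, Nonempty (DiscData p n k K₀ L C M D) := by
  refine ⟨1 / (64 * n * (C + K₀ + 2)), by (clear * - hn; positivity), fun W a hW act hB hd hne => ?_⟩
  obtain ⟨c, hcdef⟩ : ∃ c : ℝ, c = 1 / (64 * n * (C + K₀ + 2)) := ⟨_, rfl⟩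
  rw [← hcdef] at hd
  have hcpos : 0 < c := by rw [hcdef]; positivity
  have hB1 : closedBall (0 : EuclideanSpace ℝ (Fin n)) (1 / 2) ⊆ W :=
    (closedBall_subset_closedBall (by norm_num)).trans hB
  obtain ⟨r₀, hr₀, hr₀κ, η, hη, hCη, d, U, U', lab, m, hm, hcov, hUU', hUW, -, -, -, hlab, hmarg⟩ :=
    exists_geometry act (R := 1 / 2) (by norm_num) hB1 hne (C := 4 * n * C) (κ := 1 / 8)
      (by (clear * - hn; positivity)) (by norm_num)
  refine ⟨d, fun M => ?_⟩
  -- the fine scale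
  obtain ⟨δ, hδ, hMc, hMη, hMm⟩ : ∃ δ : ℝ, 0 < δ ∧ (M : ℝ) * δ ≤ c ∧ (M : ℝ) * δ ≤ η ∧
      (M : ℝ) * δ ≤ m := by
    have hmin : 0 < min c (min η m) := lt_min hcpos (lt_min hη hm)
    have hMδ : (M : ℝ) * (min c (min η m) / (M + 1)) ≤ min c (min η m) := by
      rw [mul_div_assoc', div_le_iff₀ (by (clear * -; positivity))]
      nlinarith only [hmin]
    exact ⟨min c (min η m) / (M + 1), by (clear * - hcpos hη hm; positivity), hMδ.trans (min_le_left _ _),
      hMδ.trans ((min_le_right _ _).trans (min_le_left _ _)),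
      hMδ.trans ((min_le_right _ _).trans (min_le_right _ _))⟩
  obtain ⟨k, T, D, hk, hT, hTr, hRad, hWin, hCe, hRin, hchain⟩ :=
    exists_maps_chain hn K₀ L C hcdef hW act hB hd hr₀ M hδ hMc
  obtain ⟨rho, eta, hnum1, hnum2, hnum3, hnum4⟩ := num_rho hn hr₀ hr₀κ hη hCη hTr
  have hball : ∀ v : Fin n → ℤ, InBox (2 * T + K₀ * D.e) v →
      pt (8 * n * T) v ∈ closedBall (0 : EuclideanSpace ℝ (Fin n)) 1 := by
    intro v hv
    have := hRin v hv
    simp only [mem_closedBall, dist_zero_right]; linarith only [this]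
  have hNpos : 0 < 8 * n * T := by (clear * - hn hT; positivity)
  refine ⟨k, ⟨DiscData.mk D (2 * T) T rho eta (fun j => {v | pt (8 * n * T) v ∈ U j})
    (fun j v => lab j (pt (8 * n * T) v)) hk hRad hWin hCe hnum1 hnum2 ?_ ?_ ?_⟩⟩
  · intro g r x y hr hxy hy
    exact (hchain g r x y hr hxy hy).2.1
  · intro j g r x y hr hxy hy hxU hyU
    obtain ⟨hx, -, u, hu, hd'⟩ := hchain g r x y hr hxy hy
    show lab j (pt (8 * n * T) x) = lab j (pt (8 * n * T) y) + _
    rw [← hu, toZMod_eq_cast hk]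
    apply hlab j u _ hyU _ hxU
    rw [dS_comm]
    exact hd'.trans hMm
  · intro y hy
    have hyB := hball y (hy.mono (by omega))
    have hy2 : pt (8 * n * T) y ∈ closedBall (0 : EuclideanSpace ℝ (Fin n)) (1 / 2) := by
      have := hRin y (hy.mono (by omega))
      simpa only [one_div, mem_closedBall, dist_zero_right, ge_iff_le] using this
    rcases hcov _ hy2 with ⟨j, hj⟩ | ⟨hlt, hdis⟩
    · left
      refine ⟨j, fun g r x hr hxy => ?_⟩
      obtain ⟨hx, -, u, hu, hd'⟩ := hchain g r x y hr hxy hy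
      show pt (8 * n * T) x ∈ U j
      apply hmarg j u _ hj _ (hB (hball x hx))
      rw [dS_comm]
      exact hd'.trans hMm
    · right
      refine ⟨fun hbox => ?_, fun g r x hr hxy => ?_⟩
      · have h1 := norm_pt_le (N := 8 * n * T) hbox
        linarith only [hnum3, hlt, h1]
      · obtain ⟨hx, -, u, hu, hd'⟩ := hchain g r x y hr hxy hy
        apply close_of_real
        intro i
        have h7 := norm_sub_le_dS act (hB (hball x hx)) (act.maps u _ (hB hyB))
        have h8 := (hdis u).le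
        have h9 : ‖pt (8 * n * T) x - pt (8 * n * T) y‖ ≤ η + η := by
          have := norm_sub_le_norm_sub_add_norm_sub (pt (8 * n * T) x) (a u (pt (8 * n * T) y))
            (pt (8 * n * T) y)
          (clear hn hW hne c hd hcdef hcpos hB1 hη hCη d U U' lab m hm hcov hUU' hUW hlab hmarg hδ hMc hMm hk hTr hRad hWin hCe hchain hnum1 hnum2 hnum3 hnum4 hNpos hy2 hlt g r hr hxy hu i; linarith)
        rcases abs_pt_sub (N := 8 * n * T) x y i with h10 | h10
        · calc _ ≤ _ := h10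
            _ ≤ ((8 * n * T : ℕ) : ℝ) * (η + η) := mul_le_mul_of_nonneg_left h9 (by (clear * - hn hT; positivity))
            _ ≤ eta := hnum4
        · omega

end Vale.Agent.P228.Geo
end
end

section

section

section

namespace Vale.Agent.P228

open Set Topology MeasureTheory Metric
open scoped ENNReal

/-- For almost every value `y`, the fibre of `Φ` over `y` misses all the sets
`{θ i = t} ∩ {u k = t'}` for `t`, `t'` in suitable dense sets. -/
theorem fiber_cut {X V ι κ : Type*} [Countable ι] [Countable κ] [NormedAddCommGroup V]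
    [NormedSpace ℝ V] [FiniteDimensional ℝ V] [MeasurableSpace V] [BorelSpace V] (μ : Measure V)
    [μ.IsAddHaarMeasure] (D : X → X → ℝ) (K : Set X) (θ : ι → X → ℝ) (u : κ → X → ℝ)
    (Φ : X → V) (C : ℝ) (hC : 0 ≤ C) (hΦ : ∀ x ∈ K, ∀ y ∈ K, ‖Φ x - Φ y‖ ≤ C * D x y)
    (hu : ∀ k, ∀ x ∈ K, ∀ y ∈ K, |u k x - u k y| ≤ C * D x y)
    (hnull : ∀ i, ∀ᵐ t : ℝ, SNull ((Module.finrank ℝ V : ℝ) + 1) D {x | x ∈ K ∧ θ i x = t}) :
    ∃ (T : ι → Set ℝ) (T' : κ → Set ℝ), (∀ i, Dense (T i)) ∧ (∀ k, Dense (T' k)) ∧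
      ∀ᵐ y ∂μ, ∀ i, ∀ t ∈ T i, ∀ k, ∀ t' ∈ T' k, ∀ x ∈ K, Φ x = y → ¬ (θ i x = t ∧ u k x = t') := by
  classical
  -- countable dense sets of good `t`
  have hT : ∀ i, ∃ T : Set ℝ, T.Countable ∧ Dense T ∧
      ∀ t ∈ T, SNull ((Module.finrank ℝ V : ℝ) + 1) D {x | x ∈ K ∧ θ i x = t} := by
    intro i
    have hd : Dense {t : ℝ | SNull ((Module.finrank ℝ V : ℝ) + 1) D
        {x | x ∈ K ∧ θ i x = t}} := Measure.dense_of_ae (hnull i)
    obtain ⟨T, hTs, hTc, hTd⟩ := hd.exists_countable_dense_subset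
    exact ⟨T, hTc, hTd, fun t ht => hTs ht⟩
  choose T hTc hTd hTn using hT
  -- for good `t`, almost every `t'` is good
  have h1 : ∀ i, ∀ t ∈ T i, ∀ k, ∀ᵐ t' : ℝ, μ (Φ '' {x | x ∈ K ∧ θ i x = t ∧ u k x = t'}) = 0 := by
    intro i t ht k
    have h2 : SNull (Module.finrank ℝ (ℝ × V) : ℝ) D {x | x ∈ K ∧ θ i x = t} := by
      have : (Module.finrank ℝ (ℝ × V) : ℝ) = (Module.finrank ℝ V : ℝ) + 1 := by
        rw [Module.finrank_prod, Module.finrank_self]; push_cast; ring
      rw [this]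
      exact hTn i t ht
    have h3 := h2.measure_image_eq_zero ((volume : Measure ℝ).prod μ) (fun x => (u k x, Φ x)) hC
      (by
        intro x hx y hy
        rw [Prod.mk_sub_mk, Prod.norm_mk, Real.norm_eq_abs]
        exact max_le (hu k x hx.1 y hy.1) (hΦ x hx.1 y hy.1))
    have h4 := Measure.measure_ae_null_of_prod_null h3
    filter_upwards [h4] with t' ht'
    refine measure_mono_null ?_ ht'
    rintro _ ⟨x, ⟨hxK, hxt, hxu⟩, rfl⟩
    exact ⟨x, ⟨hxK, hxt⟩, by simp [hxu]⟩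
  have hT' : ∀ k, ∃ T' : Set ℝ, T'.Countable ∧ Dense T' ∧
      ∀ t' ∈ T', ∀ i, ∀ t ∈ T i, μ (Φ '' {x | x ∈ K ∧ θ i x = t ∧ u k x = t'}) = 0 := by
    intro k
    have h5 : ∀ᵐ t' : ℝ, ∀ i, ∀ t ∈ T i, μ (Φ '' {x | x ∈ K ∧ θ i x = t ∧ u k x = t'}) = 0 := by
      rw [ae_all_iff]
      intro i
      rw [ae_ball_iff (hTc i)]
      intro t ht
      exact h1 i t ht k
    have hd := Measure.dense_of_ae h5
    obtain ⟨T', hTs, hTc, hTd⟩ := hd.exists_countable_dense_subset
    exact ⟨T', hTc, hTd, fun t ht => hTs ht⟩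
  choose T' hTc' hTd' hTn' using hT'
  refine ⟨T, T', hTd, hTd', ?_⟩
  rw [ae_all_iff]
  intro i
  rw [ae_ball_iff (hTc i)]
  intro t ht
  rw [ae_all_iff]
  intro k
  rw [ae_ball_iff (hTc' k)]
  intro t' ht'
  have h6 := hTn' k t' ht' i t ht
  have h7 : ∀ᵐ y ∂μ, y ∉ Φ '' {x | x ∈ K ∧ θ i x = t ∧ u k x = t'} := by
    rw [ae_iff]
    simpa only [not_not, setOf_mem_eq] using h6
  filter_upwards [h7] with y hy x hxK hxy hcon
  exact hy ⟨x, ⟨hxK, hcon.1, hcon.2⟩, hxy⟩

end Vale.Agent.P228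
end
end
end

section

section

section

open MeasureTheory Matrix Set Topology Bornology
open scoped ContDiff Manifold

namespace Vale.Agent.P228

variable {n : ℕ}

/-- sign of a real number as a real number -/
noncomputable def sg (x : ℝ) : ℤ := ((SignType.sign x : SignType) : ℤ)

lemma sg_pos {x : ℝ} (h : 0 < x) : sg x = 1 := by simp [sg, sign_pos h]

lemma sg_neg {x : ℝ} (h : x < 0) : sg x = -1 := by simp [sg, sign_neg h]

lemma sg_mul (x y : ℝ) : sg (x * y) = sg x * sg y := by simp only [sg, sign_mul, SignType.coe_mul]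

lemma sg_mul_abs (x : ℝ) : (sg x : ℝ) * |x| = x := by
  rcases lt_trichotomy x 0 with h | h | h
  · rw [sg_neg h, abs_of_neg h]; push_cast; ring
  · simp only [h, abs_zero, mul_zero]
  · rw [sg_pos h, abs_of_pos h]; push_cast; ring

lemma continuous_integrand {f : (Fin n → ℝ) → (Fin n → ℝ)} (hf : ContDiff ℝ ∞ f) :
    Continuous fun x => phi n (f x) * detC n (rows f x) := by
  have h1 : Continuous (rows f) :=
    (contDiff_rows (k := 1) (hf.of_le two_le_infty) (by (clear * -; norm_num))).continuous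
  exact (phi_contDiff.continuous.comp hf.continuous).mul (continuous_detC.comp h1)

lemma integrableOn_integrand {f : (Fin n → ℝ) → (Fin n → ℝ)} (hf : ContDiff ℝ ∞ f)
    {W : Set (Fin n → ℝ)} (hWb : IsBounded W) :
    IntegrableOn (fun x => phi n (f x) * detC n (rows f x)) W :=
  ((continuous_integrand hf).continuousOn.integrableOn_compact (closure_compact hWb)).mono_set
    subset_closure

lemma J_sum {f : (Fin n → ℝ) → (Fin n → ℝ)} (hf : ContDiff ℝ ∞ f)
    {W : Set (Fin n → ℝ)} (hWb : IsBounded W) (hW : IsOpen W) {ι : Type*} (s : Finset ι)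
    {U : ι → Set (Fin n → ℝ)} (hU : ∀ i ∈ s, IsOpen (U i)) (hUW : ∀ i ∈ s, U i ⊆ W)
    (hd : (s : Set ι).PairwiseDisjoint U)
    (h : ∀ x ∈ W, (∀ i ∈ s, x ∉ U i) → 1 ≤ ‖f x‖) :
    J f W = ∑ i ∈ s, J f (U i) := by
  have h1 : ∑ i ∈ s, J f (U i)
      = ∫ x in ⋃ i ∈ s, U i, phi n (f x) * detC n (rows f x) := by
    rw [integral_biUnion_finset s (fun i hi => (hU i hi).measurableSet) hd
      (fun i hi => integrableOn_integrand hf (hWb.subset (hUW i hi)))]
    rfl
  rw [h1, J]
  have hsub : (⋃ i ∈ s, U i) ⊆ W := iUnion₂_subset hUW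
  refine setIntegral_eq_of_subset_of_forall_sdiff_eq_zero hW.measurableSet hsub ?_
  intro x hx
  have h2 : ∀ i ∈ s, x ∉ U i := by
    intro i hi hxi
    exact hx.2 (mem_iUnion₂.2 ⟨i, hi, hxi⟩)
  rw [phi_zero (h x hx.1 h2), zero_mul]

lemma rows_smul {f : (Fin n → ℝ) → (Fin n → ℝ)} (hf : Differentiable ℝ f) (c : ℝ)
    (x : Fin n → ℝ) : rows (fun y => c • f y) x = c • rows f x := by
  funext j
  simp only [rows, Pi.smul_apply]
  have h : HasFDerivAt (fun y => c • f y) (c • fderiv ℝ f x) x := (hf x).hasFDerivAt.const_smul c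
  rw [h.fderiv]
  rfl

lemma detC_smul (c : ℝ) (a : Fin n → (Fin n → ℝ)) : detC n (c • a) = c ^ n * detC n a := by
  have h := (detC n).map_smul_univ (fun _ => c) a
  have h2 : (c • a) = fun i => c • a i := rfl
  rw [h2]
  simpa only [Finset.prod_const, Finset.card_univ, Fintype.card_fin, smul_eq_mul] using h

/-- local computation of the degree integral at a nondegenerate zero -/
lemma local_regular {f : (Fin n → ℝ) → (Fin n → ℝ)} (hf : ContDiff ℝ ∞ f) {z : Fin n → ℝ}
    (hz : f z = 0) (hdet : (fderiv ℝ f z).det ≠ 0) {U : Set (Fin n → ℝ)} (hU : U ∈ 𝓝 z) :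
    ∃ r > 0, Metric.closedBall z r ⊆ U ∧ (∀ x ∈ Metric.closedBall z r, f x = 0 → x = z) ∧
      ∃ Λ > (0 : ℝ), ∀ c ≥ Λ, J (fun x => c • f x) (Metric.ball z r) = sg (fderiv ℝ f z).det := by
  have hfd : Differentiable ℝ f := hf.differentiable (by simp)
  have hst : HasStrictFDerivAt f
      (((fderiv ℝ f z).toContinuousLinearEquivOfDetNeZero hdet :
        (Fin n → ℝ) ≃L[ℝ] (Fin n → ℝ)) : (Fin n → ℝ) →L[ℝ] (Fin n → ℝ)) z := by
    rw [ContinuousLinearMap.coe_toContinuousLinearEquivOfDetNeZero]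
    exact hf.contDiffAt.hasStrictFDerivAt (by simp)
  set e := hst.toOpenPartialHomeomorph f with he
  have hecoe : (e : (Fin n → ℝ) → (Fin n → ℝ)) = f := hst.toOpenPartialHomeomorph_coe
  have hez : z ∈ e.source := hst.mem_toOpenPartialHomeomorph_source
  have hdc : Continuous fun x => (fderiv ℝ f x).det := by
    have h1 : Continuous (rows f) :=
      (contDiff_rows (k := 1) (hf.of_le two_le_infty) (by norm_num)).continuous
    simp only [det_fderiv_eq]
    exact continuous_detC.comp h1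
  have hS : {x | 0 < (fderiv ℝ f x).det * (fderiv ℝ f z).det} ∈ 𝓝 z := by
    refine (isOpen_lt continuous_const (hdc.mul continuous_const)).mem_nhds ?_
    exact mul_self_pos.2 hdet
  have hN : U ∩ e.source ∩ {x | 0 < (fderiv ℝ f x).det * (fderiv ℝ f z).det} ∈ 𝓝 z :=
    Filter.inter_mem (Filter.inter_mem hU (e.open_source.mem_nhds hez)) hS
  obtain ⟨r, hr, hrN⟩ := Metric.nhds_basis_closedBall.mem_iff.1 hN
  have hinj : InjOn f e.source := by
    have := e.injOn
    rwa [hecoe] at this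
  refine ⟨r, hr, fun x hx => (hrN hx).1.1, fun x hx hx0 => ?_, ?_⟩
  · exact hinj (hrN hx).1.2 hez (by rw [hx0, hz])
  set B := Metric.ball z r with hB
  have hBN : B ⊆ Metric.closedBall z r := Metric.ball_subset_closedBall
  have hopen : IsOpen (f '' B) := by
    have := e.isOpen_image_of_subset_source (s := B) Metric.isOpen_ball
      (fun x hx => (hrN (hBN hx)).1.2)
    rwa [hecoe] at this
  have h0 : (0 : Fin n → ℝ) ∈ f '' B := ⟨z, Metric.mem_ball_self hr, hz⟩
  obtain ⟨ρ, hρ, hρB⟩ := Metric.isOpen_iff.1 hopen 0 h0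
  refine ⟨1 / ρ, by (clear * - hρ; positivity), fun c hc => ?_⟩
  have hc0 : 0 < c := lt_of_lt_of_le (by positivity) hc
  have hsg : ∀ x ∈ B, sg ((fderiv ℝ f x).det) = sg (fderiv ℝ f z).det := by
    intro x hx
    have h1 : 0 < (fderiv ℝ f x).det * (fderiv ℝ f z).det := (hrN (hBN hx)).2
    rcases lt_or_gt_of_ne hdet with h2 | h2
    · rw [sg_neg h2, sg_neg (by nlinarith only [h1, h2])]
    · rw [sg_pos h2, sg_pos (by nlinarith only [h1, h2])]
  set F : (Fin n → ℝ) → (Fin n → ℝ) := fun x => c • f x with hF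
  have hF' : ∀ x, HasFDerivAt F (c • fderiv ℝ f x) x := fun x =>
    (hfd x).hasFDerivAt.const_smul c
  have hFdet : ∀ x, (fderiv ℝ F x).det = c ^ n * (fderiv ℝ f x).det := by
    intro x
    rw [det_fderiv_eq, det_fderiv_eq, rows_smul hfd, detC_smul]
  have hFinj : InjOn F B := by
    intro x hx y hy hxy
    have : f x = f y := smul_right_injective _ hc0.ne' hxy
    exact hinj (hrN (hBN hx)).1.2 (hrN (hBN hy)).1.2 this
  have h3 := integral_image_eq_integral_abs_det_fderiv_smul (μ := volume) (s := B) (f := F)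
    (f' := fun x => fderiv ℝ F x) measurableSet_ball
    (fun x _ => ((hF' x).differentiableAt.hasFDerivAt).hasFDerivWithinAt) hFinj (phi n)
  have h4 : ∫ x in F '' B, phi n x = 1 := by
    rw [setIntegral_eq_integral_of_forall_compl_eq_zero, phi_integral]
    intro y hy
    by_contra h5
    apply hy
    have h6 := phi_ne_zero h5
    have h7 : c⁻¹ • y ∈ f '' B := by
      apply hρB
      rw [mem_ball_zero_iff, norm_smul, norm_inv, Real.norm_eq_abs, abs_of_pos hc0]
      calc c⁻¹ * ‖y‖ < c⁻¹ * 1 := by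
            apply mul_lt_mul_of_pos_left h6 (by (clear * - hc0; positivity))
        _ ≤ ρ := by
            rw [mul_one]
            rw [ge_iff_le, div_le_iff₀ hρ] at hc
            rw [inv_le_iff_one_le_mul₀ hc0]
            linarith only [hc]
    obtain ⟨x, hx, hxy⟩ := h7
    refine ⟨x, hx, ?_⟩
    simp only [hF, hxy]
    rw [smul_smul, mul_inv_cancel₀ hc0.ne', one_smul]
  rw [h4] at h3
  have h8 : J F B = ∫ x in B, (sg (fderiv ℝ f z).det : ℝ) * (|(fderiv ℝ F x).det| • phi n (F x)) := by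
    rw [J]
    refine setIntegral_congr_fun measurableSet_ball fun x hx => ?_
    simp only [smul_eq_mul]
    rw [← hsg x hx, ← det_fderiv_eq]
    have h9 : sg (fderiv ℝ F x).det = sg (fderiv ℝ f x).det := by
      rw [hFdet, sg_mul, sg_pos (by (clear * - hc0; positivity)), one_mul]
    rw [← h9]
    have h10 := sg_mul_abs (fderiv ℝ F x).det
    calc phi n (F x) * (fderiv ℝ F x).det
        = phi n (F x) * ((sg (fderiv ℝ F x).det : ℝ) * |(fderiv ℝ F x).det|) := by rw [h10]
      _ = _ := by ring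
  rw [h8, integral_const_mul, ← h3, mul_one]

end Vale.Agent.P228
end
end
end

section

section

section

open MeasureTheory Matrix Set Topology Bornology
open scoped ContDiff Manifold

namespace Vale.Agent.P228

variable {n : ℕ}

lemma exists_pos_lower_bound {K : Set (Fin n → ℝ)} (hK : IsCompact K)
    {f : (Fin n → ℝ) → (Fin n → ℝ)} (hf : ContinuousOn f K) (h : ∀ x ∈ K, f x ≠ 0) :
    ∃ m > 0, ∀ x ∈ K, m ≤ ‖f x‖ := by
  rcases K.eq_empty_or_nonempty with rfl | hne
  · exact ⟨1, one_pos, by simp only [mem_empty_iff_false, IsEmpty.forall_iff, implies_true]⟩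
  · obtain ⟨x, hx, hm⟩ := hK.exists_isMinOn hne hf.norm
    exact ⟨‖f x‖, norm_pos_iff.2 (h x hx), fun y hy => hm hy⟩

/-- the degree integral at a regular value -/
lemma regular_formula {f : (Fin n → ℝ) → (Fin n → ℝ)} (hf : ContDiff ℝ ∞ f)
    {W : Set (Fin n → ℝ)} (hW : IsOpen W) (hWb : IsBounded W)
    (hfr : ∀ x ∈ frontier W, f x ≠ 0)
    (hreg : ∀ x ∈ W, f x = 0 → (fderiv ℝ f x).det ≠ 0) :
    ∃ Z : Finset (Fin n → ℝ), (∀ z, z ∈ Z ↔ z ∈ W ∧ f z = 0) ∧
      ∃ Λ > (0 : ℝ), ∀ c ≥ Λ, J (fun x => c • f x) W = ∑ z ∈ Z, (sg (fderiv ℝ f z).det : ℝ) := by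
  classical
  set Z0 : Set (Fin n → ℝ) := {z | z ∈ W ∧ f z = 0} with hZ0
  have hZ0' : Z0 = closure W ∩ f ⁻¹' {0} := by
    ext z
    constructor
    · rintro ⟨h1, h2⟩
      exact ⟨subset_closure h1, h2⟩
    · rintro ⟨h1, h2⟩
      refine ⟨?_, h2⟩
      by_contra h3
      exact hfr z (by rw [hW.frontier_eq]; exact ⟨h1, h3⟩) h2
  have hZc : IsCompact Z0 := by
    rw [hZ0']
    exact (closure_compact hWb).inter_right (isClosed_singleton.preimage hf.continuous)
  -- finiteness
  have hfin : Z0.Finite := by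
    have h1 : ∀ z ∈ Z0, ∃ V ∈ 𝓝 z, ∀ x ∈ V, f x = 0 → x = z := by
      intro z hz
      obtain ⟨r, hr, -, h2, -⟩ := local_regular hf hz.2 (hreg z hz.1 hz.2) Filter.univ_mem
      exact ⟨_, Metric.closedBall_mem_nhds z hr, h2⟩
    choose! V hV hV' using h1
    obtain ⟨t, ht, ht'⟩ := hZc.elim_nhds_subcover V hV
    refine t.finite_toSet.subset fun x hx => ?_
    obtain ⟨z, hz, hxz⟩ := mem_iUnion₂.1 (ht' hx)
    rw [hV' z (ht z hz) x hxz hx.2]
    exact hz
  obtain ⟨U, hU, hUd⟩ := hfin.t2_separation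
  have h1 : ∀ z ∈ Z0, ∃ r > 0, Metric.closedBall z r ⊆ U z ∩ W ∧
      ∃ Λ > (0 : ℝ), ∀ c ≥ Λ, J (fun x => c • f x) (Metric.ball z r) = sg (fderiv ℝ f z).det := by
    intro z hz
    obtain ⟨r, hr, h2, -, h3⟩ := local_regular hf hz.2 (hreg z hz.1 hz.2)
      (Filter.inter_mem ((hU z).2.mem_nhds (hU z).1) (hW.mem_nhds hz.1))
    exact ⟨r, hr, h2, h3⟩
  choose! r hr hrU Λ hΛ hJ using h1
  refine ⟨hfin.toFinset, fun z => by simp only [hZ0, Finite.mem_toFinset, mem_ofPred_eq], ?_⟩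
  set K : Set (Fin n → ℝ) := closure W \ ⋃ z ∈ hfin.toFinset, Metric.ball z (r z) with hK
  have hKc : IsCompact K :=
    (closure_compact hWb).diff (isOpen_biUnion fun z _ => Metric.isOpen_ball)
  obtain ⟨m, hm, hmK⟩ := exists_pos_lower_bound hKc hf.continuous.continuousOn (by
    intro x hx hx0
    have hxZ : x ∈ Z0 := by rw [hZ0']; exact ⟨hx.1, hx0⟩
    exact hx.2 (mem_iUnion₂.2 ⟨x, by simpa only [Finite.mem_toFinset] using hxZ, Metric.mem_ball_self (hr x hxZ)⟩))
  refine ⟨1 / m + ∑ z ∈ hfin.toFinset, Λ z, ?_, ?_⟩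
  · have : 0 ≤ ∑ z ∈ hfin.toFinset, Λ z :=
      Finset.sum_nonneg fun z hz => (hΛ z (by simpa only [Finite.mem_toFinset] using hz)).le
    (clear * - hfin hm this; (clear * - hfin hm this; positivity))
  · intro c hc
    have hs : 0 ≤ ∑ z ∈ hfin.toFinset, Λ z :=
      Finset.sum_nonneg fun z hz => (hΛ z (by simpa only [Finite.mem_toFinset] using hz)).le
    have hc0 : 0 < c := lt_of_lt_of_le (by (clear * - hfin hm hs; positivity)) hc
    have hcs : ContDiff ℝ ∞ (fun x => c • f x) := hf.const_smul c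
    rw [J_sum hcs hWb hW hfin.toFinset (U := fun z => Metric.ball z (r z))
      (fun z _ => Metric.isOpen_ball) ?_ ?_ ?_]
    · refine Finset.sum_congr rfl fun z hz => hJ z (by simpa only [Finite.mem_toFinset] using hz) c ?_
      have h2 : Λ z ≤ ∑ z ∈ hfin.toFinset, Λ z :=
        Finset.single_le_sum (fun y hy => (hΛ y (by simpa only [Finite.mem_toFinset] using hy)).le) hz
      have h3 : 0 ≤ 1 / m := by (clear * - hm; positivity)
      linarith
    · intro z hz x hx
      exact (hrU z (by simpa only [Finite.mem_toFinset] using hz) (Metric.ball_subset_closedBall hx)).2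
    · intro z hz w hw hzw
      have h2 := hUd (by simpa only [Finite.coe_toFinset] using hz) (by simpa using hw) hzw
      refine h2.mono ?_ ?_
      · intro x hx
        exact (hrU z (by simpa using hz) (Metric.ball_subset_closedBall hx)).1
      · intro x hx
        exact (hrU w (by simpa only [Finite.coe_toFinset] using hw) (Metric.ball_subset_closedBall hx)).1
    · intro x hx hxn
      have hxK : x ∈ K := ⟨subset_closure hx, by
        intro h2
        obtain ⟨z, hz, hxz⟩ := mem_iUnion₂.1 h2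
        exact hxn z hz hxz⟩
      have h2 := hmK x hxK
      rw [norm_smul, Real.norm_eq_abs, abs_of_pos hc0]
      have h3 : 1 / m ≤ c := by linarith only [hc, hs]
      rw [div_le_iff₀ hm] at h3
      nlinarith only [hc0, h2, h3]

/-- smooth approximations of a large multiple of `f` -/
def IsApprox (f : (Fin n → ℝ) → (Fin n → ℝ)) (W : Set (Fin n → ℝ))
    (g : (Fin n → ℝ) → (Fin n → ℝ)) : Prop :=
  ContDiff ℝ ∞ g ∧ ∃ c > (0 : ℝ), (∀ x ∈ frontier W, 3 ≤ c * ‖f x‖) ∧
    ∀ x ∈ closure W, ‖g x - c • f x‖ ≤ 1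

open Classical in
/-- real-valued Brouwer degree of `f` over `0` -/
noncomputable def degR (f : (Fin n → ℝ) → (Fin n → ℝ)) (W : Set (Fin n → ℝ)) : ℝ :=
  if h : ∃ g, IsApprox f W g then J h.choose W else 0

lemma approx_hom {f₀ f₁ g₀ g₁ : (Fin n → ℝ) → (Fin n → ℝ)} {W : Set (Fin n → ℝ)}
    (hW : IsOpen W) (hWb : IsBounded W) {c : ℝ}
    (hg₀ : ContDiff ℝ ∞ g₀) (hg₁ : ContDiff ℝ ∞ g₁)
    (h : ∀ x ∈ frontier W, ∀ t ∈ Icc (0:ℝ) 1, 3 ≤ ‖(1 - t) • (c • f₀ x) + t • (c • f₁ x)‖)
    (h₀ : ∀ x ∈ frontier W, ‖g₀ x - c • f₀ x‖ ≤ 1)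
    (h₁ : ∀ x ∈ frontier W, ‖g₁ x - c • f₁ x‖ ≤ 1) : J g₀ W = J g₁ W := by
  apply J_homotopy hW hWb hg₀ hg₁
  intro x hx t ht
  have h2 := h x hx t ht
  have h3 : (1 - t) • (c • f₀ x) + t • (c • f₁ x)
      = ((1 - t) • g₀ x + t • g₁ x) - ((1 - t) • (g₀ x - c • f₀ x) + t • (g₁ x - c • f₁ x)) := by
    simp only [smul_sub]; abel
  have h4 : ‖(1 - t) • (g₀ x - c • f₀ x) + t • (g₁ x - c • f₁ x)‖ ≤ 1 := by
    calc _ ≤ ‖(1 - t) • (g₀ x - c • f₀ x)‖ + ‖t • (g₁ x - c • f₁ x)‖ := norm_add_le _ _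
      _ = (1 - t) * ‖g₀ x - c • f₀ x‖ + t * ‖g₁ x - c • f₁ x‖ := by
          rw [norm_smul, norm_smul, Real.norm_eq_abs, Real.norm_eq_abs, abs_of_nonneg ht.1,
            abs_of_nonneg (by (clear * - ht; linarith [ht.2]))]
      _ ≤ (1 - t) * 1 + t * 1 := by
          gcongr
          · linarith only [ht.2]
          · exact h₀ x hx
          · exact ht.1
          · exact h₁ x hx
      _ = 1 := by ring
  rw [h3] at h2
  have h5 := norm_sub_le ((1 - t) • g₀ x + t • g₁ x)
    ((1 - t) • (g₀ x - c • f₀ x) + t • (g₁ x - c • f₁ x))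
  linarith only [h2, h4, h5]

lemma IsApprox.J_eq {f g g' : (Fin n → ℝ) → (Fin n → ℝ)} {W : Set (Fin n → ℝ)}
    (hW : IsOpen W) (hWb : IsBounded W) (h : IsApprox f W g) (h' : IsApprox f W g') :
    J g W = J g' W := by
  obtain ⟨hg, c, hc, h1, h2⟩ := h
  obtain ⟨hg', c', hc', h1', h2'⟩ := h'
  apply J_homotopy hW hWb hg hg'
  intro x hx t ht
  have h0 := frontier_subset_closure hx
  have h3 : ((1 - t) * c + t * c') • f x
      = ((1 - t) • g x + t • g' x) - ((1 - t) • (g x - c • f x) + t • (g' x - c' • f x)) := by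
    simp only [add_smul, smul_sub, smul_smul]; abel
  have h4 : ‖(1 - t) • (g x - c • f x) + t • (g' x - c' • f x)‖ ≤ 1 := by
    calc _ ≤ ‖(1 - t) • (g x - c • f x)‖ + ‖t • (g' x - c' • f x)‖ := norm_add_le _ _
      _ = (1 - t) * ‖g x - c • f x‖ + t * ‖g' x - c' • f x‖ := by
          rw [norm_smul, norm_smul, Real.norm_eq_abs, Real.norm_eq_abs, abs_of_nonneg ht.1,
            abs_of_nonneg (by linarith only [ht.2])]
      _ ≤ (1 - t) * 1 + t * 1 := by
          gcongr
          · (clear * - ht; linarith [ht.2])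
          · exact h2 x h0
          · exact ht.1
          · exact h2' x h0
      _ = 1 := by ring
  have h5 : 3 ≤ ‖((1 - t) * c + t * c') • f x‖ := by
    rw [norm_smul, Real.norm_eq_abs, abs_of_nonneg (by nlinarith only [ht.1, ht.2, hc, hc'])]
    have := h1 x hx
    have := h1' x hx
    (clear g g' hW hWb hg hc h2 hg' hc' h2' h0 h3 h4; nlinarith [ht.1, ht.2])
  rw [h3] at h5
  have h6 := norm_sub_le ((1 - t) • g x + t • g' x)
    ((1 - t) • (g x - c • f x) + t • (g' x - c' • f x))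
  linarith

lemma IsApprox.degR_eq {f g : (Fin n → ℝ) → (Fin n → ℝ)} {W : Set (Fin n → ℝ)}
    (hW : IsOpen W) (hWb : IsBounded W) (h : IsApprox f W g) : degR f W = J g W := by
  have h' : ∃ g, IsApprox f W g := ⟨g, h⟩
  rw [degR, dif_pos h']
  exact IsApprox.J_eq hW hWb h'.choose_spec h

end Vale.Agent.P228
end
end
end

section

section

section

open MeasureTheory Matrix Set Topology Bornology
open scoped ContDiff Manifold

namespace Vale.Agent.P228

variable {n : ℕ}

lemma exists_seg_lower_bound {K : Set (Fin n → ℝ)} (hK : IsCompact K)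
    {f₀ f₁ : (Fin n → ℝ) → (Fin n → ℝ)} (hf₀ : ContinuousOn f₀ K) (hf₁ : ContinuousOn f₁ K)
    (h : ∀ x ∈ K, ∀ t ∈ Icc (0:ℝ) 1, (1 - t) • f₀ x + t • f₁ x ≠ 0) :
    ∃ m > 0, ∀ x ∈ K, ∀ t ∈ Icc (0:ℝ) 1, m ≤ ‖(1 - t) • f₀ x + t • f₁ x‖ := by
  rcases K.eq_empty_or_nonempty with rfl | hne
  · exact ⟨1, one_pos, by simp only [mem_empty_iff_false, mem_Icc, and_imp, IsEmpty.forall_iff,
                            implies_true]⟩
  · have hc : ContinuousOn (fun q : ℝ × (Fin n → ℝ) => (1 - q.1) • f₀ q.2 + q.1 • f₁ q.2)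
        (Icc (0:ℝ) 1 ×ˢ K) := by
      have h0 : ContinuousOn (fun q : ℝ × (Fin n → ℝ) => f₀ q.2) (Icc (0:ℝ) 1 ×ˢ K) :=
        hf₀.comp continuousOn_snd (fun q hq => hq.2)
      have h1 : ContinuousOn (fun q : ℝ × (Fin n → ℝ) => f₁ q.2) (Icc (0:ℝ) 1 ×ˢ K) :=
        hf₁.comp continuousOn_snd (fun q hq => hq.2)
      exact ((continuous_const.sub continuous_fst).continuousOn.smul h0).add
        (continuous_fst.continuousOn.smul h1)
    obtain ⟨x, hx, hm⟩ := (isCompact_Icc.prod hK).exists_isMinOn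
      ((nonempty_Icc.2 zero_le_one).prod hne) hc.norm
    exact ⟨_, norm_pos_iff.2 (h x.2 hx.2 x.1 hx.1), fun y hy t ht => hm (a := (t, y)) ⟨ht, hy⟩⟩

lemma degR_homotopy {f₀ f₁ : (Fin n → ℝ) → (Fin n → ℝ)} {W : Set (Fin n → ℝ)}
    (hW : IsOpen W) (hWb : IsBounded W) (hf₀ : ContinuousOn f₀ (closure W))
    (hf₁ : ContinuousOn f₁ (closure W))
    (h : ∀ x ∈ frontier W, ∀ t ∈ Icc (0:ℝ) 1, (1 - t) • f₀ x + t • f₁ x ≠ 0) :
    degR f₀ W = degR f₁ W := by
  obtain ⟨m, hm, hmb⟩ := exists_seg_lower_bound (frontier_compact hWb)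
    (hf₀.mono frontier_subset_closure) (hf₁.mono frontier_subset_closure) h
  have hc : 0 < 3 / m := by (clear * - hm; positivity)
  set c := 3 / m with hcdef
  have hcm : c * m = 3 := by rw [hcdef]; (clear * - hm; field_simp)
  obtain ⟨g₀, hg₀, hg₀'⟩ := exists_smooth_approx (closure_compact hWb) (hf₀.const_smul c) one_pos
  obtain ⟨g₁, hg₁, hg₁'⟩ := exists_smooth_approx (closure_compact hWb) (hf₁.const_smul c) one_pos
  have hlow : ∀ x ∈ frontier W, ∀ t ∈ Icc (0:ℝ) 1,
      3 ≤ ‖(1 - t) • (c • f₀ x) + t • (c • f₁ x)‖ := by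
    intro x hx t ht
    have h1 : (1 - t) • (c • f₀ x) + t • (c • f₁ x) = c • ((1 - t) • f₀ x + t • f₁ x) := by
      rw [smul_add, smul_comm c, smul_comm c]
    rw [h1, norm_smul, Real.norm_eq_abs, abs_of_pos hc, ← hcm]
    exact mul_le_mul_of_nonneg_left (hmb x hx t ht) hc.le
  have hA₀ : IsApprox f₀ W g₀ := by
    refine ⟨hg₀, c, hc, fun x hx => ?_, fun x hx => (hg₀' x hx).le⟩
    have := hlow x hx 0 (by simp only [mem_Icc, Std.le_refl, zero_le_one, and_self])
    simpa only [ge_iff_le, sub_zero, one_smul, zero_smul, add_zero, norm_smul, Real.norm_eq_abs,     abs_of_pos hc] using this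
  have hA₁ : IsApprox f₁ W g₁ := by
    refine ⟨hg₁, c, hc, fun x hx => ?_, fun x hx => (hg₁' x hx).le⟩
    have := hlow x hx 1 (by simp only [mem_Icc, zero_le_one, Std.le_refl, and_self])
    simpa only [ge_iff_le, sub_self, zero_smul, one_smul, zero_add, norm_smul, Real.norm_eq_abs,     abs_of_pos hc] using this
  rw [hA₀.degR_eq hW hWb, hA₁.degR_eq hW hWb]
  exact approx_hom hW hWb hg₀ hg₁ hlow
    (fun x hx => (hg₀' x (frontier_subset_closure hx)).le)
    (fun x hx => (hg₁' x (frontier_subset_closure hx)).le)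

lemma degR_regular {f : (Fin n → ℝ) → (Fin n → ℝ)} (hf : ContDiff ℝ ∞ f)
    {W : Set (Fin n → ℝ)} (hW : IsOpen W) (hWb : IsBounded W)
    (hfr : ∀ x ∈ frontier W, f x ≠ 0)
    (hreg : ∀ x ∈ W, f x = 0 → (fderiv ℝ f x).det ≠ 0) :
    ∃ Z : Finset (Fin n → ℝ), (∀ z, z ∈ Z ↔ z ∈ W ∧ f z = 0) ∧
      degR f W = ∑ z ∈ Z, (sg (fderiv ℝ f z).det : ℝ) := by
  obtain ⟨Z, hZ, Λ, hΛ, hJ⟩ := regular_formula hf hW hWb hfr hreg
  refine ⟨Z, hZ, ?_⟩
  obtain ⟨m, hm, hmb⟩ := exists_pos_lower_bound (frontier_compact hWb)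
    hf.continuous.continuousOn hfr
  have hc : 0 < max Λ (3 / m) := lt_max_of_lt_left hΛ
  have hA : IsApprox f W (fun x => max Λ (3 / m) • f x) := by
    refine ⟨hf.const_smul _, max Λ (3 / m), hc, fun x hx => ?_, fun x _ => by simp only [sub_self,
                                                                                norm_zero,
                                                                                zero_le_one]⟩
    have h1 := hmb x hx
    have h2 : 3 / m ≤ max Λ (3 / m) := le_max_right _ _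
    calc (3 : ℝ) = 3 / m * m := by (clear * - hm; field_simp)
      _ ≤ max Λ (3 / m) * ‖f x‖ := by (clear * - h2 h1 hm hΛ; gcongr)
  rw [hA.degR_eq hW hWb, hJ _ (le_max_left _ _)]

lemma exists_regular_approx {f : (Fin n → ℝ) → (Fin n → ℝ)} {K : Set (Fin n → ℝ)}
    (hK : IsCompact K) (hf : ContinuousOn f K) {ε : ℝ} (hε : 0 < ε) :
    ∃ g : (Fin n → ℝ) → (Fin n → ℝ), ContDiff ℝ ∞ g ∧ (∀ x ∈ K, ‖g x - f x‖ < ε) ∧
      ∀ x, g x = 0 → (fderiv ℝ g x).det ≠ 0 := by
  obtain ⟨g, hg, hgf⟩ := exists_smooth_approx hK hf (half_pos hε)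
  have hgd : Differentiable ℝ g := hg.differentiable (by simp)
  have hS : volume (g '' {x | (fderiv ℝ g x).det = 0}) = 0 :=
    addHaar_image_eq_zero_of_det_fderivWithin_eq_zero volume
      (fun x _ => (hgd x).hasFDerivAt.hasFDerivWithinAt) (fun x hx => hx)
  have hb : 0 < volume (Metric.ball (0 : Fin n → ℝ) (ε / 2)) :=
    Metric.measure_ball_pos volume 0 (half_pos hε)
  obtain ⟨v, hv, hv'⟩ : ∃ v ∈ Metric.ball (0 : Fin n → ℝ) (ε / 2),
      v ∉ g '' {x | (fderiv ℝ g x).det = 0} := by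
    by_contra h
    push Not at h
    exact absurd (measure_mono_null h hS) hb.ne'
  refine ⟨fun x => g x - v, hg.sub contDiff_const, fun x hx => ?_, fun x hx => ?_⟩
  · have h1 := hgf x hx
    rw [mem_ball_zero_iff] at hv
    calc ‖g x - v - f x‖ = ‖(g x - f x) - v‖ := by congr 1; abel
      _ ≤ ‖g x - f x‖ + ‖v‖ := norm_sub_le _ _
      _ < ε := by linarith only [hv, h1]
  · have h1 : fderiv ℝ (fun x => g x - v) x = fderiv ℝ g x := fderiv_sub_const v
    rw [h1]
    intro h2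
    exact hv' ⟨x, h2, sub_eq_zero.1 hx⟩

/-- closeness on the frontier gives equality of degrees -/
lemma degR_close {f g : (Fin n → ℝ) → (Fin n → ℝ)} {W : Set (Fin n → ℝ)}
    (hW : IsOpen W) (hWb : IsBounded W) (hf : ContinuousOn f (closure W))
    (hg : ContinuousOn g (closure W))
    (h : ∀ x ∈ frontier W, ‖g x - f x‖ < ‖f x‖) : degR f W = degR g W := by
  apply degR_homotopy hW hWb hf hg
  intro x hx t ht h0
  have h1 : f x = - (t • (g x - f x)) := by
    have : (1 - t) • f x + t • g x = f x + t • (g x - f x) := by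
      rw [smul_sub, sub_smul, one_smul]; abel
    rw [this] at h0
    exact eq_neg_of_add_eq_zero_left h0
  have h2 : ‖f x‖ = t * ‖g x - f x‖ := by
    calc ‖f x‖ = ‖- (t • (g x - f x))‖ := by rw [← h1]
      _ = _ := by rw [norm_neg, norm_smul, Real.norm_eq_abs, abs_of_nonneg ht.1]
  have h3 := h x hx
  have h4 := norm_nonneg (g x - f x)
  nlinarith only [ht.2, ht, h2, h3, h4]

lemma degR_int {f : (Fin n → ℝ) → (Fin n → ℝ)} {W : Set (Fin n → ℝ)}
    (hW : IsOpen W) (hWb : IsBounded W) (hf : ContinuousOn f (closure W))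
    (hfr : ∀ x ∈ frontier W, f x ≠ 0) : ∃ d : ℤ, degR f W = d := by
  obtain ⟨m, hm, hmb⟩ := exists_pos_lower_bound (frontier_compact hWb)
    (hf.mono frontier_subset_closure) hfr
  obtain ⟨g, hg, hgf, hreg⟩ := exists_regular_approx (closure_compact hWb) hf hm
  have h1 : ∀ x ∈ frontier W, ‖g x - f x‖ < ‖f x‖ := fun x hx =>
    (hgf x (frontier_subset_closure hx)).trans_le (hmb x hx)
  rw [degR_close hW hWb hf hg.continuous.continuousOn h1]
  have h2 : ∀ x ∈ frontier W, g x ≠ 0 := by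
    intro x hx h0
    have := h1 x hx
    rw [h0, zero_sub, norm_neg] at this
    exact lt_irrefl _ this
  obtain ⟨Z, -, hZ⟩ := degR_regular hg hW hWb h2 (fun x _ => hreg x)
  exact ⟨∑ z ∈ Z, sg (fderiv ℝ g z).det, by rw [hZ]; push_cast; rfl⟩

lemma frontier_subset_of_pairwise {ι : Type*} {s : Finset ι} {U : ι → Set (Fin n → ℝ)}
    (hU : ∀ i ∈ s, IsOpen (U i)) (hd : (s : Set ι).PairwiseDisjoint U) {i : ι} (hi : i ∈ s)
    {x : Fin n → ℝ} (hx : x ∈ frontier (U i)) : ∀ j ∈ s, x ∉ U j := by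
  intro j hj hxj
  rw [(hU i hi).frontier_eq] at hx
  by_cases hij : i = j
  · subst hij; exact hx.2 hxj
  · have h1 : (U j ∩ U i).Nonempty := mem_closure_iff.1 hx.1 (U j) (hU j hj) hxj
    obtain ⟨z, hz1, hz2⟩ := h1
    exact disjoint_left.1 (hd hi hj hij) hz2 hz1

/-- additivity of the real-valued degree -/
lemma degR_sum {f : (Fin n → ℝ) → (Fin n → ℝ)} {W : Set (Fin n → ℝ)} (hWb : IsBounded W)
    (hW : IsOpen W) (hf : ContinuousOn f (closure W)) {ι : Type*} (s : Finset ι)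
    {U : ι → Set (Fin n → ℝ)} (hU : ∀ i ∈ s, IsOpen (U i)) (hUW : ∀ i ∈ s, U i ⊆ W)
    (hd : (s : Set ι).PairwiseDisjoint U)
    (h : ∀ x ∈ closure W, f x = 0 → ∃ i ∈ s, x ∈ U i) :
    degR f W = ∑ i ∈ s, degR f (U i) := by
  classical
  set K : Set (Fin n → ℝ) := closure W \ ⋃ i ∈ s, U i with hK
  have hKc : IsCompact K := (closure_compact hWb).diff (isOpen_biUnion fun i hi => hU i hi)
  obtain ⟨m, hm, hmb⟩ := exists_pos_lower_bound hKc (hf.mono sdiff_subset) (by
    intro x hx hx0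
    obtain ⟨i, hi, hxi⟩ := h x hx.1 hx0
    exact hx.2 (mem_iUnion₂.2 ⟨i, hi, hxi⟩))
  have hc : 0 < 3 / m := by (clear * - hm; positivity)
  set c := 3 / m with hcdef
  have hcm : c * m = 3 := by rw [hcdef]; (clear * - hm; field_simp)
  obtain ⟨g, hg, hg'⟩ := exists_smooth_approx (closure_compact hWb) (hf.const_smul c) one_pos
  have hlow : ∀ x ∈ K, 3 ≤ c * ‖f x‖ := by
    intro x hx
    rw [← hcm]
    exact mul_le_mul_of_nonneg_left (hmb x hx) hc.le
  have hKmem : ∀ x ∈ closure W, (∀ i ∈ s, x ∉ U i) → x ∈ K := by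
    intro x hx hxn
    refine ⟨hx, fun h2 => ?_⟩
    obtain ⟨i, hi, hxi⟩ := mem_iUnion₂.1 h2
    exact hxn i hi hxi
  have hfrW : ∀ x ∈ frontier W, x ∈ K := by
    intro x hx
    refine hKmem x (frontier_subset_closure hx) fun i hi hxi => ?_
    rw [hW.frontier_eq] at hx
    exact hx.2 (hUW i hi hxi)
  have hfrU : ∀ i ∈ s, ∀ x ∈ frontier (U i), x ∈ K := by
    intro i hi x hx
    exact hKmem x (closure_mono (hUW i hi) (frontier_subset_closure hx))
      (frontier_subset_of_pairwise hU hd hi hx)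
  have hA : IsApprox f W g :=
    ⟨hg, c, hc, fun x hx => hlow x (hfrW x hx), fun x hx => (hg' x hx).le⟩
  have hAi : ∀ i ∈ s, IsApprox f (U i) g := fun i hi =>
    ⟨hg, c, hc, fun x hx => hlow x (hfrU i hi x hx),
      fun x hx => (hg' x (closure_mono (hUW i hi) hx)).le⟩
  rw [hA.degR_eq hW hWb, J_sum hg hWb hW s hU hUW hd]
  · refine Finset.sum_congr rfl fun i hi => ?_
    rw [(hAi i hi).degR_eq (hU i hi) (hWb.subset (hUW i hi))]
  · intro x hx hxn
    have h1 := hlow x (hKmem x (subset_closure hx) hxn)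
    have h2 : ‖g x - c • f x‖ ≤ 1 := (hg' x (subset_closure hx)).le
    have h3 : ‖c • f x‖ = c * ‖f x‖ := by rw [norm_smul, Real.norm_eq_abs, abs_of_pos hc]
    have h4 : ‖c • f x‖ ≤ ‖g x‖ + ‖g x - c • f x‖ := by
      calc ‖c • f x‖ = ‖g x - (g x - c • f x)‖ := by congr 1; abel
        _ ≤ _ := norm_sub_le _ _
    linarith only [h1, h2, h3, h4]

end Vale.Agent.P228
end
end
end

section

section

section

namespace Vale.Agent.P228

open Set Topology MeasureTheory Metric
open scoped ENNReal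

attribute [local instance] msZ bsZ

set_option linter.unusedSectionVars false

variable {p : ℕ} [Fact p.Prime]

/-- Gagliardo energy (the `q`-th power of the `W^{s,q}` seminorm) of `f` on `B ⊆ ℝⁿ`. -/
noncomputable def gag {n : ℕ} (s q : ℝ)
    (f : EuclideanSpace ℝ (Fin n) → EuclideanSpace ℝ (Fin n)) (B : Set (EuclideanSpace ℝ (Fin n))) :
    ℝ≥0∞ :=
  ∫⁻ x in B, ∫⁻ y in B, ENNReal.ofReal (‖f x - f y‖ ^ q / ‖x - y‖ ^ ((n : ℝ) + s * q))

variable {n : ℕ}


theorem gag_mono (s q : ℝ) (f : EuclideanSpace ℝ (Fin n) → EuclideanSpace ℝ (Fin n))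
    {B B' : Set (EuclideanSpace ℝ (Fin n))} (h : B' ⊆ B) : gag s q f B' ≤ gag s q f B := by
  unfold gag
  calc ∫⁻ x in B', ∫⁻ y in B', ENNReal.ofReal (‖f x - f y‖ ^ q / ‖x - y‖ ^ ((n : ℝ) + s * q))
      ≤ ∫⁻ x in B', ∫⁻ y in B, ENNReal.ofReal (‖f x - f y‖ ^ q / ‖x - y‖ ^ ((n : ℝ) + s * q)) :=
        lintegral_mono fun x => lintegral_mono_set h
    _ ≤ ∫⁻ x in B, ∫⁻ y in B, ENNReal.ofReal (‖f x - f y‖ ^ q / ‖x - y‖ ^ ((n : ℝ) + s * q)) :=
        lintegral_mono_set h

/-- the kernel as a measurable function on the product. -/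
theorem aemeasurable_kernel {q s : ℝ} (hq : 0 < q) {B : Set (EuclideanSpace ℝ (Fin n))}
    (hB : MeasurableSet B) {h : EuclideanSpace ℝ (Fin n) × EuclideanSpace ℝ (Fin n) → ℝ}
    (hh : ContinuousOn h (B ×ˢ B)) (hs : 0 ≤ (n : ℝ) + s * q) :
    AEMeasurable (fun z : EuclideanSpace ℝ (Fin n) × EuclideanSpace ℝ (Fin n) =>
      ENNReal.ofReal (h z ^ q / ‖z.1 - z.2‖ ^ ((n : ℝ) + s * q)))
      ((volume.restrict B).prod (volume.restrict B)) := by
  apply AEMeasurable.ennreal_ofReal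
  apply AEMeasurable.div
  · rw [Measure.prod_restrict]
    apply ContinuousOn.aemeasurable _ (hB.prod hB)
    exact hh.rpow_const (fun _ _ => Or.inr hq.le)
  · apply Continuous.aemeasurable
    exact (continuous_fst.sub continuous_snd).norm.rpow_const (fun _ => Or.inr hs)

theorem gag_eq_prod {q s : ℝ} (hq : 0 < q) {B : Set (EuclideanSpace ℝ (Fin n))}
    (hB : MeasurableSet B) {f : EuclideanSpace ℝ (Fin n) → EuclideanSpace ℝ (Fin n)}
    (hf : ContinuousOn f B) (hs : 0 ≤ (n : ℝ) + s * q) :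
    gag s q f B = ∫⁻ z, ENNReal.ofReal (‖f z.1 - f z.2‖ ^ q / ‖z.1 - z.2‖ ^ ((n : ℝ) + s * q))
      ∂((volume.restrict B).prod (volume.restrict B)) := by
  have hh : ContinuousOn (fun z : EuclideanSpace ℝ (Fin n) × EuclideanSpace ℝ (Fin n) =>
      ‖f z.1 - f z.2‖) (B ×ˢ B) := by
    apply ContinuousOn.norm
    apply ContinuousOn.sub
    · exact hf.comp continuousOn_fst (fun z hz => hz.1)
    · exact hf.comp continuousOn_snd (fun z hz => hz.2)
  rw [lintegral_prod _ (aemeasurable_kernel hq hB hh hs)]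
  rfl

theorem slice_contOn {B : Set (EuclideanSpace ℝ (Fin n))}
    {F : ℤ_[p] → EuclideanSpace ℝ (Fin n) → EuclideanSpace ℝ (Fin n)}
    (hF : ContinuousOn (Function.uncurry F) (univ ×ˢ B)) (u : ℤ_[p]) : ContinuousOn (F u) B := by
  have h1 : ContinuousOn (fun x : EuclideanSpace ℝ (Fin n) => (u, x)) B := by fun_prop
  exact hF.comp h1 (fun x hx => ⟨trivial, hx⟩)

theorem aemeasurable_triple {q s : ℝ} (hq : 0 < q) {B : Set (EuclideanSpace ℝ (Fin n))}
    (hB : MeasurableSet B)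
    {h : (EuclideanSpace ℝ (Fin n) × EuclideanSpace ℝ (Fin n)) × ℤ_[p] → ℝ}
    (hh : ContinuousOn h ((B ×ˢ B) ×ˢ univ)) (hs : 0 ≤ (n : ℝ) + s * q) :
    AEMeasurable (fun w : (EuclideanSpace ℝ (Fin n) × EuclideanSpace ℝ (Fin n)) × ℤ_[p] =>
      ENNReal.ofReal (h w ^ q / ‖w.1.1 - w.1.2‖ ^ ((n : ℝ) + s * q)))
      (((volume.restrict B).prod (volume.restrict B)).prod (muZ p)) := by
  apply AEMeasurable.ennreal_ofReal
  apply AEMeasurable.div
  · have h3 : ((volume.restrict B).prod (volume.restrict B)).prod (muZ p) =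
        (((volume : Measure (EuclideanSpace ℝ (Fin n))).prod
          (volume : Measure (EuclideanSpace ℝ (Fin n)))).prod (muZ p)).restrict
          ((B ×ˢ B) ×ˢ (univ : Set ℤ_[p])) := by
      have h4 := Measure.prod_restrict (μ := (volume : Measure (EuclideanSpace ℝ (Fin n))).prod
          (volume : Measure (EuclideanSpace ℝ (Fin n)))) (ν := muZ p) (B ×ˢ B) univ
      rw [Measure.restrict_univ] at h4
      rw [← h4, ← Measure.prod_restrict]
    rw [h3]
    apply ContinuousOn.aemeasurable _ ((hB.prod hB).prod MeasurableSet.univ)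
    exact hh.rpow_const (fun _ _ => Or.inr hq.le)
  · apply Continuous.aemeasurable
    have h5 : Continuous (fun w : (EuclideanSpace ℝ (Fin n) × EuclideanSpace ℝ (Fin n)) ×
        ℤ_[p] => ‖w.1.1 - w.1.2‖) := by (clear q s hq B hB h hh hs; fun_prop)
    exact h5.rpow_const (fun _ => Or.inr hs)

theorem hcontBB_aux {B : Set (EuclideanSpace ℝ (Fin n))}
    {F : ℤ_[p] → EuclideanSpace ℝ (Fin n) → EuclideanSpace ℝ (Fin n)}
    (hF : ContinuousOn (Function.uncurry F) (univ ×ˢ B)) :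
    ContinuousOn (Function.uncurry fun (u : ℤ_[p])
      (z : EuclideanSpace ℝ (Fin n) × EuclideanSpace ℝ (Fin n)) => ‖F u z.1 - F u z.2‖)
      (univ ×ˢ (B ×ˢ B)) := by
  have h1 : ContinuousOn (fun w : ℤ_[p] × (EuclideanSpace ℝ (Fin n) × EuclideanSpace ℝ (Fin n)) =>
      F w.1 w.2.1) (univ ×ˢ (B ×ˢ B)) := by
    have : ContinuousOn (fun w : ℤ_[p] × (EuclideanSpace ℝ (Fin n) × EuclideanSpace ℝ (Fin n)) =>
      (w.1, w.2.1)) (univ ×ˢ (B ×ˢ B)) := by fun_prop
    exact hF.comp this (fun w hw => ⟨trivial, hw.2.1⟩)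
  have h2 : ContinuousOn (fun w : ℤ_[p] × (EuclideanSpace ℝ (Fin n) × EuclideanSpace ℝ (Fin n)) =>
      F w.1 w.2.2) (univ ×ˢ (B ×ˢ B)) := by
    have : ContinuousOn (fun w : ℤ_[p] × (EuclideanSpace ℝ (Fin n) × EuclideanSpace ℝ (Fin n)) =>
      (w.1, w.2.2)) (univ ×ˢ (B ×ˢ B)) := by fun_prop
    exact hF.comp this (fun w hw => ⟨trivial, hw.2.2⟩)
  exact (h1.sub h2).norm

theorem hcont_swap {B : Set (EuclideanSpace ℝ (Fin n))}
    {F : ℤ_[p] → EuclideanSpace ℝ (Fin n) → EuclideanSpace ℝ (Fin n)}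
    (hF : ContinuousOn (Function.uncurry F) (univ ×ˢ B)) :
    ContinuousOn (fun w : (EuclideanSpace ℝ (Fin n) × EuclideanSpace ℝ (Fin n)) × ℤ_[p] =>
      ‖F w.2 w.1.1 - F w.2 w.1.2‖) ((B ×ˢ B) ×ˢ univ) := by
  have hswap : ContinuousOn (Prod.swap : (EuclideanSpace ℝ (Fin n) × EuclideanSpace ℝ (Fin n)) ×
      ℤ_[p] → ℤ_[p] × (EuclideanSpace ℝ (Fin n) × EuclideanSpace ℝ (Fin n)))
      ((B ×ˢ B) ×ˢ univ) := continuous_swap.continuousOn
  have h1 := (hcontBB_aux hF).comp hswap (by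
    rintro ⟨z, u⟩ hz
    exact ⟨trivial, hz.1⟩)
  exact h1

theorem jensen_aux {q w : ℝ} (hq : 1 ≤ q) (hw : 0 ≤ w) {f : ℤ_[p] → ℝ} (hf : Continuous f)
    (hf0 : ∀ u, 0 ≤ f u) :
    ENNReal.ofReal (avg f ^ q / w) ≤ ∫⁻ u, ENNReal.ofReal (f u ^ q / w) ∂(muZ p) := by
  have hq0 : 0 < q := by linarith only [hq]
  have hcq : Continuous (fun u : ℤ_[p] => f u ^ q) := hf.rpow_const (fun _ => Or.inr hq0.le)
  have hcw : Continuous (fun u : ℤ_[p] => f u ^ q / w) := hcq.div_const _
  have hjensen : avg f ^ q ≤ avg fun u => f u ^ q := by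
    have := (convexOn_rpow hq).map_integral_le (μ := muZ p) (f := f)
      (continuousOn_id.rpow_const (fun _ _ => Or.inr hq0.le)) isClosed_Ici
      (Filter.Eventually.of_forall fun u => hf0 u)
      (integrable_of_continuous hf) (integrable_of_continuous hcq)
    exact this
  rw [← ofReal_integral_eq_lintegral_ofReal (integrable_of_continuous hcw)
    (Filter.Eventually.of_forall fun u => by
      have := Real.rpow_nonneg (hf0 u) q
      (clear * - this hw; positivity))]
  apply ENNReal.ofReal_le_ofReal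
  rw [integral_div]
  exact div_le_div_of_nonneg_right hjensen hw

/-- energy of the averaged distance -/
theorem energy_avg_le {q s : ℝ} (hq : 1 ≤ q) {B : Set (EuclideanSpace ℝ (Fin n))}
    (hB : MeasurableSet B)
    {F : ℤ_[p] → EuclideanSpace ℝ (Fin n) → EuclideanSpace ℝ (Fin n)}
    (hF : ContinuousOn (Function.uncurry F) (univ ×ˢ B)) (hs : 0 ≤ (n : ℝ) + s * q) {N : ℝ≥0∞}
    (hN : ∀ u, gag s q (F u) B ≤ N) :
    ∫⁻ x in B, ∫⁻ y in B, ENNReal.ofReal
      ((avg fun u => ‖F u x - F u y‖) ^ q / ‖x - y‖ ^ ((n : ℝ) + s * q)) ≤ N := by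
  have hq0 : 0 < q := by linarith only [hq]
  have hcontBB := hcontBB_aux hF
  have havgcont : ContinuousOn (fun z : EuclideanSpace ℝ (Fin n) × EuclideanSpace ℝ (Fin n) =>
      avg (fun u : ℤ_[p] => ‖F u z.1 - F u z.2‖)) (B ×ˢ B) := continuousOn_avg hcontBB
  have hae := aemeasurable_triple (p := p) (q := q) (s := s) hq0 hB (hcont_swap hF) hs
  calc
    ∫⁻ x in B, ∫⁻ y in B, ENNReal.ofReal
        ((avg fun u => ‖F u x - F u y‖) ^ q / ‖x - y‖ ^ ((n : ℝ) + s * q))
      = ∫⁻ z, ENNReal.ofReal ((avg fun u => ‖F u z.1 - F u z.2‖) ^ q /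
        ‖z.1 - z.2‖ ^ ((n : ℝ) + s * q)) ∂((volume.restrict B).prod (volume.restrict B)) :=
        (lintegral_prod _ (aemeasurable_kernel hq0 hB havgcont hs)).symm
    _ ≤ ∫⁻ z, ∫⁻ u, ENNReal.ofReal (‖F u z.1 - F u z.2‖ ^ q /
        ‖z.1 - z.2‖ ^ ((n : ℝ) + s * q)) ∂(muZ p)
          ∂((volume.restrict B).prod (volume.restrict B)) := by
        apply lintegral_mono_ae
        have hBB : ∀ᵐ z ∂((volume.restrict B).prod (volume.restrict B)), z ∈ B ×ˢ B := by
          rw [Measure.prod_restrict]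
          exact ae_restrict_mem (hB.prod hB)
        filter_upwards [hBB] with z hz
        exact jensen_aux hq (by (clear * -; positivity)) (continuous_of_continuousOn_prod hcontBB hz)
          (fun u => norm_nonneg _)
    _ = ∫⁻ u, ∫⁻ z, ENNReal.ofReal (‖F u z.1 - F u z.2‖ ^ q /
        ‖z.1 - z.2‖ ^ ((n : ℝ) + s * q)) ∂((volume.restrict B).prod (volume.restrict B))
          ∂(muZ p) :=
        lintegral_lintegral_swap (μ := (volume.restrict B).prod (volume.restrict B))
          (ν := muZ p) (f := fun z u => ENNReal.ofReal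
          (‖F u z.1 - F u z.2‖ ^ q / ‖z.1 - z.2‖ ^ ((n : ℝ) + s * q))) hae
    _ = ∫⁻ u, gag s q (F u) B ∂(muZ p) := by
        apply lintegral_congr
        intro u
        rw [gag_eq_prod hq0 hB (slice_contOn hF u) hs]
    _ ≤ ∫⁻ _, N ∂(muZ p) := lintegral_mono fun u => hN u
    _ = N := by simp

end Vale.Agent.P228
end
end
end

section

section

section

set_option linter.unusedSectionVars false

namespace Vale.Agent.P228

open Set Topology MeasureTheory Metric
open scoped ENNReal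

variable {n : ℕ}

lemma riesz_lt_top (hn : 1 ≤ n) {δ ρ : ℝ} (hδ : 0 < δ) :
    ∫⁻ h in ball (0 : EuclideanSpace ℝ (Fin n)) ρ, ENNReal.ofReal (‖h‖ ^ (δ - (n : ℝ))) < ⊤ := by
  have hα : (n : ℝ) - δ < Module.finrank ℝ (EuclideanSpace ℝ (Fin n)) := by
    rw [finrank_euclideanSpace_fin]
    linarith
  have hmeas : Measurable fun h : EuclideanSpace ℝ (Fin n) => ‖h‖ ^ (δ - (n : ℝ)) :=
    measurable_norm.pow_const _
  have h1 : IntegrableOn (fun h : EuclideanSpace ℝ (Fin n) => ‖h‖ ^ (δ - (n : ℝ)))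
      (ball 0 ρ) volume := by
    refine integrableOn_ball_of_norm_le_rpow (C := 1) (α := (n : ℝ) - δ) ?_ hα ?_
      hmeas.aestronglyMeasurable
    · rw [finrank_euclideanSpace_fin]; exact hn
    · refine Filter.Eventually.of_forall fun x => ?_
      rw [Real.norm_of_nonneg (by positivity), one_mul, neg_sub]
  have h2 := h1.2
  rw [hasFiniteIntegral_iff_ofReal (Filter.Eventually.of_forall fun x => by positivity)] at h2
  exact h2

lemma riesz_double_lt_top (hn : 1 ≤ n) {δ r : ℝ} (hδ : 0 < δ) (c : EuclideanSpace ℝ (Fin n)) :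
    ∫⁻ x in ball c r, ∫⁻ y in ball c r, ENNReal.ofReal (‖x - y‖ ^ (δ - (n : ℝ))) < ⊤ := by
  set κ : EuclideanSpace ℝ (Fin n) → ℝ≥0∞ := (ball (0 : EuclideanSpace ℝ (Fin n)) (2 * r)).indicator
    (fun h => ENNReal.ofReal (‖h‖ ^ (δ - (n : ℝ)))) with hκ
  have h1 : ∀ x ∈ ball c r, ∫⁻ y in ball c r, ENNReal.ofReal (‖x - y‖ ^ (δ - (n : ℝ)))
      ≤ ∫⁻ h, κ h := by
    intro x hx
    calc ∫⁻ y in ball c r, ENNReal.ofReal (‖x - y‖ ^ (δ - (n : ℝ)))
        ≤ ∫⁻ y in ball c r, κ (x - y) := by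
          apply setLIntegral_mono' measurableSet_ball
          intro y hy
          have h2 : x - y ∈ ball (0 : EuclideanSpace ℝ (Fin n)) (2 * r) := by
            rw [mem_ball_zero_iff]
            rw [mem_ball_iff_norm] at hx hy
            calc ‖x - y‖ = ‖(x - c) - (y - c)‖ := by congr 1; abel
              _ ≤ ‖x - c‖ + ‖y - c‖ := norm_sub_le _ _
              _ < 2 * r := by linarith only [hx, hy]
          rw [hκ, indicator_of_mem h2]
      _ ≤ ∫⁻ y, κ (x - y) := setLIntegral_le_lintegral _ _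
      _ = ∫⁻ h, κ h := lintegral_sub_left_eq_self κ x
  have h3 : ∫⁻ h, κ h < ⊤ := by
    rw [hκ, lintegral_indicator measurableSet_ball]
    exact riesz_lt_top hn hδ
  calc ∫⁻ x in ball c r, ∫⁻ y in ball c r, ENNReal.ofReal (‖x - y‖ ^ (δ - (n : ℝ)))
      ≤ ∫⁻ x in ball c r, ∫⁻ h, κ h := setLIntegral_mono' measurableSet_ball h1
    _ = (∫⁻ h, κ h) * volume (ball c r) := by
        rw [lintegral_const, Measure.restrict_apply_univ]
    _ < ⊤ := ENNReal.mul_lt_top h3 measure_ball_lt_top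

lemma gag_zero_dim (hn : n = 0) {s q : ℝ} (hq : 0 < q)
    (f : EuclideanSpace ℝ (Fin n) → EuclideanSpace ℝ (Fin n)) (B : Set (EuclideanSpace ℝ (Fin n))) :
    gag s q f B = 0 := by
  subst hn
  unfold gag
  have : ∀ x y : EuclideanSpace ℝ (Fin 0),
      ENNReal.ofReal (‖f x - f y‖ ^ q / ‖x - y‖ ^ (((0 : ℕ) : ℝ) + s * q)) = 0 := by
    intro x y
    rw [Subsingleton.elim x y, sub_self, norm_zero, Real.zero_rpow hq.ne', zero_div,
      ENNReal.ofReal_zero]
  simp only [this, lintegral_zero]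

/-- Hölder maps have finite energy below the exponent -/
theorem gag_lt_top_of_holder {a C s q r : ℝ} (hsa : s < a) (hq : 1 ≤ q)
    {c : EuclideanSpace ℝ (Fin n)} {f : EuclideanSpace ℝ (Fin n) → EuclideanSpace ℝ (Fin n)}
    (hf : ∀ x ∈ ball c r, ∀ y ∈ ball c r, ‖f x - f y‖ ≤ C * ‖x - y‖ ^ a) :
    gag s q f (ball c r) < ⊤ := by
  have hq0 : 0 < q := by linarith only [hq]
  rcases Nat.eq_zero_or_pos n with hn | hn
  · rw [gag_zero_dim hn hq0]; exact ENNReal.zero_lt_top
  have hpt : ∀ x ∈ ball c r, ∀ y ∈ ball c r,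
      ENNReal.ofReal (‖f x - f y‖ ^ q / ‖x - y‖ ^ ((n : ℝ) + s * q))
        ≤ ENNReal.ofReal (|C| ^ q) * ENNReal.ofReal (‖x - y‖ ^ ((a - s) * q - (n : ℝ))) := by
    intro x hx y hy
    rw [← ENNReal.ofReal_mul (by (clear * -; positivity))]
    apply ENNReal.ofReal_le_ofReal
    by_cases hxy : x = y
    · subst hxy
      rw [sub_self, norm_zero, Real.zero_rpow hq0.ne', zero_div]
      (clear * -; positivity)
    have hd : 0 < ‖x - y‖ := norm_pos_iff.2 (sub_ne_zero.2 hxy)
    rw [div_le_iff₀ (by (clear * - hd; positivity))]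
    calc ‖f x - f y‖ ^ q ≤ (|C| * ‖x - y‖ ^ a) ^ q := by
          apply Real.rpow_le_rpow (norm_nonneg _) _ hq0.le
          refine (hf x hx y hy).trans ?_
          gcongr
          exact le_abs_self C
      _ = |C| ^ q * (‖x - y‖ ^ ((a - s) * q - (n : ℝ)) * ‖x - y‖ ^ ((n : ℝ) + s * q)) := by
          rw [Real.mul_rpow (abs_nonneg _) (by (clear * - hd; positivity)), ← Real.rpow_mul hd.le,
            ← Real.rpow_add hd]
          congr 2
          ring
      _ = _ := by ring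
  have hfin := riesz_double_lt_top hn (δ := (a - s) * q) (r := r)
    (mul_pos (by linarith only [hsa]) hq0) c
  unfold gag
  calc ∫⁻ x in ball c r, ∫⁻ y in ball c r,
        ENNReal.ofReal (‖f x - f y‖ ^ q / ‖x - y‖ ^ ((n : ℝ) + s * q))
      ≤ ∫⁻ x in ball c r, ∫⁻ y in ball c r,
        ENNReal.ofReal (|C| ^ q) * ENNReal.ofReal (‖x - y‖ ^ ((a - s) * q - (n : ℝ))) := by
        apply setLIntegral_mono' measurableSet_ball
        intro x hx
        apply setLIntegral_mono' measurableSet_ball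
        intro y hy
        exact hpt x hx y hy
    _ = ENNReal.ofReal (|C| ^ q) * ∫⁻ x in ball c r, ∫⁻ y in ball c r,
        ENNReal.ofReal (‖x - y‖ ^ ((a - s) * q - (n : ℝ))) := by
        simp_rw [lintegral_const_mul' _ _ ENNReal.ofReal_ne_top]
    _ < ⊤ := ENNReal.mul_lt_top ENNReal.ofReal_lt_top hfin

/-- embedding of `W^{s,q}` into `W^{s₁,q₁}` for `q₁ < q`, `s₁ < s` on balls -/
theorem gag_lt_top_of_gag {s s₁ q q₁ r : ℝ} (hs0 : 0 ≤ s) (hss : s₁ < s) (hq1 : 1 ≤ q₁)
    (hqq : q₁ < q) {c : EuclideanSpace ℝ (Fin n)}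
    {f : EuclideanSpace ℝ (Fin n) → EuclideanSpace ℝ (Fin n)} (hs₁ : 0 ≤ s₁)
    (hfc : ContinuousOn f (ball c r)) (hf : gag s q f (ball c r) < ⊤) :
    gag s₁ q₁ f (ball c r) < ⊤ := by
  have hq1' : 0 < q₁ := by linarith only [hq1]
  have hq0 : 0 < q := by linarith only [hq1, hqq]
  rcases Nat.eq_zero_or_pos n with hn | hn
  · rw [gag_zero_dim hn hq1']; exact ENNReal.zero_lt_top
  have hn0 : (0:ℝ) ≤ n := Nat.cast_nonneg n
  set P : ℝ := q / q₁ with hP
  have hP1 : 1 < P := (one_lt_div hq1').2 hqq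
  have hconj := Real.HolderConjugate.conjExponent hP1
  set P' : ℝ := P.conjExponent with hP'
  have hP'0 : 0 < P' := hconj.symm.pos
  set e : ℝ := -((n : ℝ) * (1 - q₁ / q)) + (s - s₁) * q₁ with he
  set ν := (volume.restrict (ball c r)).prod (volume.restrict (ball c r)) with hν
  have hm1 : AEMeasurable (fun z : EuclideanSpace ℝ (Fin n) × EuclideanSpace ℝ (Fin n) =>
      ENNReal.ofReal (‖f z.1 - f z.2‖ ^ q / ‖z.1 - z.2‖ ^ ((n : ℝ) + s * q))) ν := by
    apply aemeasurable_kernel hq0 measurableSet_ball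
      (h := fun z => ‖f z.1 - f z.2‖) _ (by (clear * - hn hs0 hq0; positivity))
    apply ContinuousOn.norm
    apply ContinuousOn.sub
    · exact hfc.comp continuousOn_fst (fun z hz => hz.1)
    · exact hfc.comp continuousOn_snd (fun z hz => hz.2)
  have hm2 : Measurable (fun z : EuclideanSpace ℝ (Fin n) × EuclideanSpace ℝ (Fin n) =>
      ENNReal.ofReal (‖z.1 - z.2‖ ^ e)) := by
    apply ENNReal.measurable_ofReal.comp
    have : Measurable fun z : EuclideanSpace ℝ (Fin n) × EuclideanSpace ℝ (Fin n) =>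
        ‖z.1 - z.2‖ := Continuous.measurable (by (clear * -; fun_prop))
    exact this.pow_const _
  rw [gag_eq_prod hq1' measurableSet_ball hfc (by (clear * - hn hs₁ hq1; positivity))]
  rw [gag_eq_prod hq0 measurableSet_ball hfc (by (clear * - hn hs0 hq0; positivity))] at hf
  have hpt : ∀ z : EuclideanSpace ℝ (Fin n) × EuclideanSpace ℝ (Fin n),
      ENNReal.ofReal (‖f z.1 - f z.2‖ ^ q₁ / ‖z.1 - z.2‖ ^ ((n : ℝ) + s₁ * q₁))
        ≤ ENNReal.ofReal (‖f z.1 - f z.2‖ ^ q / ‖z.1 - z.2‖ ^ ((n : ℝ) + s * q)) ^ (1 / P)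
          * ENNReal.ofReal (‖z.1 - z.2‖ ^ e) := by
    intro z
    rw [ENNReal.ofReal_rpow_of_nonneg (by (clear * -; (clear * -; positivity))) (by (clear * - hq0 hq1; positivity)),
      ← ENNReal.ofReal_mul (by (clear * -; positivity))]
    apply ENNReal.ofReal_le_ofReal
    by_cases hxy : z.1 = z.2
    · rw [hxy, sub_self, norm_zero, Real.zero_rpow hq1'.ne', zero_div]
      (clear * -; (clear * -; positivity))
    have hd : 0 < ‖z.1 - z.2‖ := norm_pos_iff.2 (sub_ne_zero.2 hxy)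
    apply le_of_eq
    rw [Real.div_rpow (by (clear * -; positivity)) (by (clear * - hd; positivity)), ← Real.rpow_mul (norm_nonneg _),
      ← Real.rpow_mul hd.le]
    have e1 : q * (1 / P) = q₁ := by rw [hP]; (clear * - hq0 hq1; field_simp)
    have e2 : ‖z.1 - z.2‖ ^ (((n : ℝ) + s * q) * (1 / P))
        = ‖z.1 - z.2‖ ^ ((n : ℝ) + s₁ * q₁) * ‖z.1 - z.2‖ ^ e := by
      rw [← Real.rpow_add hd]
      congr 1
      rw [hP, he]
      field_simp
      ring
    rw [e1, e2]
    have h3 : ‖z.1 - z.2‖ ^ e ≠ 0 := (Real.rpow_pos_of_pos hd _).ne'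
    have h4 : ‖z.1 - z.2‖ ^ ((n : ℝ) + s₁ * q₁) ≠ 0 := (Real.rpow_pos_of_pos hd _).ne'
    (clear * - h3 h4; field_simp)
  have hholder := ENNReal.lintegral_mul_le_Lp_mul_Lq ν hconj (hm1.pow_const (1 / P))
    hm2.aemeasurable
  refine lt_of_le_of_lt ((lintegral_mono hpt).trans hholder) ?_
  apply ENNReal.mul_lt_top
  · apply ENNReal.rpow_lt_top_of_nonneg (by (clear * - hq0 hq1; positivity))
    have e3 : ∀ z : EuclideanSpace ℝ (Fin n) × EuclideanSpace ℝ (Fin n),
        (ENNReal.ofReal (‖f z.1 - f z.2‖ ^ q / ‖z.1 - z.2‖ ^ ((n : ℝ) + s * q)) ^ (1 / P)) ^ P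
        = ENNReal.ofReal (‖f z.1 - f z.2‖ ^ q / ‖z.1 - z.2‖ ^ ((n : ℝ) + s * q)) := by
      intro z
      rw [← ENNReal.rpow_mul, one_div, inv_mul_cancel₀ (by positivity), ENNReal.rpow_one]
    simp only [e3]
    exact hf.ne
  · apply ENNReal.rpow_lt_top_of_nonneg (by (clear * - hP'0; positivity))
    have hδ : 0 < (s - s₁) * q₁ * P' := by
      have : 0 < s - s₁ := by linarith only [hss]
      (clear * - hss hq1 hP'0; positivity)
    have e4 : ∀ z : EuclideanSpace ℝ (Fin n) × EuclideanSpace ℝ (Fin n),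
        ENNReal.ofReal (‖z.1 - z.2‖ ^ e) ^ P'
        = ENNReal.ofReal (‖z.1 - z.2‖ ^ ((s - s₁) * q₁ * P' - (n : ℝ))) := by
      intro z
      rw [ENNReal.ofReal_rpow_of_nonneg (by (clear * -; positivity)) hP'0.le, ← Real.rpow_mul (norm_nonneg _)]
      congr 2
      have h5 : (1 - q₁ / q) * P' = 1 := by
        rw [hP', Real.conjExponent, hP]
        have : q - q₁ ≠ 0 := by linarith only [hqq]
        (clear * - hq0 hq1 this; field_simp)
      rw [he]
      calc (-((n : ℝ) * (1 - q₁ / q)) + (s - s₁) * q₁) * P'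
          = -(n : ℝ) * ((1 - q₁ / q) * P') + (s - s₁) * q₁ * P' := by ring
        _ = _ := by rw [h5]; ring
    simp only [e4]
    have h6 := riesz_double_lt_top hn hδ (r := r) c
    have hm3 : Measurable (fun z : EuclideanSpace ℝ (Fin n) × EuclideanSpace ℝ (Fin n) =>
        ENNReal.ofReal (‖z.1 - z.2‖ ^ ((s - s₁) * q₁ * P' - (n : ℝ)))) := by
      apply ENNReal.measurable_ofReal.comp
      have : Measurable fun z : EuclideanSpace ℝ (Fin n) × EuclideanSpace ℝ (Fin n) =>
          ‖z.1 - z.2‖ := Continuous.measurable (by (clear * -; fun_prop))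
      exact this.pow_const _
    rw [hν, lintegral_prod _ hm3.aemeasurable]
    exact h6.ne

end Vale.Agent.P228
end
end
end

section

section

/-!
P228, block [S]: the algebraic data of the corner, extracted from `CorData`.
-/

open Matrix

set_option linter.unusedSectionVars false
set_option linter.unusedSimpArgs false

noncomputable section

namespace Vale.Agent.P228.Inv

open LMat

section funs

variable {ι : Type}

open scoped Classical in
/-- the complement of the two special indices -/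
def pf (l₁ l₂ l : ι) : ℂ := if l = l₁ ∨ l = l₂ then 0 else 1

open scoped Classical in
/-- the two special indices -/
def qf (l₁ l₂ l : ι) : ℂ := if l = l₁ ∨ l = l₂ then 1 else 0

/-- the projection off the special indices -/
def Pd (l₁ l₂ : ι) : LMat ι ℂ := LMat.diag (pf l₁ l₂)
/-- the projection on the special indices -/
def Qd (l₁ l₂ : ι) : LMat ι ℂ := LMat.diag (qf l₁ l₂)

variable {l₁ l₂ : ι}

theorem pf_special {l : ι} (h : l = l₁ ∨ l = l₂) : pf l₁ l₂ l = 0 := by
  unfold pf; rw [if_pos h]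
theorem pf_rest {l : ι} (h : ¬ (l = l₁ ∨ l = l₂)) : pf l₁ l₂ l = 1 := by
  unfold pf; rw [if_neg h]
theorem qf_special {l : ι} (h : l = l₁ ∨ l = l₂) : qf l₁ l₂ l = 1 := by
  unfold qf; rw [if_pos h]
theorem qf_rest {l : ι} (h : ¬ (l = l₁ ∨ l = l₂)) : qf l₁ l₂ l = 0 := by
  unfold qf; rw [if_neg h]

theorem one_sub_Pd : 1 - Pd l₁ l₂ = Qd l₁ l₂ := by
  unfold Pd Qd
  rw [one_def, sub_diag]
  congr 1
  funext l
  by_cases h : l = l₁ ∨ l = l₂
  · rw [pf_special h, qf_special h, sub_zero]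
  · rw [pf_rest h, qf_rest h, sub_self]

theorem Pd_mul : Pd l₁ l₂ * Pd l₁ l₂ = Pd l₁ l₂ := by
  unfold Pd
  rw [diag_mul_diag]
  congr 1
  funext l
  by_cases h : l = l₁ ∨ l = l₂
  · rw [pf_special h, zero_mul]
  · rw [pf_rest h, one_mul]

theorem Pd_star : star (Pd l₁ l₂) = Pd l₁ l₂ := by
  unfold Pd
  rw [star_diag]
  congr 1
  funext l
  by_cases h : l = l₁ ∨ l = l₂
  · rw [pf_special h, star_zero]
  · rw [pf_rest h, star_one]

theorem PdQd : Pd l₁ l₂ * Qd l₁ l₂ = 0 := by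
  unfold Pd Qd
  rw [diag_mul_diag, ← LMat.diag_zero]
  congr 1
  funext l
  by_cases h : l = l₁ ∨ l = l₂
  · rw [pf_special h, zero_mul]
  · rw [qf_rest h, mul_zero]

theorem QdPd : Qd l₁ l₂ * Pd l₁ l₂ = 0 := by
  unfold Pd Qd
  rw [diag_mul_diag, ← LMat.diag_zero]
  congr 1
  funext l
  by_cases h : l = l₁ ∨ l = l₂
  · rw [pf_special h, mul_zero]
  · rw [qf_rest h, zero_mul]

theorem QXQ_apply (X : LMat ι ℂ) (x y : ι) :
    (Qd l₁ l₂ * X * Qd l₁ l₂) x y = qf l₁ l₂ x * X x y * qf l₁ l₂ y := by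
  unfold Qd
  rw [mul_diag_apply, diag_mul_apply]

theorem QXQ_rest (X : LMat ι ℂ) {x y : ι}
    (h : ¬ (x = l₁ ∨ x = l₂) ∨ ¬ (y = l₁ ∨ y = l₂)) : (Qd l₁ l₂ * X * Qd l₁ l₂) x y = 0 := by
  rw [QXQ_apply]
  rcases h with h | h <;> rw [qf_rest h] <;> simp

theorem QXQ_special (X : LMat ι ℂ) {x y : ι}
    (hx : x = l₁ ∨ x = l₂) (hy : y = l₁ ∨ y = l₂) :
    (Qd l₁ l₂ * X * Qd l₁ l₂) x y = X x y := by
  rw [QXQ_apply, qf_special hx, qf_special hy, one_mul, mul_one]

theorem Qd_apply_rest {x y : ι}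
    (h : ¬ (x = l₁ ∨ x = l₂) ∨ ¬ (y = l₁ ∨ y = l₂)) : Qd l₁ l₂ x y = 0 := by
  unfold Qd
  by_cases hxy : x = y
  · subst hxy
    rw [diag_apply_self, qf_rest (by (clear * - h; tauto))]
  · rw [diag_apply_ne _ hxy]

theorem Qd_apply_self {x : ι} (hx : x = l₁ ∨ x = l₂) : Qd l₁ l₂ x x = 1 := by
  unfold Qd
  rw [diag_apply_self, qf_special hx]

theorem Qd_apply_ne {x y : ι} (h : x ≠ y) : Qd l₁ l₂ x y = 0 := by
  unfold Qd
  rw [diag_apply_ne _ h]

/-- compare two matrices supported on the special indices -/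
theorem ext_special {X Y : LMat ι ℂ}
    (hX : ∀ x y, ¬ (x = l₁ ∨ x = l₂) ∨ ¬ (y = l₁ ∨ y = l₂) → X x y = 0)
    (hY : ∀ x y, ¬ (x = l₁ ∨ x = l₂) ∨ ¬ (y = l₁ ∨ y = l₂) → Y x y = 0)
    (h11 : X l₁ l₁ = Y l₁ l₁) (h12 : X l₁ l₂ = Y l₁ l₂)
    (h21 : X l₂ l₁ = Y l₂ l₁) (h22 : X l₂ l₂ = Y l₂ l₂) : X = Y := by
  ext x y
  by_cases hx : x = l₁ ∨ x = l₂
  · by_cases hy : y = l₁ ∨ y = l₂
    · rcases hx with rfl | rfl <;> rcases hy with rfl | rfl <;> assumption
    · rw [hX x y (Or.inr hy), hY x y (Or.inr hy)]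
  · rw [hX x y (Or.inl hx), hY x y (Or.inl hx)]

end funs

/-- the facts about the slicing operator `s` of the first factor -/
structure CorF {ι : Type} (l₁ l₂ : ι) (z : ι → ℂ) (s : Matrix Bool Bool (LMat ι ℂ)) : Prop where
  ne : l₁ ≠ l₂
  zz : ∀ l, z l * star (z l) = 1
  c01 : ∀ l, l ≠ l₁ → l ≠ l₂ → ∀ x, x ≠ l → s false true x l = 0
  c01' : ∀ l, l ≠ l₁ → l ≠ l₂ → s false true l l = z l
  c11 : ∀ l, l ≠ l₁ → l ≠ l₂ → ∀ x, s true true x l = 0
  v00_11 : s false false l₁ l₁ = -5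
  v00_22 : s false false l₂ l₂ = -5
  v00_12 : s false false l₁ l₂ = 0
  v00_21 : s false false l₂ l₁ = 0
  v01_11 : s false true l₁ l₁ = 0
  v01_22 : s false true l₂ l₂ = 0
  v01_12 : s false true l₁ l₂ = Complex.I / 2
  v01_21 : s false true l₂ l₁ = -(Complex.I / 2)
  v11_11 : s true true l₁ l₁ = -(1 / 4)
  v11_22 : s true true l₂ l₂ = -(1 / 4)
  v11_12 : s true true l₁ l₂ = 0
  v11_21 : s true true l₂ l₁ = 0

namespace CorF

variable {ι : Type} {l₁ l₂ : ι} {z : ι → ℂ} {s : Matrix Bool Bool (LMat ι ℂ)}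

theorem ZZ (cd : CorF l₁ l₂ z s) : LMat.diag z * star (LMat.diag z) = 1 := by
  rw [star_diag, diag_mul_diag, one_def]
  congr 1
  funext l
  exact cd.zz l

theorem ZZ' (cd : CorF l₁ l₂ z s) : star (LMat.diag z) * LMat.diag z = 1 := by
  rw [star_diag, diag_mul_diag, one_def]
  congr 1
  funext l
  rw [mul_comm]
  exact cd.zz l

theorem ZP : Pd l₁ l₂ * LMat.diag z = LMat.diag z * Pd l₁ l₂ := by
  unfold Pd
  rw [diag_mul_diag, diag_mul_diag]
  congr 1
  funext l
  exact mul_comm _ _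

theorem S01_P (cd : CorF l₁ l₂ z s) : s false true * Pd l₁ l₂ = LMat.diag z * Pd l₁ l₂ := by
  unfold Pd
  ext x l
  rw [mul_diag_apply, mul_diag_apply]
  by_cases h : l = l₁ ∨ l = l₂
  · rw [pf_special h, mul_zero, mul_zero]
  · rw [pf_rest h, mul_one, mul_one]
    push Not at h
    by_cases hx : x = l
    · subst hx
      rw [diag_apply_self]
      exact cd.c01' x h.1 h.2
    · rw [diag_apply_ne _ hx]
      exact cd.c01 l h.1 h.2 x hx

theorem S11_P (cd : CorF l₁ l₂ z s) : s true true * Pd l₁ l₂ = 0 := by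
  unfold Pd
  ext x l
  rw [mul_diag_apply]
  by_cases h : l = l₁ ∨ l = l₂
  · rw [pf_special h, mul_zero, LMat.zero_apply]
  · rw [pf_rest h, mul_one]
    push Not at h
    exact cd.c11 l h.1 h.2 x

theorem Q00Q (cd : CorF l₁ l₂ z s) :
    Qd l₁ l₂ * s false false * Qd l₁ l₂ = (-5 : ℂ) • Qd l₁ l₂ := by
  refine ext_special (fun x y h => QXQ_rest _ h) (fun x y h => ?_) ?_ ?_ ?_ ?_
  · rw [LMat.smul_apply, Qd_apply_rest h, smul_zero]
  · rw [QXQ_special _ (Or.inl rfl) (Or.inl rfl), LMat.smul_apply, Qd_apply_self (Or.inl rfl),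
      cd.v00_11]
    simp
  · rw [QXQ_special _ (Or.inl rfl) (Or.inr rfl), LMat.smul_apply, Qd_apply_ne cd.ne, cd.v00_12]
    simp
  · rw [QXQ_special _ (Or.inr rfl) (Or.inl rfl), LMat.smul_apply, Qd_apply_ne cd.ne.symm,
      cd.v00_21]
    simp
  · rw [QXQ_special _ (Or.inr rfl) (Or.inr rfl), LMat.smul_apply, Qd_apply_self (Or.inr rfl),
      cd.v00_22]
    simp

theorem Q11Q (cd : CorF l₁ l₂ z s) :
    Qd l₁ l₂ * s true true * Qd l₁ l₂ = (-1 / 4 : ℂ) • Qd l₁ l₂ := by
  refine ext_special (fun x y h => QXQ_rest _ h) (fun x y h => ?_) ?_ ?_ ?_ ?_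
  · rw [LMat.smul_apply, Qd_apply_rest h, smul_zero]
  · rw [QXQ_special _ (Or.inl rfl) (Or.inl rfl), LMat.smul_apply, Qd_apply_self (Or.inl rfl),
      cd.v11_11, smul_eq_mul]
    ring
  · rw [QXQ_special _ (Or.inl rfl) (Or.inr rfl), LMat.smul_apply, Qd_apply_ne cd.ne, cd.v11_12]
    simp
  · rw [QXQ_special _ (Or.inr rfl) (Or.inl rfl), LMat.smul_apply, Qd_apply_ne cd.ne.symm,
      cd.v11_21]
    simp
  · rw [QXQ_special _ (Or.inr rfl) (Or.inr rfl), LMat.smul_apply, Qd_apply_self (Or.inr rfl),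
      cd.v11_22, smul_eq_mul]
    ring

/-- the off-diagonal part on the special indices -/
def T (l₁ l₂ : ι) (s : Matrix Bool Bool (LMat ι ℂ)) : LMat ι ℂ :=
  Qd l₁ l₂ * s false true * Qd l₁ l₂

theorem T_rest {x y : ι}
    (h : ¬ (x = l₁ ∨ x = l₂) ∨ ¬ (y = l₁ ∨ y = l₂)) : T l₁ l₂ s x y = 0 :=
  QXQ_rest _ h

theorem T11 (cd : CorF l₁ l₂ z s) : T l₁ l₂ s l₁ l₁ = 0 :=
  (QXQ_special _ (Or.inl rfl) (Or.inl rfl)).trans cd.v01_11
theorem T12 (cd : CorF l₁ l₂ z s) : T l₁ l₂ s l₁ l₂ = Complex.I / 2 :=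
  (QXQ_special _ (Or.inl rfl) (Or.inr rfl)).trans cd.v01_12
theorem T21 (cd : CorF l₁ l₂ z s) : T l₁ l₂ s l₂ l₁ = -(Complex.I / 2) :=
  (QXQ_special _ (Or.inr rfl) (Or.inl rfl)).trans cd.v01_21
theorem T22 (cd : CorF l₁ l₂ z s) : T l₁ l₂ s l₂ l₂ = 0 :=
  (QXQ_special _ (Or.inr rfl) (Or.inr rfl)).trans cd.v01_22

theorem T_star (cd : CorF l₁ l₂ z s) : star (T l₁ l₂ s) = T l₁ l₂ s := by
  have h2 : star (Complex.I / 2 : ℂ) = -(Complex.I / 2) := by
    rw [Complex.star_def, map_div₀, Complex.conj_I, Complex.conj_ofNat, neg_div]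
  refine ext_special (l₁ := l₁) (l₂ := l₂) (fun x y h => ?_) (fun x y h => T_rest h) ?_ ?_ ?_ ?_
  · rw [LMat.star_apply, T_rest (by (clear * - h; tauto)), star_zero]
  · rw [LMat.star_apply, cd.T11, star_zero]
  · rw [LMat.star_apply, cd.T12, cd.T21, star_neg, h2, neg_neg]
  · rw [LMat.star_apply, cd.T12, cd.T21, h2]
  · rw [LMat.star_apply, cd.T22, star_zero]

theorem TT (cd : CorF l₁ l₂ z s) : T l₁ l₂ s * T l₁ l₂ s = (1 / 4 : ℂ) • Qd l₁ l₂ := by
  classical
  have hI : Complex.I / 2 * -(Complex.I / 2) = 1 / 4 := by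
    have := Complex.I_mul_I
    linear_combination (-1 / 4) * this
  have hs : ∀ x y, (T l₁ l₂ s * T l₁ l₂ s) x y =
      T l₁ l₂ s x l₁ * T l₁ l₂ s l₁ y + T l₁ l₂ s x l₂ * T l₁ l₂ s l₂ y := by
    intro x y
    rw [LMat.mul_apply_of (T l₁ l₂ s) (T l₁ l₂ s) x y {l₁, l₂}, Finset.sum_pair cd.ne]
    intro k h1 _
    by_contra hk
    rw [Finset.mem_insert, Finset.mem_singleton] at hk
    exact h1 (T_rest (Or.inr hk))
  refine ext_special (l₁ := l₁) (l₂ := l₂) (fun x y h => ?_) (fun x y h => ?_) ?_ ?_ ?_ ?_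
  · rw [hs]
    rcases h with h | h
    · rw [T_rest (Or.inl h), T_rest (Or.inl h), zero_mul, zero_mul, add_zero]
    · rw [T_rest (x := l₁) (Or.inr h), T_rest (x := l₂) (Or.inr h), mul_zero, mul_zero,
        add_zero]
  · rw [LMat.smul_apply, Qd_apply_rest h, smul_zero]
  · rw [hs, cd.T11, cd.T12, cd.T21, LMat.smul_apply, Qd_apply_self (Or.inl rfl), mul_zero,
      zero_add, hI]
    simp
  · rw [hs, cd.T11, cd.T12, cd.T22, LMat.smul_apply, Qd_apply_ne cd.ne]
    simp
  · rw [hs, cd.T11, cd.T21, cd.T22, LMat.smul_apply, Qd_apply_ne cd.ne.symm]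
    simp only [mul_zero, mul_neg, zero_mul, neg_zero, add_zero, one_div, smul_eq_mul]
  · rw [hs, cd.T12, cd.T21, cd.T22, LMat.smul_apply, Qd_apply_self (Or.inr rfl), mul_zero,
      add_zero, mul_comm, hI]
    simp

theorem PT : Pd l₁ l₂ * T l₁ l₂ s = 0 := by
  unfold T
  rw [← mul_assoc, ← mul_assoc, PdQd, zero_mul, zero_mul]

theorem TP : T l₁ l₂ s * Pd l₁ l₂ = 0 := by
  unfold T
  rw [mul_assoc, QdPd, mul_zero]

theorem S11_eq (cd : CorF l₁ l₂ z s) (hs : star (s true true) = s true true) :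
    s true true = (-1 / 4 : ℂ) • Qd l₁ l₂ := by
  have h1 := cd.S11_P
  have h2 : Pd l₁ l₂ * s true true = 0 := by
    have h3 : star (s true true * Pd l₁ l₂) = star (Pd l₁ l₂) * star (s true true) :=
      star_mul (s true true) (Pd l₁ l₂)
    rw [h1, Pd_star, hs] at h3
    rw [← h3]
    exact star_zero (LMat ι ℂ)
  rw [← cd.Q11Q, ← one_sub_Pd]
  rw [sub_mul, one_mul, h2, sub_zero, mul_sub, mul_one, h1, sub_zero]

end CorF

theorem zz_aux {ι B₁ : Type} (baseA : ι → B₁) (w : Wall B₁) (l : ι) :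
    (Complex.I * (2 * ind w.2 baseA l - 1)) * star (Complex.I * (2 * ind w.2 baseA l - 1)) =
      (1 : ℂ) := by
  have : (Complex.I * (2 * ind w.2 baseA l - 1) : ℂ) = Complex.I ∨
      (Complex.I * (2 * ind w.2 baseA l - 1) : ℂ) = -Complex.I := by
    unfold ind
    split_ifs
    · left; ring
    · right; ring
  rcases this with h | h <;> rw [h]
  · rw [Complex.star_def, Complex.conj_I, mul_neg, Complex.I_mul_I, neg_neg]
  · rw [star_neg, Complex.star_def, Complex.conj_I, neg_neg, neg_mul, Complex.I_mul_I, neg_neg]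

/-- the facts from the corner data -/
theorem CorData.facts {ι B₁ : Type} {baseA : ι → B₁} {w : Wall B₁} {A A' : LMat ι ℂ}
    (cd : CorData baseA w A A') {s : Matrix Bool Bool (LMat ι ℂ)}
    (hs : Sop (prj w.1 baseA) (prj w.2 baseA) A A' = s) :
    CorF cd.l₁ cd.l₂ (fun l => Complex.I * (2 * ind w.2 baseA l - 1)) s := by
  obtain ⟨l₁, l₂, ne, EA, c01, c01', c11, h1, h2, h3, h4, h5, h6, h7, h8, h9, h10, h11, h12, _⟩ := cd
  rw [hs] at *
  exact ⟨ne, zz_aux baseA w, c01, c01', c11, h1, h2, h3, h4, h5, h6, h7, h8, h9, h10, h11, h12⟩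

end Vale.Agent.P228.Inv
end
end
end

section

section

/-! # Bridge between `sInv` (helper646, `SDef.lean`) and `Dat.iter` -/

open Matrix

set_option linter.unusedSectionVars false

noncomputable section

namespace Vale.Agent.P228.Inv

open Vale.Agent.P228.Top (Form Supp Crosses Corner BaseDiagOn IntInv)

variable {B : Type}

/-- the list of all walls -/
def flat (ws : List (Wall B)) : List (Set B) := ws.flatMap fun w => [w.1, w.2]

theorem mem_flat {ws : List (Wall B)} {w : Set B} :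
    w ∈ flat ws ↔ ∃ pr ∈ ws, w = pr.1 ∨ w = pr.2 := by
  unfold flat
  simp only [List.mem_flatMap, List.mem_cons, List.not_mem_nil, or_false, Prod.exists]

section

variable {E : B → B → Prop} {ι : Type} {base : ι → B} {h k : LMat ι ℂ}

end

end Vale.Agent.P228.Inv
end
end
end

section

section

/-!
# P228, value block: closed boxes for the recursive positions `PosR m`

* `Hcl e ws E K` : closedness of the finite set `e` for the relation `E` and the walls `ws`;
* `pathInv_hcl` : path invariance of `sInv` from closedness;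
* `PE EA E'` : the relation on a product, `hcl_PE` : closedness of `e₁ × e'`;
* `CloseR c m`, `boxR N m` : closedness, corner set, composition.
-/

set_option linter.unusedSectionVars false

noncomputable section

namespace Vale.Agent.P228.Inv

open LMat
open Vale.Agent.P228.Top (Form Supp Crosses Corner IntInv PathInv)

variable {B : Type}

/-- closedness of the finite set `e`: a point of `e` at which all walls cross has its whole
`K`-step neighbourhood in `e` -/
def Hcl (e : Finset B) (ws : List (Wall B)) (E : B → B → Prop) (K : ℕ) : Prop :=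
  ∀ b ∈ e, (∃ w ∈ flat ws, ¬ Crosses E K w b) ∨ ∀ y, Top.Reach E K b y → y ∈ e

theorem exists_flat {ws : List (Wall B)} {P : Set B → Prop} :
    (∃ w ∈ flat ws, P w) ↔ ∃ w ∈ ws, P w.1 ∨ P w.2 := by
  constructor
  · rintro ⟨w, hw, h⟩
    obtain ⟨pr, h1, h2⟩ := mem_flat.1 hw
    rcases h2 with rfl | rfl
    · exact ⟨pr, h1, Or.inl h⟩
    · exact ⟨pr, h1, Or.inr h⟩
  · rintro ⟨pr, h1, h⟩
    rcases h with h | h
    · exact ⟨pr.1, mem_flat.2 ⟨pr, h1, Or.inl rfl⟩, h⟩
    · exact ⟨pr.2, mem_flat.2 ⟨pr, h1, Or.inr rfl⟩, h⟩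

/-- path invariance of `sInv` for a closed finite set -/
theorem pathInv_hcl {E : B → B → Prop} (hE : ∀ x, E x x) (hfin : ∀ b, {b' | E b b'}.Finite)
    (hfin' : ∀ b, {b' | E b' b}.Finite) {ws : List (Wall B)} {e : Finset B}
    (hcl : Hcl e ws E (8 ^ ws.length)) :
    PathInv E (fun {_} base h k => sInv e ws base h k) := by
  intro ι base hb h k hch hck hform
  refine sInv_path e ws base hb hfin hfin' h k hch hck hform ?_
  intro b hbe t ht
  rcases hcl b hbe with hc | hc
  · exact FinP.imp (fun base M M' h => null_clo hbe h) ws base _ _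
      (finNull_of_not_cross hE (hform t ht) (exists_flat.1 hc))
  · refine FinP.imp (fun base M M' h => ?_) ws base _ _ (finSupp hE ws (hform t ht) b)
    intro x y hx hxy
    exact hc _ (h x y hx hxy)

/-! ### reach -/

theorem reach_map {B' : Type} {E : B → B → Prop} {E' : B' → B' → Prop} (f : B → B')
    (h : ∀ x y, E x y → E' (f x) (f y)) {k : ℕ} {x y : B} (hr : Top.Reach E k x y) :
    Top.Reach E' k (f x) (f y) := by
  induction k generalizing y with
  | zero => exact congrArg f hr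
  | succ k ih =>
    obtain ⟨z, hz, hzy⟩ := hr
    exact ⟨f z, ih hz, h _ _ hzy⟩

theorem crosses_map {B' : Type} {E : B → B → Prop} {E' : B' → B' → Prop} (f : B → B')
    (h : ∀ x y, E x y → E' (f x) (f y)) {k : ℕ} {w : Set B'} {x : B}
    (hr : Crosses E k (f ⁻¹' w) x) : Crosses E' k w (f x) := by
  obtain ⟨⟨y, h1, h2⟩, ⟨z, h3, h4⟩⟩ := hr
  exact ⟨⟨f y, reach_map f h h1, h2⟩, ⟨f z, reach_map f h h3, h4⟩⟩

/-- closedness from the corner set -/
theorem hcl_of_corner {E : B → B → Prop} {e : Finset B} {ws : List (Wall B)} {K : ℕ}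
    (h : Corner E K (flat ws) ⊆ (e : Set B)) : Hcl e ws E K := by
  intro b _
  by_cases hc : ∃ w ∈ flat ws, ¬ Crosses E K w b
  · exact Or.inl hc
  · right
    push Not at hc
    intro y hy
    exact h ⟨b, hc, hy⟩

/-! ### products -/

section prod

variable {B₁ B₂ : Type}

/-- the relation on a product: `E'` in the second factor, equality or both points in `EA` in the
first factor -/
def PE (EA : Finset B₁) (E' : B₂ → B₂ → Prop) (x y : B₁ × B₂) : Prop :=
  (x.1 = y.1 ∨ (x.1 ∈ EA ∧ y.1 ∈ EA)) ∧ E' x.2 y.2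

variable {EA e₁ : Finset B₁} {E' : B₂ → B₂ → Prop}

theorem PE_refl (hE : ∀ x, E' x x) (x : B₁ × B₂) : PE EA E' x x := ⟨Or.inl rfl, hE _⟩

theorem PE_symm (hE : ∀ x y, E' x y → E' y x) {x y : B₁ × B₂} (h : PE EA E' x y) :
    PE EA E' y x := by
  refine ⟨?_, hE _ _ h.2⟩
  rcases h.1 with h1 | h1
  · exact Or.inl h1.symm
  · exact Or.inr ⟨h1.2, h1.1⟩

theorem PE_mono {E'' : B₂ → B₂ → Prop} (h : ∀ x y, E' x y → E'' x y) {x y : B₁ × B₂}
    (hxy : PE EA E' x y) : PE EA E'' x y := ⟨hxy.1, h _ _ hxy.2⟩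

theorem PE_comp {E₁ E₂ E₃ : B₂ → B₂ → Prop} (h : ∀ x y z, E₁ x y → E₂ y z → E₃ x z)
    {x y z : B₁ × B₂} (h1 : PE EA E₁ x y) (h2 : PE EA E₂ y z) : PE EA E₃ x z := by
  refine ⟨?_, h _ _ _ h1.2 h2.2⟩
  rcases h1.1 with h3 | h3
  · rcases h2.1 with h4 | h4
    · exact Or.inl (h3.trans h4)
    · exact Or.inr ⟨by rw [h3]; exact h4.1, h4.2⟩
  · rcases h2.1 with h4 | h4
    · exact Or.inr ⟨h3.1, by rw [← h4]; exact h3.2⟩
    · exact Or.inr ⟨h3.1, h4.2⟩

theorem PE_finite (hfin : ∀ b, {b' | E' b b'}.Finite) (x : B₁ × B₂) :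
    {y | PE EA E' x y}.Finite := by
  classical
  refine (((insert x.1 EA : Finset B₁).finite_toSet).prod (hfin x.2)).subset ?_
  rintro y ⟨h1, h2⟩
  refine ⟨?_, h2⟩
  rcases h1 with h1 | h1
  · simp only [h1, Finset.coe_insert, Set.mem_insert_iff, SetLike.mem_coe, true_or]
  · simp only [Finset.coe_insert, Set.mem_insert_iff, SetLike.mem_coe, h1.2, or_true]

theorem PE_finite' (hfin : ∀ b, {b' | E' b' b}.Finite) (x : B₁ × B₂) :
    {y | PE EA E' y x}.Finite := by
  classical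
  refine (((insert x.1 EA : Finset B₁).finite_toSet).prod (hfin x.2)).subset ?_
  rintro y ⟨h1, h2⟩
  refine ⟨?_, h2⟩
  rcases h1 with h1 | h1
  · simp [h1]
  · simp only [Finset.coe_insert, Set.mem_insert_iff, SetLike.mem_coe, h1.1, or_true]

theorem reach_PE_snd {k : ℕ} {x y : B₁ × B₂} (h : Top.Reach (PE EA E') k x y) :
    Top.Reach E' k x.2 y.2 := reach_map Prod.snd (fun _ _ h => h.2) h

theorem reach_PE_fst {k : ℕ} {x y : B₁ × B₂} (h : Top.Reach (PE EA E') k x y) :
    x.1 = y.1 ∨ (x.1 ∈ EA ∧ y.1 ∈ EA) := by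
  induction k generalizing y with
  | zero => exact Or.inl (congrArg Prod.fst h)
  | succ k ih =>
    obtain ⟨z, hz, hzy⟩ := h
    rcases ih hz with h3 | h3
    · rcases hzy.1 with h4 | h4
      · exact Or.inl (h3.trans h4)
      · exact Or.inr ⟨by rw [h3]; exact h4.1, h4.2⟩
    · rcases hzy.1 with h4 | h4
      · exact Or.inr ⟨h3.1, by rw [← h4]; exact h3.2⟩
      · exact Or.inr ⟨h3.1, h4.2⟩

theorem crosses_PE {k : ℕ} {w : Set B₂} {x : B₁ × B₂}
    (h : Crosses (PE EA E') k {p | p.2 ∈ w} x) : Crosses E' k w x.2 :=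
  crosses_map Prod.snd (fun _ _ h => h.2) h

/-- closedness of `e₁ × e'` for the product relation -/
theorem hcl_PE (hEA : EA ⊆ e₁) {e' : Finset B₂} {ws : List (Wall B₂)} {K : ℕ}
    (hcl : Hcl e' ws E' K) :
    Hcl (e₁ ×ˢ e') (ws.map Std.liftW : List (Wall (B₁ × B₂))) (PE EA E') K := by
  rintro ⟨b₁, b₂⟩ hb
  rw [Finset.mem_product] at hb
  rcases hcl b₂ hb.2 with hc | hc
  · left
    obtain ⟨w, hw, h⟩ := exists_flat.1 hc
    refine exists_flat.2 ⟨Std.liftW w, List.mem_map_of_mem hw, ?_⟩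
    exact h.imp (fun h h' => h (crosses_PE h')) (fun h h' => h (crosses_PE h'))
  · right
    rintro ⟨y₁, y₂⟩ hy
    rw [Finset.mem_product]
    refine ⟨?_, hc _ (reach_PE_snd hy)⟩
    rcases reach_PE_fst hy with h | h
    · change b₁ = y₁ at h
      rw [← h]
      exact hb.1
    · exact hEA h.2

/-- path invariance of `sInv` over a product -/
theorem pathInv_PE (hE : ∀ x, E' x x) (hfin : ∀ b, {b' | E' b b'}.Finite)
    (hfin' : ∀ b, {b' | E' b' b}.Finite) (hEA : EA ⊆ e₁) {e' : Finset B₂}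
    {ws : List (Wall B₂)} (hcl : Hcl e' ws E' (8 ^ ws.length)) :
    PathInv (PE EA E') (fun {_} base h k =>
      sInv (e₁ ×ˢ e') (ws.map Std.liftW : List (Wall (B₁ × B₂))) base h k) := by
  refine pathInv_hcl (PE_refl hE) (PE_finite hfin) (PE_finite' hfin') ?_
  rw [List.length_map]
  exact hcl_PE hEA hcl

end prod

end Vale.Agent.P228.Inv

namespace Vale.Agent.P228.Std

open Vale.Agent.P228.Inv
open Vale.Agent.P228.Top (Crosses Corner)

/-! ### the relation `CloseR` -/

theorem closeR_refl (c : ℕ) : (m : ℕ) → (x : PosR m) → CloseR c m x x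
  | 0, _ => trivial
  | m + 1, x => ⟨by simp only [sub_self, abs_zero, Nat.cast_nonneg], by simp only [sub_self, abs_zero, Nat.cast_nonneg], closeR_refl c m x.2⟩

theorem closeR_symm {c : ℕ} : {m : ℕ} → {x y : PosR m} → CloseR c m x y → CloseR c m y x
  | 0, _, _, _ => trivial
  | m + 1, _, _, h => ⟨by rw [abs_sub_comm]; exact h.1, by rw [abs_sub_comm]; exact h.2.1,
      closeR_symm h.2.2⟩

theorem closeR_mono {c c' : ℕ} (hc : c ≤ c') : {m : ℕ} → {x y : PosR m} → CloseR c m x y →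
    CloseR c' m x y
  | 0, _, _, _ => trivial
  | m + 1, _, _, h => ⟨h.1.trans (by exact_mod_cast hc), h.2.1.trans (by exact_mod_cast hc),
      closeR_mono hc h.2.2⟩

theorem closeR_trans {c c' : ℕ} : {m : ℕ} → {x y z : PosR m} → CloseR c m x y →
    CloseR c' m y z → CloseR (c + c') m x z
  | 0, _, _, _, _, _ => trivial
  | m + 1, x, y, z, h, h' => by
    refine ⟨?_, ?_, closeR_trans h.2.2 h'.2.2⟩
    · have h1 := h.1
      have h2 := h'.1
      rw [abs_le] at h1 h2 ⊢
      push_cast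
      constructor <;> linarith only [h1, h2]
    · have h1 := h.2.1
      have h2 := h'.2.1
      rw [abs_le] at h1 h2 ⊢
      push_cast
      constructor <;> linarith only [h1, h2]

theorem closeR_finite (c : ℕ) : (m : ℕ) → (x : PosR m) → {y | CloseR c m x y}.Finite
  | 0, _ => by
    have : Finite (PosR 0) := inferInstanceAs (Finite Unit)
    exact Set.toFinite _
  | m + 1, x => by
    have h1 : {a : ℤ | |x.1.1 - a| ≤ c}.Finite := by
      refine (Set.finite_Icc (x.1.1 - c) (x.1.1 + c)).subset fun a ha => ?_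
      have ha' : |x.1.1 - a| ≤ (c : ℤ) := ha
      rw [abs_le] at ha'
      exact ⟨by linarith only [ha'], by linarith only [ha']⟩
    have h2 : {a : ℤ | |x.1.2 - a| ≤ c}.Finite := by
      refine (Set.finite_Icc (x.1.2 - c) (x.1.2 + c)).subset fun a ha => ?_
      have ha' : |x.1.2 - a| ≤ (c : ℤ) := ha
      rw [abs_le] at ha'
      exact ⟨by linarith [ha'.2], by linarith only [ha']⟩
    refine ((h1.prod h2).prod (closeR_finite c m x.2)).subset ?_
    rintro y ⟨h3, h4, h5⟩
    exact ⟨⟨h3, h4⟩, h5⟩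

theorem closeR_finite' (c : ℕ) (m : ℕ) (x : PosR m) : {y | CloseR c m y x}.Finite :=
  (closeR_finite c m x).subset fun _ hy => closeR_symm hy

theorem reach_closeR {c k : ℕ} {m : ℕ} {x y : PosR m} (h : Top.Reach (CloseR c m) k x y) :
    CloseR (k * c) m x y := by
  induction k generalizing y with
  | zero =>
    rw [show x = y from h]
    exact closeR_refl _ _ _
  | succ k ih =>
    obtain ⟨z, hz, hzy⟩ := h
    have := closeR_trans (ih hz) hzy
    rwa [← Nat.succ_mul] at this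

/-! ### boxes -/

theorem mem_box2 {N : ℕ} {x : ℤ × ℤ} : x ∈ box2 N ↔ |x.1| ≤ N ∧ |x.2| ≤ N := by
  unfold box2
  rw [Finset.mem_product, Finset.mem_Icc, Finset.mem_Icc, abs_le, abs_le]

theorem mem_boxR_succ {N m : ℕ} {x : PosR (m + 1)} :
    x ∈ boxR N (m + 1) ↔ (|x.1.1| ≤ N ∧ |x.1.2| ≤ N) ∧ x.2 ∈ boxR N m := by
  rw [← mem_box2]
  exact Finset.mem_product

theorem mem_boxR_zero {N : ℕ} (x : PosR 0) : x ∈ boxR N 0 := Finset.mem_singleton.2 rfl

theorem boxR_mono {N N' : ℕ} (h : N ≤ N') : {m : ℕ} → {x : PosR m} → x ∈ boxR N m →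
    x ∈ boxR N' m
  | 0, x, _ => mem_boxR_zero x
  | m + 1, x, hx => by
    rw [mem_boxR_succ] at hx ⊢
    exact ⟨⟨hx.1.1.trans (by exact_mod_cast h), hx.1.2.trans (by exact_mod_cast h)⟩,
      boxR_mono h hx.2⟩

theorem boxR_of_close {N c : ℕ} : {m : ℕ} → {x y : PosR m} → x ∈ boxR N m → CloseR c m x y →
    y ∈ boxR (N + c) m
  | 0, _, y, _, _ => mem_boxR_zero y
  | m + 1, x, y, hx, h => by
    rw [mem_boxR_succ] at hx ⊢
    refine ⟨⟨?_, ?_⟩, boxR_of_close hx.2 h.2.2⟩
    · have h1 := hx.1.1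
      have h2 := h.1
      rw [abs_le] at h1 h2 ⊢
      push_cast
      constructor <;> linarith only [h1, h2]
    · have h1 := hx.1.2
      have h2 := h.2.1
      rw [abs_le] at h1 h2 ⊢
      push_cast
      constructor <;> linarith only [h1, h2]

/-- a point at which all coordinate walls cross lies near the corner -/
theorem box_of_crosses {c K : ℕ} : {m : ℕ} → {x : PosR m} →
    (∀ w ∈ flat (wallsR m), Crosses (CloseR c m) K w x) → x ∈ boxR (K * c) m
  | 0, x, _ => mem_boxR_zero x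
  | m + 1, x, h => by
    rw [mem_boxR_succ]
    have hsnd : ∀ x y, CloseR c (m + 1) x y → CloseR c m x.2 y.2 := fun _ _ h => h.2.2
    have hhead : headW (PosR m) ∈ wallsR (m + 1) := List.mem_cons_self
    have key : ∀ f : PosR (m + 1) → ℤ, (∀ x y, CloseR (K * c) (m + 1) x y →
        |f x - f y| ≤ ((K * c : ℕ) : ℤ)) → {p : PosR (m + 1) | 0 ≤ f p} ∈ flat (wallsR (m + 1)) →
        |f x| ≤ ((K * c : ℕ) : ℤ) := by
      intro f hf hw
      obtain ⟨⟨y, h1, h2⟩, ⟨z, h3, h4⟩⟩ := h _ hw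
      have c1 := hf _ _ (reach_closeR h1)
      have c2 := hf _ _ (reach_closeR h3)
      have h2' : 0 ≤ f y := h2
      have h4' : ¬ 0 ≤ f z := h4
      rw [abs_le] at c1 c2 ⊢
      push Not at h4'
      constructor <;> linarith only [c1, h2', c2, h4']
    refine ⟨⟨?_, ?_⟩, ?_⟩
    · exact key (fun p => p.1.1) (fun _ _ h => h.1) (mem_flat.2 ⟨_, hhead, Or.inl rfl⟩)
    · exact key (fun p => p.1.2) (fun _ _ h => h.2.1) (mem_flat.2 ⟨_, hhead, Or.inr rfl⟩)
    · refine box_of_crosses fun w hw => ?_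
      obtain ⟨pr, h1, h2⟩ := mem_flat.1 hw
      have hl : (liftW pr : Wall (PosR (m + 1))) ∈ wallsR (m + 1) :=
        List.mem_cons_of_mem _ (List.mem_map_of_mem h1)
      rcases h2 with rfl | rfl
      · exact crosses_map (fun p : PosR (m + 1) => p.2) hsnd
          (h _ (mem_flat.2 ⟨_, hl, Or.inl rfl⟩))
      · exact crosses_map (fun p : PosR (m + 1) => p.2) hsnd
          (h _ (mem_flat.2 ⟨_, hl, Or.inr rfl⟩))

/-- the corner set lies in the box -/
theorem corner_boxR {c K N m : ℕ} (hN : 2 * K * c ≤ N) :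
    Corner (CloseR c m) K (flat (wallsR m)) ⊆ (boxR N m : Set (PosR m)) := by
  rintro y ⟨x, hx, hxy⟩
  have h1 := boxR_of_close (box_of_crosses hx) (reach_closeR hxy)
  refine Finset.mem_coe.2 (boxR_mono ?_ h1)
  calc K * c + K * c = 2 * K * c := by ring
    _ ≤ N := hN

/-- closedness of the box -/
theorem hcl_boxR {c K N m : ℕ} (hN : 2 * K * c ≤ N) :
    Hcl (boxR N m) (wallsR m) (CloseR c m) K := hcl_of_corner (corner_boxR hN)

theorem length_wallsR : (m : ℕ) → (wallsR m).length = m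
  | 0 => rfl
  | m + 1 => by
    change ((wallsR m).map liftW).length + 1 = m + 1
    rw [List.length_map, length_wallsR m]

/-- path invariance over `PosR m` -/
theorem pathInv_boxR {c N m : ℕ} (hN : 2 * 8 ^ m * c ≤ N) :
    Top.PathInv (CloseR c m) (fun {_} base h k => sInv (boxR N m) (wallsR m) base h k) := by
  refine pathInv_hcl (closeR_refl c m) (closeR_finite c m) (closeR_finite' c m) ?_
  rw [length_wallsR]
  exact hcl_boxR hN

/-- path invariance over `(ℤ × ℤ) × PosR m` for the relation `PE`, without the head pair of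
walls -/
theorem pathInv_PE_boxR {B₁ : Type} {EA e₁ : Finset B₁} (hEA : EA ⊆ e₁) {c N m : ℕ}
    (hN : 2 * 8 ^ m * c ≤ N) :
    Top.PathInv (PE EA (CloseR c m)) (fun {_} base h k =>
      sInv (e₁ ×ˢ boxR N m) ((wallsR m).map liftW : List (Wall (B₁ × PosR m))) base h k) := by
  refine pathInv_PE (closeR_refl c m) (closeR_finite c m) (closeR_finite' c m) hEA ?_
  rw [length_wallsR]
  exact hcl_boxR hN

end Vale.Agent.P228.Std
end
end
end

section

section

/-!
P228, block [S]: first half of the product step: from `A ⊗ B` with the walls of the first factor to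
the decoupled form.
-/

open Matrix

set_option linter.unusedSectionVars false
set_option linter.unusedSimpArgs false

noncomputable section

namespace Vale.Agent.P228.Inv

open LMat

section filt

variable {B₁ B₂ : Type}

/-- the filtration of a product -/
def Filt.prod (EA : Finset B₁) (Ψ : Filt B₂) : Filt (B₁ × B₂) where
  F n := PE EA (Ψ.F n)
  refl b := PE_refl Ψ.refl b
  symm n _ _ h := PE_symm (fun _ _ h => Ψ.symm n h) h
  comp h h' := PE_comp (fun _ _ _ h h' => Ψ.comp h h') h h'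
  mono hij h := PE_mono (fun _ _ h => Ψ.mono hij h) h

variable {EA : Finset B₁} {Ψ : Filt B₂} {ι κ : Type} {baseA : ι → B₁} {baseB : κ → B₂}

theorem Lev.kron {n : ℕ} {a : LMat ι ℂ} {b : LMat κ ℂ}
    (ha : ∀ x y, a x y ≠ 0 → baseA x = baseA y ∨ (baseA x ∈ EA ∧ baseA y ∈ EA))
    (hb : Lev Ψ n baseB b) :
    Lev (Ψ.prod EA) n (fun x : ι × κ => (baseA x.1, baseB x.2)) (LMat.kron a b) := by
  intro x y h
  have h' : a x.1 y.1 * b x.2 y.2 ≠ 0 := h
  exact ⟨ha _ _ (left_ne_zero_of_mul h'), hb _ _ (right_ne_zero_of_mul h')⟩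

theorem Lev.kron_diag_one {n : ℕ} (f : ι → ℂ) :
    Lev (Ψ.prod EA) n (fun x : ι × κ => (baseA x.1, baseB x.2))
      (LMat.kron (LMat.diag f) 1) := by
  rw [kron_one_diag]
  exact Lev.diag _

theorem Lev.one_kron {n : ℕ} {b : LMat κ ℂ} (hb : Lev Ψ n baseB b) :
    Lev (Ψ.prod EA) n (fun x : ι × κ => (baseA x.1, baseB x.2)) (LMat.kron 1 b) := by
  refine Lev.kron (fun x y h => ?_) hb
  by_cases hxy : x = y
  · exact Or.inl (by rw [hxy])
  · exact absurd (one_apply_ne hxy) h

end filt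

section K0

theorem SopInv_eq {R : Type*} [Ring R] [StarRing R] [Algebra ℂ R] (P Q th th' : R) :
    SopInv P Q th th' = K0 R * Sop P Q th th' * K0 R := by
  unfold SopInv Sop
  rw [← Matrix.mul_assoc, K0_sq, Matrix.one_mul]

theorem K0_eq_m2 {R : Type*} [Ring R] [Algebra ℂ R] :
    K0 R = m2 0 (Complex.I • 1) (Complex.I • (-1)) 0 := by
  unfold K0 Om
  rw [m2_smul, smul_zero]

end K0

/-- corner data in the product -/
theorem CorF.twoDat {ι κ : Type} {l₁ l₂ : ι} {z : ι → ℂ} {s : Matrix Bool Bool (LMat ι ℂ)}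
    (cd : CorF l₁ l₂ z s) {B B' : LMat κ ℂ} (hB : star B = B) (hB' : star B' = B')
    (h1 : B * B' = 1) (h2 : B' * B = 1) :
    TwoDat (kron (Pd l₁ l₂) (1 : LMat κ ℂ)) (kron (LMat.diag z) 1) (kron (CorF.T l₁ l₂ s) 1)
      (kron 1 B) (kron 1 B') := by
  have q1 : (1 : LMat (ι × κ) ℂ) - kron (Pd l₁ l₂) (1 : LMat κ ℂ) = kron (Qd l₁ l₂) 1 := by
    rw [← one_sub_Pd, kron_sub_left, kron_one_one]
  have s1 : star (1 : LMat κ ℂ) = 1 := star_one _
  refine ⟨?_, ?_, ?_, ?_, ?_, ?_, ?_, ?_, ?_, ?_, ?_, ?_, ?_, ?_, ?_⟩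
  · rw [kron_mul, Pd_mul, mul_one]
  · rw [kron_star, Pd_star, s1]
  · rw [kron_star, kron_mul, cd.ZZ, s1, mul_one, kron_one_one]
  · rw [kron_star, kron_mul, cd.ZZ', s1, mul_one, kron_one_one]
  · rw [kron_mul, kron_mul, CorF.ZP]
  · rw [kron_mul, CorF.PT, kron_zero_left]
  · rw [kron_mul, CorF.TP, kron_zero_left]
  · rw [q1, kron_star, kron_mul, cd.T_star, cd.TT, s1, mul_one, kron_smul_left]
  · rw [q1, kron_star, kron_mul, cd.T_star, cd.TT, s1, mul_one, kron_smul_left]
  · rw [kron_mul, h1, mul_one, kron_one_one]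
  · rw [kron_mul, h2, mul_one, kron_one_one]
  · rw [kron_star, hB]
    congr 1
    exact star_one (LMat ι ℂ)
  · rw [kron_star, hB']
    congr 1
    exact star_one (LMat ι ℂ)
  · rw [kron_mul, kron_mul, mul_one, mul_one, one_mul, one_mul]
  · rw [kron_mul, kron_mul, mul_one, mul_one, one_mul, one_mul]

/-- first half of the product step -/
theorem prod_half {B₁ B₂ ι κ : Type} {baseA : ι → B₁} {baseB : κ → B₂}
    (hfA : ∀ b, {x | baseA x = b}.Finite) (hfB : ∀ b, {x | baseB x = b}.Finite)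
    {w : Wall B₁} (ws : List (Wall B₂)) (e₁ : Finset B₁) (e' : Finset B₂) {A A' : LMat ι ℂ}
    (hA : star A = A) (hA' : star A' = A') (cd : CorData baseA w A A')
    {B B' : LMat κ ℂ} (hB : star B = B) (hB' : star B' = B') (h1 : B * B' = 1) (h2 : B' * B = 1)
    {Ψ : Filt B₂} (lB : Lev Ψ 1 baseB B) (lB' : Lev Ψ 1 baseB B')
    (hP : Top.PathInv (PE cd.EA (Ψ.F 3)) (fun {_} base h k =>
      sInv (e₁ ×ˢ e') (ws.map Std.liftW : List (Wall (B₁ × B₂))) base h k)) :
    sInv (e₁ ×ˢ e') ((({p | p.1 ∈ w.1}, {p | p.1 ∈ w.2}) : Wall (B₁ × B₂)) :: ws.map Std.liftW)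
        (fun x : ι × κ => (baseA x.1, baseB x.2)) (kron A B) (kron A' B') =
      sInv (e₁ ×ˢ e') (ws.map Std.liftW : List (Wall (B₁ × B₂)))
        (fun x : (ι × κ) × Bool => (baseA x.1.1, baseB x.1.2))
        (toBlk (hD (kron (Pd cd.l₁ cd.l₂) 1)
          (kron (LMat.diag fun l => Complex.I * (2 * ind w.2 baseA l - 1)) 1)
          (kron (CorF.T cd.l₁ cd.l₂ (Sop (prj w.1 baseA) (prj w.2 baseA) A A')) 1)
          (kron 1 B) (kron 1 B') 0))
        (toBlk (kD (kron (Pd cd.l₁ cd.l₂) 1)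
          (kron (LMat.diag fun l => Complex.I * (2 * ind w.2 baseA l - 1)) 1)
          (kron (CorF.T cd.l₁ cd.l₂ (Sop (prj w.1 baseA) (prj w.2 baseA) A A')) 1)
          (kron 1 B) (kron 1 B') 0 (1 / 5))) := by
  obtain ⟨s, hs⟩ : ∃ s, Sop (prj w.1 baseA) (prj w.2 baseA) A A' = s := ⟨_, rfl⟩
  have cf := cd.facts hs
  have hsupp := cd.supp
  have hstar : star s = s := by
    rw [← hs]
    exact Sop_star (prj_mul _ _) (prj_star _ _) (prj_star _ _) hA hA'
  rw [hs] at hsupp ⊢
  obtain ⟨l₁, hl₁⟩ : ∃ l, cd.l₁ = l := ⟨_, rfl⟩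
  obtain ⟨l₂, hl₂⟩ : ∃ l, cd.l₂ = l := ⟨_, rfl⟩
  rw [hl₁, hl₂] at cf ⊢
  set z : ι → ℂ := fun l => Complex.I * (2 * ind w.2 baseA l - 1) with hz
  set base : ι × κ → B₁ × B₂ := fun x => (baseA x.1, baseB x.2) with hbase
  have hs10 : star (s false true) = s true false := congrFun (congrFun hstar true) false
  have hs00 : star (s false false) = s false false := congrFun (congrFun hstar false) false
  have hs11 : star (s true true) = s true true := congrFun (congrFun hstar true) true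
  have ho : star (1 : LMat κ ℂ) = 1 := star_one _
  have hfin : ∀ b, {x : (ι × κ) × Bool | base x.1 = b}.Finite := by
    intro b
    have : {x : (ι × κ) × Bool | base x.1 = b} =
        ({x | baseA x = b.1} ×ˢ {x | baseB x = b.2}) ×ˢ Set.univ := by
      ext x
      simp only [hbase, Prod.ext_iff, Set.mem_ofPred_eq, Bool.univ_eq, Set.mem_prod, Set.mem_insert_iff, Set.mem_singleton_iff, Bool.eq_false_or_eq_true_self, and_true]
    rw [this]
    exact ((hfA _).prod (hfB _)).prod Set.finite_univ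
  have q1 : (1 : LMat (ι × κ) ℂ) - kron (Pd l₁ l₂) (1 : LMat κ ℂ) = kron (Qd l₁ l₂) 1 := by
    rw [← one_sub_Pd, kron_sub_left, kron_one_one]
  have e1 : Sop (prj (({p | p.1 ∈ w.1}) : Set (B₁ × B₂)) base)
      (prj (({p | p.1 ∈ w.2}) : Set (B₁ × B₂)) base) (kron A B) (kron A' B') =
      m2 (kron (s false false) B) (kron (s false true) 1) (star (kron (s false true) 1))
        (kron (s true true) B') := by
    have h3 := Sop_kron (ind w.1 baseA) (ind w.2 baseA) (ind_mul _ _) A A' B B' h1 h2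
    have h4 : Sop (LMat.diag (ind w.1 baseA)) (LMat.diag (ind w.2 baseA)) A A' = s := hs
    rw [h4] at h3
    rw [kron_star, hs10, ho]
    exact h3
  have e2 : stepS (({p | p.1 ∈ w.1}, {p | p.1 ∈ w.2}) : Wall (B₁ × B₂)) base (kron A B)
      (kron A' B') = toBlk (m2 (kron (s false false) B) (kron (s false true) 1)
        (star (kron (s false true) 1)) (kron (s true true) B')) := by
    unfold stepS
    rw [e1]
  rw [sInv_cons, e2]
  have n1 := stepS_mul_stepI (({p | p.1 ∈ w.1}, {p | p.1 ∈ w.2}) : Wall (B₁ × B₂)) base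
    (kron A B) (kron A' B')
  have n2 := stepI_mul_stepS (({p | p.1 ∈ w.1}, {p | p.1 ∈ w.2}) : Wall (B₁ × B₂)) base
    (kron A B) (kron A' B')
  rw [e2] at n1 n2
  have L00 : Lev (Ψ.prod cd.EA) 1 base (kron (s false false) B) :=
    Lev.kron (fun x y h => hsupp false false x y h) lB
  have L01 : Lev (Ψ.prod cd.EA) 0 base (kron (s false true) (1 : LMat κ ℂ)) :=
    Lev.kron (fun x y h => hsupp false true x y h) Lev.one
  have L11 : Lev (Ψ.prod cd.EA) 1 base (kron (s true true) B') :=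
    Lev.kron (fun x y h => hsupp true true x y h) lB'
  have LM := Lev.toBlk L00 (L01.up (Nat.zero_le 1)) (L01.star.up (Nat.zero_le 1)) L11
  have LK : Lev (Ψ.prod cd.EA) 0 (fun x : (ι × κ) × Bool => base x.1)
      (toBlk (K0 (LMat (ι × κ) ℂ))) := by
    rw [K0_eq_m2]
    exact Lev.toBlk Lev.zero (Lev.smul _ Lev.one) (Lev.smul _ Lev.one.neg) Lev.zero
  have LI : Lev (Ψ.prod cd.EA) 1 (fun x : (ι × κ) × Bool => base x.1)
      (stepI (({p | p.1 ∈ w.1}, {p | p.1 ∈ w.2}) : Wall (B₁ × B₂)) base (kron A B)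
        (kron A' B')) := by
    unfold stepI
    rw [SopInv_eq, toBlk_mul, toBlk_mul, e1]
    exact (LK.mul LM).mul' LK (by (clear * -; omega))
  refine path_two (Φ := Ψ.prod cd.EA) (base := base) (s := fun {_} base h k =>
      sInv (e₁ ×ˢ e') (ws.map Std.liftW : List (Wall (B₁ × B₂))) base h k) hP hfin
    (cf.twoDat hB hB' h1 h2) ?_ ?_ ?_ ?_ ?_ L00 L01 ?_ ?_ ?_ ?_ ?_ ?_ n1 n2 LI
  · exact Lev.kron_diag_one _
  · exact Lev.kron_diag_one _
  · refine Lev.kron (fun x y h => ?_) Lev.one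
    have h' : Qd l₁ l₂ * s false true * Qd l₁ l₂ = CorF.T l₁ l₂ s := rfl
    rw [← h', QXQ_apply] at h
    exact hsupp false true x y (right_ne_zero_of_mul (left_ne_zero_of_mul h))
  · exact Lev.one_kron lB
  · exact Lev.one_kron lB'
  · rw [kron_star, hs00, hB]
  · rw [kron_star, hs11, hB']
  · rw [kron_mul, kron_mul, cf.S01_P]
  · rw [q1, kron_mul, kron_mul, kron_mul, cf.Q00Q, one_mul, mul_one, mul_one, kron_smul_left]
  · rw [q1, kron_mul, kron_mul, mul_one, mul_one]
    rfl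
  · rw [q1, kron_mul, mul_one, one_mul, ← kron_smul_left, ← cf.S11_eq hs11]

end Vale.Agent.P228.Inv
end
end
end

section

section

/-!
P228, block [S]: `sInv` of a form and of its inverse agree.
-/

open Matrix

set_option linter.unusedSectionVars false
set_option linter.unusedSimpArgs false

noncomputable section

namespace Vale.Agent.P228.Inv.PEnd

open LMat Sgn

variable {B : Type}

/-- a form which is anti-congruent to itself by a base-diagonal matrix has `sInv = 0` -/
theorem sInv_anti (e : Finset B) (ws : List (Wall B)) {ι : Type} (base : ι → B)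
    (h h' : LMat ι ℂ) {k k' : LMat ι ℂ} (hk : BD base k) (hk' : BD base k')
    (h1 : k * k' = 1) (h2 : k' * k = 1) (h3 : star k * h * k = -h)
    (h4 : k' * h' * star k' = -h') : sInv e ws base h h' = 0 := by
  have e1 := sInv_congr e ws base h h' hk hk' h1 h2
  rw [h3, h4, sInv_neg] at e1
  omega

/-- the off-diagonal form `[[0, z], [z*, 0]]` has `sInv = 0` -/
theorem sInv_hyp (e : Finset B) (ws : List (Wall B)) {ι : Type} (base : ι → B)
    (a b c d : LMat ι ℂ) :
    sInv e ws (fun x : ι × Bool => base x.1) (blk 0 a b 0) (blk 0 c d 0) = 0 := by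
  have hBD : BD (fun x : ι × Bool => base x.1) (blk (1 : LMat ι ℂ) 0 0 (-1)) := by
    rintro ⟨i, s⟩ ⟨j, t⟩ h
    cases s <;> cases t
    · exact BD.one (base := base) _ _ h
    · exact absurd rfl h
    · exact absurd rfl h
    · exact (BD.one (base := base) (K := ℂ)).neg _ _ h
  have hsq : blk (1 : LMat ι ℂ) 0 0 (-1) * blk (1 : LMat ι ℂ) 0 0 (-1) = 1 := by
    rw [blk_mul]; simp only [mul_one, mul_zero, add_zero, mul_neg, neg_zero, neg_neg, zero_add, blk_one]
  have hs : star (blk (1 : LMat ι ℂ) 0 0 (-1)) = blk (1 : LMat ι ℂ) 0 0 (-1) := by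
    rw [blk_star]; simp only [star_one, star_zero, star_neg]
  refine sInv_anti e ws _ _ _ hBD hBD hsq hsq ?_ ?_
  · rw [hs, blk_mul, blk_mul, blk_neg]; simp
  · rw [hs, blk_mul, blk_mul, blk_neg]; simp only [mul_zero, zero_mul, add_zero, mul_one, one_mul, mul_neg, zero_add, neg_mul, neg_zero]

section swap

variable {ι : Type}

/-- the rotation between `h ⊕ -k` and the hyperbolic form -/
def swF (h k : LMat ι ℂ) (t : ℝ) : LMat (ι × Bool) ℂ :=
  blk ((Real.cos (t * (Real.pi / 2)) : ℂ) • h) ((Real.sin (t * (Real.pi / 2)) : ℂ) • 1)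
    ((Real.sin (t * (Real.pi / 2)) : ℂ) • 1) (-((Real.cos (t * (Real.pi / 2)) : ℂ) • k))

theorem swF_mul {h k : LMat ι ℂ} (h1 : h * k = 1) (h2 : k * h = 1) (t : ℝ) :
    swF h k t * swF k h t = 1 := by
  unfold swF
  set c : ℂ := (Real.cos (t * (Real.pi / 2)) : ℂ) with hc
  set s : ℂ := (Real.sin (t * (Real.pi / 2)) : ℂ) with hs
  have hcs : c * c + s * s = 1 := by
    rw [hc, hs, ← Complex.ofReal_mul, ← Complex.ofReal_mul, ← Complex.ofReal_add]
    have := Real.cos_sq_add_sin_sq (t * (Real.pi / 2))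
    rw [show Real.cos (t * (Real.pi / 2)) * Real.cos (t * (Real.pi / 2)) +
      Real.sin (t * (Real.pi / 2)) * Real.sin (t * (Real.pi / 2)) = 1 by linarith]
    simp
  rw [blk_mul, ← blk_one]
  congr 1
  · rw [smul_mul_smul_comm, smul_mul_smul_comm, h1, one_mul, ← add_smul, hcs, one_smul]
  · simp only [smul_mul_smul_comm, mul_neg, one_mul, mul_one]
    rw [mul_comm s c]; abel
  · simp only [smul_mul_smul_comm, one_mul, neg_mul, mul_one]
    rw [mul_comm s c]; abel
  · simp only [smul_mul_smul_comm, mul_one, neg_mul_neg, h2]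
    rw [← add_smul, add_comm, hcs, one_smul]

theorem swF_star {h k : LMat ι ℂ} (hh : star h = h) (hk : star k = k) (t : ℝ) :
    star (swF h k t) = swF h k t := by
  unfold swF
  rw [blk_star]
  simp only [star_smul, star_neg, star_one, hh, hk, Complex.star_def, Complex.conj_ofReal]

theorem swF_cont (h k : LMat ι ℂ) (x y : ι × Bool) : Continuous fun t => swF h k t x y := by
  obtain ⟨i, a⟩ := x
  obtain ⟨j, b⟩ := y
  have hc : Continuous fun t : ℝ => (Real.cos (t * (Real.pi / 2)) : ℂ) :=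
    Complex.continuous_ofReal.comp (Real.continuous_cos.comp (continuous_id.mul continuous_const))
  have hs : Continuous fun t : ℝ => (Real.sin (t * (Real.pi / 2)) : ℂ) :=
    Complex.continuous_ofReal.comp (Real.continuous_sin.comp (continuous_id.mul continuous_const))
  unfold swF
  cases a <;> cases b
  · simp only [blk_ff, LMat.smul_apply, smul_eq_mul]; exact hc.mul continuous_const
  · simp only [blk_ft, LMat.smul_apply, smul_eq_mul]; exact hs.mul continuous_const
  · simp only [blk_tf, LMat.smul_apply, smul_eq_mul]; exact hs.mul continuous_const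
  · simp only [blk_tt, LMat.neg_apply, LMat.smul_apply, smul_eq_mul]; exact (hc.mul continuous_const).neg

theorem swF_supp {base : ι → B} {E : B → B → Prop} (hE : ∀ x, E x x) {h k : LMat ι ℂ}
    (hh : Top.Supp base E h) (hk : Top.Supp base E k) (t : ℝ) :
    Top.Supp (fun x : ι × Bool => base x.1) E (swF h k t) := by
  have h1 : ∀ (c : ℂ) (i j : ι), (c • (1 : LMat ι ℂ)) i j ≠ 0 → E (base i) (base j) := by
    intro c i j hij
    by_cases h : i = j
    · subst h; exact hE _
    · exact absurd (by rw [LMat.smul_apply, LMat.one_apply_ne h, smul_zero]) hij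
  rintro ⟨i, a⟩ ⟨j, b⟩ hij
  unfold swF at hij
  cases a <;> cases b
  · refine hh _ _ fun h0 => hij ?_
    rw [blk_ff, LMat.smul_apply, h0, smul_zero]
  · rw [blk_ft] at hij; exact h1 _ _ _ hij
  · rw [blk_tf] at hij; exact h1 _ _ _ hij
  · refine hk _ _ fun h0 => hij ?_
    rw [blk_tt, LMat.neg_apply, LMat.smul_apply, h0, smul_zero, neg_zero]

theorem Form.star' {base : ι → B} {E : B → B → Prop} {h k : LMat ι ℂ}
    (f : Top.Form base E h k) : star k = k := by
  have h1 : star k * h = 1 := by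
    have h3 : star (h * k) = star k * star h := star_mul h k
    rw [f.mul, f.herm] at h3
    rw [← h3]
    exact star_one (LMat ι ℂ)
  calc star k = star k * (h * k) := by rw [f.mul, mul_one]
    _ = k := by rw [← mul_assoc, h1, one_mul]

theorem Form.swap {base : ι → B} {E : B → B → Prop} {h k : LMat ι ℂ}
    (f : Top.Form base E h k) : Top.Form base E k h :=
  ⟨Form.star' f, f.mul', f.mul, f.supp', f.supp⟩

/-- **`sInv` of a form and of its inverse agree** -/
theorem sInv_swap {e : Finset B} {ws : List (Wall B)} {E : B → B → Prop} (hE : ∀ x, E x x)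
    (hp : Top.PathInv E (fun {_} base h k => sInv e ws base h k))
    (base : ι → B) (hfin : ∀ b, {x | base x = b}.Finite) {h k : LMat ι ℂ}
    (f : Top.Form base E h k) : sInv e ws base k h = sInv e ws base h k := by
  have hfin2 : ∀ b, {x : ι × Bool | base x.1 = b}.Finite := by
    intro b
    have : {x : ι × Bool | base x.1 = b} = {x | base x = b} ×ˢ Set.univ := by
      ext x; simp only [Set.mem_ofPred_eq, Bool.univ_eq, Set.mem_prod, Set.mem_insert_iff, Set.mem_singleton_iff, Bool.eq_false_or_eq_true_self, and_true]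
    rw [this]
    exact (hfin b).prod Set.finite_univ
  have hk := Form.star' f
  have key := hp (fun x : ι × Bool => base x.1) hfin2 (swF h k) (swF k h)
    (swF_cont h k) (swF_cont k h)
    (fun t _ => ⟨swF_star f.herm hk t, swF_mul f.mul f.mul' t, swF_mul f.mul' f.mul t,
      swF_supp hE f.supp f.supp' t, swF_supp hE f.supp' f.supp t⟩)
  have e0 : ∀ h k : LMat ι ℂ, swF h k 0 = blk h 0 0 (-k) := by
    intro h k; unfold swF; simp only [zero_mul, Real.cos_zero, Complex.ofReal_one, one_smul, Real.sin_zero, Complex.ofReal_zero, zero_smul]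
  have e1 : ∀ h k : LMat ι ℂ, swF h k 1 = blk 0 1 1 0 := by
    intro h k; unfold swF
    simp only [one_mul, Real.cos_pi_div_two, Real.sin_pi_div_two, Complex.ofReal_zero,
      Complex.ofReal_one, one_smul]
    rw [zero_smul ℂ h, zero_smul ℂ k, neg_zero]
  rw [e0, e0, e1, e1] at key
  have key2 : sInv e ws (fun x : ι × Bool => base x.1) (blk h 0 0 (-k)) (blk k 0 0 (-h)) =
    sInv e ws (fun x : ι × Bool => base x.1) (blk 0 1 1 0) (blk 0 1 1 0) := key
  rw [sInv_blk, sInv_neg, sInv_hyp] at key2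
  omega

end swap

end Vale.Agent.P228.Inv.PEnd
end
end
end

section

section

/-!
P228, block [S]: direct sums, change of the base and the last form of the product formula.
-/

open Matrix

set_option linter.unusedSectionVars false
set_option linter.unusedSimpArgs false

noncomputable section

namespace Vale.Agent.P228.Inv.PEnd

open LMat Sgn

section dsum

variable {B : Type} {K : Type*} [CommRing K] [StarRing K] [Algebra ℂ K]

/-- the direct sum homomorphism -/
def dsumHom (ι κ : Type) (K : Type*) [CommRing K] [StarRing K] [Algebra ℂ K] :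
    LMat ι K × LMat κ K →+* LMat (ι ⊕ κ) K where
  toFun x := dsum x.1 x.2
  map_one' := dsum_one
  map_zero' := dsum_zero
  map_mul' x y := by rw [dsum_mul]; simp
  map_add' x y := by rw [dsum_add]; simp

theorem dsumHom_apply {ι κ : Type} (x : LMat ι K × LMat κ K) :
    dsumHom ι κ K x = dsum x.1 x.2 := rfl

theorem dsumHom_I {ι κ : Type} (x : LMat ι K × LMat κ K) :
    dsumHom ι κ K (Complex.I • x) = Complex.I • dsumHom ι κ K x := by
  rw [dsumHom_apply, dsumHom_apply, dsum_smul]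
  simp

theorem prj_dsum {ι κ : Type} (b₁ : ι → B) (b₂ : κ → B) (w : Set B) :
    (prj w (Sum.elim b₁ b₂) : LMat (ι ⊕ κ) K) = dsumHom ι κ K (prj w b₁, prj w b₂) := by
  rw [dsumHom_apply]
  unfold prj
  rw [dsum_diag]
  congr 1
  funext x
  rcases x with x | x <;> rfl

theorem toBlk_map_dsumHom {ι κ : Type} (M : Matrix Bool Bool (LMat ι K))
    (M' : Matrix Bool Bool (LMat κ K)) (N : Matrix Bool Bool (LMat ι K × LMat κ K))
    (h1 : N.map Prod.fst = M) (h2 : N.map Prod.snd = M') :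
    toBlk (N.map (dsumHom ι κ K)) =
      LMat.reindex (Equiv.sumProdDistrib ι κ Bool).symm (dsum (toBlk M) (toBlk M')) := by
  subst h1 h2
  ext ⟨i | i, a⟩ ⟨j | j, b⟩ <;> rfl

theorem stepS_dsum {ι κ : Type} (b₁ : ι → B) (b₂ : κ → B) (w : Wall B) (h k : LMat ι K)
    (h' k' : LMat κ K) :
    stepS w (Sum.elim b₁ b₂) (dsum h h') (dsum k k') =
      LMat.reindex (Equiv.sumProdDistrib ι κ Bool).symm
        (dsum (stepS w b₁ h k) (stepS w b₂ h' k')) := by
  unfold stepS
  rw [prj_dsum, prj_dsum]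
  have e := Sop_map (dsumHom ι κ K) dsumHom_I (prj w.1 b₁, prj w.1 b₂)
    (prj w.2 b₁, prj w.2 b₂) (h, h') (k, k')
  refine (congrArg toBlk e.symm).trans ?_
  exact toBlk_map_dsumHom _ _ _ (Sop_prod_fst _ _ _ _) (Sop_prod_snd _ _ _ _)

theorem stepI_dsum {ι κ : Type} (b₁ : ι → B) (b₂ : κ → B) (w : Wall B) (h k : LMat ι K)
    (h' k' : LMat κ K) :
    stepI w (Sum.elim b₁ b₂) (dsum h h') (dsum k k') =
      LMat.reindex (Equiv.sumProdDistrib ι κ Bool).symm
        (dsum (stepI w b₁ h k) (stepI w b₂ h' k')) := by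
  unfold stepI
  rw [prj_dsum, prj_dsum]
  have e := SopInv_map (dsumHom ι κ K) dsumHom_I (prj w.1 b₁, prj w.1 b₂)
    (prj w.2 b₁, prj w.2 b₂) (h, h') (k, k')
  refine (congrArg toBlk e.symm).trans ?_
  exact toBlk_map_dsumHom _ _ _ (SopInv_prod_fst _ _ _ _) (SopInv_prod_snd _ _ _ _)

theorem sgnOn_dsum (e : Finset B) {ι κ : Type} (b₁ : ι → B) (b₂ : κ → B)
    [h1 : Finite {i : ι // b₁ i ∈ e}] [h2 : Finite {i : κ // b₂ i ∈ e}]
    (M : LMat ι ℂ) (M' : LMat κ ℂ) :
    sgnOn e (Sum.elim b₁ b₂) (dsum M M') = sgnOn e b₁ M + sgnOn e b₂ M' := by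
  classical
  set τ : {x : ι ⊕ κ // Sum.elim b₁ b₂ x ∈ e} ≃ {i : ι // b₁ i ∈ e} ⊕ {i : κ // b₂ i ∈ e} :=
    Equiv.subtypeSum with hτ
  let _ : Fintype {i : ι // b₁ i ∈ e} := Fintype.ofFinite _
  let _ : Fintype {i : κ // b₂ i ∈ e} := Fintype.ofFinite _
  have h' : Finite {x : ι ⊕ κ // Sum.elim b₁ b₂ x ∈ e} := Finite.of_equiv _ τ.symm
  let _ : Fintype {x : ι ⊕ κ // Sum.elim b₁ b₂ x ∈ e} := Fintype.ofFinite _
  rw [sgnOn_eq, sgnOn_eq, sgnOn_eq, ← sgn_fromBlocks_diag, ← sgn_reindex τ]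
  congr 1
  ext (i | i) (j | j) <;> rfl

/-- additivity of `sInv` for direct sums -/
theorem sInv_dsum (e : Finset B) (ws : List (Wall B)) {ι κ : Type} (b₁ : ι → B) (b₂ : κ → B)
    (h1 : ∀ b, {x | b₁ x = b}.Finite) (h2 : ∀ b, {x | b₂ x = b}.Finite)
    (h k : LMat ι ℂ) (h' k' : LMat κ ℂ) :
    sInv e ws (Sum.elim b₁ b₂) (dsum h h') (dsum k k') =
      sInv e ws b₁ h k + sInv e ws b₂ h' k' := by
  induction ws generalizing ι κ with
  | nil =>
    have g1 := finite_fibre h1 e
    have g2 := finite_fibre h2 e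
    exact sgnOn_dsum e b₁ b₂ h h'
  | cons w ws ih =>
    rw [sInv_cons, sInv_cons, sInv_cons, stepS_dsum, stepI_dsum, sInv_reindex]
    rw [show ((fun x : (ι ⊕ κ) × Bool => Sum.elim b₁ b₂ x.1) ∘
        (Equiv.sumProdDistrib ι κ Bool).symm) =
        Sum.elim (fun x : ι × Bool => b₁ x.1) (fun x : κ × Bool => b₂ x.1) from by
      funext x; rcases x with x | x <;> rfl]
    exact ih _ _ (finite_fibre_step h1) (finite_fibre_step h2) _ _ _ _

end dsum

section lift

variable {B₁ B₂ : Type}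

/-- change of the base along `b ↦ (c, b)` -/
theorem sInv_lift {e₁ : Finset B₁} (e' : Finset B₂) {c : B₁} (hc : c ∈ e₁)
    (ws : List (Wall B₂)) {κ : Type} (base : κ → B₂) (h k : LMat κ ℂ) :
    sInv (e₁ ×ˢ e') (ws.map Std.liftW) (fun x : κ => (c, base x)) h k =
      sInv e' ws base h k := by
  induction ws generalizing κ with
  | nil =>
    classical
    have hp : ∀ x : κ, (c, base x) ∈ e₁ ×ˢ e' ↔ base x ∈ e' := by
      intro x
      rw [Finset.mem_product]
      exact ⟨fun h => h.2, fun h => ⟨hc, h⟩⟩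
    set τ : {x : κ // (c, base x) ∈ e₁ ×ˢ e'} ≃ {x : κ // base x ∈ e'} :=
      Equiv.subtypeEquivRight hp with hτ
    change sgnOn (e₁ ×ˢ e') (fun x : κ => (c, base x)) h = sgnOn e' base h
    by_cases hf : Finite {x : κ // base x ∈ e'}
    · have hf' : Finite {x : κ // (c, base x) ∈ e₁ ×ˢ e'} := Finite.of_equiv _ τ.symm
      let _ : Fintype {x : κ // base x ∈ e'} := Fintype.ofFinite _
      let _ : Fintype {x : κ // (c, base x) ∈ e₁ ×ˢ e'} := Fintype.ofFinite _
      rw [sgnOn_eq, sgnOn_eq, ← sgn_reindex τ]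
      congr 1
    · have hf' : ¬ Finite {x : κ // (c, base x) ∈ e₁ ×ˢ e'} := fun h' =>
        hf (Finite.of_equiv _ τ)
      unfold sgnOn
      rw [dif_neg hf, dif_neg hf']
  | cons w ws ih =>
    rw [List.map_cons, sInv_cons, sInv_cons]
    exact ih (fun x : κ × Bool => base x.1) _ _

end lift

section scale

variable {B : Type}

theorem smm {ι : Type} (r s : ℂ) (a b : LMat ι ℂ) :
    (r • a) * (s • b) = (r * s) • (a * b) := by
  rw [LMat.smul_mul', LMat.mul_smul', smul_smul]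

theorem nsm {ι : Type} (r : ℂ) (a : LMat ι ℂ) : (-r) • a = -(r • a) := by
  ext i j
  rw [LMat.smul_apply, LMat.neg_apply, LMat.smul_apply, smul_eq_mul, smul_eq_mul, neg_mul]

/-- scaling by a positive real -/
theorem sInv_smul (e : Finset B) (ws : List (Wall B)) {ι : Type} (base : ι → B)
    (h k : LMat ι ℂ) {r : ℝ} (hr : 0 < r) :
    sInv e ws base ((r : ℂ) • h) (((r⁻¹ : ℝ) : ℂ) • k) = sInv e ws base h k := by
  have hs : Real.sqrt r ≠ 0 := (Real.sqrt_pos.2 hr).ne'
  have hsq : Real.sqrt r * Real.sqrt r = r := Real.mul_self_sqrt hr.le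
  have hBD : ∀ c : ℂ, BD base (c • (1 : LMat ι ℂ)) := by
    intro c
    rw [one_def, smul_diag]
    exact BD.diag _
  have h1 : ((Real.sqrt r : ℝ) : ℂ) * (((Real.sqrt r)⁻¹ : ℝ) : ℂ) = 1 := by
    rw [← Complex.ofReal_mul, mul_inv_cancel₀ hs, Complex.ofReal_one]
  have h2 : (((Real.sqrt r)⁻¹ : ℝ) : ℂ) * ((Real.sqrt r : ℝ) : ℂ) = 1 := by
    rw [mul_comm]; exact h1
  have hst : ∀ c : ℝ, star ((c : ℂ) • (1 : LMat ι ℂ)) = (c : ℂ) • (1 : LMat ι ℂ) := by
    intro c
    rw [one_def, smul_diag, star_diag]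
    congr 1
    funext i
    simp only [smul_eq_mul, mul_one, RCLike.star_def, Complex.conj_ofReal]
  have h3 : ∀ (c : ℝ) (a : LMat ι ℂ), ((c : ℂ) • (1 : LMat ι ℂ)) * a * ((c : ℂ) • (1 : LMat ι ℂ)) =
      ((c * c : ℝ) : ℂ) • a := by
    intro c a
    rw [LMat.smul_mul', one_mul, smm, mul_one, Complex.ofReal_mul]
  have e1 := sInv_congr e ws base h k (k := ((Real.sqrt r : ℝ) : ℂ) • (1 : LMat ι ℂ))
    (k' := (((Real.sqrt r)⁻¹ : ℝ) : ℂ) • (1 : LMat ι ℂ)) (hBD _) (hBD _)
    (by rw [smm, h1, one_mul, one_smul])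
    (by rw [smm, h2, one_mul, one_smul])
  rw [hst, hst, h3, h3, hsq, ← mul_inv, hsq] at e1
  exact e1

/-- scaling by a negative real -/
theorem sInv_smul_neg (e : Finset B) (ws : List (Wall B)) {ι : Type} (base : ι → B)
    (h k : LMat ι ℂ) {r : ℝ} (hr : 0 < r) :
    sInv e ws base (-(r : ℂ) • h) (-((r⁻¹ : ℝ) : ℂ) • k) = -sInv e ws base h k := by
  rw [nsm, nsm, sInv_neg, sInv_smul e ws base h k hr]

end scale

section corner

variable {ι κ : Type} {B₁ B₂ : Type}

/-- the complement of two indices -/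
abbrev Rest (l₁ l₂ : ι) : Type := {l : ι // l ≠ l₁ ∧ l ≠ l₂}

open scoped Classical in
/-- splitting off two indices -/
def cut {l₁ l₂ : ι} (hne : l₁ ≠ l₂) (κ : Type) :
    ((Rest l₁ l₂ × κ) × Bool) ⊕ ((κ × Bool) ⊕ (κ × Bool)) ≃ (ι × κ) × Bool where
  toFun := Sum.elim (fun x => ((x.1.1.1, x.1.2), x.2))
    (Sum.elim (fun x => ((l₁, x.1), x.2)) (fun x => ((l₂, x.1), x.2)))
  invFun x := if h1 : x.1.1 = l₁ then Sum.inr (Sum.inl (x.1.2, x.2)) else
    if h2 : x.1.1 = l₂ then Sum.inr (Sum.inr (x.1.2, x.2)) else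
      Sum.inl ((⟨x.1.1, h1, h2⟩, x.1.2), x.2)
  left_inv := by
    rintro (⟨⟨⟨l, h1, h2⟩, b⟩, s⟩ | ⟨b, s⟩ | ⟨b, s⟩)
    · simp [h1, h2]
    · simp
    · simp [hne.symm]
  right_inv := by
    rintro ⟨⟨l, b⟩, s⟩
    by_cases h1 : l = l₁
    · simp [h1]
    · by_cases h2 : l = l₂
      · simp [h2, hne.symm]
      · simp [h1, h2]

theorem cut_inl {l₁ l₂ : ι} (hne : l₁ ≠ l₂) (x : (Rest l₁ l₂ × κ) × Bool) :
    cut hne κ (Sum.inl x) = ((x.1.1.1, x.1.2), x.2) := rfl

theorem cut_inrl {l₁ l₂ : ι} (hne : l₁ ≠ l₂) (x : κ × Bool) :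
    cut hne κ (Sum.inr (Sum.inl x)) = ((l₁, x.1), x.2) := rfl

theorem cut_inrr {l₁ l₂ : ι} (hne : l₁ ≠ l₂) (x : κ × Bool) :
    cut hne κ (Sum.inr (Sum.inr x)) = ((l₂, x.1), x.2) := rfl

/-- the split of a form which is diagonal in the first factor -/
theorem cut_split {l₁ l₂ : ι} (hne : l₁ ≠ l₂) (q y y' : ι → ℂ) (X X' : LMat κ ℂ)
    (q1 : q l₁ = 1) (q2 : q l₂ = 1) (q0 : ∀ l, l ≠ l₁ → l ≠ l₂ → q l = 0)
    (y1 : y l₁ = 0) (y2 : y l₂ = 0) (y1' : y' l₁ = 0) (y2' : y' l₂ = 0) :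
    toBlk (m2 (kron (diag q) X) (kron (diag y) 1) (kron (diag y') 1) (kron (diag q) X')) =
      LMat.reindex (cut hne κ) (dsum (blk 0 (kron (diag fun l : Rest l₁ l₂ => y l.1) 1)
        (kron (diag fun l : Rest l₁ l₂ => y' l.1) 1) 0) (dsum (blk X 0 0 X') (blk X 0 0 X'))) := by
  classical
  have hd : ∀ (f : ι → ℂ) (l l' : ι), (diag f : LMat ι ℂ) l l' = if l = l' then f l else 0 :=
    fun f l l' => diag_apply f l l'
  have hd' : ∀ (f : Rest l₁ l₂ → ℂ) (l l' : Rest l₁ l₂),
      (diag f : LMat (Rest l₁ l₂) ℂ) l l' = if l = l' then f l else 0 :=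
    fun f l l' => diag_apply f l l'
  ext u v
  obtain ⟨u, rfl⟩ := (cut hne κ).surjective u
  obtain ⟨v, rfl⟩ := (cut hne κ).surjective v
  rw [LMat.reindex_apply, Equiv.symm_apply_apply, Equiv.symm_apply_apply]
  rcases u with ⟨⟨⟨l, hl1, hl2⟩, b⟩, s⟩ | ⟨b, s⟩ | ⟨b, s⟩
  · rcases v with ⟨⟨⟨l', hl1', hl2'⟩, b'⟩, s'⟩ | ⟨b', s'⟩ | ⟨b', s'⟩
    · rw [cut_inl, cut_inl]
      cases s <;> cases s' <;> simp [toBlk_apply, hd, hd', q0 l hl1 hl2]
    · rw [cut_inl, cut_inrl]
      cases s <;> cases s' <;> simp [toBlk_apply, hd, hl1]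
    · rw [cut_inl, cut_inrr]
      cases s <;> cases s' <;> simp [toBlk_apply, hd, hl2]
  · rcases v with ⟨⟨⟨l', hl1', hl2'⟩, b'⟩, s'⟩ | ⟨b', s'⟩ | ⟨b', s'⟩
    · rw [cut_inl, cut_inrl]
      cases s <;> cases s' <;> simp [toBlk_apply, hd, Ne.symm hl1']
    · rw [cut_inrl, cut_inrl]
      cases s <;> cases s' <;> simp [toBlk_apply, hd, q1, y1, y1']
    · rw [cut_inrl, cut_inrr]
      cases s <;> cases s' <;> simp [toBlk_apply, hd, hne]
  · rcases v with ⟨⟨⟨l', hl1', hl2'⟩, b'⟩, s'⟩ | ⟨b', s'⟩ | ⟨b', s'⟩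
    · rw [cut_inl, cut_inrr]
      cases s <;> cases s' <;> simp [toBlk_apply, hd, Ne.symm hl2']
    · rw [cut_inrl, cut_inrr]
      cases s <;> cases s' <;> simp [toBlk_apply, hd, hne.symm]
    · rw [cut_inrr, cut_inrr]
      cases s <;> cases s' <;> simp [toBlk_apply, hd, q2, y2, y2']

theorem one_sub_kron (p : ι → ℂ) (X : LMat κ ℂ) :
    (1 - kron (diag p) (1 : LMat κ ℂ)) * kron 1 X = kron (diag fun l => 1 - p l) X := by
  rw [← kron_one_one (ι := ι) (κ := κ), ← kron_sub_left, kron_mul, mul_one, one_mul, one_def,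
    sub_diag]

theorem kron_diag_mul (z p : ι → ℂ) :
    kron (diag z) (1 : LMat κ ℂ) * kron (diag p) 1 = kron (diag fun l => z l * p l) 1 := by
  rw [kron_mul, mul_one, diag_mul_diag]

theorem zsm (a : LMat ι ℂ) : (0 : ℂ) • a = 0 := by
  ext i j
  rw [LMat.smul_apply, smul_eq_mul, zero_mul, LMat.zero_apply]

/-- the forms at the end of the second path -/
theorem hD_zero (p z : ι → ℂ) (τ : LMat (ι × κ) ℂ) (B B' : LMat κ ℂ) :
    hD (kron (diag p) (1 : LMat κ ℂ)) (kron (diag z) 1) τ (kron 1 B) (kron 1 B') 0 =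
      m2 (kron (diag fun l => 1 - p l) ((-((5 : ℝ) : ℂ)) • B))
        (kron (diag fun l => z l * p l) 1) (kron (diag fun l => star (z l) * p l) 1)
        (kron (diag fun l => 1 - p l) ((-((4⁻¹ : ℝ) : ℂ)) • B')) := by
  unfold hD
  rw [kron_star, star_one, star_diag, kron_diag_mul, kron_diag_mul, zsm, zsm, add_zero, add_zero,
    one_sub_kron, one_sub_kron, kron_smul_right, kron_smul_right]
  have e1 : (-5 : ℂ) = -((5 : ℝ) : ℂ) := by push_cast; norm_num
  have e2 : (-1 / 4 : ℂ) = -((4⁻¹ : ℝ) : ℂ) := by push_cast; norm_num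
  rw [e1, e2]

theorem kD_zero (p z : ι → ℂ) (τ : LMat (ι × κ) ℂ) (B B' : LMat κ ℂ) :
    kD (kron (diag p) (1 : LMat κ ℂ)) (kron (diag z) 1) τ (kron 1 B) (kron 1 B') 0 (1 / 5) =
      m2 (kron (diag fun l => 1 - p l) ((-((5⁻¹ : ℝ) : ℂ)) • B'))
        (kron (diag fun l => z l * p l) 1) (kron (diag fun l => star (z l) * p l) 1)
        (kron (diag fun l => 1 - p l) ((-(((4⁻¹ : ℝ)⁻¹ : ℝ) : ℂ)) • B)) := by
  unfold kD
  rw [kron_star, star_one, star_diag, kron_diag_mul, kron_diag_mul, mul_zero, zero_mul, zsm, zsm,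
    sub_zero, sub_zero, one_sub_kron, one_sub_kron, kron_smul_right, kron_smul_right]
  have e1 : (-(1 / 5) : ℂ) = -((5⁻¹ : ℝ) : ℂ) := by push_cast; norm_num
  have e2 : (-20 * (1 / 5) : ℂ) = -(((4⁻¹ : ℝ)⁻¹ : ℝ) : ℂ) := by push_cast; norm_num
  rw [e1, e2]

end corner

end PEnd

open PEnd LMat in
/-- **the value at the end of the second path** -/
theorem sInv_hD0 {ι κ : Type} {B₁ B₂ : Type} (e₁ : Finset B₁) (e' : Finset B₂) (ws : List (Wall B₂)) (baseA : ι → B₁)
    (baseB : κ → B₂) (hA : ∀ b, {x | baseA x = b}.Finite) (hB : ∀ b, {x | baseB x = b}.Finite)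
    {l₁ l₂ : ι} (hne : l₁ ≠ l₂) (h1 : baseA l₁ ∈ e₁) (h2 : baseA l₂ ∈ e₁) (p z : ι → ℂ)
    (p1 : p l₁ = 0) (p2 : p l₂ = 0) (p0 : ∀ l, l ≠ l₁ → l ≠ l₂ → p l = 1)
    (τ : LMat (ι × κ) ℂ) (B B' : LMat κ ℂ) :
    sInv (e₁ ×ˢ e') (ws.map Std.liftW)
      (fun x : (ι × κ) × Bool => (baseA x.1.1, baseB x.1.2))
      (toBlk (hD (kron (diag p) (1 : LMat κ ℂ)) (kron (diag z) 1) τ (kron 1 B) (kron 1 B') 0))
      (toBlk (kD (kron (diag p) (1 : LMat κ ℂ)) (kron (diag z) 1) τ (kron 1 B) (kron 1 B') 0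
        (1 / 5))) =
      -2 * sInv e' ws baseB B B' - 2 * sInv e' ws baseB B' B := by
  have fB : ∀ (l : ι) (b : B₁ × B₂), {x : κ × Bool | (baseA l, baseB x.1) = b}.Finite := by
    intro l b
    refine (((hB b.2).prod (Set.finite_univ (α := Bool)))).subset ?_
    rintro ⟨x, s⟩ hx
    exact ⟨congrArg Prod.snd hx, trivial⟩
  have fA : ∀ (b : B₁ × B₂), {x : (Rest l₁ l₂ × κ) × Bool |
      (baseA x.1.1.1, baseB x.1.2) = b}.Finite := by
    intro b
    have g1 : {x : Rest l₁ l₂ | baseA x.1 = b.1}.Finite :=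
      (hA b.1).preimage (Subtype.val_injective.injOn)
    refine ((g1.prod (hB b.2)).prod (Set.finite_univ (α := Bool))).subset ?_
    rintro ⟨⟨x, y⟩, s⟩ hx
    exact ⟨⟨congrArg Prod.fst hx, congrArg Prod.snd hx⟩, trivial⟩
  rw [hD_zero, kD_zero, cut_split hne _ _ _ _ _ (by simp [p1]) (by simp [p2])
      (by intro l g1 g2; simp [p0 l g1 g2]) (by simp [p1]) (by simp [p2]) (by simp [p1])
      (by simp [p2]),
    cut_split hne _ _ _ _ _ (by simp [p1]) (by simp [p2])
      (by intro l g1 g2; simp [p0 l g1 g2]) (by simp [p1]) (by simp [p2]) (by simp [p1])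
      (by simp [p2]), sInv_reindex]
  have hb : (fun x : (ι × κ) × Bool => (baseA x.1.1, baseB x.1.2)) ∘ (cut hne κ) =
      Sum.elim (fun x : (Rest l₁ l₂ × κ) × Bool => (baseA x.1.1.1, baseB x.1.2))
        (Sum.elim (fun x : κ × Bool => (baseA l₁, baseB x.1))
          (fun x : κ × Bool => (baseA l₂, baseB x.1))) := by
    funext x
    rcases x with x | x | x <;> rfl
  have f2 : ∀ b : B₁ × B₂, {x : (κ × Bool) ⊕ (κ × Bool) |
      Sum.elim (fun x : κ × Bool => (baseA l₁, baseB x.1))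
        (fun x : κ × Bool => (baseA l₂, baseB x.1)) x = b}.Finite := by
    intro b
    refine (((fB l₁ b).image Sum.inl).union ((fB l₂ b).image Sum.inr)).subset ?_
    rintro (x | x) hx
    · exact Or.inl ⟨x, hx, rfl⟩
    · exact Or.inr ⟨x, hx, rfl⟩
  rw [hb, PEnd.sInv_dsum _ _ _ _ fA f2, PEnd.sInv_dsum _ _ _ _ (fB l₁) (fB l₂)]
  have key : ∀ c : B₁, c ∈ e₁ → ∀ X X' Y Y' : LMat κ ℂ,
      sInv (e₁ ×ˢ e') (ws.map Std.liftW) (fun x : κ × Bool => (c, baseB x.1))
        (blk X 0 0 X') (blk Y 0 0 Y') = sInv e' ws baseB X Y + sInv e' ws baseB X' Y' := by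
    intro c hc X X' Y Y'
    rw [← sInv_lift e' hc ws baseB X Y, ← sInv_lift e' hc ws baseB X' Y']
    exact sInv_blk (e₁ ×ˢ e') (ws.map Std.liftW) (fun x : κ => (c, baseB x)) X Y X' Y'
  have hyp := sInv_hyp (e₁ ×ˢ e') (ws.map Std.liftW)
    (fun x : Rest l₁ l₂ × κ => (baseA x.1.1, baseB x.2))
    (kron (diag fun l : Rest l₁ l₂ => z l.1 * p l.1) (1 : LMat κ ℂ))
    (kron (diag fun l : Rest l₁ l₂ => star (z l.1) * p l.1) (1 : LMat κ ℂ))
    (kron (diag fun l : Rest l₁ l₂ => z l.1 * p l.1) (1 : LMat κ ℂ))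
    (kron (diag fun l : Rest l₁ l₂ => star (z l.1) * p l.1) (1 : LMat κ ℂ))
  rw [hyp, key _ h1, key _ h2, sInv_smul_neg e' ws baseB B B' (by norm_num : (0 : ℝ) < 5),
    sInv_smul_neg e' ws baseB B' B (by norm_num : (0 : ℝ) < 4⁻¹)]
  ring

end Vale.Agent.P228.Inv
end
end
end

section

section

/-!
P228: transfer of the value of the fixed-box invariant from the cells of `ℤ^(2m)` to the product
model `CellR m`, and `InvStatement` from the value on the product model.
-/

noncomputable section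

namespace Vale.Agent.P228.Inv

open LMat Geo Vale.Agent.P228.Top
open Vale.Agent.P228.Std (CellR PosR baseR wallsR headW liftW box2 boxR sigR sigR' cellR toCell
  sigma sigma')

variable {B B' : Type}

/-- pull back of a pair of walls -/
def preWT (β : B' → B) (w : Wall B) : Wall B' := (β ⁻¹' w.1, β ⁻¹' w.2)

theorem sgnOn_comap (β : B' → B) {e : Finset B} {e' : Finset B'} (he : ∀ b, β b ∈ e ↔ b ∈ e')
    {ι : Type} (base : ι → B') (M : LMat ι ℂ) :
    sgnOn e (fun i => β (base i)) M = sgnOn e' base M := by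
  classical
  set τ : {i : ι // β (base i) ∈ e} ≃ {i : ι // base i ∈ e'} :=
    (Equiv.refl ι).subtypeEquiv (fun i => he (base i)) with hτ
  by_cases h : Finite {i : ι // β (base i) ∈ e}
  · have h' : Finite {i : ι // base i ∈ e'} := Finite.of_equiv _ τ
    let _ : Fintype {i : ι // β (base i) ∈ e} := Fintype.ofFinite _
    let _ : Fintype {i : ι // base i ∈ e'} := Fintype.ofFinite _
    rw [sgnOn_eq e (fun i => β (base i)) M, sgnOn_eq e' base M, ← Sgn.sgn_reindex τ]
    congr 1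
  · have h' : ¬ Finite {i : ι // base i ∈ e'} := fun h' => h (Finite.of_equiv _ τ.symm)
    unfold sgnOn
    rw [dif_neg h, dif_neg h']

/-- **base change** -/
theorem sInv_comap (β : B' → B) {e : Finset B} {e' : Finset B'} (he : ∀ b, β b ∈ e ↔ b ∈ e')
    (ws : List (Wall B)) {ι : Type} (base : ι → B') (h k : LMat ι ℂ) :
    sInv e ws (fun i => β (base i)) h k = sInv e' (ws.map (preWT β)) base h k := by
  induction ws generalizing ι with
  | nil => exact sgnOn_comap β he base h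
  | cons w ws ih =>
    rw [List.map_cons, sInv_cons, sInv_cons]
    exact ih (fun x : ι × Bool => base x.1) _ _

/-! ### positions -/

/-- the positions of the product model as positions of `ℤ^(2m)` -/
def toPosR : (m : ℕ) → PosR m → Pos (2 * m)
  | 0 => fun _ _ => 0
  | m + 1 => fun b => Fin.cons (α := fun _ => ℤ) b.1.1
      (Fin.cons (α := fun _ => ℤ) b.1.2 (toPosR m b.2))

theorem pos_toCell' : ∀ (m : ℕ) (x : CellR m), pos (toCell m x) = toPosR m (baseR m x)
  | 0, _ => by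
    funext i
    exact Fin.elim0 i
  | m + 1, x => by
    funext i
    refine Fin.cases rfl (fun i => ?_) i
    refine Fin.cases rfl (fun i => ?_) i
    exact congrFun (pos_toCell' m x.2) i

theorem mem_box_toPosR (N : ℕ) : ∀ (m : ℕ) (b : PosR m),
    toPosR m b ∈ box (2 * m) N ↔ b ∈ boxR N m
  | 0, b => by
    rw [mem_box]
    constructor
    · intro _
      show () ∈ ({()} : Finset Unit)
      simp only [Finset.mem_singleton]
    · intro _ i
      exact Fin.elim0 i
  | m + 1, b => by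
    have ih := mem_box_toPosR N m b.2
    have h0 : b ∈ boxR N (m + 1) ↔ (b.1 ∈ box2 N ∧ b.2 ∈ boxR N m) :=
      Finset.mem_product (s := box2 N) (t := boxR N m) (p := b)
    rw [h0, ← ih, mem_box, mem_box, box2, Finset.mem_product, Finset.mem_Icc,
      Finset.mem_Icc]
    constructor
    · intro h
      refine ⟨⟨abs_le.1 (h 0), abs_le.1 (h 1)⟩, fun i => ?_⟩
      exact h i.succ.succ
    · rintro ⟨⟨h0, h1⟩, h2⟩ i
      refine Fin.cases ?_ (fun i => ?_) i
      · exact abs_le.2 h0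
      · refine Fin.cases ?_ (fun i => ?_) i
        · exact abs_le.2 h1
        · exact h2 i

/-- forget the first two coordinates -/
def tailP (m : ℕ) (x : Pos (2 * (m + 1))) : Pos (2 * m) := fun i => x i.succ.succ

theorem cpairs_succ (m : ℕ) : cpairs (m + 1) =
    (hs ⟨0, by omega⟩, hs ⟨1, by omega⟩) :: (cpairs m).map (preWT (tailP m)) := by
  unfold cpairs
  rw [List.finRange_succ, List.map_cons, List.map_map, List.map_map]
  rfl

theorem cpairs_preWT : ∀ m : ℕ, (cpairs m).map (preWT (toPosR m)) = wallsR m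
  | 0 => rfl
  | m + 1 => by
    rw [cpairs_succ, List.map_cons, List.map_map]
    show _ :: _ = headW (PosR m) :: (wallsR m).map liftW
    congr 1
    rw [← cpairs_preWT m, List.map_map]
    rfl

/-- **transfer of the value** to the product model -/
theorem sInv_transfer (N m : ℕ) :
    sInv (box (2 * m) N) (cpairs m) pos (sigma m) (sigma' m) =
      sInv (boxR N m) (wallsR m) (baseR m) (sigR m) (sigR' m) := by
  have h1 := sInv_reindex (box (2 * m) N) (cpairs m) (cellR m) (pos (n := 2 * m)) (sigR m)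
    (sigR' m)
  have e1 : LMat.reindex (cellR m) (sigR m) = sigma m := (Std.sigma_eq m).symm
  have e2 : LMat.reindex (cellR m) (sigR' m) = sigma' m := (Std.sigma'_eq m).symm
  rw [e1, e2] at h1
  have h2 : (pos (n := 2 * m)) ∘ (cellR m) = fun x => toPosR m (baseR m x) :=
    funext fun x => pos_toCell' m x
  rw [h2] at h1
  have h3 := sInv_comap (toPosR m) (mem_box_toPosR N m) (cpairs m) (baseR m) (sigR m) (sigR' m)
  rw [cpairs_preWT] at h3
  exact h1.trans h3

/-- `InvStatement` from the value on the product model -/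
theorem invStatement_of_valueR {m : ℕ} (hm : 0 < m)
    (hval : ∃ N₀ : ℕ, ∀ N ≥ N₀, sInv (boxR N m) (wallsR m) (baseR m) (sigR m) (sigR' m) ≠ 0) :
    InvStatement m (sigma m) (sigma' m) := by
  obtain ⟨N₀, hN⟩ := hval
  refine invStatement_of_value hm fun ρ₀ => ⟨box (2 * m) (max ρ₀ N₀), ?_, ?_⟩
  · intro x hx
    rw [mem_box] at hx ⊢
    intro i
    refine (hx i).trans ?_
    exact_mod_cast le_max_left ρ₀ N₀
  · rw [sInv_transfer]
    exact hN _ (le_max_right _ _)

end Vale.Agent.P228.Inv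
end
end
end

section

section

/-!
P228, block [N]: the value of `sInv` on the standard form, from the product step.

* `form_sigR`, `ff_baseR`: the standard form on `CellR m` is a form over `PosR m`;
* `value_zero`: the value for `m = 0`;
* `value_of_step`: the value for all `m` from the product step.
-/

open Matrix

noncomputable section

namespace Vale.Agent.P228.Inv

open LMat Sgn Std Top

/-! ### supports -/

theorem closeR_of_nearR : ∀ (m : ℕ) (x y : CellR m), NearR m x y →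
    CloseR 1 m (baseR m x) (baseR m y)
  | 0, _, _, _ => trivial
  | m + 1, x, y, h => ⟨by exact_mod_cast h.1, by exact_mod_cast h.2.1,
      closeR_of_nearR m x.2 y.2 h.2.2⟩

/-- the fibres of `baseR` are finite -/
theorem ff_baseR : ∀ (m : ℕ) (b : PosR m), {x | baseR m x = b}.Finite
  | 0, _ => Set.toFinite (α := Unit) _
  | m + 1, b => by
    have h1 : {x : Cell2 | x.1 = b.1}.Finite := by
      refine (Set.finite_range (fun i : Fin 4 => ((b.1, i) : Cell2))).subset ?_
      rintro ⟨p, i⟩ hx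
      exact ⟨i, by
        change p = b.1 at hx
        rw [hx]⟩
    refine (h1.prod (ff_baseR m b.2)).subset ?_
    intro x hx
    change (x.1.1, baseR m x.2) = b at hx
    rw [← hx]
    exact ⟨rfl, rfl⟩

theorem sigR_supp (m : ℕ) (x y : CellR m) (h : sigR m x y ≠ 0) :
    CloseR 1 m (baseR m x) (baseR m y) := by
  obtain ⟨z, h1, h2⟩ := exists_of_mul_ne_zero h
  have := dualR_e_supp m z y h2
  subst this
  exact closeR_of_nearR m x z (dualR_J_supp m x z h1)

theorem sigR'_supp (m : ℕ) (x y : CellR m) (h : sigR' m x y ≠ 0) :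
    CloseR 1 m (baseR m x) (baseR m y) := by
  obtain ⟨z, h1, h2⟩ := exists_of_mul_ne_zero h
  have := dualR_e_supp m x z h1
  subst this
  exact closeR_of_nearR m x y (dualR_Ji_supp m x y h2)

/-- the standard form is a form over the positions -/
theorem form_sigR (m : ℕ) {c : ℕ} (hc : 1 ≤ c) :
    Form (baseR m) (CloseR c m) (sigR m) (sigR' m) where
  herm := Je_star (dualR m)
  mul := Je_mul (dualR m)
  mul' := mul_Je (dualR m)
  supp x y h := closeR_mono hc (sigR_supp m x y h)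
  supp' x y h := closeR_mono hc (sigR'_supp m x y h)

theorem sigR_succ (m : ℕ) : sigR (m + 1) = kron (dual2.J * dual2.e) (sigR m) :=
  tensor_Je dual2 (dualR m)

theorem sigR'_succ (m : ℕ) : sigR' (m + 1) = kron (dual2.e * dual2.Ji) (sigR' m) :=
  etaR'_succ m

theorem sigR_zero : sigR 0 = (1 : LMat Unit ℂ) := etaR_zero

/-! ### the value -/

/-- the value for `m = 0` -/
theorem value_zero (N : ℕ) : sInv (boxR N 0) (wallsR 0) (baseR 0) (sigR 0) (sigR' 0) = 2 := by
  classical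
  have e0 : sInv (boxR N 0) (wallsR 0) (baseR 0) (sigR 0) (sigR' 0) =
      sgnOn ({()} : Finset Unit) (fun _ : Unit => ()) (1 : LMat Unit ℂ) := by
    rw [sigR_zero]
    rfl
  rw [e0]
  let _ : Fintype {i : Unit // (fun _ : Unit => ()) i ∈ ({()} : Finset Unit)} :=
    Subtype.fintype _
  rw [sgnOn_eq, restr_one, sgn_one]
  rfl

/-- the value for all `m`, from the product step -/
theorem value_of_step (N₀ : ℕ → ℕ)
    (hstep : ∀ m N, N₀ m ≤ N →
      sInv (boxR N (m + 1)) (wallsR (m + 1)) (baseR (m + 1)) (sigR (m + 1)) (sigR' (m + 1)) =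
        -4 * sInv (boxR N m) (wallsR m) (baseR m) (sigR m) (sigR' m)) (m : ℕ) :
    ∃ N₁, ∀ N, N₁ ≤ N → sInv (boxR N m) (wallsR m) (baseR m) (sigR m) (sigR' m) =
      2 * (-4) ^ m := by
  induction m with
  | zero => exact ⟨0, fun N _ => by rw [value_zero, pow_zero, mul_one]⟩
  | succ m ih =>
    obtain ⟨N₁, h₁⟩ := ih
    refine ⟨max N₁ (N₀ m), fun N hN => ?_⟩
    rw [hstep m N ((le_max_right _ _).trans hN), h₁ N ((le_max_left _ _).trans hN), pow_succ]
    ring

theorem value_ne_zero (m : ℕ) : (2 : ℤ) * (-4) ^ m ≠ 0 := by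
  have : ((-4 : ℤ)) ^ m ≠ 0 := pow_ne_zero _ (by norm_num)
  omega

/-- **the invariant statement**, from the product step -/
theorem invStatement_of_step (N₀ : ℕ → ℕ)
    (hstep : ∀ m N, N₀ m ≤ N →
      sInv (boxR N (m + 1)) (wallsR (m + 1)) (baseR (m + 1)) (sigR (m + 1)) (sigR' (m + 1)) =
        -4 * sInv (boxR N m) (wallsR m) (baseR m) (sigR m) (sigR' m)) {m : ℕ} (hm : 0 < m) :
    Top.InvStatement m (sigma m) (sigma' m) := by
  obtain ⟨N₁, h₁⟩ := value_of_step N₀ hstep m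
  exact invStatement_of_valueR hm ⟨N₁, fun N hN => by
    rw [h₁ N hN]; exact value_ne_zero m⟩

end Vale.Agent.P228.Inv
end
end
end

section

section

/-!
# P228, block [N]: the rows of the slicing operator of `J_2 ε`
-/

namespace Vale.Agent.P228.Num

open Matrix LMat Vale.Agent.P228.Inv

noncomputable section

/-- Laurent polynomials in `w` -/
abbrev L1 := AddMonoidAlgebra ℂ ℤ

/-- Laurent polynomials as matrices on `ℤ` -/
def lau1 : L1 →ₐ[ℂ] LMat ℤ ℂ :=
  AddMonoidAlgebra.lift ℂ (LMat ℤ ℂ) ℤ (Std.shiftHom ℂ ℤ)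

theorem lau1_single (g : ℤ) (c : ℂ) :
    lau1 (AddMonoidAlgebra.single g c) = c • Std.shift ℂ g := by
  unfold lau1
  rw [AddMonoidAlgebra.lift_single]
  rfl

/-- matrices of Laurent polynomials as matrices on `ℤ × Fin 4` -/
def conv1 : Matrix (Fin 4) (Fin 4) L1 →+* LMat (ℤ × Fin 4) ℂ :=
  (LMat.blocksEquiv (ι := ℤ) (K := ℂ) (σ := Fin 4)).toRingHom.comp
    (RingHom.mapMatrix lau1.toRingHom)

theorem conv1_apply (M : Matrix (Fin 4) (Fin 4) L1) (x y : ℤ × Fin 4) :
    conv1 M x y = lau1 (M x.2 y.2) x.1 y.1 := rfl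

/-- imaginary unit -/
def aU : L1 := AddMonoidAlgebra.single 0 Complex.I
/-- `w` -/
def wU : L1 := AddMonoidAlgebra.single 1 1
/-- `w⁻¹` -/
def wU' : L1 := AddMonoidAlgebra.single (-1) 1
/-- `1/8` -/
def hU : L1 := AddMonoidAlgebra.single 0 (8⁻¹)

theorem aU_sq : aU * aU = -1 := by
  unfold aU
  rw [AddMonoidAlgebra.single_mul_single, Complex.I_mul_I, add_zero]
  show _ = -(AddMonoidAlgebra.single 0 1)
  rw [← AddMonoidAlgebra.single_neg]

theorem wU_mul : wU * wU' = 1 := by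
  unfold wU wU'
  rw [AddMonoidAlgebra.single_mul_single, one_mul]
  rfl

theorem eight_hU : 8 * hU = 1 := by
  have h8 : (8 : L1) = AddMonoidAlgebra.single 0 8 := by
    have : (8 : L1) = algebraMap ℂ L1 8 := (map_ofNat (algebraMap ℂ L1) 8).symm
    rw [this]
    rfl
  unfold hU
  rw [h8, AddMonoidAlgebra.single_mul_single]
  norm_num

theorem intCast_smul (n : ℤ) : ((n : ℤ) : LMat ℤ ℂ) = (n : ℂ) • (1 : LMat ℤ ℂ) := by
  rw [LMat.intCast_def, LMat.one_def, LMat.smul_diag]
  congr 1; funext i; simp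

theorem lau1_gz (z : GaussianInt) :
    lau1 (gz aU z) = (GaussianInt.toComplex z) • (1 : LMat ℤ ℂ) := by
  unfold gz aU
  rw [map_add, map_mul, lau1_single, Std.shift_zero, map_intCast, map_intCast,
    GaussianInt.toComplex_def, LMat.smul_mul', one_mul, intCast_smul, intCast_smul]
  ext i j
  simp only [LMat.add_apply, LMat.smul_apply, smul_eq_mul]
  ring

theorem lau1_ev (T : ℤ → GaussianInt) (hT : ∀ k, (2 < k ∨ k < -2) → T k = 0) (x y : ℤ) :
    lau1 (evG aU wU wU' hU T) x y = 8⁻¹ * GaussianInt.toComplex (T (x - y)) := by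
  unfold evG
  have e1 : wU * wU = AddMonoidAlgebra.single 2 1 := by
    unfold wU; rw [AddMonoidAlgebra.single_mul_single, one_mul]; rfl
  have e2 : wU' * wU' = AddMonoidAlgebra.single (-2) 1 := by
    unfold wU'; rw [AddMonoidAlgebra.single_mul_single, one_mul]; rfl
  rw [e1, e2]
  unfold wU wU' hU
  simp only [map_mul, map_add, lau1_gz, lau1_single, Std.shift_zero, LMat.smul_mul', one_mul,
    LMat.smul_apply, LMat.add_apply, Std.shift_apply, LMat.one_apply, smul_eq_mul, one_smul]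
  congr 1
  by_cases h : 2 < x - y ∨ x - y < -2
  · rw [hT _ h, if_neg (by omega), if_neg (by omega), if_neg (by omega), if_neg (by omega),
      if_neg (by omega)]
    simp
  · have : x - y = -2 ∨ x - y = -1 ∨ x - y = 0 ∨ x - y = 1 ∨ x - y = 2 := by omega
    rcases this with h' | h' | h' | h' | h'
    · rw [h', if_pos (by (clear * - h'; omega)), if_neg (by omega), if_neg (by omega), if_neg (by omega),
        if_neg (by omega)]
      ring
    · rw [h', if_neg (by omega), if_pos (by omega), if_neg (by omega), if_neg (by omega),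
        if_neg (by omega)]
      ring
    · rw [h', if_neg (by omega), if_neg (by omega), if_pos (by omega), if_neg (by omega),
        if_neg (by omega)]
      ring
    · rw [h', if_neg (by omega), if_neg (by omega), if_neg (by omega), if_pos (by omega),
        if_neg (by omega)]
      ring
    · rw [h', if_neg (by omega), if_neg (by omega), if_neg (by omega), if_neg (by omega),
        if_pos (by omega)]
      ring

/-- the word at `x = 0` -/
def V0 : Matrix Bool Bool (LMat (ℤ × Fin 4) ℂ) := fun s t => conv1 (VP aU wU wU' hU s t)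

/-- its inverse -/
def W0 : Matrix Bool Bool (LMat (ℤ × Fin 4) ℂ) := fun s t => conv1 (WP aU wU wU' hU s t)

theorem V0_apply (s t : Bool) (x y : ℤ × Fin 4) :
    V0 s t x y = (8⁻¹ : ℂ) * GaussianInt.toComplex (VT (x.1 - y.1) s t x.2 y.2) := by
  unfold V0
  rw [conv1_apply]
  exact lau1_ev (fun k => VT k s t x.2 y.2) (fun k hk => by rw [VT_zero hk]; rfl) _ _

theorem W0_apply (s t : Bool) (x y : ℤ × Fin 4) :
    W0 s t x y = (8⁻¹ : ℂ) * GaussianInt.toComplex (WT (x.1 - y.1) s t x.2 y.2) := by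
  unfold W0
  rw [conv1_apply]
  exact lau1_ev (fun k => WT k s t x.2 y.2) (fun k hk => by rw [WT_zero hk]; rfl) _ _

theorem isV_V0 : IsV V0 := isV_of V0_apply
theorem isW_W0 : IsW W0 := isW_of W0_apply

theorem V0_eq_map : V0 = (VP aU wU wU' hU).map conv1 := rfl
theorem W0_eq_map : W0 = (WP aU wU wU' hU).map conv1 := rfl

theorem V0_mul_W0 : V0 * W0 = 1 := by
  rw [V0_eq_map, W0_eq_map, ← Matrix.map_mul, VP_WP aU_sq wU_mul eight_hU,
    Matrix.map_one _ (map_zero _) (map_one _)]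

theorem v00_map {R R' : Type*} [Ring R] [Ring R'] (f : R →+* R') (c1 c0 d1 d0 cm dm : R) :
    v00 (f c1) (f c0) (f d1) (f d0) (f cm) (f dm) = (v00 c1 c0 d1 d0 cm dm).map f := by
  unfold v00
  rw [m2_map]
  simp only [map_sub, map_add, map_neg, map_mul, map_one, map_ofNat]

theorem V0_eq : v00 (conv1 (C1 aU wU')) (conv1 (C0 aU wU wU')) (conv1 (D1 aU wU' hU))
    (conv1 (D0 aU wU wU' hU)) (conv1 (CM aU wU)) (conv1 (DM aU wU hU)) = V0 := by
  rw [v00_map, v00_eq aU_sq wU_mul eight_hU]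
  rfl

/-! ### transport to the cells of `ℤ²` -/

/-- `LMat ℤ (LMat (ℤ × Fin 4) ℂ) → LMat Cell2 ℂ` -/
def tr : LMat ℤ (LMat (ℤ × Fin 4) ℂ) →+* LMat Std.Cell2 ℂ :=
  (assocL (ι := ℤ) (κ := ℤ) (σ := Fin 4) (K := ℂ)).toRingHom.comp uncurry

theorem tr_apply (a : LMat ℤ (LMat (ℤ × Fin 4) ℂ)) (p q : Std.Cell2) :
    tr a p q = a p.1.1 q.1.1 (p.1.2, p.2) (q.1.2, q.2) := rfl

theorem tr_injective : Function.Injective tr := by
  intro a b h
  ext i j x y
  exact congrArg (fun c : LMat Std.Cell2 ℂ => c ((i, x.1), x.2) ((j, y.1), y.2)) h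

/-- Laurent polynomials in `w` as Laurent polynomials in `z, w` -/
def iw : L1 →+* Std.Lau :=
  AddMonoidAlgebra.mapDomainRingHom ℂ (AddMonoidHom.inr ℤ ℤ)

theorem iw_single (k : ℤ) (c : ℂ) :
    iw (AddMonoidAlgebra.single k c) = AddMonoidAlgebra.single (0, k) c := by
  unfold iw
  rw [AddMonoidAlgebra.mapDomainRingHom_apply]
  exact AddMonoidAlgebra.mapDomain_single

theorem lau_iw (g : ℤ) (p : L1) (x y : ℤ × ℤ) :
    Std.lauHom (Std.mono (g, 0) * iw p) x y = if x.1 = y.1 + g then lau1 p x.2 y.2 else 0 := by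
  induction p using AddMonoidAlgebra.induction_linear with
  | zero => simp
  | add f g hf hg =>
    rw [map_add, mul_add, map_add, LMat.add_apply, hf, hg, map_add, LMat.add_apply]
    split_ifs <;> simp
  | single k c =>
    rw [iw_single, Std.mono, AddMonoidAlgebra.single_mul_single, one_mul, Std.lauHom_single,
      lau1_single, LMat.smul_apply, LMat.smul_apply, Std.shift_apply, Std.shift_apply]
    have e : x = y + ((g, 0) + (0, k)) ↔ x.1 = y.1 + g ∧ x.2 = y.2 + k := by
      rw [Prod.ext_iff]; simp only [Prod.mk_add_mk, add_zero, zero_add, Prod.fst_add, Prod.snd_add]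
    by_cases h1 : x.1 = y.1 + g
    · by_cases h2 : x.2 = y.2 + k
      · rw [if_pos (e.2 ⟨h1, h2⟩), if_pos h1, if_pos h2]
      · rw [if_neg (fun h => h2 (e.1 h).2), if_pos h1, if_neg h2]
    · rw [if_neg (fun h => h1 (e.1 h).1), if_neg h1, smul_zero]

/-- the Laurent matrix with the given `z`-components -/
def zMat (A B C : Matrix (Fin 4) (Fin 4) L1) : Matrix (Fin 4) (Fin 4) Std.Lau :=
  Matrix.of fun i j => Std.mono (1, 0) * iw (A i j) + Std.mono (0, 0) * iw (B i j) +
    Std.mono (-1, 0) * iw (C i j)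

theorem tr_tri (A B C : Matrix (Fin 4) (Fin 4) L1) :
    tr (tri (conv1 A) (conv1 B) (conv1 C)) = Std.conv (zMat A B C) := by
  ext p q
  rw [tr_apply, Std.conv_apply, tri_apply, zMat, Matrix.of_apply, map_add, map_add,
    LMat.add_apply, LMat.add_apply, lau_iw, lau_iw, lau_iw]
  by_cases h1 : p.1.1 = q.1.1 + 1
  · rw [if_pos h1, if_pos h1, if_neg (by omega), if_neg (by omega), conv1_apply]
    simp
  · by_cases h2 : p.1.1 = q.1.1
    · rw [if_neg h1, if_pos h2, if_neg h1, if_pos (by omega), if_neg (by omega), conv1_apply]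
      simp
    · by_cases h3 : p.1.1 + 1 = q.1.1
      · rw [if_neg h1, if_neg h2, if_pos h3, if_neg h1, if_neg (by omega), if_pos (by omega),
          conv1_apply]
        simp only [add_zero, zero_add]
      · rw [if_neg h1, if_neg h2, if_neg h3, if_neg h1, if_neg (by omega), if_neg (by omega)]
        simp

section zmat

private theorem ea : iw aU = Std.aI := iw_single _ _
private theorem ew : iw wU = Std.mono (0, 1) := iw_single _ _
private theorem ew' : iw wU' = Std.mono (0, -1) := iw_single _ _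
private theorem e0 : Std.mono (0, 0) = 1 := rfl

theorem zMat_theta : zMat (C1 aU wU') (C0 aU wU wU') (CM aU wU) = Std.JM * Std.eL := by
  apply Matrix.ext
  intro i j
  fin_cases i <;> fin_cases j <;>
    simp [zMat, C1, C0, CM, Std.JL, Std.eL, ea, ew, ew', e0, map_ofNat] <;> ring

/-- `1/8` -/
def hI : Std.Lau := AddMonoidAlgebra.single 0 (8⁻¹)

private theorem eh : iw hU = hI := iw_single _ _

theorem two_hI (p : Std.Lau) : (4⁻¹ : ℂ) • p = 2 * hI * p := by
  have h2 : (2 : Std.Lau) * hI = algebraMap ℂ Std.Lau 4⁻¹ := by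
    have h2 : (2 : Std.Lau) = algebraMap ℂ Std.Lau 2 := (map_ofNat (algebraMap ℂ Std.Lau) 2).symm
    have h3 : hI = algebraMap ℂ Std.Lau 8⁻¹ := rfl
    rw [h2, h3, ← map_mul]
    norm_num
  rw [h2, Algebra.smul_def]

theorem zMat_theta' : zMat (D1 aU wU' hU) (D0 aU wU wU' hU) (DM aU wU hU) =
    (4⁻¹ : ℂ) • (Std.eL * Std.JiM) := by
  apply Matrix.ext
  intro i j
  rw [Matrix.smul_apply, two_hI]
  fin_cases i <;> fin_cases j <;>
    simp [zMat, D1, D0, DM, Std.JiL, Std.eL, ea, ew, ew', e0, eh, map_ofNat] <;> ring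

end zmat

/-- `J_2 ε` -/
theorem tr_theta : tr (tri (conv1 (C1 aU wU')) (conv1 (C0 aU wU wU')) (conv1 (CM aU wU))) =
    Std.dual2.J * Std.dual2.e := by
  rw [tr_tri, zMat_theta, map_mul]
  rfl

theorem tr_theta' :
    tr (tri (conv1 (D1 aU wU' hU)) (conv1 (D0 aU wU wU' hU)) (conv1 (DM aU wU hU))) =
      Std.dual2.e * Std.dual2.Ji := by
  rw [tr_tri, zMat_theta', Std.conv_smul, map_mul, ← LMat.mul_smul']
  rfl

theorem theta_mul : tri (conv1 (C1 aU wU')) (conv1 (C0 aU wU wU')) (conv1 (CM aU wU)) *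
    tri (conv1 (D1 aU wU' hU)) (conv1 (D0 aU wU wU' hU)) (conv1 (DM aU wU hU)) = 1 := by
  apply tr_injective
  rw [map_mul, tr_theta, tr_theta', map_one]
  calc Std.dual2.J * Std.dual2.e * (Std.dual2.e * Std.dual2.Ji)
      = Std.dual2.J * (Std.dual2.e * Std.dual2.e) * Std.dual2.Ji := by simp only [mul_assoc]
    _ = 1 := by rw [Std.dual2.ee, mul_one, Std.dual2.JJi]

theorem theta'_mul : tri (conv1 (D1 aU wU' hU)) (conv1 (D0 aU wU wU' hU)) (conv1 (DM aU wU hU)) *
    tri (conv1 (C1 aU wU')) (conv1 (C0 aU wU wU')) (conv1 (CM aU wU)) = 1 := by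
  apply tr_injective
  rw [map_mul, tr_theta, tr_theta', map_one]
  calc Std.dual2.e * Std.dual2.Ji * (Std.dual2.J * Std.dual2.e)
      = Std.dual2.e * (Std.dual2.Ji * Std.dual2.J) * Std.dual2.e := by simp only [mul_assoc]
    _ = 1 := by rw [Std.dual2.JiJ, mul_one, Std.dual2.ee]

theorem tr_Pw : tr (Pw (LMat (ℤ × Fin 4) ℂ)) =
    prj {p : ℤ × ℤ | 0 ≤ p.1} (fun x : Std.Cell2 => x.1) := by
  classical
  ext ⟨⟨x, y⟩, a⟩ ⟨⟨x', y'⟩, b⟩
  rw [tr_apply]
  unfold Pw prj ind
  rw [LMat.diag_apply, LMat.diag_apply]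
  simp only [Set.mem_ofPred_eq]
  by_cases h1 : x = x'
  · subst h1
    rw [if_pos rfl]
    by_cases h2 : (y, a) = (y', b)
    · obtain ⟨h3, h4⟩ := Prod.ext_iff.1 h2
      simp only at h3 h4
      subst h3; subst h4
      rw [if_pos rfl]
      split_ifs
      · exact LMat.one_apply_self _
      · rfl
    · have h5 : ¬ (((x, y), a) = ((x, y'), b)) := fun h => h2 (by
        obtain ⟨h3, h4⟩ := Prod.ext_iff.1 h
        exact Prod.ext (Prod.ext_iff.1 h3).2 h4)
      rw [if_neg h5]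
      split_ifs
      · exact LMat.one_apply_ne h2
      · rfl
  · rw [if_neg h1, if_neg (fun h => h1 (Prod.ext_iff.1 (Prod.ext_iff.1 h).1).1)]
    rfl

theorem tr_qY : tr (diag fun _ => qY) =
    prj {p : ℤ × ℤ | 0 ≤ p.2} (fun x : Std.Cell2 => x.1) := by
  classical
  ext ⟨⟨x, y⟩, a⟩ ⟨⟨x', y'⟩, b⟩
  rw [tr_apply]
  unfold qY prj ind
  rw [LMat.diag_apply, LMat.diag_apply]
  simp only [Set.mem_ofPred_eq]
  by_cases h1 : x = x'
  · subst h1
    rw [if_pos rfl, LMat.diag_apply]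
    by_cases h2 : (y, a) = (y', b)
    · obtain ⟨h3, h4⟩ := Prod.ext_iff.1 h2
      simp only at h3 h4
      subst h3; subst h4
      rw [if_pos rfl, if_pos rfl]
      split_ifs <;> rfl
    · have h5 : ¬ (((x, y), a) = ((x, y'), b)) := fun h => h2 (by
        obtain ⟨h3, h4⟩ := Prod.ext_iff.1 h
        exact Prod.ext (Prod.ext_iff.1 h3).2 h4)
      rw [if_neg h2, if_neg h5]
  · rw [if_neg h1, if_neg (fun h => h1 (Prod.ext_iff.1 (Prod.ext_iff.1 h).1).1)]
    rfl

/-- **the rows of the slicing operator of `J_2 ε`** -/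
theorem Sop_rows (s t : Bool) (p p' : Std.Cell2) :
    Sop (prj {p : ℤ × ℤ | 0 ≤ p.1} (fun x : Std.Cell2 => x.1))
      (prj {p : ℤ × ℤ | 0 ≤ p.2} (fun x : Std.Cell2 => x.1))
      (Std.dual2.J * Std.dual2.e) (Std.dual2.e * Std.dual2.Ji) s t p p' =
    if p.1.1 = p'.1.1 then
      (if p.1.1 = 0 then SY V0 W0 s t (p.1.2, p.2) (p'.1.2, p'.2)
        else Sstd qY s t (p.1.2, p.2) (p'.1.2, p'.2)) else 0 := by
  have h := Sop_tri theta_mul theta'_mul (V := W0) (by rw [V0_eq]; exact V0_mul_W0) qY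
  rw [V0_eq] at h
  have h2 := Sop_map tr (fun _ => rfl) (Pw (LMat (ℤ × Fin 4) ℂ)) (diag fun _ => qY)
    (tri (conv1 (C1 aU wU')) (conv1 (C0 aU wU wU')) (conv1 (CM aU wU)))
    (tri (conv1 (D1 aU wU' hU)) (conv1 (D0 aU wU wU' hU)) (conv1 (DM aU wU hU)))
  rw [h, tr_Pw, tr_qY, tr_theta, tr_theta'] at h2
  rw [← h2, Matrix.map_apply, tr_apply]
  unfold atzM
  rw [atz_apply]
  by_cases h1 : p.1.1 = p'.1.1
  · rw [if_pos h1, if_pos h1]
    split_ifs <;> rfl
  · rw [if_neg h1, if_neg h1]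
    rfl

end

end Vale.Agent.P228.Num
end
namespace AFasta0853ex6806b
theorem a0 : AddHomClass (Vale.Agent.P228.Num.L1 →+* Vale.Agent.P228.Std.Lau) Vale.Agent.P228.Num.L1 Vale.Agent.P228.Std.Lau := inferInstance
theorem a1 : AddMonoidHomClass (Vale.Agent.P228.Num.L1 →+* Vale.Agent.P228.Std.Lau) Vale.Agent.P228.Num.L1 Vale.Agent.P228.Std.Lau := inferInstance
theorem a2 : AddHomClass (Vale.Agent.P228.Num.L1 →ₐ[ℂ] Vale.Agent.P228.LMat ℤ ℂ) Vale.Agent.P228.Num.L1 (Vale.Agent.P228.LMat ℤ ℂ) := inferInstance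
theorem a3 : LinearMapClass (Vale.Agent.P228.Num.L1 →ₐ[ℂ] Vale.Agent.P228.LMat ℤ ℂ) ℂ Vale.Agent.P228.Num.L1 (Vale.Agent.P228.LMat ℤ ℂ) := inferInstance
end AFasta0853ex6806b
attribute [local instance] AFasta0853ex6806b.a0 AFasta0853ex6806b.a1 AFasta0853ex6806b.a2
  AFasta0853ex6806b.a3
end

section

section

/-!
# P228, block N: the corner data of the form `J_2 ε` of the plane
-/

namespace Vale.Agent.P228.Num

open Matrix LMat Vale.Agent.P228.Inv

noncomputable section

theorem isSliced2 : IsSliced (Std.dual2.J * Std.dual2.e) (Std.dual2.e * Std.dual2.Ji) V0 W0 := by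
  intro s t p p'
  have h := Sop_rows s t p p'
  have e : (Sop (prj wall2.1 base2) (prj wall2.2 base2) (Std.dual2.J * Std.dual2.e)
      (Std.dual2.e * Std.dual2.Ji) s t : LMat Std.Cell2 ℂ) p p' =
    Sop (prj {p : ℤ × ℤ | 0 ≤ p.1} (fun x : Std.Cell2 => x.1))
      (prj {p : ℤ × ℤ | 0 ≤ p.2} (fun x : Std.Cell2 => x.1))
      (Std.dual2.J * Std.dual2.e) (Std.dual2.e * Std.dual2.Ji) s t p p' := by
    congr 1
  rw [e, h]

/-- the corner data of the form of the plane -/
def corData2 : CorData (fun x : Std.Cell2 => x.1)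
    (({p | 0 ≤ p.1}, {p | 0 ≤ p.2}) : Inv.Wall (ℤ × ℤ))
    (Std.dual2.J * Std.dual2.e) (Std.dual2.e * Std.dual2.Ji) :=
  corOf isV_V0 isW_W0 isSliced2

theorem corData2_EA : corData2.EA = {(0, -2), (0, -1), (0, 0), (0, 1)} := rfl
theorem corData2_l₁ : corData2.l₁ = ((0, -1), 2) := rfl
theorem corData2_l₂ : corData2.l₂ = ((0, 0), 2) := rfl

end

end Vale.Agent.P228.Num
end
end

section

section

/-!
P228: the product step for the standard form, and the invariant statement.
-/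

open Matrix

set_option linter.unusedSectionVars false

noncomputable section

namespace Vale.Agent.P228.Inv

open LMat Std

/-- the product step -/
theorem prod_step {B₁ B₂ ι κ : Type} {baseA : ι → B₁} {baseB : κ → B₂}
    (hfA : ∀ b, {x | baseA x = b}.Finite) (hfB : ∀ b, {x | baseB x = b}.Finite)
    {w : Wall B₁} (ws : List (Wall B₂)) (e₁ : Finset B₁) (e' : Finset B₂) {A A' : LMat ι ℂ}
    (hA : star A = A) (hA' : star A' = A') (cd : CorData baseA w A A')
    (m1 : baseA cd.l₁ ∈ e₁) (m2 : baseA cd.l₂ ∈ e₁)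
    {B B' : LMat κ ℂ} (hB : star B = B) (hB' : star B' = B') (h1 : B * B' = 1) (h2 : B' * B = 1)
    {Ψ : Filt B₂} (lB : Lev Ψ 1 baseB B) (lB' : Lev Ψ 1 baseB B')
    (hP : Top.PathInv (PE cd.EA (Ψ.F 3)) (fun {_} base h k =>
      sInv (e₁ ×ˢ e') (ws.map Std.liftW : List (Wall (B₁ × B₂))) base h k)) :
    sInv (e₁ ×ˢ e') ((({p | p.1 ∈ w.1}, {p | p.1 ∈ w.2}) : Wall (B₁ × B₂)) :: ws.map Std.liftW)
        (fun x : ι × κ => (baseA x.1, baseB x.2)) (kron A B) (kron A' B') =
      -2 * sInv e' ws baseB B B' - 2 * sInv e' ws baseB B' B := by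
  rw [prod_half hfA hfB ws e₁ e' hA hA' cd hB hB' h1 h2 lB lB' hP]
  exact sInv_hD0 e₁ e' ws baseA baseB hfA hfB cd.ne m1 m2 (pf cd.l₁ cd.l₂) _
    (pf_special (Or.inl rfl)) (pf_special (Or.inr rfl))
    (fun l h h' => pf_rest (fun h0 => h0.elim h h')) _ B B'

/-- the filtration by distance -/
def closeF (m : ℕ) : Filt (PosR m) where
  F n := CloseR n m
  refl b := closeR_refl 0 m b
  symm _ _ _ h := closeR_symm h
  comp h h' := closeR_trans h h'
  mono hij h := closeR_mono hij h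

theorem fib2 (b : ℤ × ℤ) : {x : Cell2 | x.1 = b}.Finite := by
  refine (Set.finite_range (fun i : Fin 4 => ((b, i) : Cell2))).subset ?_
  rintro ⟨p, i⟩ hx
  exact ⟨i, by
    change p = b at hx
    rw [hx]⟩

theorem hstep (m N : ℕ) (hN : 2 * 8 ^ m * 3 ≤ N) :
    sInv (boxR N (m + 1)) (wallsR (m + 1)) (baseR (m + 1)) (sigR (m + 1)) (sigR' (m + 1)) =
      -4 * sInv (boxR N m) (wallsR m) (baseR m) (sigR m) (sigR' m) := by
  have hpos : 0 < 8 ^ m := by positivity
  have hN2 : 2 ≤ N := by omega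
  have F := form_sigR m (le_refl 1)
  have hs' : star (sigR' m) = sigR' m := eJi_star (dualR m)
  have m1 : (Num.corData2.l₁).1 ∈ box2 N := by
    have : (Num.corData2.l₁).1 = (0, -1) := by rw [Num.corData2_l₁]
    rw [this, mem_box2]
    constructor
    · simp only [abs_zero, Nat.cast_nonneg]
    · have : |(-1 : ℤ)| = 1 := rfl
      rw [this]; exact_mod_cast (by omega : 1 ≤ N)
  have m2 : (Num.corData2.l₂).1 ∈ box2 N := by
    have : (Num.corData2.l₂).1 = (0, 0) := by rw [Num.corData2_l₂]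
    rw [this, mem_box2]
    constructor <;> simp only [abs_zero, Nat.cast_nonneg]
  have hEA : Num.corData2.EA ⊆ box2 N := by
    rw [Num.corData2_EA]
    intro x hx
    simp only [Finset.mem_insert, Finset.mem_singleton] at hx
    have hN2' : (2 : ℤ) ≤ N := by exact_mod_cast hN2
    rw [mem_box2]
    rcases hx with rfl | rfl | rfl | rfl
    · refine ⟨by simp only [abs_zero, Nat.cast_nonneg], ?_⟩
      have : |(-2 : ℤ)| = 2 := rfl
      rw [this]; exact hN2'
    · refine ⟨by simp only [abs_zero, Nat.cast_nonneg], ?_⟩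
      have : |(-1 : ℤ)| = 1 := rfl
      rw [this]; linarith only [hN, hpos]
    · refine ⟨by simp only [abs_zero, Nat.cast_nonneg], by simp only [abs_zero, Nat.cast_nonneg]⟩
    · refine ⟨by simp only [abs_zero, Nat.cast_nonneg], ?_⟩
      have : |(1 : ℤ)| = 1 := rfl
      rw [this]; linarith only [hN, hpos]
  have step := prod_step (baseA := fun x : Cell2 => x.1) (baseB := baseR m) fib2 (ff_baseR m)
    (wallsR m) (box2 N) (boxR N m) (Je_star dual2) (eJi_star dual2) Num.corData2 m1 m2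
    F.herm hs' F.mul F.mul' (Ψ := closeF m) F.supp F.supp' (pathInv_PE_boxR hEA hN)
  have swap := PEnd.sInv_swap (closeR_refl 1 m) (pathInv_boxR (c := 1) (N := N) (m := m) (by (clear * - hN hN2; omega)))
    (baseR m) (ff_baseR m) F
  rw [swap] at step
  rw [sigR_succ, sigR'_succ]
  refine Eq.trans ?_ (step.trans ?_)
  · rfl
  · ring

/-- **the invariant statement** -/
theorem invStatement {m : ℕ} (hm : 0 < m) : Top.InvStatement m (sigma m) (sigma' m) :=
  invStatement_of_step (fun m => 2 * 8 ^ m * 3) hstep hm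

end Vale.Agent.P228.Inv
end
end
end

section

section

/-!
# P228 (helper144): `FormStatement` from the output of block C

`formOut` : from `Cub.ChainData c D Rin` to `FormOut`, `σ = J e`, `σ' = e J⁻¹`.
-/

namespace Vale.Agent.P228.Top

open Geo Kos Alg

theorem finFib_pos (n : ℕ) : FinFib (pos (n := n)) := by
  intro b
  refine (Set.finite_range (fun (v : Fin n → Bool) => (fun i => (b i, v i) : Cl n))).subset ?_
  intro x hx
  refine ⟨fun i => (x i).2, ?_⟩
  have hx' : pos x = b := hx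
  funext i
  rw [← hx']
  rfl

section Gen

variable {R : Type*} [Ring R] [StarRing R] (c : Dual R)

end Gen

section Rel

variable {n q K₀ L : ℕ} (D : Maps n q K₀ L) (Rin : ℕ)

/-- the graded relation on cells -/
def nearRel : NearRel (Cl n) q where
  rel g r x y := D.Near Rin g r (pos x) (pos y)
  refl x := Maps.Near.zero (pos x)
  symm := fun h => near_symm D h
  trans := fun h h' => near_trans D h h'
  mono := fun h h' => near_mono D h h'

/-- the coarse relation on positions -/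
def coarseRel : CRel (Pos n) where
  rel r x y := Close (r * (K₀ * D.e)) x y
  refl x := close_refl _ x
  symm := close_symm
  trans := fun {r s x y z} h1 h2 => by rw [add_mul]; exact close_trans h1 h2
  mono := fun {r s x y} h => close_mono (Nat.mul_le_mul_right _ h)

theorem Rl_ge (h1 : 1 ≤ K₀) : ∀ i ≤ L, 1 ≤ D.Rl i := by
  intro i
  induction i with
  | zero => intro _; exact D.Rl_pos
  | succ i ih =>
    intro hi
    have h2 := ih (by omega)
    have h3 := D.Rl_step i (by omega)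
    nlinarith only [h1, h3, h2]

/-- short displacements are one step of label `0` -/
theorem st_of_close (h1 : 1 ≤ K₀) {κ : ℕ} (hκ : κ ≤ K₀) {x y : Fin n → ℤ} (h : Close κ x y) :
    D.St Rin 0 x y := by
  have hL := Rl_ge D h1 L le_rfl
  have he := hL.trans D.Rl_le_e
  have h2 : κ ≤ K₀ * D.Rl L := hκ.trans (Nat.le_mul_of_pos_right _ hL)
  have h3 : κ ≤ K₀ * D.e := hκ.trans (Nat.le_mul_of_pos_right _ he)
  refine ⟨close_mono h3 h, fun _ => Or.inl ?_⟩
  rw [D.F_zero]
  exact close_mono h2 h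

end Rel

section Out

variable {m K₀ L κ : ℕ} {c : Dual (LMat (Cl (2 * m)) ℂ)}

/-- the family of block C as input of block A (with `Bh = 0`) -/
noncomputable def famOf {q : ℕ} {D : Maps (2 * m) q K₀ L} {Rin : ℕ}
    (X : Cub.ChainData c D Rin) : Fam c q where
  T := X.T
  H := X.H
  Bh := fun _ => 0
  T_even := X.T_even
  T_d := X.T_d
  H_odd := X.H_odd
  Bh_odd := fun _ => Dual.isOdd_zero
  T_mul := X.T_mul
  T_sh := fun g => by rw [X.T_sh, c.br_zero, add_zero]

/-- the input of block A -/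
noncomputable def chainIn (hc : Cub.CubDual κ c) (h1 : 1 ≤ K₀) (hκ : κ ≤ K₀) {q : ℕ} [NeZero q]
    {D : Maps (2 * m) q K₀ L} {Rin : ℕ} (X : Cub.ChainData c D Rin) :
    ChainIn (Cl (2 * m)) q (2 * m) (nearRel D Rin) ((coarseRel D).pull pos) where
  c := c
  F := famOf X
  k := X.L
  deg := Cub.dg
  deg_le := fun x => by
    have h : Cub.dg x ≤ Fintype.card (Fin (2 * m)) := Finset.card_le_univ _
    rwa [Fintype.card_fin] at h
  k_odd := X.L_odd
  T_eq := X.T_one
  e_up := by rw [hc.he]; exact Up.diag _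
  d_down := by
    intro x y h
    rw [hc.hd] at h
    exact (Cub.dL_face h).dg.symm
  J_flip := fun x y h => (hc.hJ x y h).2
  Ji_flip := fun x y h => (hc.hJi x y h).2
  T_up := fun g x y h => by have := (X.T_sup g x y h).1; omega
  H_up := fun g g' x y h => by have := (X.H_sup g g' x y h).1; omega
  Bh_up := fun g => Up.zero 1
  k_up := fun g x y h => by have := (X.L_sup g x y h).1; omega
  e_sup := fun x y h => by
    classical
    rw [hc.he] at h
    by_cases hxy : x = y
    · subst hxy; exact Maps.Near.zero (pos x)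
    · exact absurd (LMat.diag_apply_ne _ hxy) h
  d_sup := fun x y h => by
    rw [hc.hd] at h
    have h2 : Close 1 (pos x) (pos y) := (Cub.dL_face h).cl
    exact near_one D (st_of_close D Rin h1 h1 h2)
  J_sup := fun x y h =>
    near_one D (st_of_close D Rin h1 hκ ((hc.hJ x y h).1 _ (Cub.pos_mem x) _ (Cub.pos_mem y)))
  Ji_sup := fun x y h =>
    near_one D (st_of_close D Rin h1 hκ ((hc.hJi x y h).1 _ (Cub.pos_mem x) _ (Cub.pos_mem y)))
  T_sup := fun g x y h => near_one D (X.T_sup g x y h).2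
  H_sup := fun g g' x y h => near_one D (X.H_sup g g' x y h).2
  Bh_sup := fun g x y h => by simp [famOf] at h
  k_sup := fun g x y h => by
    show Close (1 * (K₀ * D.e)) (pos x) (pos y)
    rw [one_mul]; exact (X.L_sup g x y h).2
  N_E := fun g r x y h => near_close D h

theorem map_evJ {ι : Type} {q p : ℕ} (j : ℤ) (T : LMat ι (GK q)) :
    LMat.map (evJ q p j) T = Alg.ev ((j : ZMod q) * cp q p) T := rfl

/-- `cp (p ^ k) p` is a nontrivial character -/
theorem cp_ne_zero {p k : ℕ} (hp : 2 ≤ p) (hk : 1 ≤ k) : cp (p ^ k) p ≠ 0 := by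
  intro h
  unfold cp at h
  rw [ZMod.natCast_eq_zero_iff] at h
  have h1 : 0 < p ^ k / p := by
    apply Nat.div_pos _ (by omega)
    calc p = p ^ 1 := (pow_one p).symm
      _ ≤ p ^ k := Nat.pow_le_pow_right (by omega) hk
  have h2 : p ^ k / p < p ^ k := Nat.div_lt_self (by positivity) (by omega)
  exact absurd (Nat.le_of_dvd h1 h) (by omega)

theorem neg_one_smul' {ι : Type} (T : LMat ι ℂ) : (-1 : ℝ) • T = -T := by
  ext x y; simp

theorem one_smul' {ι : Type} (T : LMat ι ℂ) : (1 : ℝ) • T = T := by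
  ext x y; simp

/-- **block A + block C** -/
theorem formStatement_of_chainData {p : ℕ} [Fact p.Prime] (hc : Cub.CubDual κ c) (h1 : 1 ≤ K₀)
    (hκ : κ ≤ K₀)
    (hX : ∀ (q : ℕ) [NeZero q] (D : Maps (2 * m) q K₀ L) (Rin : ℕ),
      Rin + K₀ * D.e + K₀ ≤ D.Rad → Nonempty (Cub.ChainData c D Rin)) :
    FormStatement m p K₀ L ((2 * (2 * m) + 2) * 5) ((2 * (2 * m) + 2) * 7 * K₀)
      (c.J * c.e) (c.e * c.Ji) := by
  intro k _ hk D Rin hR
  obtain ⟨X⟩ := hX (p ^ k) D Rin hR
  have hp : 2 ≤ p := (Fact.out : p.Prime).two_le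
  refine ⟨{
    θ := (chainIn hc h1 hκ X).th
    θ' := (chainIn hc h1 hκ X).th'
    form := ⟨ChainIn.star_th _, ChainIn.star_th' _, ChainIn.th_mul_th' _, ChainIn.th'_mul_th _⟩
    supp := ?_
    supp' := ?_
    coarse_zero := ?_
    coarse_one := ?_ }⟩
  · have h := (chainIn hc h1 hκ X).th_mem
    have h2 : (chainIn hc h1 hκ X).th ∈ (supFil (nearRel D Rin)).L ((2 * (2 * m) + 2) * 5) :=
      (supFil (nearRel D Rin)).le (by (clear * -; omega)) h
    exact fun x y => h2 x y
  · exact fun x y => (chainIn hc h1 hκ X).th'_mem x y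
  · intro s hs
    have h0 : PathInv ((coarseRel D).rel ((2 * (2 * m) + 2) * 7)) s := by
      rw [mul_assoc] at hs; exact hs
    have := (chainIn hc h1 hκ X).value 0 (finFib_pos _) h0
    rw [show ChainIn.sg (0 : ZMod (p ^ k)) = -1 from if_pos rfl] at this
    rw [map_evJ, map_evJ, Int.cast_zero, zero_mul, ← neg_one_smul' (c.J * c.e),
      ← neg_one_smul' (c.e * c.Ji)]
    exact this
  · intro s hs
    have h0 : PathInv ((coarseRel D).rel ((2 * (2 * m) + 2) * 7)) s := by
      rw [mul_assoc] at hs; exact hs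
    have := (chainIn hc h1 hκ X).value (cp (p ^ k) p) (finFib_pos _) h0
    rw [show ChainIn.sg (cp (p ^ k) p) = 1 from if_neg (cp_ne_zero hp hk)] at this
    rw [map_evJ, map_evJ, Int.cast_one, one_mul, ← one_smul' (c.J * c.e),
      ← one_smul' (c.e * c.Ji)]
    exact this

/-- **block A + block C**, final form: `K₀ ≥ 8 κ + 34`, three levels -/
theorem formStatement {p : ℕ} [Fact p.Prime] (hc : Cub.CubDual κ c) (hK : 8 * κ + 34 ≤ K₀) :
    FormStatement m p K₀ 3 ((2 * (2 * m) + 2) * 5) ((2 * (2 * m) + 2) * 7 * K₀)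
      (c.J * c.e) (c.e * c.Ji) :=
  formStatement_of_chainData hc (by omega) (by (clear * - hK; omega)) fun q _ D Rin hR =>
    Cub.exists_chainData (2 * m) κ c hc K₀ hK q D Rin hR

end Out

end Vale.Agent.P228.Top
end
end

section

section

/-! # P228, block K: one Koszul step -/

set_option linter.all false

namespace Vale.Agent.P228.Kos

open LMat

section Blk

variable {ι K : Type} [Ring K]

theorem commute_blk {e A B C D : LMat ι K} (hA : Commute e A) (hB : Commute e B)
    (hC : Commute e C) (hD : Commute e D) : Commute (blk e 0 0 e) (blk A B C D) := by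
  show _ * _ = _ * _
  rw [blk_mul, blk_mul]
  simp only [hA.eq, zero_mul, add_zero, hB.eq, hC.eq, zero_add, hD.eq, mul_zero]

variable {B : Type} {base : ι → B}

theorem commute_of_baseDiag [StarRing K] {b : B} {T : LMat ι K} (hs : star T = T)
    (h : Top.BaseDiagOn base {b} T) : Commute (proj K base {b}) T := by
  classical
  show _ * _ = _ * _
  ext x y
  rw [proj_mul_apply, mul_proj_apply]
  by_cases h0 : T x y = 0
  · simp only [Set.mem_singleton_iff, h0, ite_self]
  · by_cases hx : base x = b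
    · have hy : base y = b := by rw [← h x y hx h0, hx]
      simp [hx, hy]
    · have hy : base y ≠ b := by
        intro hy
        have h1 : T y x ≠ 0 := by
          intro h1
          apply h0
          rw [← hs, star_apply, h1, star_zero]
        exact hx ((h y x hy h1) ▸ hy)
      simp [hx, hy]

theorem baseDiagOn_of_commute {b : B} {T : LMat ι K}
    (h : Commute (proj K base {b}) T) : Top.BaseDiagOn base {b} T :=
  fun x y hx hT => baseDiag_of_commute h x y hx hT

end Blk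

section Step

variable {p q : ℕ} [NeZero p] [NeZero q] {hpq : p ∣ q} {B ι : Type} (N : KRel p q hpq B)
  (i : Fin N.D) (base : ι → B)

/-- the points of depth `n` in the label set (steps of size `r`) -/
def depth (r n : ℕ) : Set B := {b | ∀ y g, N.Near g (n * r) b y → y ∈ N.V i}

variable {N i base}

theorem depth_sub {r n : ℕ} : depth N i r n ⊆ N.V i := fun b hb =>
  hb b 0 (N.mono (Nat.zero_le _) (N.refl b))

theorem depth_step {r n : ℕ} {b y : B} {g : ZMod q} (hb : b ∈ depth N i r (n + 1))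
    (h : N.Near g r b y) : y ∈ depth N i r n := by
  intro z g' hz
  have hy : y ∈ N.V i := hb y g (N.mono (Nat.le_mul_of_pos_left r (Nat.succ_pos n)) h)
  have := N.comp h hz ⟨i, hy⟩
  apply hb z (g + g')
  have e : (n + 1) * r = r + n * r := by ring
  rw [e]; exact this

theorem depth_loc {r n : ℕ} {T : LMat ι (GK q)} (hT : GSup N r base T) :
    proj (GK q) base (depth N i r (n + 1)) * T =
      proj (GK q) base (depth N i r (n + 1)) * T * proj (GK q) base (depth N i r n) := by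
  apply proj_loc
  intro x y hx h
  obtain ⟨g, hg⟩ := hT.aSup x y h
  exact depth_step hx hg

theorem depth_loc0 {r : ℕ} {T : LMat ι (GK q)} (hT : GSup N r base T) :
    proj (GK q) base (depth N i r 1) * T =
      proj (GK q) base (depth N i r 1) * T * proj (GK q) base (N.V i) := by
  apply proj_loc
  intro x y hx h
  obtain ⟨g, hg⟩ := hT.aSup x y h
  exact depth_sub (depth_step (n := 0) hx hg)

theorem depth_chain {r : ℕ} (hr : r ≤ N.R) {h k : LMat ι (GK q)} (hh : GSup N r base h)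
    (hk : GSup N r base k) :
    Chain (proj (GK q) base (N.V i)) h (gt i base h) (gt i base k)
      (proj (GK q) base (depth N i r 1)) (proj (GK q) base (depth N i r 2))
      (proj (GK q) base (depth N i r 3)) (proj (GK q) base (depth N i r 4)) where
  PhP := proj_cut_eq base (fun x y hx hy => (gt_agree hr hh x y hx hy).symm)
  e1P := proj_mul_proj base depth_sub
  e2P := proj_mul_proj base depth_sub
  e3P := proj_mul_proj base depth_sub
  e4P := proj_mul_proj base depth_sub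
  h1 := depth_loc0 hh
  H1 := depth_loc0 (gt_gsup hh)
  K1 := depth_loc0 (gt_gsup hk)
  h2 := depth_loc hh
  H2 := depth_loc (gt_gsup hh)
  K2 := depth_loc (gt_gsup hk)
  h3 := depth_loc hh
  H3 := depth_loc (gt_gsup hh)
  K3 := depth_loc (gt_gsup hk)
  h4 := depth_loc hh
  H4 := depth_loc (gt_gsup hh)
  K4 := depth_loc (gt_gsup hk)

/-- `c = 1/2` -/
noncomputable def half (ι K : Type) [Ring K] [Algebra ℂ K] : LMat ι K := (1 / 2 : ℂ) • 1

theorem half_comm {K : Type} [Ring K] [Algebra ℂ K] (x : LMat ι K) :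
    half ι K * x = x * half ι K := by
  rw [half, smul_mul_assoc, mul_smul_comm, one_mul, mul_one]

theorem half_add {K : Type} [Ring K] [Algebra ℂ K] : half ι K + half ι K = 1 := by
  rw [half, ← add_smul]
  norm_num

theorem half_star {K : Type} [Ring K] [StarRing K] [Algebra ℂ K] [StarModule ℂ K] :
    star (half ι K) = half ι K := by
  rw [half, star_smul, star_one]
  congr 1
  simp only [one_div, star_inv₀, star_ofNat]

variable (N i base)

/-- the cut `P H P` -/
noncomputable def cutA (h : LMat ι (GK q)) : LMat ι (GK q) :=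
  proj (GK q) base (N.V i) * gt i base h * proj (GK q) base (N.V i)

/-- `(1/2) P K P` -/
noncomputable def cutB (k : LMat ι (GK q)) : LMat ι (GK q) :=
  half ι (GK q) * (proj (GK q) base (N.V i) * gt i base k * proj (GK q) base (N.V i))

/-- the Koszul form and its inverse -/
noncomputable def kosF (h k : LMat ι (GK q)) : LMat (ι × Bool) (GK q) :=
  FB h (gt i base k) (cutA N i base h) (cutB N i base k)

noncomputable def kosG (h k : LMat ι (GK q)) : LMat (ι × Bool) (GK q) :=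
  GB k (gt i base h) (cutA N i base h) (cutB N i base k)

variable {N i base}

theorem cut_star_gen {R : Type} [Ring R] [StarRing R] {P H : R} (hP : star P = P)
    (hH : star H = H) : star (P * H * P) = P * H * P := by
  rw [star_mul, star_mul, hP, hH, mul_assoc]

theorem half_star_gen {R : Type} [Ring R] [StarRing R] {c X : R} (hc : star c = c)
    (hcom : ∀ x : R, c * x = x * c) (hX : star X = X) : star (c * X) = c * X := by
  rw [star_mul, hc, hX, hcom]

theorem cutA_star {h k : LMat ι (GK q)} (F : HForm h k) :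
    star (cutA N i base h) = cutA N i base h :=
  cut_star_gen (proj_star base _) (gt_hform F).h_star

theorem cutB_star {h k : LMat ι (GK q)} (F : HForm h k) :
    star (cutB N i base k) = cutB N i base k :=
  half_star_gen half_star (fun x => half_comm x) (cut_star_gen (proj_star base _) (gt_hform F).k_star)

theorem kos_hform {h k : LMat ι (GK q)} (F : HForm h k) :
    HForm (kosF N i base h k) (kosG N i base h k) :=
  hform_FB F (gt_hform F) (cutA_star F) (cutB_star F)

theorem gsup_blk {r : ℕ} {A C D E : LMat ι (GK q)} (hA : GSup N r base A) (hC : GSup N r base C)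
    (hD : GSup N r base D) (hE : GSup N r base E) :
    GSup N r (fun x : ι × Bool => base x.1) (blk A C D E) := by
  rintro ⟨x, s⟩ ⟨y, t⟩
  cases s <;> cases t
  · exact hA x y
  · exact hC x y
  · exact hD x y
  · exact hE x y

theorem kos_gsup {r : ℕ} {h k : LMat ι (GK q)} (hh : GSup N r base h)
    (hk : GSup N r base k) :
    GSup N (5 * r) (fun x : ι × Bool => base x.1) (kosF N i base h k) ∧
    GSup N (5 * r) (fun x : ι × Bool => base x.1) (kosG N i base h k) := by
  have hw := VFil.words (V := gFil i base (1 / 2 : ℂ)) (r := r) (h := h) (k := k)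
    (H := gt i base h) (K := gt i base k) (a := cutA N i base h) (b := cutB N i base k)
    (t := 1) (u := half ι (GK q)) (proj_idem base _) (by intro x; exact half_comm x)
    hh hk (gt_gsup hh) (gt_gsup hk) (by intro x; rw [one_mul, mul_one]) (fun x => half_comm x)
    (by intro r x hx; rwa [one_mul]) (fun hx => (gFil i base (1 / 2 : ℂ)).cmul hx)
    (by rw [one_mul]; rfl) rfl
  obtain ⟨f11, f12, f21, f22, g11, g12, g21, g22⟩ := hw
  exact ⟨gsup_blk f11 f12 f21 f22, gsup_blk g11 g12 g21 g22⟩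

theorem kos_persist {h k : LMat ι (GK q)} (F : HForm h k) {W : Set B}
    (hc : Commute (proj (GK q) base W) h) :
    Commute (proj (GK q) (fun x : ι × Bool => base x.1) W) (kosF N i base h k) := by
  have hk : Commute (proj (GK q) base W) k := F.commute hc
  have hH := gt_commute (N := N) (i := i) hc
  have hK := gt_commute (N := N) (i := i) hk
  have hP : Commute (proj (GK q) base W) (proj (GK q) base (N.V i)) := proj_comm_proj _ _ _
  have ha : Commute (proj (GK q) base W) (cutA N i base h) := (hP.mul_right hH).mul_right hP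
  have hhalf : Commute (proj (GK q) base W) (half ι (GK q)) := (half_comm _).symm
  have hb : Commute (proj (GK q) base W) (cutB N i base k) :=
    hhalf.mul_right ((hP.mul_right hK).mul_right hP)
  have h1 : Commute (proj (GK q) base W) (1 : LMat ι (GK q)) := Commute.one_right _
  have hba := hb.mul_right ha
  have hab := ha.mul_right hb
  rw [proj_blk]
  apply commute_blk
  · exact ((h1.sub_right hba).mul_right (hK.mul_right (h1.sub_right hab))).sub_right
      (hb.mul_right (hc.mul_right hb))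
  · exact ((h1.sub_right hba).mul_right (hK.mul_right ha)).add_right (hb.mul_right hc)
  · exact (ha.mul_right (hK.mul_right (h1.sub_right hab))).add_right (hc.mul_right hb)
  · exact (ha.mul_right (hK.mul_right ha)).sub_right hc

theorem kos_create {r : ℕ} (hr : r ≤ N.R) {h k : LMat ι (GK q)} (F : HForm h k)
    (hh : GSup N r base h) (hk : GSup N r base k) {b : B} (hb : b ∈ depth N i r 4) :
    Commute (proj (GK q) (fun x : ι × Bool => base x.1) {b}) (kosF N i base h k) := by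
  have HK := gt_hform (N := N) (i := i) (base := base) F
  obtain ⟨c1, c2, c3, c4⟩ := (depth_chain (i := i) hr hh hk).main (proj_idem base _) HK.kh HK.hk
    (fun x => half_comm x) half_add
  set e : LMat ι (GK q) := proj (GK q) base {b} with he
  have ee : e * proj (GK q) base (depth N i r 4) = e :=
    proj_mul_proj base (Set.singleton_subset_iff.mpr hb)
  have d : ∀ {X Y : LMat ι (GK q)}, proj (GK q) base (depth N i r 4) * X =
      proj (GK q) base (depth N i r 4) * Y → e * X = e * Y := by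
    intro X Y hXY
    rw [← ee, mul_assoc, hXY, ← mul_assoc]
  have r1 : e * F11 h (gt i base k) (cutA N i base h) (cutB N i base k) = 0 := by
    have := d (c1.trans (mul_zero _).symm)
    rwa [mul_zero] at this
  have r2 : e * F12 h (gt i base k) (cutA N i base h) (cutB N i base k) = e := by
    have := d (c2.trans (mul_one _).symm)
    rwa [mul_one] at this
  have r3 : e * F21 h (gt i base k) (cutA N i base h) (cutB N i base k) = e := by
    have := d (c3.trans (mul_one _).symm)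
    rwa [mul_one] at this
  have r4 : e * F22 h (gt i base k) (cutA N i base h) (cutB N i base k) = 0 := by
    have := d (c4.trans (mul_zero _).symm)
    rwa [mul_zero] at this
  have key : blk e 0 0 e * kosF N i base h k = blk 0 e e 0 := by
    rw [kosF, FB, blk_mul]
    simp only [zero_mul, add_zero, zero_add, r1, r2, r3, r4]
  have key2 : kosF N i base h k * blk e 0 0 e = blk 0 e e 0 := by
    have h1 := congrArg star key
    rw [star_mul, (kos_hform F).h_star, blk_star, blk_star, he, proj_star, star_zero, ← he] at h1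
    exact h1
  rw [proj_blk, ← he]
  show _ * _ = _ * _
  rw [key, key2]

end Step

end Vale.Agent.P228.Kos
end
end

section

section

/-! # P228, block K: the Koszul step changes `s` by the first difference; main theorem -/

set_option linter.all false

namespace Vale.Agent.P228.Kos

open LMat

section

variable {p q : ℕ} [NeZero p] [NeZero q] {hpq : p ∣ q} {B ι : Type} {N : KRel p q hpq B}
  {i : Fin N.D} {base : ι → B}

theorem half_map {K L : Type} [Ring K] [Ring L] [Algebra ℂ K] [Algebra ℂ L] (f : K →+* L)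
    (hf : ∀ (z : ℂ) (x : K), f (z • x) = z • f x) :
    LMat.map f (half ι K) = half ι L := by
  rw [half, half, LMat.map_smul f id (fun z x => hf z x), map_one]
  rfl

theorem supp_blk' {K : Type} [Ring K] {E : B → B → Prop} {a b c d : LMat ι K}
    (ha : Top.Supp base E a) (hb : Top.Supp base E b)
    (hc : Top.Supp base E c) (hd : Top.Supp base E d) :
    Top.Supp (fun x : ι × Bool => base x.1) E (LMat.blk a b c d) := by
  rintro ⟨x, s⟩ ⟨y, t⟩ h
  rcases s <;> rcases t
  · exact ha x y h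
  · exact hb x y h
  · exact hc x y h
  · exact hd x y h

/-- supports of the words over the path ring -/
theorem path_supp {K : Type} [Ring K] {r : ℕ} (hr : 5 * r ≤ N.R) {h k H K' a b t u : LMat ι K}
    (ht : ∀ x, t * x = x * t) (hu : ∀ x, u * x = x * u)
    (htS : ∀ (T : LMat ι K) x y, T x y = 0 → (t * T) x y = 0)
    (huS : ∀ (T : LMat ι K) x y, T x y = 0 → (u * T) x y = 0)
    (hh : ASup N r base h) (hk : ASup N r base k) (hH : ASup N r base H) (hK : ASup N r base K')
    (ha : a = t * (proj K base (N.V i) * H * proj K base (N.V i)))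
    (hb : b = u * (proj K base (N.V i) * K' * proj K base (N.V i))) :
    Top.Supp (fun x : ι × Bool => base x.1) N.E (FB h K' a b) ∧
    Top.Supp (fun x : ι × Bool => base x.1) N.E (GB k H a b) := by
  have hw := VFil.words (V := aFil i base u huS) (r := r) (h := h) (k := k)
    (H := H) (K := K') (a := a) (b := b) (t := t) (u := u) (proj_idem base _) (fun x => hu x)
    hh hk hH hK (fun x => ht x) (fun x => hu x)
    (by
      intro r T hT x y h0
      apply hT x y
      intro h1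
      exact h0 (htS T x y h1))
    (fun hx => (aFil i base u huS).cmul hx) ha hb
  obtain ⟨f11, f12, f21, f22, g11, g12, g21, g22⟩ := hw
  exact ⟨supp_blk' (ASup.supp hr f11) (ASup.supp hr f12) (ASup.supp hr f21) (ASup.supp hr f22),
    supp_blk' (ASup.supp hr g11) (ASup.supp hr g12) (ASup.supp hr g21) (ASup.supp hr g22)⟩

theorem smul_one_comm {K : Type} [CommRing K] (z : K) (x : LMat ι K) :
    (z • (1 : LMat ι K)) * x = x * (z • (1 : LMat ι K)) := by
  rw [smul_mul_assoc, mul_smul_comm, one_mul, mul_one]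

theorem smul_one_zero {K : Type} [CommRing K] (z : K) (T : LMat ι K) (x y : ι) (h : T x y = 0) :
    ((z • (1 : LMat ι K)) * T) x y = 0 := by
  rw [smul_mul_assoc, one_mul, LMat.smul_apply, h, smul_zero]

theorem smul_one_star {K : Type} [CommRing K] [StarRing K] {z : K} (hz : star z = z) :
    star (z • (1 : LMat ι K)) = z • (1 : LMat ι K) := by
  rw [star_smul, star_one, hz]

theorem kos_diff {Crn : Set B} {s : Top.IntInv B} (S : Top.SProps N.E Crn s) (hf : FinFib base)
    {h k : LMat ι (GK q)} {r : ℕ} (F : HForm h k) (hh : GSup N r base h) (hk : GSup N r base k)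
    (hr : 5 * r ≤ N.R) (j : ℤ) :
    s (fun x : ι × Bool => base x.1) (LMat.map (evJ q p j) (kosF N i base h k))
        (LMat.map (evJ q p j) (kosG N i base h k)) =
      s base (LMat.map (evJ q p (j + 1)) h) (LMat.map (evJ q p (j + 1)) k) -
        s base (LMat.map (evJ q p j) h) (LMat.map (evJ q p j) k) := by
  have hE : ∀ b, N.E b b := fun b => ⟨0, N.mono (Nat.zero_le _) (N.refl b)⟩
  have hr1 : r ≤ N.R := by omega
  -- complex values
  set P : LMat ι ℂ := proj ℂ base (N.V i) with hP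
  set hj : LMat ι ℂ := LMat.map (evJ q p j) h with hhj
  set kj : LMat ι ℂ := LMat.map (evJ q p j) k with hkj
  set Hj : LMat ι ℂ := LMat.map (evJ q p j) (gt i base h) with hHj
  set Kj : LMat ι ℂ := LMat.map (evJ q p j) (gt i base k) with hKj
  have Fj : HForm hj kj := F.map (evJ q p j) (evJ_star j)
  have Gj : HForm Hj Kj := (gt_hform F).map (evJ q p j) (evJ_star j)
  have sh : ASup N r base hj := hh.aSup.map _
  have sk : ASup N r base kj := hk.aSup.map _
  have sH : ASup N r base Hj := (gt_gsup hh).aSup.map _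
  have sK : ASup N r base Kj := (gt_gsup hk).aSup.map _
  have eA : LMat.map (evJ q p j) (cutA N i base h) = P * Hj * P := by
    rw [cutA, map_mul, map_mul, proj_map]
  have eB : LMat.map (evJ q p j) (cutB N i base k) = ((1 / 2 : ℂ) • (1 : LMat ι ℂ)) * (P * Kj * P) := by
    rw [cutB, map_mul, map_mul, map_mul, proj_map, half_map (evJ q p j) (fun z x => rfl)]
    rfl
  have e1 : LMat.map (evJ q p j) (kosF N i base h k) =
      FB hj Kj (P * Hj * P) (((1 / 2 : ℂ) • (1 : LMat ι ℂ)) * (P * Kj * P)) := by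
    rw [kosF, FB_map, eA, eB]
  have e2 : LMat.map (evJ q p j) (kosG N i base h k) =
      GB kj Hj (P * Hj * P) (((1 / 2 : ℂ) • (1 : LMat ι ℂ)) * (P * Kj * P)) := by
    rw [kosG, GB_map, eA, eB]
  -- the path
  set PP : LMat ι PathK := proj PathK base (N.V i) with hPP
  set t : LMat ι PathK := tt • (1 : LMat ι PathK) with ht
  set u : LMat ι PathK := (tt * cst (1 / 2)) • (1 : LMat ι PathK) with hu
  set a : LMat ι PathK := t * (PP * LMat.map cst Hj * PP) with ha
  set b : LMat ι PathK := u * (PP * LMat.map cst Kj * PP) with hb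
  have Fp : HForm (LMat.map cst hj) (LMat.map cst kj) := Fj.map cst cst_star
  have Gp : HForm (LMat.map cst Hj) (LMat.map cst Kj) := Gj.map cst cst_star
  have sta : star a = a := half_star_gen (smul_one_star star_tt) (fun x => smul_one_comm _ x)
    (cut_star_gen (proj_star base _) Gp.h_star)
  have hst : star (tt * cst (1 / 2)) = tt * cst (1 / 2) := by
    rw [star_mul, star_tt, ← cst_star]
    have : star (1 / 2 : ℂ) = 1 / 2 := by simp only [one_div, star_inv₀, star_ofNat]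
    rw [this, mul_comm]
  have stb : star b = b := half_star_gen (smul_one_star hst) (fun x => smul_one_comm _ x)
    (cut_star_gen (proj_star base _) Gp.k_star)
  have Hp : HForm (FB (LMat.map cst hj) (LMat.map cst Kj) a b)
      (GB (LMat.map cst kj) (LMat.map cst Hj) a b) := hform_FB Fp Gp sta stb
  obtain ⟨s1, s2⟩ := path_supp (i := i) hr (t := t) (u := u) (a := a) (b := b)
    (fun x => smul_one_comm _ x) (fun x => smul_one_comm _ x)
    (fun T x y hT => smul_one_zero _ T x y hT) (fun T x y hT => smul_one_zero _ T x y hT)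
    (sh.map cst) (sk.map cst) (sH.map cst) (sK.map cst) rfl rfl
  have key := s_path S.path (finFib_prod hf) Hp s1 s2
  have mt : ∀ (z : ℝ), LMat.map (evI z) t = (z : ℂ) • (1 : LMat ι ℂ) := by
    intro z
    rw [ht, map_evI_smul, map_one]
    rfl
  have mu : ∀ (z : ℝ), LMat.map (evI z) u = ((z : ℂ) * (1 / 2)) • (1 : LMat ι ℂ) := by
    intro z
    rw [hu, map_evI_smul, map_one]
    rfl
  have ma : ∀ (z : ℝ), LMat.map (evI z) a = ((z : ℂ) • (1 : LMat ι ℂ)) * (P * Hj * P) := by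
    intro z
    rw [ha, map_mul, map_mul, map_mul, mt, proj_map, map_evI_cst]
  have mb : ∀ (z : ℝ), LMat.map (evI z) b =
      (((z : ℂ) * (1 / 2)) • (1 : LMat ι ℂ)) * (P * Kj * P) := by
    intro z
    rw [hb, map_mul, map_mul, map_mul, mu, proj_map, map_evI_cst]
  rw [FB_map, GB_map, FB_map, GB_map, ma, mb, ma, mb, map_evI_cst, map_evI_cst, map_evI_cst,
    map_evI_cst, map_evI_cst, map_evI_cst, map_evI_cst, map_evI_cst] at key
  simp only [Complex.ofReal_zero, Complex.ofReal_one, zero_smul', zero_mul, one_smul', one_mul] at key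
  rw [FB_zero, GB_zero] at key
  have A := S.add base hf Kj Hj (-hj) (-kj)
    (Gj.symm.toTop (sK.supp hr1) (sH.supp hr1))
    (Fj.neg.toTop (supp_neg (sh.supp hr1)) (supp_neg (sk.supp hr1)))
  have TF : Top.Form base N.E hj kj := Fj.toTop (sh.supp hr1) (sk.supp hr1)
  have Ng := S.neg base hf hj kj TF
  have I := s_inv S hE hf (Gj.toTop (sH.supp hr1) (sK.supp hr1))
  have F1 : HForm (LMat.map (evJ q p (j + 1)) h) (LMat.map (evJ q p (j + 1)) k) :=
    F.map (evJ q p (j + 1)) (evJ_star (j + 1))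
  have G := s_gauge S.path hf (F1.toTop (ASup.supp hr1 (hh.aSup.map _))
    (ASup.supp hr1 (hk.aSup.map _))) (gau_unit i base)
  rw [← evJ_gt, ← evJ_gt, ← hHj, ← hKj] at G
  rw [e1, e2, ← key, A, Ng, I, G]
  ring

end

/-- the Koszul step -/
theorem step : StepStatement := by
  intro p q _ _ hpq B N Crn s S i ι base h k r hf F hh hk hr
  refine ⟨kosF N i base h k, kosG N i base h k, kos_hform F, (kos_gsup hh hk).1,
    (kos_gsup hh hk).2, fun j => kos_diff S hf F hh hk hr j, ?_, ?_⟩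
  · intro b hb _
    have c1 := kos_persist (N := N) (i := i) F (commute_of_baseDiag F.h_star hb)
    exact ⟨baseDiagOn_of_commute c1,
      baseDiagOn_of_commute ((kos_hform (N := N) (i := i) (base := base) F).commute c1)⟩
  · intro b hb
    have c1 := kos_create (N := N) (i := i) (r := r) (by omega) F hh hk (b := b) (by
      intro y g hg
      exact hb y ⟨g, N.mono (by omega) hg⟩)
    exact ⟨baseDiagOn_of_commute c1,
      baseDiagOn_of_commute ((kos_hform (N := N) (i := i) (base := base) F).commute c1)⟩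

/-- **block K** -/
theorem koszul : K4Statement := koszul_of_step step

end Vale.Agent.P228.Kos
end
end

section

section

/-!
# P228, block [E]: `LocalNewman p (2 * m)` from the invariant

Blocks [K] (`Kos.koszul`), [G] + [L] (`Geo.exists_discData`), [C] + [A] (`formStatement`) and the
standard duality (`Std.cubDual`) are inserted; what is left is the integer invariant
(`InvStatement`) with its value on `σ = J ε`.
-/

namespace Vale.Agent.P228.Top

open Vale.Agent.P228.Kos Vale.Agent.P228.Geo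

/-- the standard form is supported in the one-step relation -/
theorem form_std (m : ℕ) {r : ℕ} (hr : 1 ≤ r) :
    Form pos (Close (n := 2 * m) r) (Std.sigma m) (Std.sigma' m) where
  herm := Std.star_sigma m
  mul := Std.sigma_mul m
  mul' := Std.mul_sigma m
  supp := fun _ _ h => close_mono hr fun i => by exact_mod_cast Std.sigma_supp m h i
  supp' := fun _ _ h => close_mono hr fun i => by exact_mod_cast Std.sigma'_supp m h i

/-- **local Newman theorem from the invariant** -/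
theorem localNewman_of_inv (p m : ℕ) [Fact p.Prime] (hm : 0 < m)
    (hS : InvStatement m (Std.sigma m) (Std.sigma' m)) : GR.LocalNewman p (2 * m) :=
  localNewman_even p m 50 3 _ _ _ _ (fun _ hr => form_std m hr) (finFib_pos _) (by omega)
    koszul hS (formStatement (Std.cubDual_spec m) le_rfl) fun C => exists_discData (by omega) 50 3 C

end Vale.Agent.P228.Top
end
end

section

section

section

open MeasureTheory Matrix Set Topology Bornology
open scoped ContDiff Manifold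

namespace Vale.Agent.P228

variable {n : ℕ}

lemma degR_excision {f : (Fin n → ℝ) → (Fin n → ℝ)} {W U : Set (Fin n → ℝ)} (hWb : IsBounded W)
    (hW : IsOpen W) (hf : ContinuousOn f (closure W)) (hU : IsOpen U) (hUW : U ⊆ W)
    (h : ∀ x ∈ closure W, f x = 0 → x ∈ U) :
    degR f W = degR f U := by
  have := degR_sum hWb hW hf ({()} : Finset Unit) (U := fun _ => U) (by simpa only [Finset.mem_singleton,
                                                                          forall_const] using hU)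
    (by simpa only [Finset.mem_singleton, forall_const] using hUW) (by simp) (fun x hx h0 => ⟨(), by simp only [Finset.mem_singleton], h x hx h0⟩)
  simpa using this

lemma degR_id_sub {W : Set (Fin n → ℝ)} (hWb : IsBounded W)
    (hW : IsOpen W) {y : Fin n → ℝ} (hy : y ∈ W) : degR (fun x => x - y) W = 1 := by
  have hf : ContDiff ℝ ∞ (fun x : Fin n → ℝ => x - y) := contDiff_id.sub contDiff_const
  have hd : ∀ x : Fin n → ℝ, (fderiv ℝ (fun x : Fin n → ℝ => x - y) x).det = 1 := by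
    intro x
    rw [fderiv_sub_const, fderiv_fun_id]
    exact LinearMap.det_id
  obtain ⟨Z, hZ, hZ'⟩ := degR_regular hf hW hWb (fun x hx h0 => by
    rw [hW.frontier_eq] at hx
    exact hx.2 (by rwa [sub_eq_zero.1 h0])) (fun x _ _ => by rw [hd]; norm_num)
  have hZe : Z = {y} := by
    ext z
    rw [hZ, Finset.mem_singleton]
    constructor
    · rintro ⟨-, h⟩; exact sub_eq_zero.1 h
    · rintro rfl; exact ⟨hy, sub_self _⟩
  rw [hZ', hZe, Finset.sum_singleton, hd, sg_pos one_pos]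
  norm_num

/-- composition with an invertible linear map -/
lemma degR_linear {k : (Fin n → ℝ) → (Fin n → ℝ)} {W : Set (Fin n → ℝ)} (hWb : IsBounded W)
    (hW : IsOpen W) (hk : ContinuousOn k (closure W)) (hfr : ∀ x ∈ frontier W, k x ≠ 0)
    (A : (Fin n → ℝ) →L[ℝ] (Fin n → ℝ)) (hA : A.det ≠ 0) :
    degR (fun x => A (k x)) W = sg A.det * degR k W := by
  obtain ⟨m, hm, hmb⟩ := exists_pos_lower_bound (frontier_compact hWb)
    (hk.mono frontier_subset_closure) hfr
  obtain ⟨g, hg, hgf, hreg⟩ := exists_regular_approx (closure_compact hWb) hk hm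
  have hAinj : ∀ v, A v = 0 → v = 0 := by
    intro v hv
    have h2 : (A.toContinuousLinearEquivOfDetNeZero hA) v = 0 := by
      rw [ContinuousLinearMap.toContinuousLinearEquivOfDetNeZero_apply, hv]
    exact (A.toContinuousLinearEquivOfDetNeZero hA).map_eq_zero_iff.1 h2
  have h1 : ∀ x ∈ frontier W, ∀ t ∈ Icc (0:ℝ) 1, (1 - t) • k x + t • g x ≠ 0 := by
    intro x hx t ht h0
    have h2 := (hgf x (frontier_subset_closure hx)).trans_le (hmb x hx)
    have h3 : k x = - (t • (g x - k x)) := by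
      have : (1 - t) • k x + t • g x = k x + t • (g x - k x) := by
        rw [smul_sub, sub_smul, one_smul]; abel
      rw [this] at h0
      exact eq_neg_of_add_eq_zero_left h0
    have h4 : ‖k x‖ = t * ‖g x - k x‖ := by
      calc ‖k x‖ = ‖- (t • (g x - k x))‖ := by rw [← h3]
        _ = _ := by rw [norm_neg, norm_smul, Real.norm_eq_abs, abs_of_nonneg ht.1]
    nlinarith only [ht.2, norm_nonneg (g x - k x), h2, h4]
  have hgfr : ∀ x ∈ frontier W, g x ≠ 0 := by
    intro x hx h0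
    exact h1 x hx 1 (by simp only [mem_Icc, zero_le_one, Std.le_refl, and_self]) (by simp [h0])
  have e1 : degR k W = degR g W :=
    degR_homotopy hW hWb hk hg.continuous.continuousOn h1
  have hAg : ContDiff ℝ ∞ (fun x => A (g x)) := A.contDiff.comp hg
  have e2 : degR (fun x => A (k x)) W = degR (fun x => A (g x)) W := by
    refine degR_homotopy hW hWb (A.continuous.comp_continuousOn hk) hAg.continuous.continuousOn ?_
    intro x hx t ht h0
    apply h1 x hx t ht
    apply hAinj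
    rw [map_add, map_smul, map_smul]
    exact h0
  obtain ⟨Z, hZ, hZ'⟩ := degR_regular hg hW hWb hgfr (fun x _ => hreg x)
  have hfd : ∀ x, (fderiv ℝ (fun x => A (g x)) x).det = A.det * (fderiv ℝ g x).det := by
    intro x
    have h2 : HasFDerivAt (fun x => A (g x)) (A.comp (fderiv ℝ g x)) x :=
      A.hasFDerivAt.comp x (hg.differentiable (by simp) x).hasFDerivAt
    rw [h2.fderiv]
    exact LinearMap.det_comp _ _
  obtain ⟨Z', hZ1, hZ1'⟩ := degR_regular hAg hW hWb
    (fun x hx h0 => hgfr x hx (hAinj _ h0)) (fun x _ h0 => by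
      rw [hfd]; exact mul_ne_zero hA (hreg x (hAinj _ h0)))
  have hZZ : Z' = Z := by
    ext z
    rw [hZ, hZ1]
    exact ⟨fun h => ⟨h.1, hAinj _ h.2⟩, fun h => ⟨h.1, by simp [h.2]⟩⟩
  rw [e1, e2, hZ', hZ1', hZZ, Finset.mul_sum]
  refine Finset.sum_congr rfl fun z _ => ?_
  rw [hfd, sg_mul]
  push_cast
  ring

/-- Brouwer degree on `Fin n → ℝ` -/
def HasDeg0 (f : (Fin n → ℝ) → (Fin n → ℝ)) (W : Set (Fin n → ℝ)) (y : Fin n → ℝ) (d : ℤ) :
    Prop :=
  IsOpen W ∧ IsBounded W ∧ ContinuousOn f (closure W) ∧ (∀ x ∈ frontier W, f x ≠ y) ∧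
    degR (fun x => f x - y) W = d

variable {f g : (Fin n → ℝ) → (Fin n → ℝ)} {W : Set (Fin n → ℝ)} {y : Fin n → ℝ} {d d' : ℤ}

lemma exists_hasDeg0 (hW : IsOpen W) (hb : IsBounded W)
    (hf : ContinuousOn f (closure W)) (hy : ∀ x ∈ frontier W, f x ≠ y) :
    ∃ d : ℤ, HasDeg0 f W y d := by
  obtain ⟨d, hd⟩ := degR_int (f := fun x => f x - y) hW hb (hf.sub continuousOn_const)
    (fun x hx h0 => hy x hx (sub_eq_zero.1 h0))
  exact ⟨d, hW, hb, hf, hy, hd⟩

lemma HasDeg0.unique (h : HasDeg0 f W y d) (h' : HasDeg0 f W y d') : d = d' := by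
  have := h.2.2.2.2.symm.trans h'.2.2.2.2
  exact_mod_cast this

lemma HasDeg0.homotopy (h : HasDeg0 f W y d) (hg : ContinuousOn g (closure W))
    (hH : ∀ x ∈ frontier W, ∀ t ∈ Icc (0:ℝ) 1, (1 - t) • f x + t • g x ≠ y) :
    HasDeg0 g W y d := by
  obtain ⟨hW, hb, hf, hy, hd⟩ := h
  refine ⟨hW, hb, hg, fun x hx h0 => hH x hx 1 (by simp only [mem_Icc, zero_le_one, Std.le_refl, and_self]) (by simpa using h0), ?_⟩
  rw [← hd]
  symm
  refine degR_homotopy hW hb (hf.sub continuousOn_const) (hg.sub continuousOn_const) ?_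
  intro x hx t ht h0
  apply hH x hx t ht
  have h1 : (1 - t) • (f x - y) + t • (g x - y) = ((1 - t) • f x + t • g x) - y := by
    simp only [smul_sub, sub_smul, one_smul]; abel
  rw [h1] at h0
  exact sub_eq_zero.1 h0

lemma HasDeg0.sum {ι : Type*} (s : Finset ι) {U : ι → Set (Fin n → ℝ)} {dd : ι → ℤ}
    (hW : IsOpen W) (hb : IsBounded W) (hf : ContinuousOn f (closure W))
    (hU : ∀ i ∈ s, U i ⊆ W) (hdisj : (s : Set ι).PairwiseDisjoint U)
    (hcov : ∀ x ∈ closure W, f x = y → ∃ i ∈ s, x ∈ U i)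
    (h : ∀ i ∈ s, HasDeg0 f (U i) y (dd i)) : HasDeg0 f W y (∑ i ∈ s, dd i) := by
  refine ⟨hW, hb, hf, fun x hx h0 => ?_, ?_⟩
  · obtain ⟨i, hi, hxi⟩ := hcov x (frontier_subset_closure hx) h0
    rw [hW.frontier_eq] at hx
    exact hx.2 (hU i hi hxi)
  · have h1 : degR (fun x => f x - y) W = ∑ i ∈ s, degR (fun x => f x - y) (U i) :=
      degR_sum hb hW (hf.sub continuousOn_const) s (fun i hi => (h i hi).1) hU hdisj
        (fun x hx h0 => hcov x hx (sub_eq_zero.1 h0))
    rw [h1]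
    push_cast
    exact Finset.sum_congr rfl fun i hi => (h i hi).2.2.2.2

lemma HasDeg0.of_id (hW : IsOpen W) (hb : IsBounded W) (hy : y ∈ W) :
    HasDeg0 (fun x => x) W y 1 := by
  refine ⟨hW, hb, continuousOn_id, fun x hx h0 => ?_, ?_⟩
  · rw [hW.frontier_eq] at hx
    have h1 : x = y := h0
    exact hx.2 (by rwa [h1])
  · rw [degR_id_sub hb hW hy]; norm_num

lemma HasDeg0.excision {U : Set (Fin n → ℝ)} (h : HasDeg0 f W y d) (hU : IsOpen U) (hUW : U ⊆ W)
    (hz : ∀ x ∈ closure W, f x = y → x ∈ U) : HasDeg0 f U y d := by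
  obtain ⟨hW, hb, hf, hy, hdd⟩ := h
  refine ⟨hU, hb.subset hUW, hf.mono (closure_mono hUW), fun x hx h0 => ?_, ?_⟩
  · have := hz x (closure_mono hUW (frontier_subset_closure hx)) h0
    rw [hU.frontier_eq] at hx
    exact hx.2 this
  · rw [← hdd]
    exact (degR_excision hb hW (hf.sub continuousOn_const) hU hUW
      (fun x hx h0 => hz x hx (sub_eq_zero.1 h0))).symm

end Vale.Agent.P228
end
end
end

section

section

section

open MeasureTheory Matrix Set Topology Bornology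
open scoped ContDiff Manifold

namespace Vale.Agent.P228

variable {n : ℕ}

lemma linear_approx {g : (Fin n → ℝ) → (Fin n → ℝ)} {z : Fin n → ℝ}
    (hg : DifferentiableAt ℝ g z) (hz : g z = 0) (hdet : (fderiv ℝ g z).det ≠ 0) :
    ∀ᶠ w in 𝓝 z, ‖g w - fderiv ℝ g z (w - z)‖ ≤ 1 / 2 * ‖fderiv ℝ g z (w - z)‖ := by
  set A := fderiv ℝ g z with hA
  have h1 : (fun w => g w - A (w - z)) =o[𝓝 z] fun w => w - z := by
    have := hg.hasFDerivAt.isLittleO
    simpa only [map_sub, Asymptotics.isLittleO_pi, Pi.sub_apply, hz, sub_zero] using this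
  have h2 : (fun w : Fin n → ℝ => w - z) =O[𝓝 z] fun w => A (w - z) := by
    set L := A.toContinuousLinearEquivOfDetNeZero hdet with hL
    have h3 : ∀ w, w - z = L.symm (A (w - z)) := by
      intro w
      have h4 : L (w - z) = A (w - z) :=
        ContinuousLinearMap.toContinuousLinearEquivOfDetNeZero_apply _ _ _
      rw [← h4, L.symm_apply_apply]
    refine Asymptotics.IsBigO.of_bound ‖(L.symm : (Fin n → ℝ) →L[ℝ] (Fin n → ℝ))‖ ?_
    refine Filter.Eventually.of_forall fun w => ?_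
    calc ‖w - z‖ = ‖L.symm (A (w - z))‖ := by rw [← h3 w]
      _ ≤ _ := (L.symm : (Fin n → ℝ) →L[ℝ] (Fin n → ℝ)).le_opNorm _
  exact (h1.trans_isBigO h2).def (by norm_num)

lemma no_zero_of_close {a b : Fin n → ℝ} (h : ‖a - b‖ ≤ 1 / 2 * ‖b‖) (hb : b ≠ 0) {t : ℝ}
    (ht : t ∈ Icc (0:ℝ) 1) : (1 - t) • a + t • b ≠ 0 := by
  intro h0
  have h1 : b = - ((1 - t) • (a - b)) := by
    have : (1 - t) • a + t • b = b + (1 - t) • (a - b) := by
      simp only [smul_sub, sub_smul, one_smul]; abel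
    rw [this] at h0
    exact eq_neg_of_add_eq_zero_left h0
  have h2 : ‖b‖ = (1 - t) * ‖a - b‖ := by
    calc ‖b‖ = ‖- ((1 - t) • (a - b))‖ := by rw [← h1]
      _ = _ := by
        rw [norm_neg, norm_smul, Real.norm_eq_abs, abs_of_nonneg (by linarith only [ht.2])]
  have h3 : 0 < ‖b‖ := norm_pos_iff.2 hb
  nlinarith only [ht.1, ht.2, h, h2, h3]

lemma closure_image_eq {T : (Fin n → ℝ) → (Fin n → ℝ)} {O : Set (Fin n → ℝ)}
    (hOb : IsBounded O) (hT : ContinuousOn T (closure O)) :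
    closure (T '' O) = T '' closure O := by
  apply Subset.antisymm
  · apply closure_minimal (image_mono subset_closure)
    exact ((closure_compact hOb).image_of_continuousOn hT).isClosed
  · rintro _ ⟨x, hx, rfl⟩
    exact (hT.mono (le_refl _)).image_closure ⟨x, hx, rfl⟩

lemma HasDeg0.comp {T f : (Fin n → ℝ) → (Fin n → ℝ)} {O : Set (Fin n → ℝ)} {y : Fin n → ℝ}
    {d : ℤ} (hT : ContinuousOn T (closure O))
    (hinj : InjOn T (closure O)) (hO : IsOpen O) (hOb : IsBounded O)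
    (hTO : IsOpen (T '' O)) (h1 : ∀ z ∈ T '' O, HasDeg0 T O z 1)
    (h : HasDeg0 f (T '' O) y d) : HasDeg0 (f ∘ T) O y d := by
  classical
  obtain ⟨-, hΩb, hf, hfy, hd⟩ := h
  set Ω := T '' O with hΩ
  have hcl : closure Ω = T '' closure O := closure_image_eq hOb hT
  have hmaps : ∀ x ∈ closure O, T x ∈ closure Ω := by
    intro x hx
    rw [hcl]
    exact ⟨x, hx, rfl⟩
  have hfro : ∀ x ∈ frontier O, T x ∈ frontier Ω := by
    intro x hx
    rw [hTO.frontier_eq]
    refine ⟨hmaps x (frontier_subset_closure hx), ?_⟩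
    rintro ⟨x', hx', hxx⟩
    rw [hO.frontier_eq] at hx
    have := hinj (subset_closure hx') hx.1 hxx
    exact hx.2 (this ▸ hx')
  have hpre : ∀ x ∈ closure O, T x ∈ Ω → x ∈ O := by
    rintro x hx ⟨x', hx', hxx⟩
    have := hinj (subset_closure hx') hx hxx
    exact this ▸ hx'
  have hfT : ContinuousOn (f ∘ T) (closure O) := hf.comp hT hmaps
  have hf' : ContinuousOn (fun x => f x - y) (closure Ω) := hf.sub continuousOn_const
  obtain ⟨m, hm, hmb⟩ := exists_pos_lower_bound (frontier_compact hΩb)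
    (hf'.mono frontier_subset_closure) (fun x hx h0 => hfy x hx (sub_eq_zero.1 h0))
  obtain ⟨g, hg, hgf, hreg⟩ := exists_regular_approx (closure_compact hΩb) hf' hm
  have hgc : Continuous g := hg.continuous
  have hgfr : ∀ x ∈ frontier Ω, g x ≠ 0 := by
    intro x hx h0
    have h2 := (hgf x (frontier_subset_closure hx)).trans_le (hmb x hx)
    rw [h0, zero_sub, norm_neg] at h2
    exact lt_irrefl _ h2
  have e1 : degR (fun x => f x - y) Ω = degR g Ω :=
    degR_close hTO hΩb hf' hgc.continuousOn fun x hx =>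
      (hgf x (frontier_subset_closure hx)).trans_le (hmb x hx)
  have e2 : degR (fun x => (f ∘ T) x - y) O = degR (fun x => g (T x)) O := by
    refine degR_close hO hOb (hfT.sub continuousOn_const) (hgc.comp_continuousOn hT) fun x hx => ?_
    have h2 := hfro x hx
    exact (hgf (T x) (frontier_subset_closure h2)).trans_le (hmb (T x) h2)
  obtain ⟨Z, hZ, hZd⟩ := degR_regular hg hTO hΩb hgfr (fun x _ => hreg x)
  -- disjoint small balls
  obtain ⟨U, hU, hUd⟩ := Z.finite_toSet.t2_separation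
  have hball : ∀ z ∈ Z, ∃ r > 0, Metric.closedBall z r ⊆ U z ∧
      ∀ w ∈ Metric.closedBall z r,
        ‖g w - fderiv ℝ g z (w - z)‖ ≤ 1 / 2 * ‖fderiv ℝ g z (w - z)‖ := by
    intro z hz
    have h2 := (hZ z).1 hz
    have h3 := Filter.inter_mem ((hU z).2.mem_nhds (hU z).1)
      (linear_approx (hg.differentiable (by simp) z) h2.2 (hreg z h2.2))
    obtain ⟨r, hr, hrs⟩ := Metric.nhds_basis_closedBall.mem_iff.1 h3
    exact ⟨r, hr, fun w hw => (hrs hw).1, fun w hw => (hrs hw).2⟩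
  choose! r hr hrU hrA using hball
  set P : (Fin n → ℝ) → Set (Fin n → ℝ) := fun z => O ∩ T ⁻¹' Metric.ball z (r z) with hP
  have hPo : ∀ z ∈ Z, IsOpen (P z) := fun z _ =>
    (hT.mono subset_closure).isOpen_inter_preimage hO Metric.isOpen_ball
  have hPcl : ∀ z ∈ Z, ∀ x ∈ closure (P z), x ∈ closure O ∧ T x ∈ Metric.closedBall z (r z) := by
    intro z hz x hx
    have hx1 : x ∈ closure O := closure_mono inter_subset_left hx
    refine ⟨hx1, ?_⟩
    have h2 : T x ∈ closure (T '' P z) :=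
      ((hT.mono (closure_mono inter_subset_left)).image_closure) ⟨x, hx, rfl⟩
    have h3 : closure (T '' P z) ⊆ Metric.closedBall z (r z) := by
      apply closure_minimal _ Metric.isClosed_closedBall
      rintro _ ⟨w, hw, rfl⟩
      exact Metric.ball_subset_closedBall hw.2
    exact h3 h2
  have hgT : ContinuousOn (fun x => g (T x)) (closure O) := hgc.comp_continuousOn hT
  have e3 : degR (fun x => g (T x)) O = ∑ z ∈ Z, degR (fun x => g (T x)) (P z) := by
    refine degR_sum hOb hO hgT Z hPo (fun z _ => inter_subset_left) ?_ ?_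
    · intro z hz w hw hzw
      have h2 := hUd hz hw hzw
      refine disjoint_left.2 fun x hx hx' => ?_
      exact disjoint_left.1 h2 (hrU z hz (Metric.ball_subset_closedBall hx.2))
        (hrU w hw (Metric.ball_subset_closedBall hx'.2))
    · intro x hx h0
      have h2 : T x ∈ Ω := by
        by_contra h3
        exact hgfr (T x) (by rw [hTO.frontier_eq]; exact ⟨hmaps x hx, h3⟩) h0
      have h3 : T x ∈ Z := (hZ _).2 ⟨h2, h0⟩
      exact ⟨T x, h3, hpre x hx h2, Metric.mem_ball_self (hr _ h3)⟩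
  refine ⟨hO, hOb, hfT, fun x hx => hfy (T x) (hfro x hx), ?_⟩
  rw [e2, e3, ← hd, e1, hZd]
  refine Finset.sum_congr rfl fun z hz => ?_
  have hz2 := (hZ z).1 hz
  have hPb : IsBounded (P z) := hOb.subset inter_subset_left
  have hclP : closure (P z) ⊆ closure O := closure_mono inter_subset_left
  -- `T x = z` only inside `P z`
  have hTz : ∀ x ∈ closure O, T x = z → x ∈ P z := by
    intro x hx hxz
    refine ⟨hpre x hx (hxz ▸ hz2.1), ?_⟩
    simp only [mem_preimage, hxz]
    exact Metric.mem_ball_self (hr z hz)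
  have hfrP : ∀ x ∈ frontier (P z), T x ≠ z := by
    intro x hx hxz
    have h2 := hTz x (hclP (frontier_subset_closure hx)) hxz
    rw [(hPo z hz).frontier_eq] at hx
    exact hx.2 h2
  set A := fderiv ℝ g z with hA
  have hAdet : A.det ≠ 0 := hreg z hz2.2
  have hAinj : ∀ v, v ≠ 0 → A v ≠ 0 := by
    intro v hv hv0
    apply hv
    have h2 : (A.toContinuousLinearEquivOfDetNeZero hAdet) v = 0 := by
      rw [ContinuousLinearMap.toContinuousLinearEquivOfDetNeZero_apply, hv0]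
    exact (A.toContinuousLinearEquivOfDetNeZero hAdet).map_eq_zero_iff.1 h2
  have hTc : ContinuousOn (fun x => T x - z) (closure (P z)) :=
    (hT.mono hclP).sub continuousOn_const
  have e4 : degR (fun x => g (T x)) (P z) = degR (fun x => A (T x - z)) (P z) := by
    refine degR_homotopy (hPo z hz) hPb (hgT.mono hclP) (A.continuous.comp_continuousOn hTc) ?_
    intro x hx t ht
    exact no_zero_of_close (hrA z hz (T x) (hPcl z hz x (frontier_subset_closure hx)).2)
      (hAinj _ (sub_ne_zero.2 (hfrP x hx))) ht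
  have e5 : degR (fun x => T x - z) (P z) = 1 := by
    have h2 := h1 z hz2.1
    have h3 := (h2.excision (hPo z hz) inter_subset_left hTz).2.2.2.2
    rw [h3]; norm_num
  rw [e4, degR_linear hPb (hPo z hz) hTc (fun x hx h0 => hfrP x hx (sub_eq_zero.1 h0)) A hAdet,
    e5, mul_one]

end Vale.Agent.P228
end
end
end

section

section

section

open MeasureTheory Matrix Set Topology Bornology
open scoped ContDiff Manifold

namespace Vale.Agent.P228

section Zero

variable {n : ℕ} {f : (Fin n → ℝ) → (Fin n → ℝ)} {W : Set (Fin n → ℝ)} {y : Fin n → ℝ} {d : ℤ}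

lemma HasDeg0.stable (h : HasDeg0 f W y d) : ∀ᶠ y' in 𝓝 y, HasDeg0 f W y' d := by
  obtain ⟨hW, hb, hf, hy, hd⟩ := h
  obtain ⟨m, hm, hmb⟩ := exists_pos_lower_bound (frontier_compact hb)
    ((hf.sub continuousOn_const).mono frontier_subset_closure)
    (fun x hx h0 => hy x hx (sub_eq_zero.1 h0))
  filter_upwards [Metric.ball_mem_nhds y hm] with y' hy'
  rw [mem_ball_iff_norm] at hy'
  have h1 : ∀ x ∈ frontier W, ‖(f x - y') - (f x - y)‖ < ‖f x - y‖ := by
    intro x hx
    have h2 : (f x - y') - (f x - y) = -(y' - y) := by abel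
    rw [h2, norm_neg]
    exact hy'.trans_le (hmb x hx)
  refine ⟨hW, hb, hf, fun x hx h0 => ?_, ?_⟩
  · have := h1 x hx
    rw [h0, sub_self, zero_sub, norm_neg] at this
    exact lt_irrefl _ this
  · rw [← hd]
    exact (degR_close hW hb (hf.sub continuousOn_const) (hf.sub continuousOn_const) h1).symm

end Zero

variable {E : Type*} [NormedAddCommGroup E] [NormedSpace ℝ E] [FiniteDimensional ℝ E]

/-- coordinates on a finite-dimensional space -/
noncomputable def coordL (E : Type*) [NormedAddCommGroup E] [NormedSpace ℝ E]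
    [FiniteDimensional ℝ E] : E ≃L[ℝ] (Fin (Module.finrank ℝ E) → ℝ) :=
  (Module.finBasis ℝ E).equivFunL

/-- `HasDeg f W y d` : `W` is a bounded open set, `f` is continuous on its closure, does not take
the value `y` on the frontier and its Brouwer degree over `y` is `d`. -/
def HasDeg (f : E → E) (W : Set E) (y : E) (d : ℤ) : Prop :=
  HasDeg0 (fun x => coordL E (f ((coordL E).symm x))) (coordL E '' W) (coordL E y) d

variable {f g : E → E} {W : Set E} {y : E} {d d' : ℤ}

lemma coordL_image_closure (W : Set E) : closure (coordL E '' W) = coordL E '' closure W :=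
  ((coordL E).toHomeomorph.image_closure W).symm

lemma coordL_image_frontier (W : Set E) : frontier (coordL E '' W) = coordL E '' frontier W :=
  ((coordL E).toHomeomorph.image_frontier W).symm

lemma coordL_isOpen {W : Set E} : IsOpen (coordL E '' W) ↔ IsOpen W :=
  (coordL E).toHomeomorph.isOpen_image

lemma coordL_isBounded {W : Set E} : IsBounded (coordL E '' W) ↔ IsBounded W := by
  constructor
  · intro h
    have h1 := (coordL E).symm.lipschitz.isBounded_image h
    have h2 : (coordL E).symm '' (coordL E '' W) = W := by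
      rw [← image_comp]; simp only [Function.comp_apply, ContinuousLinearEquiv.symm_apply_apply, image_id']
    rwa [h2] at h1
  · intro h
    exact (coordL E).lipschitz.isBounded_image h

lemma coordL_continuousOn {K : Set E} :
    ContinuousOn (fun x => coordL E (f ((coordL E).symm x))) (coordL E '' K) ↔
      ContinuousOn f K := by
  constructor
  · intro h
    have h1 : ContinuousOn (fun x => (coordL E).symm ((fun x => coordL E (f ((coordL E).symm x)))
        (coordL E x))) K :=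
      (coordL E).symm.continuous.comp_continuousOn
        (h.comp (coordL E).continuous.continuousOn (mapsTo_image _ _))
    simpa only [ContinuousLinearEquiv.symm_apply_apply] using h1
  · intro h
    refine (coordL E).continuous.comp_continuousOn
      (h.comp (coordL E).symm.continuous.continuousOn ?_)
    rintro _ ⟨x, hx, rfl⟩
    simpa using hx

theorem HasDeg.continuousOn (h : HasDeg f W y d) : ContinuousOn f (closure W) := by
  have := h.2.2.1
  rw [coordL_image_closure] at this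
  exact coordL_continuousOn.1 this

theorem HasDeg.ne (h : HasDeg f W y d) {x : E} (hx : x ∈ frontier W) : f x ≠ y := by
  intro h0
  apply h.2.2.2.1 (coordL E x)
  · rw [coordL_image_frontier]; exact mem_image_of_mem _ hx
  · simp only [ContinuousLinearEquiv.symm_apply_apply, h0]

theorem exists_hasDeg (hW : IsOpen W) (hb : IsBounded W)
    (hf : ContinuousOn f (closure W)) (hy : ∀ x ∈ frontier W, f x ≠ y) :
    ∃ d : ℤ, HasDeg f W y d := by
  refine exists_hasDeg0 (coordL_isOpen.2 hW) (coordL_isBounded.2 hb) ?_ ?_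
  · rw [coordL_image_closure]; exact coordL_continuousOn.2 hf
  · rw [coordL_image_frontier]
    rintro _ ⟨x, hx, rfl⟩ h0
    simp only [ContinuousLinearEquiv.symm_apply_apply] at h0
    exact hy x hx ((coordL E).injective h0)

theorem HasDeg.unique (h : HasDeg f W y d) (h' : HasDeg f W y d') : d = d' :=
  HasDeg0.unique h h'

/-- linear homotopy (only the frontier matters); in particular `HasDeg` only depends on the
values of `f` on the frontier -/
theorem HasDeg.homotopy (h : HasDeg f W y d) (hg : ContinuousOn g (closure W))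
    (hH : ∀ x ∈ frontier W, ∀ t ∈ Icc (0:ℝ) 1, (1 - t) • f x + t • g x ≠ y) :
    HasDeg g W y d := by
  refine HasDeg0.homotopy h ?_ ?_
  · rw [coordL_image_closure]; exact coordL_continuousOn.2 hg
  · rw [coordL_image_frontier]
    rintro _ ⟨x, hx, rfl⟩ t ht h0
    simp only [ContinuousLinearEquiv.symm_apply_apply] at h0
    rw [← map_smul, ← map_smul, ← map_add] at h0
    exact hH x hx t ht ((coordL E).injective h0)

theorem HasDeg.congr (h : HasDeg f W y d) (hg : ∀ x ∈ closure W, g x = f x) :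
    HasDeg g W y d := by
  refine h.homotopy (h.continuousOn.congr hg) ?_
  intro x hx t _ h0
  rw [hg x (frontier_subset_closure hx), ← add_smul] at h0
  apply h.ne hx
  simpa only [sub_add_cancel, one_smul] using h0

/-- additivity and excision -/
theorem HasDeg.sum {ι : Type*} (s : Finset ι) {U : ι → Set E} {dd : ι → ℤ}
    (hW : IsOpen W) (hb : IsBounded W) (hf : ContinuousOn f (closure W))
    (hU : ∀ i ∈ s, U i ⊆ W) (hdisj : (s : Set ι).PairwiseDisjoint U)
    (hcov : ∀ x ∈ closure W, f x = y → ∃ i ∈ s, x ∈ U i)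
    (h : ∀ i ∈ s, HasDeg f (U i) y (dd i)) : HasDeg f W y (∑ i ∈ s, dd i) := by
  refine HasDeg0.sum s (U := fun i => coordL E '' U i) (coordL_isOpen.2 hW)
    (coordL_isBounded.2 hb) ?_ (fun i hi => image_mono (hU i hi)) ?_ ?_ h
  · rw [coordL_image_closure]; exact coordL_continuousOn.2 hf
  · intro i hi j hj hij
    exact disjoint_image_of_injective (coordL E).injective (hdisj hi hj hij)
  · rw [coordL_image_closure]
    rintro _ ⟨x, hx, rfl⟩ h0
    simp only [ContinuousLinearEquiv.symm_apply_apply] at h0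
    obtain ⟨i, hi, hxi⟩ := hcov x hx ((coordL E).injective h0)
    exact ⟨i, hi, mem_image_of_mem _ hxi⟩

theorem HasDeg.excision {U : Set E} (h : HasDeg f W y d) (hU : IsOpen U) (hUW : U ⊆ W)
    (hz : ∀ x ∈ closure W, f x = y → x ∈ U) : HasDeg f U y d := by
  refine HasDeg0.excision h (coordL_isOpen.2 hU) (image_mono hUW) ?_
  rw [coordL_image_closure]
  rintro _ ⟨x, hx, rfl⟩ h0
  simp only [ContinuousLinearEquiv.symm_apply_apply] at h0
  exact mem_image_of_mem _ (hz x hx ((coordL E).injective h0))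

theorem HasDeg.of_id (hW : IsOpen W) (hb : IsBounded W) (hy : y ∈ W) :
    HasDeg (fun x : E => x) W y 1 := by
  have h := HasDeg0.of_id (coordL_isOpen.2 hW) (coordL_isBounded.2 hb) (mem_image_of_mem (coordL E) hy)
  unfold HasDeg
  simpa using h

/-- the degree is locally constant in the target point -/
theorem HasDeg.stable (h : HasDeg f W y d) : ∀ᶠ y' in 𝓝 y, HasDeg f W y' d := by
  have h1 := HasDeg0.stable h
  exact (coordL E).continuous.continuousAt.eventually h1

/-- invariance under composition with a map of local degree one -/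
theorem HasDeg.comp {T : E → E} {O : Set E} (hT : ContinuousOn T (closure O))
    (hinj : InjOn T (closure O)) (hO : IsOpen O) (hOb : IsBounded O)
    (hTO : IsOpen (T '' O)) (h1 : ∀ z ∈ T '' O, HasDeg T O z 1)
    (h : HasDeg f (T '' O) y d) : HasDeg (f ∘ T) O y d := by
  have himg : (fun x => coordL E (T ((coordL E).symm x))) '' (coordL E '' O)
      = coordL E '' (T '' O) := by
    rw [← image_comp, ← image_comp]
    simp [Function.comp_def]
  have h2 := HasDeg0.comp (T := fun x => coordL E (T ((coordL E).symm x)))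
    (f := fun x => coordL E (f ((coordL E).symm x))) (O := coordL E '' O) (y := coordL E y) (d := d)
    (by rw [coordL_image_closure]; exact coordL_continuousOn.2 hT)
    (by
      rw [coordL_image_closure]
      rintro _ ⟨x, hx, rfl⟩ _ ⟨x', hx', rfl⟩ h0
      simp only [ContinuousLinearEquiv.symm_apply_apply] at h0
      rw [hinj hx hx' ((coordL E).injective h0)])
    (coordL_isOpen.2 hO) (coordL_isBounded.2 hOb)
    (by rw [himg]; exact coordL_isOpen.2 hTO)
    (by
      rw [himg]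
      rintro _ ⟨z, hz, rfl⟩
      exact h1 z hz)
    (by rw [himg]; exact h)
  have h3 : ((fun x => coordL E (f ((coordL E).symm x))) ∘
      fun x => coordL E (T ((coordL E).symm x))) =
      fun x => coordL E ((f ∘ T) ((coordL E).symm x)) := by
    funext x
    simp
  rw [h3] at h2
  exact h2

end Vale.Agent.P228
end
end
end

section

section

section

set_option linter.unusedSectionVars false

open Set Topology Bornology

namespace Vale.Agent.P228

lemma exists_finite_approx0 {n : ℕ} {K : Set (Fin n → ℝ)} (hK : IsCompact K)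
    {f : (Fin n → ℝ) → (Fin n → ℝ)} (hf : ContinuousOn f K) {ε : ℝ} (hε : 0 < ε) :
    ∃ g : (Fin n → ℝ) → (Fin n → ℝ), Continuous g ∧ (∀ x ∈ K, ‖g x - f x‖ < ε) ∧
      {x | x ∈ K ∧ g x = 0}.Finite := by
  obtain ⟨g, hg, hgf, hreg⟩ := exists_regular_approx hK hf hε
  refine ⟨g, hg.continuous, hgf, ?_⟩
  have hZc : IsCompact (K ∩ g ⁻¹' {0}) :=
    hK.inter_right (isClosed_singleton.preimage hg.continuous)
  have h1 : ∀ z ∈ K ∩ g ⁻¹' {0}, ∃ V ∈ 𝓝 z, ∀ x ∈ V, g x = 0 → x = z := by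
    intro z hz
    have hz0 : g z = 0 := hz.2
    have h2 := linear_approx (hg.differentiable (by simp) z) hz0 (hreg z hz0)
    refine ⟨_, h2, fun x hx hx0 => ?_⟩
    have h3 : ‖g x - fderiv ℝ g z (x - z)‖ ≤ 1 / 2 * ‖fderiv ℝ g z (x - z)‖ := hx
    rw [hx0, zero_sub, norm_neg] at h3
    have h4 : ‖fderiv ℝ g z (x - z)‖ = 0 := by
      have := norm_nonneg (fderiv ℝ g z (x - z))
      linarith only [this, h3]
    rw [norm_eq_zero] at h4
    have h5 : (fderiv ℝ g z).toContinuousLinearEquivOfDetNeZero (hreg z hz0) (x - z) = 0 := by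
      rw [ContinuousLinearMap.toContinuousLinearEquivOfDetNeZero_apply]
      exact h4
    have h6 := (ContinuousLinearEquiv.map_eq_zero_iff _).1 h5
    exact sub_eq_zero.1 h6
  choose! V hV hV' using h1
  obtain ⟨t, ht, ht'⟩ := hZc.elim_nhds_subcover V hV
  refine t.finite_toSet.subset fun x hx => ?_
  obtain ⟨z, hz, hxz⟩ := mem_iUnion₂.1 (ht' hx)
  rw [hV' z (ht z hz) x hxz hx.2]
  exact hz

theorem exists_finite_approx {E : Type*} [NormedAddCommGroup E] [NormedSpace ℝ E]
    [FiniteDimensional ℝ E] {K : Set E} (hK : IsCompact K)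
    {f : E → E} (hf : ContinuousOn f K) {ε : ℝ} (hε : 0 < ε) (y : E) :
    ∃ g : E → E, Continuous g ∧ (∀ x ∈ K, ‖g x - f x‖ < ε) ∧ {x | x ∈ K ∧ g x = y}.Finite := by
  set L := coordL E with hL
  set C : ℝ := ‖(L.symm : (Fin (Module.finrank ℝ E) → ℝ) →L[ℝ] E)‖ + 1 with hC
  have hC0 : 0 < C := by positivity
  have hf' : ContinuousOn (fun v => L (f (L.symm v)) - L y) (L '' K) := by
    refine ContinuousOn.sub ?_ continuousOn_const
    exact coordL_continuousOn.2 hf
  obtain ⟨g, hg, hgf, hfin⟩ := exists_finite_approx0 (hK.image L.continuous) hf' (div_pos hε hC0)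
  refine ⟨fun x => L.symm (g (L x)) + y, by (clear K hK f hf ε hε hL C hC hC0 hf' hgf hfin; fun_prop), fun x hx => ?_, ?_⟩
  · have h1 := hgf (L x) (mem_image_of_mem _ hx)
    simp only [ContinuousLinearEquiv.symm_apply_apply] at h1
    have h2 : L.symm (g (L x)) + y - f x = L.symm (g (L x) - (L (f x) - L y)) := by
      rw [map_sub, map_sub, L.symm_apply_apply, L.symm_apply_apply]
      abel
    rw [h2]
    calc ‖L.symm (g (L x) - (L (f x) - L y))‖
        ≤ ‖(L.symm : (Fin (Module.finrank ℝ E) → ℝ) →L[ℝ] E)‖ * ‖g (L x) - (L (f x) - L y)‖ :=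
          (L.symm : (Fin (Module.finrank ℝ E) → ℝ) →L[ℝ] E).le_opNorm _
      _ ≤ C * ‖g (L x) - (L (f x) - L y)‖ := by
          gcongr
          linarith only []
      _ < C * (ε / C) := by (clear * - h1; gcongr)
      _ = ε := by field_simp
  · refine (hfin.image L.symm).subset ?_
    rintro x ⟨hx, hxy⟩
    refine ⟨L x, ⟨mem_image_of_mem _ hx, ?_⟩, L.symm_apply_apply x⟩
    have h3 : L.symm (g (L x)) = 0 := by simpa using hxy
    exact (ContinuousLinearEquiv.map_eq_zero_iff _).1 h3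

end Vale.Agent.P228
end
end
end

section

section

section

namespace Vale.Agent.P228

open Set Topology MeasureTheory Metric
open scoped ENNReal

variable {n : ℕ}

theorem gag_lt_top_of_gag' {f : EuclideanSpace ℝ (Fin n) → EuclideanSpace ℝ (Fin n)}
    {c : EuclideanSpace ℝ (Fin n)} {r s s₁ q q₁ : ℝ} (hs₁ : 0 < s₁) (hss : s₁ < s) (hq₁ : 1 ≤ q₁)
    (hqq : q₁ ≤ q) (hf : ContinuousOn f (ball c r)) (h : gag s q f (ball c r) < ⊤) :
    gag s₁ q₁ f (ball c r) < ⊤ := by
  rcases hqq.lt_or_eq with hlt | rfl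
  · exact gag_lt_top_of_gag (hs₁.trans hss).le hss hq₁ hlt hs₁.le hf h
  · have hq0 : 0 < q₁ := by linarith only [hq₁]
    have hpt : ∀ x ∈ ball c r, ∀ y ∈ ball c r,
        ENNReal.ofReal (‖f x - f y‖ ^ q₁ / ‖x - y‖ ^ ((n : ℝ) + s₁ * q₁)) ≤
        ENNReal.ofReal ((2 * r) ^ ((s - s₁) * q₁)) *
          ENNReal.ofReal (‖f x - f y‖ ^ q₁ / ‖x - y‖ ^ ((n : ℝ) + s * q₁)) := by
      intro x hx y hy
      have hr : 0 < r := pos_of_mem_ball hx
      rw [← ENNReal.ofReal_mul (by (clear * - hr; positivity))]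
      apply ENNReal.ofReal_le_ofReal
      rcases eq_or_ne x y with rfl | hne
      · rw [sub_self, norm_zero, Real.zero_rpow hq0.ne']
        simp only [sub_self, norm_zero, zero_div, mul_zero, Std.le_refl]
      · have h1 : 0 < ‖x - y‖ := norm_pos_iff.2 (sub_ne_zero.2 hne)
        have h2 : ‖x - y‖ ≤ 2 * r := by
          rw [mem_ball, dist_eq_norm] at hx hy
          calc ‖x - y‖ = ‖(x - c) - (y - c)‖ := by rw [sub_sub_sub_cancel_right]
            _ ≤ ‖x - c‖ + ‖y - c‖ := norm_sub_le _ _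
            _ ≤ 2 * r := by linarith only [hx, hy]
        have h3 : ‖x - y‖ ^ ((n : ℝ) + s * q₁) =
            ‖x - y‖ ^ ((n : ℝ) + s₁ * q₁) * ‖x - y‖ ^ ((s - s₁) * q₁) := by
          rw [← Real.rpow_add h1]
          congr 1
          ring
        have h4 : ‖x - y‖ ^ ((s - s₁) * q₁) ≤ (2 * r) ^ ((s - s₁) * q₁) :=
          Real.rpow_le_rpow h1.le h2 (mul_nonneg (by linarith only [hss]) hq0.le)
        have h5 : 0 < ‖x - y‖ ^ ((n : ℝ) + s₁ * q₁) := Real.rpow_pos_of_pos h1 _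
        have h6 : 0 < ‖x - y‖ ^ ((s - s₁) * q₁) := Real.rpow_pos_of_pos h1 _
        have h7 : 0 ≤ ‖f x - f y‖ ^ q₁ := Real.rpow_nonneg (norm_nonneg _) _
        rw [h3, mul_div_assoc', div_le_div_iff₀ h5 (mul_pos h5 h6)]
        have h8 := mul_le_mul_of_nonneg_left h4 (mul_nonneg h7 h5.le)
        nlinarith only [h8]
    calc gag s₁ q₁ f (ball c r) ≤ ∫⁻ x in ball c r, ∫⁻ y in ball c r,
          ENNReal.ofReal ((2 * r) ^ ((s - s₁) * q₁)) *
          ENNReal.ofReal (‖f x - f y‖ ^ q₁ / ‖x - y‖ ^ ((n : ℝ) + s * q₁)) := by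
          apply setLIntegral_mono' measurableSet_ball
          intro x hx
          apply setLIntegral_mono' measurableSet_ball
          intro y hy
          exact hpt x hx y hy
      _ = ENNReal.ofReal ((2 * r) ^ ((s - s₁) * q₁)) * gag s q₁ f (ball c r) := by
          simp_rw [lintegral_const_mul' _ _ ENNReal.ofReal_ne_top]
          rfl
      _ < ⊤ := ENNReal.mul_lt_top ENNReal.ofReal_lt_top h

/-- rational parameters -/
theorem exists_rat_params {s q : ℝ} (hs : 0 < s) (hq : 1 ≤ q)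
    (h : (n : ℝ) - 1 < s * min q (n + 1)) :
    ∃ a : ℚ × ℚ, 0 < (a.1 : ℝ) ∧ (a.1 : ℝ) < s ∧ 1 ≤ (a.2 : ℝ) ∧ (a.2 : ℝ) ≤ q ∧
      (a.2 : ℝ) ≤ n + 1 ∧ (n : ℝ) - 1 < a.1 * a.2 := by
  have hn : (0 : ℝ) ≤ n := Nat.cast_nonneg n
  have hm1 : 1 ≤ min q ((n : ℝ) + 1) := le_min hq (by linarith only [])
  rcases hm1.eq_or_lt with hm | hm
  · rw [← hm, mul_one] at h
    obtain ⟨a, ha1, ha2⟩ := exists_rat_btwn (show max 0 ((n : ℝ) - 1) < s from max_lt hs h)
    refine ⟨(a, 1), ?_, ha2, ?_, ?_, ?_, ?_⟩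
    · exact (le_max_left _ _).trans_lt ha1
    · simp
    · simpa only [Rat.cast_one] using hq
    · simp only [Rat.cast_one, le_add_iff_nonneg_left, hn]
    · simpa only [Rat.cast_one, mul_one] using (le_max_right _ _).trans_lt ha1
  · have h1 : ((n : ℝ) - 1) / s < min q (n + 1) := by
      rw [div_lt_iff₀ hs]; linarith only [h]
    obtain ⟨b, hb1, hb2⟩ := exists_rat_btwn (max_lt hm h1)
    have hb1' : (1 : ℝ) < b := (le_max_left _ _).trans_lt hb1
    have hb0 : (0 : ℝ) < b := by linarith only [hb1']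
    have h2 : ((n : ℝ) - 1) / b < s := by
      have := (le_max_right _ _).trans_lt hb1
      rw [div_lt_iff₀ hs] at this
      rw [div_lt_iff₀ hb0]; linarith only [this]
    obtain ⟨a, ha1, ha2⟩ := exists_rat_btwn (show max 0 (((n : ℝ) - 1) / b) < s from max_lt hs h2)
    have ha3 := (le_max_right _ _).trans_lt ha1
    rw [div_lt_iff₀ hb0] at ha3
    exact ⟨(a, b), (le_max_left _ _).trans_lt ha1, ha2, hb1'.le,
      hb2.le.trans (min_le_left _ _), hb2.le.trans (min_le_right _ _), ha3⟩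

/-- countable index set of admissible exponents -/
def AdmExp (n : ℕ) : Type :=
  {a : ℚ × ℚ // 0 < (a.1 : ℝ) ∧ 1 ≤ (a.2 : ℝ) ∧ (a.2 : ℝ) ≤ n + 1 ∧ (n : ℝ) - 1 < a.1 * a.2}

instance : Countable (AdmExp n) := by unfold AdmExp; infer_instance

/-- every supercritical map has finite energy for admissible rational exponents. -/
theorem SupercriticalAt.exists_adm {f : EuclideanSpace ℝ (Fin n) → EuclideanSpace ℝ (Fin n)}
    {a : EuclideanSpace ℝ (Fin n)} (h : SupercriticalAt n f a) (hf : ∀ᶠ x in 𝓝 a, ContinuousAt f x) :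
    ∃ b : AdmExp n, ∃ r > 0, gag (b.1.1 : ℝ) (b.1.2 : ℝ) f (ball a r) < ⊤ := by
  obtain ⟨r₀, hr₀, hfr₀⟩ := Metric.eventually_nhds_iff_ball.1 hf
  have hn : (0 : ℝ) ≤ n := Nat.cast_nonneg n
  have key : ∀ s q r : ℝ, 0 < s → 1 ≤ q → (n : ℝ) - 1 < s * min q (n + 1) → 0 < r →
      gag s q f (ball a r) < ∞ →
      ∃ b : AdmExp n, ∃ r > 0, gag (b.1.1 : ℝ) (b.1.2 : ℝ) f (ball a r) < ⊤ := by
    intro s q r hs hq hsq hr hE
    obtain ⟨b, hb1, hb2, hb3, hb4, hb5, hb6⟩ := exists_rat_params hs hq hsq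
    refine ⟨⟨b, hb1, hb3, hb5, hb6⟩, min r r₀, lt_min hr hr₀, ?_⟩
    apply gag_lt_top_of_gag' hb1 hb2 hb3 hb4
    · intro x hx
      exact (hfr₀ x (ball_subset_ball (min_le_right _ _) hx)).continuousWithinAt
    · exact (gag_mono _ _ _ (ball_subset_ball (min_le_left _ _))).trans_lt hE
  rcases h with ⟨s, q, r, hs0, -, hq, hsq, hr, hE⟩ | ⟨α, C, r, hα0, hα, hr, hH⟩ |
    ⟨q, r, hq, hqn, hr, G, hG, hGq⟩
  · exact key s q r hs0 hq hsq hr hE
  · obtain ⟨s, hs1, hs2⟩ := exists_between (max_lt hα0 hα)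
    have hs0 : 0 < s := (le_max_left _ _).trans_lt hs1
    have hs3 := (le_max_right _ _).trans_lt hs1
    rw [div_lt_iff₀ (by (clear * -; positivity))] at hs3
    apply key s (n + 1) r hs0 (by linarith only []) _ hr
    · exact gag_lt_top_of_holder hs2 (by linarith only []) hH
    · rw [min_self]; exact hs3
  · -- weak derivative
    set q' : ℝ := min q (n + 1) with hq'
    have hq'1 : 1 ≤ q' := le_min hq (by linarith only [])
    have hq'0 : 0 < q' := by linarith only [hq'1]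
    have hq'n : (n : ℝ) - 1 < q' := lt_min hqn (by linarith only [])
    obtain ⟨s, hs1, hs2⟩ := exists_between (show max 0 (((n : ℝ) - 1) / q') < 1 from
      max_lt one_pos (by rw [div_lt_one hq'0]; exact hq'n))
    have hs0 : 0 < s := (le_max_left _ _).trans_lt hs1
    have hs3 := (le_max_right _ _).trans_lt hs1
    rw [div_lt_iff₀ hq'0] at hs3
    set R := min r r₀ with hR
    have hR0 : 0 < R := lt_min hr hr₀
    apply key s q (R / 2) hs0 hq hs3 (by (clear * - hr hr₀; positivity))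
    apply gagliardo_of_weakGrad f G a (R / 2) R s q (by positivity) (by linarith only [hR0]) hs0 hs2 hq
    · intro x hx
      exact (hfr₀ x (ball_subset_ball (min_le_right _ _) hx)).continuousWithinAt
    · refine ⟨hG.1.mono_set (ball_subset_ball (min_le_left _ _)), ?_⟩
      intro η h1 h2 h3 v
      exact hG.2 η h1 h2 (h3.trans (ball_subset_ball (min_le_left _ _))) v
    · exact (lintegral_mono_set (ball_subset_ball (min_le_left _ _))).trans_lt hGq

end Vale.Agent.P228
end
end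
end

section

section

section

set_option linter.unusedSectionVars false

open Set Topology Bornology

namespace Vale.Agent.P228

variable {E : Type*} [NormedAddCommGroup E] [NormedSpace ℝ E] [FiniteDimensional ℝ E]

/-- data for the sector decomposition -/
structure Sect (V : Set E) (Φ : E → E) (y : E) (η : ℝ) (w : E → ℂ) (q : ℕ) (δ : ℝ) : Prop where
  hV : IsOpen V
  hVb : IsBounded V
  hfr : ∀ x ∈ frontier V, η ≤ ‖Φ x - y‖
  hw : ContinuousOn w (closure V)
  hw1 : ∀ x ∈ closure V, ‖w x‖ = 1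
  hq : 3 ≤ q
  hδ : q * δ = 2 * Real.pi

/-- admissible maps -/
structure Adm (V : Set E) (Φ : E → E) (y : E) (η : ℝ) (w : E → ℂ) (q : ℕ) (f : E → E) :
    Prop where
  cont : ContinuousOn f (closure V)
  close : ∀ x ∈ closure V, ‖f x - Φ x‖ < η
  ne : ∀ x ∈ closure V, w x ^ q = 1 → f x ≠ y

def Sec (V : Set E) (w : E → ℂ) (δ : ℝ) (k : ℤ) : Set E :=
  {x | x ∈ V ∧ ang δ k (w x) ∈ Ioo 0 δ}

noncomputable def mix (w : E → ℂ) (δ : ℝ) (k : ℤ) (f f' : E → E) (x : E) : E :=
  (1 - ang δ k (w x) / δ) • f x + (ang δ k (w x) / δ) • f' x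

variable {V : Set E} {Φ : E → E} {y : E} {η : ℝ} {w : E → ℂ} {q : ℕ} {δ : ℝ}

lemma Sect.δ_pos (S : Sect V Φ y η w q δ) : 0 < δ := by
  have h1 := S.hδ
  have h2 : (0:ℝ) < q := by
    have := S.hq
    exact_mod_cast (by omega : 0 < q)
  have h3 := Real.pi_pos
  by_contra h
  push Not at h
  nlinarith only [h1, h3, h]

lemma Sect.δ_lt (S : Sect V Φ y η w q δ) : δ < Real.pi := by
  have h1 := S.hδ
  have h2 : (3:ℝ) ≤ q := by exact_mod_cast S.hq
  have h3 := S.δ_pos
  have h4 := Real.pi_pos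
  nlinarith only [h1, h2, h3]

lemma convex_close {a b c : E} {η s : ℝ} (hs : s ∈ Icc (0:ℝ) 1) (ha : ‖a - c‖ < η)
    (hb : ‖b - c‖ < η) : ‖((1 - s) • a + s • b) - c‖ < η := by
  have h1 : ((1 - s) • a + s • b) - c = (1 - s) • (a - c) + s • (b - c) := by
    simp only [smul_sub, sub_smul, one_smul]; abel
  rw [h1]
  calc _ ≤ ‖(1 - s) • (a - c)‖ + ‖s • (b - c)‖ := norm_add_le _ _
    _ = (1 - s) * ‖a - c‖ + s * ‖b - c‖ := by
        rw [norm_smul, norm_smul, Real.norm_eq_abs, Real.norm_eq_abs, abs_of_nonneg hs.1,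
          abs_of_nonneg (by linarith only [hs.2])]
    _ < η := by
        rcases eq_or_lt_of_le hs.1 with h | h
        · rw [← h]; linarith only [ha]
        · nlinarith only [hs.2, ha, hb, h]

lemma ne_of_close {a c y : E} {η : ℝ} (h : ‖a - c‖ < η) (hc : η ≤ ‖c - y‖) : a ≠ y := by
  rintro rfl
  rw [norm_sub_rev] at h
  linarith

namespace Sect

lemma closure_Sec (S : Sect V Φ y η w q δ) {k : ℤ} {x : E} (hx : x ∈ closure (Sec V w δ k)) :
    x ∈ closure V ∧ ang δ k (w x) ∈ Icc 0 δ := by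
  set g : E → ℂ := fun x => w x * Complex.exp (-((k * δ : ℝ) : ℂ) * Complex.I) with hg
  have hgc : ContinuousOn g (closure V) := S.hw.mul continuousOn_const
  set C : Set ℂ := {z | 0 ≤ z.im ∧ Real.cos δ ≤ z.re} with hC
  have hCc : IsClosed C :=
    (isClosed_le continuous_const Complex.continuous_im).inter
      (isClosed_le continuous_const Complex.continuous_re)
  have h1 : IsClosed (closure V ∩ g ⁻¹' C) := hgc.preimage_isClosed_of_isClosed isClosed_closure hCc
  have h2 : Sec V w δ k ⊆ closure V ∩ g ⁻¹' C := by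
    intro z hz
    have hz1 := subset_closure hz.1
    refine ⟨hz1, ang_nonneg_iff.1 hz.2.1.le, ?_⟩
    apply (abs_ang_le_iff (S.hw1 z hz1) S.δ_pos.le S.δ_lt.le).1
    rw [abs_of_pos hz.2.1]
    exact hz.2.2.le
  have h3 := closure_minimal h2 h1 hx
  have h4 : 0 ≤ ang δ k (w x) := ang_nonneg_iff.2 h3.2.1
  have h5 := (abs_ang_le_iff (S.hw1 x h3.1) S.δ_pos.le S.δ_lt.le).2 h3.2.2
  rw [abs_of_nonneg h4] at h5
  exact ⟨h3.1, h4, h5⟩

lemma continuousWithinAt_ang (S : Sect V Φ y η w q δ) {k : ℤ} {x : E} (hx : x ∈ closure V)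
    (h : ang δ k (w x) ≠ Real.pi) :
    ContinuousWithinAt (fun x => ang δ k (w x)) (closure V) x := by
  have h1 : w x ≠ 0 := by
    intro h0
    have := S.hw1 x hx
    rw [h0, norm_zero] at this
    exact zero_ne_one this
  exact (continuousAt_ang h1 h).comp_continuousWithinAt (S.hw x hx)

lemma continuousAt_ang' (S : Sect V Φ y η w q δ) {k : ℤ} {x : E} (hx : x ∈ V)
    (h : ang δ k (w x) ≠ Real.pi) :
    ContinuousAt (fun x => ang δ k (w x)) x :=
  (S.continuousWithinAt_ang (subset_closure hx) h).continuousAt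
    (Filter.mem_of_superset (S.hV.mem_nhds hx) subset_closure)

lemma isOpen_Sec (S : Sect V Φ y η w q δ) (k : ℤ) : IsOpen (Sec V w δ k) := by
  rw [isOpen_iff_mem_nhds]
  intro x hx
  have h1 := S.continuousAt_ang' (k := k) hx.1 (by linarith [hx.2.2, S.δ_lt])
  exact Filter.inter_mem (S.hV.mem_nhds hx.1) (h1 (Ioo_mem_nhds hx.2.1 hx.2.2))

lemma Sec_subset (k : ℤ) : Sec V w δ k ⊆ V := fun _ hx => hx.1

lemma isBounded_Sec (S : Sect V Φ y η w q δ) (k : ℤ) : IsBounded (Sec V w δ k) :=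
  S.hVb.subset (Sec_subset k)

lemma frontier_Sec (S : Sect V Φ y η w q δ) {k : ℤ} {x : E} (hx : x ∈ frontier (Sec V w δ k)) :
    x ∈ closure V ∧ ang δ k (w x) ∈ Icc 0 δ ∧
      (x ∈ frontier V ∨ ang δ k (w x) = 0 ∨ ang δ k (w x) = δ) := by
  rw [(S.isOpen_Sec k).frontier_eq] at hx
  obtain ⟨h1, h2⟩ := S.closure_Sec hx.1
  refine ⟨h1, h2, ?_⟩
  by_cases hV : x ∈ V
  · right
    by_contra h3
    push Not at h3
    exact hx.2 ⟨hV, lt_of_le_of_ne h2.1 (Ne.symm h3.1), lt_of_le_of_ne h2.2 h3.2⟩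
  · left
    rw [S.hV.frontier_eq]
    exact ⟨h1, hV⟩

lemma continuousOn_mix (S : Sect V Φ y η w q δ) (k : ℤ) {f f' : E → E}
    (hf : ContinuousOn f (closure V)) (hf' : ContinuousOn f' (closure V)) :
    ContinuousOn (mix w δ k f f') (closure (Sec V w δ k)) := by
  intro x hx
  obtain ⟨h1, h2⟩ := S.closure_Sec hx
  have hsub : closure (Sec V w δ k) ⊆ closure V := closure_mono (Sec_subset k)
  have h3 : ContinuousWithinAt (fun x => ang δ k (w x)) (closure (Sec V w δ k)) x :=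
    (S.continuousWithinAt_ang h1 (by (clear f f' hf hf' hx h1 hsub; linarith [h2.2, S.δ_lt]))).mono hsub
  have h4 := (hf x h1).mono hsub
  have h5 := (hf' x h1).mono hsub
  exact ((continuousWithinAt_const.sub (h3.div_const δ)).smul h4).add ((h3.div_const δ).smul h5)

lemma ratio_mem (S : Sect V Φ y η w q δ) {s : ℝ} (hs : s ∈ Icc 0 δ) : s / δ ∈ Icc (0:ℝ) 1 :=
  ⟨div_nonneg hs.1 S.δ_pos.le, (div_le_one S.δ_pos).2 hs.2⟩

lemma mix_close (S : Sect V Φ y η w q δ) {k : ℤ} {f f' : E → E} {x : E}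
    (hf : ‖f x - Φ x‖ < η) (hf' : ‖f' x - Φ x‖ < η) (h : ang δ k (w x) ∈ Icc 0 δ) :
    ‖mix w δ k f f' x - Φ x‖ < η :=
  convex_close (S.ratio_mem h) hf hf'

lemma mix_ne (S : Sect V Φ y η w q δ) {k : ℤ} {f f' : E → E} (hf : Adm V Φ y η w q f)
    (hf' : Adm V Φ y η w q f') {x : E} (hx : x ∈ frontier (Sec V w δ k)) :
    mix w δ k f f' x ≠ y := by
  obtain ⟨h1, h2, h3⟩ := S.frontier_Sec hx
  rcases h3 with h3 | h3 | h3
  · exact ne_of_close (S.mix_close (hf.close x h1) (hf'.close x h1) h2) (S.hfr x h3)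
  · have h4 : w x ^ q = 1 := pow_eq_one_of_ang S.hδ (S.hw1 x h1) (j := 0) (by simpa using h3)
    have h5 : mix w δ k f f' x = f x := by simp [mix, h3]
    rw [h5]
    exact hf.ne x h1 h4
  · have h4 : w x ^ q = 1 := pow_eq_one_of_ang S.hδ (S.hw1 x h1) (j := 1) (by simpa using h3)
    have h5 : mix w δ k f f' x = f' x := by simp [mix, h3, S.δ_pos.ne']
    rw [h5]
    exact hf'.ne x h1 h4

lemma exists_D (S : Sect V Φ y η w q δ) (k : ℤ) {f f' : E → E} (hf : Adm V Φ y η w q f)
    (hf' : Adm V Φ y η w q f') : ∃ d : ℤ, HasDeg (mix w δ k f f') (Sec V w δ k) y d :=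
  exists_hasDeg (S.isOpen_Sec k) (S.isBounded_Sec k) (S.continuousOn_mix k hf.cont hf'.cont)
    (fun _ hx => S.mix_ne hf hf' hx)

end Sect

open Classical in
/-- the degree over a sector -/
noncomputable def DD (V : Set E) (y : E) (w : E → ℂ) (δ : ℝ) (k : ℤ) (f f' : E → E) : ℤ :=
  if h : ∃ d : ℤ, HasDeg (mix w δ k f f') (Sec V w δ k) y d then h.choose else 0

lemma DD_spec (S : Sect V Φ y η w q δ) (k : ℤ) {f f' : E → E} (hf : Adm V Φ y η w q f)
    (hf' : Adm V Φ y η w q f') :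
    HasDeg (mix w δ k f f') (Sec V w δ k) y (DD V y w δ k f f') := by
  have h := S.exists_D k hf hf'
  rw [DD, dif_pos h]
  exact h.choose_spec

lemma DD_period (S : Sect V Φ y η w q δ) (k m : ℤ) (f f' : E → E) :
    DD V y w δ (k + m * q) f f' = DD V y w δ k f f' := by
  have h1 : mix w δ (k + m * q) f f' = mix w δ k f f' := by
    funext x
    simp only [mix, ang_period' S.hδ]
  have h2 : Sec V w δ (k + m * q) = Sec V w δ k := by
    ext x
    simp only [Sec, ang_period' S.hδ]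
  unfold DD
  rw [h1, h2]

/-- the glued map near the wall `k` -/
noncomputable def glue (w : E → ℂ) (δ : ℝ) (k : ℤ) (f g f' : E → E) (x : E) : E :=
  (max (-(ang δ k (w x) / δ)) 0) • f x + (1 - |ang δ k (w x) / δ|) • g x
    + (max (ang δ k (w x) / δ) 0) • f' x

def Wall (V : Set E) (w : E → ℂ) (δ : ℝ) (k : ℤ) : Set E :=
  {x | x ∈ V ∧ |ang δ k (w x)| < δ}

namespace Sect

lemma closure_Wall (S : Sect V Φ y η w q δ) {k : ℤ} {x : E} (hx : x ∈ closure (Wall V w δ k)) :
    x ∈ closure V ∧ |ang δ k (w x)| ≤ δ := by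
  set g : E → ℂ := fun x => w x * Complex.exp (-((k * δ : ℝ) : ℂ) * Complex.I) with hg
  have hgc : ContinuousOn g (closure V) := S.hw.mul continuousOn_const
  set C : Set ℂ := {z | Real.cos δ ≤ z.re} with hC
  have hCc : IsClosed C := isClosed_le continuous_const Complex.continuous_re
  have h1 : IsClosed (closure V ∩ g ⁻¹' C) := hgc.preimage_isClosed_of_isClosed isClosed_closure hCc
  have h2 : Wall V w δ k ⊆ closure V ∩ g ⁻¹' C := by
    intro z hz
    have hz1 := subset_closure hz.1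
    exact ⟨hz1, (abs_ang_le_iff (S.hw1 z hz1) S.δ_pos.le S.δ_lt.le).1 hz.2.le⟩
  have h3 := closure_minimal h2 h1 hx
  exact ⟨h3.1, (abs_ang_le_iff (S.hw1 x h3.1) S.δ_pos.le S.δ_lt.le).2 h3.2⟩

lemma isOpen_Wall (S : Sect V Φ y η w q δ) (k : ℤ) : IsOpen (Wall V w δ k) := by
  rw [isOpen_iff_mem_nhds]
  intro x hx
  have h1 := S.continuousAt_ang' (k := k) hx.1
    (by linarith [hx.2, S.δ_lt, le_abs_self (ang δ k (w x))])
  exact Filter.inter_mem (S.hV.mem_nhds hx.1)
    ((continuous_abs.continuousAt.comp h1) (Iio_mem_nhds hx.2))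

lemma frontier_Wall (S : Sect V Φ y η w q δ) {k : ℤ} {x : E} (hx : x ∈ frontier (Wall V w δ k)) :
    x ∈ closure V ∧ |ang δ k (w x)| ≤ δ ∧
      (x ∈ frontier V ∨ ang δ k (w x) = -δ ∨ ang δ k (w x) = δ) := by
  rw [(S.isOpen_Wall k).frontier_eq] at hx
  obtain ⟨h1, h2⟩ := S.closure_Wall hx.1
  refine ⟨h1, h2, ?_⟩
  by_cases hV : x ∈ V
  · right
    have h3 : δ ≤ |ang δ k (w x)| := by
      by_contra h3
      push Not at h3
      exact hx.2 ⟨hV, h3⟩
    have h4 : |ang δ k (w x)| = δ := le_antisymm h2 h3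
    rcases (abs_eq S.δ_pos.le).1 h4 with h5 | h5
    · right; exact h5
    · left; exact h5
  · left
    rw [S.hV.frontier_eq]
    exact ⟨h1, hV⟩

lemma continuousOn_glue (S : Sect V Φ y η w q δ) (k : ℤ) {f g f' : E → E}
    (hf : ContinuousOn f (closure V)) (hg : ContinuousOn g (closure V))
    (hf' : ContinuousOn f' (closure V)) :
    ContinuousOn (glue w δ k f g f') (closure (Wall V w δ k)) := by
  intro x hx
  obtain ⟨h1, h2⟩ := S.closure_Wall hx
  have hsub : closure (Wall V w δ k) ⊆ closure V := closure_mono (fun _ h => h.1)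
  have h3 : ContinuousWithinAt (fun x => ang δ k (w x)) (closure (Wall V w δ k)) x :=
    (S.continuousWithinAt_ang h1
      (by linarith [h2, S.δ_lt, le_abs_self (ang δ k (w x))])).mono hsub
  have h4 := (hf x h1).mono hsub
  have h5 := (hg x h1).mono hsub
  have h6 := (hf' x h1).mono hsub
  have h7 := h3.div_const δ
  have h8 : ContinuousWithinAt (fun x => max (-(ang δ k (w x) / δ)) 0)
      (closure (Wall V w δ k)) x := h7.neg.sup continuousWithinAt_const
  have h9 : ContinuousWithinAt (fun x => max (ang δ k (w x) / δ) 0)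
      (closure (Wall V w δ k)) x := h7.sup continuousWithinAt_const
  exact ((h8.smul h4).add ((continuousWithinAt_const.sub h7.abs).smul h5)).add (h9.smul h6)

lemma ang_pred (S : Sect V Φ y η w q δ) {k : ℤ} {x : E} (hx : x ∈ closure V)
    (h : ang δ k (w x) ∈ Icc (-δ) 0) : ang δ (k - 1) (w x) = ang δ k (w x) + δ := by
  have h1 : ang δ k (w x) + ((1 : ℤ) : ℝ) * δ ∈ Ioc (-Real.pi) Real.pi := by
    have := S.δ_lt
    have := S.δ_pos
    push_cast
    constructor <;> linarith [h.1, h.2]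
  have := ang_shift (S.hw1 x hx) h1
  simpa only [Int.cast_one, one_mul] using this

lemma ang_succ (S : Sect V Φ y η w q δ) {k : ℤ} {x : E} (hx : x ∈ closure V)
    (h : ang δ (k - 1) (w x) ∈ Icc 0 δ) : ang δ k (w x) = ang δ (k - 1) (w x) - δ := by
  have h1 : ang δ (k - 1) (w x) + ((-1 : ℤ) : ℝ) * δ ∈ Ioc (-Real.pi) Real.pi := by
    have := S.δ_lt
    have := S.δ_pos
    push_cast
    constructor <;> linarith [h.1, h.2]
  have h2 := ang_shift (S.hw1 x hx) h1
  have h3 : k - 1 - (-1) = k := by ring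
  rw [h3] at h2
  rw [h2]
  push_cast
  ring

lemma glue_eq_right (S : Sect V Φ y η w q δ) {k : ℤ} {f g f' : E → E} {x : E}
    (h : ang δ k (w x) ∈ Icc 0 δ) : glue w δ k f g f' x = mix w δ k g f' x := by
  have h1 : 0 ≤ ang δ k (w x) / δ := div_nonneg h.1 S.δ_pos.le
  have h2 : max (-(ang δ k (w x) / δ)) 0 = 0 := max_eq_right (by linarith)
  have h3 : max (ang δ k (w x) / δ) 0 = ang δ k (w x) / δ := max_eq_left h1
  simp only [glue, mix, h2, h3, abs_of_nonneg h1, zero_smul, zero_add]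

lemma glue_eq_left (S : Sect V Φ y η w q δ) {k : ℤ} {f g f' : E → E} {x : E}
    (hx : x ∈ closure V) (h : ang δ k (w x) ∈ Icc (-δ) 0) :
    glue w δ k f g f' x = mix w δ (k - 1) f g x := by
  have h1 : ang δ k (w x) / δ ≤ 0 := div_nonpos_of_nonpos_of_nonneg h.2 S.δ_pos.le
  have h2 : max (-(ang δ k (w x) / δ)) 0 = -(ang δ k (w x) / δ) := max_eq_left (by linarith only [h1])
  have h3 : max (ang δ k (w x) / δ) 0 = 0 := max_eq_right h1
  have h4 : (ang δ k (w x) + δ) / δ = ang δ k (w x) / δ + 1 := by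
    rw [add_div, div_self S.δ_pos.ne']
  simp only [glue, mix, h2, h3, abs_of_nonpos h1, zero_smul, add_zero, S.ang_pred hx h, h4]
  congr 2 <;> ring

lemma mem_Sec_pred (S : Sect V Φ y η w q δ) {k : ℤ} {x : E} (hx : x ∈ V)
    (h : ang δ k (w x) ∈ Ioo (-δ) 0) : x ∈ Sec V w δ (k - 1) := by
  refine ⟨hx, ?_⟩
  rw [S.ang_pred (subset_closure hx) ⟨h.1.le, h.2.le⟩]
  constructor <;> linarith only [h.1, h.2]

/-- degree of the glued map over the wall neighbourhood -/
lemma hasDeg_glue (S : Sect V Φ y η w q δ) (k : ℤ) {f g f' : E → E} (hf : Adm V Φ y η w q f)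
    (hg : Adm V Φ y η w q g) (hf' : Adm V Φ y η w q f') :
    HasDeg (glue w δ k f g f') (Wall V w δ k) y
      (DD V y w δ (k - 1) f g + DD V y w δ k g f') := by
  have hWb : IsBounded (Wall V w δ k) := S.hVb.subset fun _ h => h.1
  have h := HasDeg.sum (W := Wall V w δ k) (f := glue w δ k f g f') (y := y)
    (Finset.univ : Finset Bool)
    (U := fun b => if b then Sec V w δ k else Sec V w δ (k - 1))
    (dd := fun b => if b then DD V y w δ k g f' else DD V y w δ (k - 1) f g)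
    (S.isOpen_Wall k) hWb (S.continuousOn_glue k hf.cont hg.cont hf'.cont) ?_ ?_ ?_ ?_
  · have h2 : ∑ b : Bool, (if b then DD V y w δ k g f' else DD V y w δ (k - 1) f g)
        = DD V y w δ (k - 1) f g + DD V y w δ k g f' := by
      rw [Fintype.sum_bool]
      simp [add_comm]
    rw [h2] at h
    exact h
  · intro b _ x hx
    cases b
    · simp only [Bool.false_eq_true, if_false] at hx
      have h1 := S.ang_succ (subset_closure hx.1) ⟨hx.2.1.le, hx.2.2.le⟩
      refine ⟨hx.1, ?_⟩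
      rw [h1, abs_lt]
      constructor <;> linarith only [hx.2.1, hx.2.2]
    · simp only [if_true] at hx
      exact ⟨hx.1, by rw [abs_of_pos hx.2.1]; exact hx.2.2⟩
  · have hdis : Disjoint (Sec V w δ k) (Sec V w δ (k - 1)) := by
      refine disjoint_left.2 fun x hx hx' => ?_
      have h1 := S.ang_succ (subset_closure hx'.1) ⟨hx'.2.1.le, hx'.2.2.le⟩
      have h2 := hx.2.1
      have h3 := hx'.2.2
      linarith only [h1, h2, h3]
    intro b _ b' _ hbb
    cases b <;> cases b'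
    · exact absurd rfl hbb
    · simpa [Function.onFun] using hdis.symm
    · simpa [Function.onFun] using hdis
    · exact absurd rfl hbb
  · intro x hx hxy
    obtain ⟨h1, h2⟩ := S.closure_Wall hx
    have h3 := abs_le.1 h2
    have hxV : x ∈ V := by
      by_contra hxV
      have hfx : x ∈ frontier V := by rw [S.hV.frontier_eq]; exact ⟨h1, hxV⟩
      rcases le_total 0 (ang δ k (w x)) with h4 | h4
      · rw [S.glue_eq_right ⟨h4, h3.2⟩] at hxy
        exact ne_of_close (S.mix_close (hg.close x h1) (hf'.close x h1) ⟨h4, h3.2⟩)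
          (S.hfr x hfx) hxy
      · rw [S.glue_eq_left h1 ⟨h3.1, h4⟩] at hxy
        refine ne_of_close (S.mix_close (hf.close x h1) (hg.close x h1) ?_) (S.hfr x hfx) hxy
        rw [S.ang_pred h1 ⟨h3.1, h4⟩]
        constructor <;> linarith only [h3, h4]
    rcases lt_trichotomy (ang δ k (w x)) 0 with h4 | h4 | h4
    · refine ⟨false, Finset.mem_univ _, ?_⟩
      simp only [Bool.false_eq_true, if_false]
      apply S.mem_Sec_pred hxV
      refine ⟨lt_of_le_of_ne h3.1 ?_, h4⟩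
      intro h5
      rw [S.glue_eq_left h1 ⟨h3.1, h4.le⟩] at hxy
      have h6 : w x ^ q = 1 :=
        pow_eq_one_of_ang S.hδ (S.hw1 x h1) (k := k) (j := -1) (by rw [← h5]; simp only [Int.reduceNeg, Int.cast_neg, Int.cast_one, neg_mul, one_mul])
      have h7 : mix w δ (k - 1) f g x = f x := by
        rw [mix, S.ang_pred h1 ⟨h3.1, h4.le⟩, ← h5]; simp
      rw [h7] at hxy
      exact hf.ne x h1 h6 hxy
    · exfalso
      rw [S.glue_eq_right ⟨h4.ge, h3.2⟩] at hxy
      have h6 : w x ^ q = 1 :=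
        pow_eq_one_of_ang S.hδ (S.hw1 x h1) (k := k) (j := 0) (by simpa using h4)
      have h7 : mix w δ k g f' x = g x := by simp only [mix, h4, zero_div, sub_zero, one_smul, zero_smul, add_zero]
      rw [h7] at hxy
      exact hg.ne x h1 h6 hxy
    · refine ⟨true, Finset.mem_univ _, ?_⟩
      simp only [if_true]
      refine ⟨hxV, h4, lt_of_le_of_ne h3.2 ?_⟩
      intro h5
      rw [S.glue_eq_right ⟨h4.le, h3.2⟩] at hxy
      have h6 : w x ^ q = 1 :=
        pow_eq_one_of_ang S.hδ (S.hw1 x h1) (k := k) (j := 1) (by simpa using h5)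
      have h7 : mix w δ k g f' x = f' x := by simp [mix, h5, S.δ_pos.ne']
      rw [h7] at hxy
      exact hf'.ne x h1 h6 hxy
  · intro b _
    cases b
    · simp only [Bool.false_eq_true, if_false]
      refine (DD_spec S (k - 1) hf hg).congr fun x hx => ?_
      obtain ⟨h1, h2⟩ := S.closure_Sec hx
      have h3 := S.ang_succ h1 h2
      exact S.glue_eq_left h1 ⟨by linarith only [h3, h2.1], by linarith [h2.2]⟩
    · simp only [if_true]
      refine (DD_spec S k hg hf').congr fun x hx => ?_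
      obtain ⟨h1, h2⟩ := S.closure_Sec hx
      exact S.glue_eq_right h2

lemma glue_affine {k : ℤ} {f g g' f' : E → E} {x : E} {t : ℝ} :
    (1 - t) • glue w δ k f g f' x + t • glue w δ k f g' f' x
      = glue w δ k f (fun z => (1 - t) • g z + t • g' z) f' x := by
  simp only [glue]
  module

/-- the crucial additivity relation -/
lemma DD_add (S : Sect V Φ y η w q δ) (k : ℤ) {f g g' f' : E → E} (hf : Adm V Φ y η w q f)
    (hg : Adm V Φ y η w q g) (hg' : Adm V Φ y η w q g') (hf' : Adm V Φ y η w q f') :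
    DD V y w δ (k - 1) f g + DD V y w δ k g f'
      = DD V y w δ (k - 1) f g' + DD V y w δ k g' f' := by
  have h1 := S.hasDeg_glue k hf hg hf'
  have h2 := S.hasDeg_glue k hf hg' hf'
  have h3 : HasDeg (glue w δ k f g' f') (Wall V w δ k) y
      (DD V y w δ (k - 1) f g + DD V y w δ k g f') := by
    refine h1.homotopy h2.continuousOn ?_
    intro x hx t ht
    obtain ⟨h4, h5, h6⟩ := S.frontier_Wall hx
    have h7 := abs_le.1 h5
    rw [glue_affine]
    have hc : ‖((1 - t) • g x + t • g' x) - Φ x‖ < η :=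
      convex_close ht (hg.close x h4) (hg'.close x h4)
    rcases h6 with h6 | h6 | h6
    · rcases le_total 0 (ang δ k (w x)) with h8 | h8
      · rw [S.glue_eq_right ⟨h8, h7.2⟩]
        exact ne_of_close (S.mix_close hc (hf'.close x h4) ⟨h8, h7.2⟩) (S.hfr x h6)
      · rw [S.glue_eq_left h4 ⟨h7.1, h8⟩]
        refine ne_of_close (S.mix_close (hf.close x h4) hc ?_) (S.hfr x h6)
        rw [S.ang_pred h4 ⟨h7.1, h8⟩]
        constructor <;> linarith only [h7, h8]
    · have hδ := S.δ_pos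
      have h9 : w x ^ q = 1 :=
        pow_eq_one_of_ang S.hδ (S.hw1 x h4) (k := k) (j := -1) (by rw [h6]; simp only [Int.reduceNeg, Int.cast_neg, Int.cast_one, neg_mul, one_mul])
      rw [S.glue_eq_left h4 ⟨h7.1, by linarith only [h6, hδ]⟩]
      have h10 : mix w δ (k - 1) f (fun z => (1 - t) • g z + t • g' z) x = f x := by
        rw [mix, S.ang_pred h4 ⟨h7.1, by linarith only [h6, hδ]⟩, h6]; simp
      rw [h10]
      exact hf.ne x h4 h9
    · have hδ := S.δ_pos
      have h9 : w x ^ q = 1 :=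
        pow_eq_one_of_ang S.hδ (S.hw1 x h4) (k := k) (j := 1) (by simpa using h6)
      rw [S.glue_eq_right ⟨by linarith only [h6, hδ], h7.2⟩]
      have h10 : mix w δ k (fun z => (1 - t) • g z + t • g' z) f' x = f' x := by
        simp only [mix, h6, ne_eq, hδ.ne', not_false_eq_true, div_self, sub_self, smul_add, zero_smul, add_zero, one_smul, zero_add]
      rw [h10]
      exact hf'.ne x h4 h9
  exact h3.unique h2

/-- if two maps are close on the walls then the degrees agree -/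
lemma DD_close (S : Sect V Φ y η w q δ) (k : ℤ) {f g g' : E → E} (hf : Adm V Φ y η w q f)
    (hg : Adm V Φ y η w q g) (hg' : Adm V Φ y η w q g')
    (h : ∀ x ∈ closure V, w x ^ q = 1 → ‖g' x - g x‖ < ‖g x - y‖) :
    DD V y w δ k f g = DD V y w δ k f g' := by
  have h1 := DD_spec S k hf hg
  have h2 := DD_spec S k hf hg'
  refine HasDeg.unique (h1.homotopy h2.continuousOn ?_) h2
  intro x hx t ht
  obtain ⟨h4, h5, h6⟩ := S.frontier_Sec hx
  have e1 : (1 - t) • mix w δ k f g x + t • mix w δ k f g' x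
      = mix w δ k f (fun z => (1 - t) • g z + t • g' z) x := by
    simp only [mix]
    module
  rw [e1]
  have hc : ‖((1 - t) • g x + t • g' x) - Φ x‖ < η :=
    convex_close ht (hg.close x h4) (hg'.close x h4)
  rcases h6 with h6 | h6 | h6
  · exact ne_of_close (S.mix_close (hf.close x h4) hc h5) (S.hfr x h6)
  · have h9 : w x ^ q = 1 :=
      pow_eq_one_of_ang S.hδ (S.hw1 x h4) (k := k) (j := 0) (by simpa using h6)
    have h10 : mix w δ k f (fun z => (1 - t) • g z + t • g' z) x = f x := by simp [mix, h6]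
    rw [h10]
    exact hf.ne x h4 h9
  · have h9 : w x ^ q = 1 :=
      pow_eq_one_of_ang S.hδ (S.hw1 x h4) (k := k) (j := 1) (by simpa using h6)
    have h10 : mix w δ k f (fun z => (1 - t) • g z + t • g' z) x = (1 - t) • g x + t • g' x := by
      simp [mix, h6, S.δ_pos.ne']
    rw [h10]
    intro h0
    have h11 := h x h4 h9
    have h12 : g x - y = -(t • (g' x - g x)) := by
      rw [← h0]
      module
    have h13 : ‖g x - y‖ = t * ‖g' x - g x‖ := by
      rw [h12, norm_neg, norm_smul, Real.norm_eq_abs, abs_of_nonneg ht.1]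
    nlinarith only [ht.2, norm_nonneg (g' x - g x), h11, h13]

/-- total degree as a sum over sectors -/
lemma sum_DD (S : Sect V Φ y η w q δ) {f : E → E} (hf : Adm V Φ y η w q f) {d : ℤ}
    (hd : HasDeg f V y d) :
    ∑ k ∈ Finset.range q, DD V y w δ (k : ℤ) f f = d := by
  have hmix : ∀ k : ℤ, mix w δ k f f = f := by
    intro k
    funext x
    simp only [mix]
    module
  have h := HasDeg.sum (W := V) (f := f) (y := y) (Finset.range q)
    (U := fun k => Sec V w δ (k : ℤ)) (dd := fun k => DD V y w δ (k : ℤ) f f)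
    S.hV S.hVb hf.cont (fun k _ => Sec_subset _) ?_ ?_ ?_
  · exact h.unique hd
  · intro k hk k' hk' hkk
    refine disjoint_left.2 fun x hx hx' => hkk ?_
    have hk1 : k < q := by simpa using hk
    have hk1' : k' < q := by simpa using hk'
    exact ang_disjoint S.δ_pos S.hδ (S.hw1 x (subset_closure hx.1)) hk1 hk1' hx.2 hx'.2
  · intro x hx hxy
    have hxV : x ∈ V := by
      by_contra hxV
      have hfx : x ∈ frontier V := by rw [S.hV.frontier_eq]; exact ⟨hx, hxV⟩
      exact ne_of_close (hf.close x hx) (S.hfr x hfx) hxy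
    obtain ⟨k, hk, hk'⟩ := exists_ang_mem (lt_of_lt_of_le (by norm_num) S.hq) S.δ_pos S.δ_lt.le
      S.hδ (S.hw1 x hx) (fun h => hf.ne x hx h hxy)
    exact ⟨k, hk, hxV, hk'⟩
  · intro k _
    have := DD_spec S (k : ℤ) hf hf
    rwa [hmix] at this

/-- the structure of sector degrees -/
lemma DD_structure (S : Sect V Φ y η w q δ) {f₀ : E → E} (h₀ : Adm V Φ y η w q f₀)
    (k : ℤ) {f f' : E → E} (hf : Adm V Φ y η w q f) (hf' : Adm V Φ y η w q f') :
    DD V y w δ k f f' = DD V y w δ k f₀ f₀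
      + (DD V y w δ k f₀ f' - DD V y w δ k f₀ f₀)
      - (DD V y w δ (k - 1) f₀ f - DD V y w δ (k - 1) f₀ f₀) := by
  have := S.DD_add k h₀ hf h₀ hf'
  linarith

end Sect

end Vale.Agent.P228
end
end
end

section

section

section

set_option linter.unusedSectionVars false

open Set Topology Bornology

namespace Vale.Agent.P228

variable {E : Type*} [NormedAddCommGroup E] [NormedSpace ℝ E] [FiniteDimensional ℝ E]

lemma periodic_sum (c : ℤ → ℤ) (q : ℕ) (h : ∀ k, c (k + q) = c k) (P : ℕ) :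
    ∑ k ∈ Finset.range (P * q), c (k : ℤ) = P * ∑ k ∈ Finset.range q, c (k : ℤ) := by
  have h' : ∀ (P : ℕ) (k : ℤ), c ((P * q : ℕ) + k) = c k := by
    intro P
    induction P with
    | zero => intro k; simp
    | succ P ih =>
      intro k
      have e : (((P + 1) * q : ℕ) : ℤ) + k = (((P * q : ℕ) : ℤ) + k) + q := by
        push_cast
        ring
      rw [e, h, ih k]
  induction P with
  | zero => simp
  | succ P ih =>
    rw [Nat.succ_mul, Finset.sum_range_add, ih]
    have : ∑ x ∈ Finset.range q, c ((P * q + x : ℕ) : ℤ) = ∑ x ∈ Finset.range q, c (x : ℤ) := by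
      apply Finset.sum_congr rfl
      intro x _
      rw [← h' P x]
      congr 1
    rw [this]
    push_cast
    ring

variable {V : Set E} {Φ : E → E} {y : E} {η : ℝ} {w : E → ℂ} {p : ℕ} {δ : ℝ}

lemma ang_rot (hp : 0 < p) (hδ : (3 * p : ℕ) * δ = 2 * Real.pi) (k : ℤ) (z : ℂ) :
    ang δ (k + 3) (Complex.exp (2 * Real.pi * Complex.I / p) * z) = ang δ k z := by
  have hp' : (p : ℂ) ≠ 0 := by exact_mod_cast hp.ne'
  have h1 : Complex.exp (2 * Real.pi * Complex.I / p) * z
      * Complex.exp (-(((k + 3 : ℤ) * δ : ℝ) : ℂ) * Complex.I)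
      = z * Complex.exp (-((k * δ : ℝ) : ℂ) * Complex.I) := by
    rw [mul_comm (Complex.exp _) z, mul_assoc, ← Complex.exp_add]
    congr 2
    have h2 : (3 * p : ℂ) * δ = 2 * Real.pi := by
      have : (((3 * p : ℕ) * δ : ℝ) : ℂ) = ((2 * Real.pi : ℝ) : ℂ) := by rw [hδ]
      push_cast at this
      exact this
    rw [← h2]
    field_simp
    push_cast
    ring
  rw [ang, ang, h1]

/-- data of a map `T` compatible with the sectors -/
structure Rot (V : Set E) (w : E → ℂ) (p : ℕ) (T : E → E) : Prop where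
  cont : ContinuousOn T (closure V)
  inj : InjOn T (closure V)
  maps : ∀ x ∈ V, T x ∈ V
  surj : ∀ x ∈ V, ∃ z ∈ V, T z = x
  rot : ∀ x ∈ closure V, w (T x) = Complex.exp (2 * Real.pi * Complex.I / p) * w x
  deg : ∀ O ⊆ V, IsOpen O → ∀ z ∈ T '' O, HasDeg T O z 1

lemma Rot.image_Sec (S : Sect V Φ y η w (3 * p) δ) {T : E → E} (hT : Rot V w p T) (k : ℤ) :
    T '' (Sec V w δ k) = Sec V w δ (k + 3) := by
  have hp : 0 < p := by have := S.hq; omega
  ext x
  constructor
  · rintro ⟨z, hz, rfl⟩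
    refine ⟨hT.maps z hz.1, ?_⟩
    rw [hT.rot z (subset_closure hz.1), ang_rot hp S.hδ]
    exact hz.2
  · intro hx
    obtain ⟨z, hz, rfl⟩ := hT.surj x hx.1
    refine ⟨z, ⟨hz, ?_⟩, rfl⟩
    have := hx.2
    rwa [hT.rot z (subset_closure hz), ang_rot hp S.hδ] at this

lemma Rot.DD_shift (S : Sect V Φ y η w (3 * p) δ) {T : E → E} (hT : Rot V w p T) (k : ℤ)
    {f f' g g' : E → E} (hf : Adm V Φ y η w (3 * p) f) (hf' : Adm V Φ y η w (3 * p) f')
    (hg : Adm V Φ y η w (3 * p) g) (hg' : Adm V Φ y η w (3 * p) g')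
    (h : ∀ x ∈ closure V, g (T x) = f x) (h' : ∀ x ∈ closure V, g' (T x) = f' x) :
    DD V y w δ (k + 3) g g' = DD V y w δ k f f' := by
  have hp : 0 < p := by have := S.hq; omega
  have hsub : closure (Sec V w δ k) ⊆ closure V := closure_mono (Sect.Sec_subset k)
  have h1 := DD_spec S (k + 3) hg hg'
  rw [← hT.image_Sec S k] at h1
  have h2 := HasDeg.comp (hT.cont.mono hsub) (hT.inj.mono hsub) (S.isOpen_Sec k)
    (S.isBounded_Sec k) (by rw [hT.image_Sec S k]; exact S.isOpen_Sec _)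
    (hT.deg _ (Sect.Sec_subset k) (S.isOpen_Sec k)) h1
  have h3 := DD_spec S k hf hf'
  refine h2.unique (h3.congr fun x hx => ?_)
  have hx' := hsub hx
  simp only [Function.comp, mix]
  rw [h x hx', h' x hx', hT.rot x hx', ang_rot hp S.hδ]

/-- The core contradiction. -/
theorem core (S : Sect V Φ y η w (3 * p) δ) {T : E → E} (hT : Rot V w p T)
    {f : ℤ → E → E} (hf : ∀ m, Adm V Φ y η w (3 * p) (f m))
    (hfT : ∀ m, ∀ x ∈ closure V, f (m + 1) (T x) = f m x)
    (hd : HasDeg (f 0) V y 1) {j : ℕ} (hp2 : 2 ≤ p)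
    (hconv : ∀ x ∈ closure V, w x ^ (3 * p) = 1 →
      ‖f ((p ^ (j + 1) : ℕ) : ℤ) x - f 0 x‖ < ‖f 0 x - y‖) : False := by
  set N : ℕ := p ^ (j + 1) with hN
  set D : ℤ → ℤ := fun k => DD V y w δ k (f (k / 3)) (f ((k + 1) / 3)) with hD
  have hD3 : ∀ k, D (k + (3 : ℕ)) = D k := by
    intro k
    have e1 : (k + (3 : ℕ)) / 3 = k / 3 + 1 := by
      push_cast; omega
    have e2 : (k + (3 : ℕ) + 1) / 3 = (k + 1) / 3 + 1 := by
      push_cast; (clear * -; omega)
    simp only [hD]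
    rw [e1, e2]
    exact hT.DD_shift S k (hf _) (hf _) (hf _) (hf _) (hfT _) (hfT _)
  have hsum1 := periodic_sum D 3 hD3 N
  set c : ℤ → ℤ := fun k => DD V y w δ k (f 0) (f 0) with hc
  have hcq : ∀ k, c (k + (3 * p : ℕ)) = c k := by
    intro k
    have := DD_period S k 1 (f 0) (f 0)
    simpa [hc] using this
  have hsum2 := periodic_sum c (3 * p) hcq (p ^ j)
  have hsum3 : ∑ k ∈ Finset.range (3 * p), c (k : ℤ) = 1 := S.sum_DD (hf 0) hd
  rw [hsum3] at hsum2
  set R : ℤ → (E → E) → ℤ := fun k g => DD V y w δ (k - 1) (f 0) g - DD V y w δ (k - 1) (f 0) (f 0)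
    with hR
  have hstr : ∀ k : ℤ, D k = c k + (R (k + 1) (f ((k + 1) / 3)) - R k (f (k / 3))) := by
    intro k
    have := S.DD_structure (hf 0) k (hf (k / 3)) (hf ((k + 1) / 3))
    simp only [hD, hc, hR]
    rw [this]
    have e : k + 1 - 1 = k := by ring
    rw [e]
    ring
  have hNq : N * 3 = p ^ j * (3 * p) := by
    rw [hN, pow_succ]; ring
  have htel : ∑ k ∈ Finset.range (N * 3), D (k : ℤ)
      = ∑ k ∈ Finset.range (N * 3), c (k : ℤ)
        + (R ((N * 3 : ℕ) : ℤ) (f (((N * 3 : ℕ) : ℤ) / 3)) - R 0 (f 0)) := by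
    have h1 : ∑ k ∈ Finset.range (N * 3), D (k : ℤ)
        = ∑ k ∈ Finset.range (N * 3), (c (k : ℤ)
          + ((fun i : ℕ => R (i : ℤ) (f ((i : ℤ) / 3))) (k + 1)
            - (fun i : ℕ => R (i : ℤ) (f ((i : ℤ) / 3))) k)) := by
      apply Finset.sum_congr rfl
      intro k _
      rw [hstr]
      push_cast
      rfl
    rw [h1, Finset.sum_add_distrib,
      Finset.sum_range_sub (fun i : ℕ => R (i : ℤ) (f ((i : ℤ) / 3)))]
    simp only [Nat.cast_mul, Nat.cast_ofNat, ne_eq, OfNat.ofNat_ne_zero, not_false_eq_true, mul_div_cancel_right₀, CharP.cast_eq_zero, EuclideanDomain.zero_div]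
  have hRN : R ((N * 3 : ℕ) : ℤ) (f (((N * 3 : ℕ) : ℤ) / 3)) = R 0 (f 0) := by
    have e1 : ((N * 3 : ℕ) : ℤ) / 3 = (N : ℤ) := by
      push_cast
      exact Int.mul_ediv_cancel _ (by norm_num)
    have e2 : ((N * 3 : ℕ) : ℤ) - 1 = (0 - 1) + (p ^ j : ℕ) * (3 * p : ℕ) := by
      rw [hNq]; push_cast; ring
    simp only [hR]
    rw [e1, e2, DD_period S, DD_period S]
    have := S.DD_close (0 - 1) (hf 0) (hf 0) (hf N) hconv
    rw [this]
  rw [htel, hRN, hNq, hsum2] at hsum1
  have h4 : (p : ℤ) ^ j * 1 = (p : ℤ) ^ j * ((p : ℤ) * ∑ k ∈ Finset.range 3, D (k : ℤ)) := by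
    have : ((p ^ j : ℕ) : ℤ) * 1 + (R 0 (f 0) - R 0 (f 0)) = (N : ℤ) * ∑ k ∈ Finset.range 3, D (k : ℤ) := hsum1
    rw [hN] at this
    push_cast at this
    rw [pow_succ] at this
    linarith
  have hpj : (p : ℤ) ^ j ≠ 0 := pow_ne_zero _ (by omega)
  have h5 := mul_left_cancel₀ hpj h4
  have h6 : (p : ℤ) ∣ 1 := ⟨_, h5⟩
  have h7 := Int.le_of_dvd one_pos h6
  omega

end Vale.Agent.P228
end
end
end

section

section

section

set_option linter.unusedSectionVars false

open Set Topology Bornology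

namespace Vale.Agent.P228

variable {E : Type*} [NormedAddCommGroup E] [NormedSpace ℝ E] [FiniteDimensional ℝ E]

/-- one can rotate away from a finite set -/
lemma exists_rot {Z : Set ℂ} (hZ : Z.Finite) {q : ℕ} (hq : 0 < q) :
    ∃ e : ℂ, ‖e‖ = 1 ∧ ∀ z ∈ Z, z ^ q ≠ e ^ q := by
  have hF : ((fun z : ℂ => z ^ q) '' Z).Finite := hZ.image _
  have h1 : InjOn (fun θ : ℝ => Complex.exp (θ * Complex.I)) (Ioc (-Real.pi) Real.pi) := by
    intro θ hθ θ' hθ' h
    have h2 : ∀ t ∈ Ioc (-Real.pi) Real.pi, Complex.arg (Complex.exp (t * Complex.I)) = t := by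
      intro t ht
      rw [Complex.arg_exp_mul_I, toIocMod_eq_self]
      exact ⟨ht.1, by have := ht.2; linarith only [this]⟩
    have h3 : Complex.exp (θ * Complex.I) = Complex.exp (θ' * Complex.I) := h
    rw [← h2 θ hθ, ← h2 θ' hθ', h3]
  have h2 : (Ioc (-Real.pi) Real.pi).Infinite := Ioc_infinite (by linarith only [Real.pi_pos])
  have h3 : ((fun θ : ℝ => Complex.exp (θ * Complex.I)) '' Ioc (-Real.pi) Real.pi).Infinite :=
    h2.image h1
  obtain ⟨s, hs, hsF⟩ := h3.exists_notMem_finite hF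
  obtain ⟨θ, -, hθ⟩ := hs
  have hq' : (q : ℂ) ≠ 0 := by exact_mod_cast hq.ne'
  refine ⟨Complex.exp ((θ / q : ℝ) * Complex.I), ?_, ?_⟩
  · exact Complex.norm_exp_ofReal_mul_I _
  · intro z hz h
    apply hsF
    refine ⟨z, hz, ?_⟩
    show z ^ q = s
    rw [h, ← hθ, ← Complex.exp_nat_mul]
    congr 1
    push_cast
    field_simp

variable {p : ℕ} [Fact p.Prime]

/-- The neighbourhood step: choose an invariant tube around the fibre. -/
lemma exists_tube {W : Set E} {a : ℤ_[p] → E → E} (hW : IsOpen W) (act : LocAct p W a)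
    {c₀ : E} {R : ℝ} (hball : Metric.closedBall c₀ R ⊆ W)
    {Φ : E → E} (hΦ : ContinuousOn Φ W) {y : E}
    (hF : ∀ x ∈ Metric.closedBall c₀ R, Φ x = y → ∀ u, a u x ∈ Metric.ball c₀ R)
    (hdegT : ∀ x ∈ Metric.ball c₀ R, Φ x = y → HasDeg (a 1) (Metric.ball c₀ R) (a 1 x) 1)
    {Γ : E → ℂ} (hΓ : ContinuousOn Γ W)
    (hΓ1 : ∀ x ∈ Metric.closedBall c₀ R, Φ x = y → ‖Γ x‖ = 1) :
    ∃ η > (0:ℝ), ∀ x ∈ Metric.closedBall c₀ R, ‖Φ x - y‖ ≤ η →
      x ∈ Metric.ball c₀ R ∧ 1 / 2 < ‖Γ x‖ ∧ (∀ u, a u x ∈ Metric.ball c₀ R) ∧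
        HasDeg (a 1) (Metric.ball c₀ R) (a 1 x) 1 := by
  set N' : Set E := {x | x ∈ Metric.ball c₀ R ∧ 1 / 2 < ‖Γ x‖ ∧
    (∀ u, a u x ∈ Metric.ball c₀ R) ∧ HasDeg (a 1) (Metric.ball c₀ R) (a 1 x) 1} with hN'
  have hnhds : ∀ x ∈ Metric.closedBall c₀ R, Φ x = y → N' ∈ 𝓝 x := by
    intro x hx hxy
    have hxW := hball hx
    have h0 := hF x hx hxy 0
    rw [act.zero x hxW] at h0
    have e1 : ∀ᶠ z in 𝓝 x, z ∈ Metric.ball c₀ R := Metric.isOpen_ball.mem_nhds h0
    have e2 : ∀ᶠ z in 𝓝 x, 1 / 2 < ‖Γ z‖ := by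
      have h1 : ContinuousAt (fun z => ‖Γ z‖) x := (hΓ.continuousAt (hW.mem_nhds hxW)).norm
      refine h1.eventually (Ioi_mem_nhds ?_)
      show 1 / 2 < ‖Γ x‖
      rw [hΓ1 x hx hxy]
      norm_num
    have e3 : ∀ᶠ z in 𝓝 x, ∀ u ∈ (univ : Set ℤ_[p]), a u z ∈ Metric.ball c₀ R := by
      refine isCompact_univ.eventually_forall_of_forall_eventually
        (P := fun z u => a u z ∈ Metric.ball c₀ R) ?_
      intro u _
      have h1 : ContinuousAt (Function.uncurry a) (u, x) :=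
        act.cont.continuousAt ((isOpen_univ.prod hW).mem_nhds ⟨mem_univ _, hxW⟩)
      have h2 : ContinuousAt (fun q : E × ℤ_[p] => Function.uncurry a (q.2, q.1)) (x, u) :=
        ContinuousAt.comp (x := (x, u)) (f := fun q : E × ℤ_[p] => (q.2, q.1)) h1
          (by fun_prop)
      exact h2.eventually (Metric.isOpen_ball.mem_nhds (hF x hx hxy u))
    have e4 : ∀ᶠ z in 𝓝 x, HasDeg (a 1) (Metric.ball c₀ R) (a 1 z) 1 := by
      have h1 : ContinuousAt (a 1) x := (continuousOn_act act 1).continuousAt (hW.mem_nhds hxW)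
      exact h1.eventually (hdegT x h0 hxy).stable
    filter_upwards [e1, e2, e3, e4] with z h1 h2 h3 h4
    exact ⟨h1, h2, fun u => h3 u (mem_univ _), h4⟩
  set K : Set E := Metric.closedBall c₀ R \ interior N' with hK
  have hKc : IsCompact K := (isCompact_closedBall c₀ R).diff isOpen_interior
  have hKcont : ContinuousOn (fun x => ‖Φ x - y‖) K :=
    ((hΦ.mono (sdiff_subset.trans hball)).sub continuousOn_const).norm
  rcases K.eq_empty_or_nonempty with hKe | hKne
  · refine ⟨1, one_pos, fun x hx _ => ?_⟩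
    have : x ∈ interior N' := by
      by_contra h
      have : x ∈ K := ⟨hx, h⟩
      rw [hKe] at this
      exact this
    have h2 : x ∈ N' := interior_subset this
    exact h2
  · obtain ⟨x₀, hx₀, hmin⟩ := hKc.exists_isMinOn hKne hKcont
    have hpos : 0 < ‖Φ x₀ - y‖ := by
      rw [norm_pos_iff, sub_ne_zero]
      intro h
      exact hx₀.2 (mem_interior_iff_mem_nhds.2 (hnhds x₀ hx₀.1 h))
    refine ⟨‖Φ x₀ - y‖ / 2, by (clear * - hpos; positivity), fun x hx hxη => ?_⟩
    have : x ∈ interior N' := by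
      by_contra h
      have h1 : ‖Φ x₀ - y‖ ≤ ‖Φ x - y‖ := hmin ⟨hx, h⟩
      linarith only [hpos, hxη, h1]
    have h2 : x ∈ N' := interior_subset this
    exact h2

theorem lemmaA {W : Set E} {a : ℤ_[p] → E → E} (hW : IsOpen W) (act : LocAct p W a)
    {c₀ : E} {R : ℝ} (hball : Metric.closedBall c₀ R ⊆ W)
    {Φ : E → E} (hΦ : ContinuousOn Φ W) (hΦinv : ∀ u, ∀ x ∈ W, Φ (a u x) = Φ x) {y : E}
    (hF : ∀ x ∈ Metric.closedBall c₀ R, Φ x = y → ∀ u, a u x ∈ Metric.ball c₀ R)
    (hdegΦ : HasDeg Φ (Metric.ball c₀ R) y 1)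
    (hdegT : ∀ x ∈ Metric.ball c₀ R, Φ x = y → HasDeg (a 1) (Metric.ball c₀ R) (a 1 x) 1)
    {γ : E → ℂ} (hγ : ContinuousOn γ (Metric.closedBall c₀ R ∩ Φ ⁻¹' {y}))
    (hγ1 : ∀ x ∈ Metric.closedBall c₀ R, Φ x = y → ‖γ x‖ = 1)
    (hγeq : ∀ x ∈ Metric.closedBall c₀ R, Φ x = y →
      γ (a 1 x) = Complex.exp (2 * Real.pi * Complex.I / p) * γ x) : False := by
  have hp2 : 2 ≤ p := (Fact.out : p.Prime).two_le
  have hp0 : 0 < p := by omega
  -- equivariant extension
  set K : Set E := Metric.closedBall c₀ R ∩ Φ ⁻¹' {y} with hK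
  have hKcl : IsClosed K :=
    (hΦ.mono hball).preimage_isClosed_of_isClosed Metric.isClosed_closedBall isClosed_singleton
  have hKW : K ⊆ W := inter_subset_left.trans hball
  have hKa : ∀ u, ∀ x ∈ K, a u x ∈ K := by
    intro u x hx
    refine ⟨Metric.ball_subset_closedBall (hF x hx.1 hx.2 u), ?_⟩
    show Φ (a u x) = y
    rw [hΦinv u x (hball hx.1)]
    exact hx.2
  obtain ⟨Γ, hΓ, hΓe, hΓK⟩ := exists_equivariant act hKcl hKW hKa hγ
    (fun x hx => by rw [chi_one]; exact hγeq x hx.1 hx.2)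
  obtain ⟨η, hη, htube⟩ := exists_tube hW act hball hΦ hF hdegT hΓ
    (fun x hx hxy => by rw [hΓK x ⟨hx, hxy⟩]; exact hγ1 x hx hxy)
  -- the tube
  set V : Set E := Metric.ball c₀ R ∩ Φ ⁻¹' Metric.ball y η with hVdef
  have hbW : Metric.ball c₀ R ⊆ W := Metric.ball_subset_closedBall.trans hball
  have hV : IsOpen V := (hΦ.mono hbW).isOpen_inter_preimage Metric.isOpen_ball Metric.isOpen_ball
  have hVmem : ∀ x, x ∈ V ↔ x ∈ Metric.ball c₀ R ∧ ‖Φ x - y‖ < η := by
    intro x
    simp only [hVdef, mem_inter_iff, mem_ball_iff_norm, mem_preimage]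
  have hclV : ∀ x ∈ closure V, x ∈ Metric.closedBall c₀ R ∧ ‖Φ x - y‖ ≤ η := by
    have h1 : IsClosed (Metric.closedBall c₀ R ∩ Φ ⁻¹' Metric.closedBall y η) :=
      (hΦ.mono hball).preimage_isClosed_of_isClosed Metric.isClosed_closedBall
        Metric.isClosed_closedBall
    have h2 : closure V ⊆ Metric.closedBall c₀ R ∩ Φ ⁻¹' Metric.closedBall y η := by
      apply closure_minimal _ h1
      exact inter_subset_inter Metric.ball_subset_closedBall
        (preimage_mono Metric.ball_subset_closedBall)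
    intro x hx
    refine ⟨(h2 hx).1, ?_⟩
    rw [← mem_closedBall_iff_norm]
    exact (h2 hx).2
  have htV : ∀ x ∈ closure V, x ∈ Metric.ball c₀ R ∧ 1 / 2 < ‖Γ x‖ ∧
      (∀ u, a u x ∈ Metric.ball c₀ R) ∧ HasDeg (a 1) (Metric.ball c₀ R) (a 1 x) 1 :=
    fun x hx => htube x (hclV x hx).1 (hclV x hx).2
  have hclW : closure V ⊆ W := fun x hx => hball (hclV x hx).1
  have hVa : ∀ u, MapsTo (a u) V V := by
    intro u x hx
    rw [hVmem]
    refine ⟨(htV x (subset_closure hx)).2.2.1 u, ?_⟩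
    rw [hΦinv u x (hclW (subset_closure hx))]
    exact ((hVmem x).1 hx).2
  have hVa' : ∀ u, MapsTo (a u) (closure V) (closure V) := fun u =>
    (hVa u).closure_of_continuousOn ((continuousOn_act act u).mono hclW)
  have hVb : IsBounded V := Metric.isBounded_ball.subset inter_subset_left
  have hfr : ∀ x ∈ frontier V, η ≤ ‖Φ x - y‖ := by
    intro x hx
    rw [hV.frontier_eq] at hx
    by_contra h
    push Not at h
    exact hx.2 ((hVmem x).2 ⟨(htV x hx.1).1, h⟩)
  have hVc : IsCompact (closure V) := Metric.isCompact_of_isClosed_isBounded isClosed_closure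
    hVb.closure
  have hdegV : HasDeg Φ V y 1 := by
    refine hdegΦ.excision hV inter_subset_left ?_
    intro x hx hxy
    have hx' := Metric.closure_ball_subset_closedBall hx
    have := (htube x hx' (by rw [hxy, sub_self, norm_zero]; exact hη.le)).1
    rw [hVmem]
    exact ⟨this, by rw [hxy, sub_self, norm_zero]; exact hη⟩
  -- finite approximation
  obtain ⟨g, hg, hgΦ, hgfin⟩ := exists_finite_approx hVc (hΦ.mono hclW) hη y
  -- rotation
  obtain ⟨e, he, heZ⟩ := exists_rot (hgfin.image (fun x => Γ x / (‖Γ x‖ : ℂ)))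
    (q := 3 * p) (by omega)
  have he0 : e ≠ 0 := by
    intro h
    rw [h, norm_zero] at he
    exact zero_ne_one he
  have hΓ0 : ∀ x ∈ closure V, ‖Γ x‖ ≠ 0 := by
    intro x hx
    have := (htV x hx).2.1
    linarith only [this]
  set w : E → ℂ := fun x => Γ x / (‖Γ x‖ : ℂ) * e⁻¹ with hw
  have hwc : ContinuousOn w (closure V) := by
    have h1 := hΓ.mono hclW
    refine (h1.div (Complex.continuous_ofReal.comp_continuousOn h1.norm) ?_).mul continuousOn_const
    intro x hx
    have h2 : ((‖Γ x‖ : ℝ) : ℂ) ≠ 0 := Complex.ofReal_ne_zero.2 (hΓ0 x hx)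
    exact h2
  have hw1 : ∀ x ∈ closure V, ‖w x‖ = 1 := by
    intro x hx
    simp only [hw]
    rw [norm_mul, norm_inv, he, norm_div, Complex.norm_real, norm_norm, div_self (hΓ0 x hx)]
    norm_num
  have hwe : ∀ u, ∀ x ∈ closure V, w (a u x) = chi p u * w x := by
    intro u x hx
    simp only [hw]
    rw [hΓe u x (hclW hx), norm_mul, norm_chi, one_mul]
    ring
  have hwne : ∀ x ∈ closure V, w x ^ (3 * p) = 1 → g x ≠ y := by
    intro x hx hx1 hxy
    have h1 := heZ (Γ x / (‖Γ x‖ : ℂ)) ⟨x, ⟨hx, hxy⟩, rfl⟩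
    apply h1
    simp only [hw] at hx1
    rw [mul_pow, inv_pow] at hx1
    field_simp at hx1
    exact hx1
  -- sectors
  set δ : ℝ := 2 * Real.pi / (3 * p : ℕ) with hδ
  have S : Sect V Φ y η w (3 * p) δ := by
    refine ⟨hV, hVb, hfr, hwc, hw1, by omega, ?_⟩
    rw [hδ]
    have : ((3 * p : ℕ) : ℝ) ≠ 0 := by exact_mod_cast (by omega : 3 * p ≠ 0)
    field_simp
  have hRot : Rot V w p (a 1) := by
    refine ⟨(continuousOn_act act 1).mono hclW, (injOn_act act 1).mono hclW, hVa 1, ?_, ?_, ?_⟩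
    · intro x hx
      refine ⟨a (-1) x, hVa _ hx, ?_⟩
      have hxW := hclW (subset_closure hx)
      rw [← act.add 1 (-1) x hxW, add_neg_cancel, act.zero x hxW]
    · intro x hx
      rw [hwe 1 x hx, chi_one]
    · intro O hO hOo z hz
      obtain ⟨x, hx, rfl⟩ := hz
      have h1 := (htV x (subset_closure (hO hx))).2.2.2
      refine h1.excision hOo (hO.trans inter_subset_left) ?_
      intro x' hx' hxx
      have h2 := injOn_act act 1 (hball (Metric.closure_ball_subset_closedBall hx'))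
        (hclW (subset_closure (hO hx))) hxx
      rw [h2]
      exact hx
  set f : ℤ → E → E := fun m x => g (a ((-m : ℤ) : ℤ_[p]) x) with hf
  have hfA : ∀ m, Adm V Φ y η w (3 * p) (f m) := by
    intro m
    refine ⟨?_, ?_, ?_⟩
    · exact hg.comp_continuousOn ((continuousOn_act act _).mono hclW)
    · intro x hx
      have h1 := hgΦ (a ((-m : ℤ) : ℤ_[p]) x) (hVa' _ hx)
      rwa [hΦinv _ x (hclW hx)] at h1
    · intro x hx hx1
      apply hwne _ (hVa' _ hx)
      rw [hwe _ x hx, mul_pow, hx1, mul_comm 3 p, pow_mul, chi_pow]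
      simp
  have hfT : ∀ m, ∀ x ∈ closure V, f (m + 1) (a 1 x) = f m x := by
    intro m x hx
    simp only [hf]
    rw [← act.add _ _ x (hclW hx)]
    congr 2
    push_cast
    ring
  have hf0 : ∀ x ∈ closure V, f 0 x = g x := by
    intro x hx
    simp only [hf]
    rw [neg_zero, Int.cast_zero, act.zero x (hclW hx)]
  have hd0 : HasDeg (f 0) V y 1 := by
    refine hdegV.homotopy (hfA 0).cont ?_
    intro x hx t ht
    have hx' := frontier_subset_closure hx
    refine ne_of_close (convex_close ht (a := Φ x) ?_ ((hfA 0).close x hx')) (hfr x hx)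
    rw [sub_self, norm_zero]
    exact hη
  -- convergence
  have hconv : ∃ j : ℕ, ∀ x ∈ closure V, w x ^ (3 * p) = 1 →
      ‖f ((p ^ (j + 1) : ℕ) : ℤ) x - f 0 x‖ < ‖f 0 x - y‖ := by
    set C : Set E := closure V ∩ (fun x => w x ^ (3 * p)) ⁻¹' {1} with hC
    have hCcl : IsClosed C :=
      (hwc.pow _).preimage_isClosed_of_isClosed isClosed_closure isClosed_singleton
    have hCc : IsCompact C := hVc.of_isClosed_subset hCcl inter_subset_left
    obtain ⟨m, hm, hmC⟩ : ∃ m > (0:ℝ), ∀ x ∈ C, m ≤ ‖g x - y‖ := by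
      rcases C.eq_empty_or_nonempty with h | h
      · exact ⟨1, one_pos, by rw [h]; simp only [mem_empty_iff_false, IsEmpty.forall_iff, implies_true]⟩
      · obtain ⟨x₀, hx₀, hmin⟩ := hCc.exists_isMinOn h
          ((hg.sub continuous_const).norm.continuousOn (s := C))
        refine ⟨‖g x₀ - y‖, ?_, fun x hx => hmin hx⟩
        rw [gt_iff_lt, norm_pos_iff, sub_ne_zero]
        exact hwne x₀ hx₀.1 hx₀.2
    have h1 : ∀ᶠ u in 𝓝 (0 : ℤ_[p]), ∀ x ∈ closure V, ‖g (a u x) - g x‖ < m := by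
      refine hVc.eventually_forall_of_forall_eventually
        (P := fun u x => ‖g (a u x) - g x‖ < m) ?_
      intro x hx
      have hxW := hclW hx
      have h1 : ContinuousAt (Function.uncurry a) ((0 : ℤ_[p]), x) :=
        act.cont.continuousAt ((isOpen_univ.prod hW).mem_nhds ⟨mem_univ _, hxW⟩)
      have h2 : ContinuousAt (fun q : ℤ_[p] × E => ‖g (Function.uncurry a q) - g q.2‖)
          ((0 : ℤ_[p]), x) := by
        have h3 : ContinuousAt (fun q : ℤ_[p] × E => g (Function.uncurry a q)) ((0 : ℤ_[p]), x) :=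
          ContinuousAt.comp (x := ((0 : ℤ_[p]), x)) hg.continuousAt h1
        have h4 : ContinuousAt (fun q : ℤ_[p] × E => g q.2) ((0 : ℤ_[p]), x) := by
          exact (hg.comp continuous_snd).continuousAt
        exact (h3.sub h4).norm
      refine h2.eventually (Iio_mem_nhds ?_)
      simp [act.zero x hxW, hm]
    have h2 : Filter.Tendsto (fun j : ℕ => ((-((p ^ (j + 1) : ℕ) : ℤ) : ℤ) : ℤ_[p]))
        Filter.atTop (𝓝 0) := by
      have h3 : Filter.Tendsto (fun j : ℕ => (p : ℤ_[p]) ^ j) Filter.atTop (𝓝 0) := by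
        rw [tendsto_zero_iff_norm_tendsto_zero]
        have h4 : ∀ j : ℕ, ‖(p : ℤ_[p]) ^ j‖ = ((p : ℝ)⁻¹) ^ j := by
          intro j
          rw [norm_pow, PadicInt.norm_p]
        simp only [h4]
        apply tendsto_pow_atTop_nhds_zero_of_lt_one (by positivity)
        apply inv_lt_one_of_one_lt₀
        exact_mod_cast (Fact.out : p.Prime).one_lt
      have h4 := ((Filter.tendsto_add_atTop_iff_nat 1).2 h3).neg
      rw [neg_zero] at h4
      refine h4.congr fun j => ?_
      push_cast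
      rfl
    obtain ⟨j, hj⟩ := (h2.eventually h1).exists
    refine ⟨j, fun x hx hx1 => ?_⟩
    have h3 := hj x hx
    have h4 := hmC x ⟨hx, hx1⟩
    rw [hf0 x hx]
    exact h3.trans_le h4
  obtain ⟨j, hj⟩ := hconv
  exact core S hRot hfA hfT hd0 hp2 hj

end Vale.Agent.P228
end
end
end

section

section

section

namespace Vale.Agent.P228

open Set Topology MeasureTheory Metric
open scoped ENNReal

attribute [local instance] msZ bsZ

set_option linter.unusedSectionVars false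

variable {p : ℕ} [Fact p.Prime]

/-- The local theorem: if the averaged map is linearly homotopic to the identity near the sphere
and almost every coordinate slice has zero `(n+1)`-dimensional content for the averaged distance,
then the local action is trivial near `c`. -/
theorem local_fixed {E : Type*} [NormedAddCommGroup E] [NormedSpace ℝ E] [FiniteDimensional ℝ E]
    {W : Set E} {a : ℤ_[p] → E → E} (hW : IsOpen W) (act : LocAct p W a)
    {c : E} {s₁ s₂ η η' : ℝ} (hs1 : 0 < s₁) (hs12 : s₁ < s₂) (hη' : 0 < η') (hηη' : η' ≤ η)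
    (hη's : η' ≤ s₂)
    (hball : closedBall c s₂ ⊆ W)
    (hc1 : ∀ z ∈ closedBall c s₂, s₁ ≤ dist z c → ∀ t ∈ Icc (0 : ℝ) 1,
      η ≤ ‖(1 - t) • z + t • avgMap a z - c‖)
    (hc2 : ∀ z ∈ closedBall c s₂, s₁ ≤ dist z c → ∀ t ∈ Icc (0 : ℝ) 1,
      η ≤ ‖(1 - t) • z + t • a 1 z - c‖)
    (hb : ∀ u, ∀ x ∈ ball c s₁, a u x ∈ ball c s₂)
    (hd : ∀ x ∈ closedBall c s₂, ‖avgMap a x - c‖ < η' → ∀ u, ‖a u x - c‖ < η)
    {ι : Type*} [Countable ι] (θ : ι → E → ℝ) (hθ : ∀ i, ContinuousOn (θ i) (closedBall c s₂))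
    (hθsep : ∀ x ∈ closedBall c s₂, ∀ y ∈ closedBall c s₂, x ≠ y → ∃ i, θ i x ≠ θ i y)
    (hnull : ∀ i, ∀ᵐ t : ℝ, SNull ((Module.finrank ℝ E : ℝ) + 1) (dist1 a)
      {x | x ∈ closedBall c s₂ ∧ θ i x = t}) :
    ∀ y ∈ ball c η', ∀ u, a u y = y := by
  classical
  borelize E
  have hE : ProperSpace E := FiniteDimensional.proper_real E
  have hC : CompleteSpace E := FiniteDimensional.complete ℝ E
  have hs2 : 0 < s₂ := hs1.trans hs12
  have hcW : c ∈ W := hball (mem_closedBall_self hs2.le)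
  -- orbit distances
  obtain ⟨xs, hxsW, hxsd⟩ := exists_dense_seq_dist1 act ⟨c, hcW⟩
  -- the exceptional null set
  obtain ⟨T, T', hT, hT', hae⟩ := fiber_cut (Measure.addHaar : Measure E) (dist1 a)
    (closedBall c s₂) θ (fun k : ℕ => odist a (xs k)) (avgMap a) 1 zero_le_one
    (fun x hx y hy => by rw [one_mul]; exact norm_avgMap_sub_le act (hball hx) (hball hy))
    (fun k x hx y hy => by
      rw [one_mul]; exact abs_odist_sub_le act (hball hx) (hball hy) (hxsW k))
    hnull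
  -- every good `y` is fixed
  have hgood : ∀ y ∈ ball c η', (∀ i, ∀ t ∈ T i, ∀ k, ∀ t' ∈ T' k, ∀ x ∈ closedBall c s₂,
      avgMap a x = y → ¬ (θ i x = t ∧ odist a (xs k) x = t')) → ∀ u, a u y = y := by
    intro y hy hyg
    have hyη' : ‖y - c‖ < η' := by rwa [← dist_eq_norm]
    have hyη : ‖y - c‖ < η := hyη'.trans_le hηη'
    -- points of the fibre
    have hF1 : ∀ x ∈ closedBall c s₂, avgMap a x = y → x ∈ ball c s₁ := by
      intro x hx hxy
      by_contra hcon
      have h1 := hc1 x hx (by simpa only [mem_ball, not_lt] using hcon) 1 ⟨zero_le_one, le_rfl⟩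
      simp only [sub_self, zero_smul, hxy, one_smul, zero_add] at h1
      linarith only [hηη', hyη', h1]
    have hF2 : ∀ x ∈ closedBall c s₂, avgMap a x = y → ∀ u, a u x ∈ ball c s₂ :=
      fun x hx hxy u => hb u x (hF1 x hx hxy)
    have hF3 : ∀ x ∈ closedBall c s₂, avgMap a x = y → ∀ u, avgMap a (a u x) = y := by
      intro x hx hxy u
      rw [avgMap_inv act u (hball hx), hxy]
    have hclosure : closure (ball c s₂) = closedBall c s₂ := closure_ball c hs2.ne'
    have hfrontier : ∀ z ∈ frontier (ball c s₂), z ∈ closedBall c s₂ ∧ s₁ ≤ dist z c := by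
      intro z hz
      rw [frontier_ball c hs2.ne'] at hz
      have : dist z c = s₂ := hz
      exact ⟨sphere_subset_closedBall hz, by rw [this]; exact hs12.le⟩
    have hdegΦ : HasDeg (avgMap a) (ball c s₂) y 1 := by
      have hyball : y ∈ ball c s₂ := ball_subset_ball hη's hy
      refine (HasDeg.of_id isOpen_ball isBounded_ball hyball).homotopy ?_ ?_
      · rw [hclosure]
        exact (avgMap_contOn act).mono hball
      · intro z hz t ht hcon
        have h1 := hc1 z (hfrontier z hz).1 (hfrontier z hz).2 t ht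
        rw [hcon] at h1
        linarith only [hηη', hyη', h1]
    have hdegT : ∀ x ∈ ball c s₂, avgMap a x = y → HasDeg (a 1) (ball c s₂) (a 1 x) 1 := by
      intro x hx hxy
      have hx' := ball_subset_closedBall hx
      have h2 : ‖a 1 x - c‖ < η := hd x hx' (by rw [hxy]; exact hyη') 1
      refine (HasDeg.of_id isOpen_ball isBounded_ball (hF2 x hx' hxy 1)).homotopy ?_ ?_
      · rw [hclosure]
        exact (act.cont_right 1).mono hball
      · intro z hz t ht hcon
        have h1 := hc2 z (hfrontier z hz).1 (hfrontier z hz).2 t ht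
        rw [hcon] at h1
        (clear W hW act s₁ hs1 hs12 hη' hηη' hη's hball hc1 hc2 hb θ hθ hθsep hnull hs2 hcW xs hxsW hxsd T T' hT hT' hae hyg hyη hF1 hF2 hF3 hclosure hfrontier hdegΦ z hz t ht hcon; linarith)
    -- a fixed point in the fibre
    have hfix : ∃ x ∈ closedBall c s₂, avgMap a x = y ∧ a 1 x = x := by
      by_contra hcon
      push Not at hcon
      -- the fibre as a compact space with an action
      let X : Set E := {x | x ∈ closedBall c s₂ ∧ avgMap a x = y}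
      have hXcl : IsClosed X := by
        have h1 : IsClosed (closedBall c s₂ ∩ avgMap a ⁻¹' {y}) :=
          ((avgMap_contOn act).mono hball).preimage_isClosed_of_isClosed isClosed_closedBall
            isClosed_singleton
        exact h1
      have hXcpt : IsCompact X :=
        (isCompact_closedBall c s₂).of_isClosed_subset hXcl (fun x hx => hx.1)
      have hXW : ∀ x ∈ X, x ∈ W := fun x hx => hball hx.1
      have hXmaps : ∀ u, ∀ x ∈ X, a u x ∈ X := fun u x hx =>
        ⟨ball_subset_closedBall (hF2 x hx.1 hx.2 u), hF3 x hx.1 hx.2 u⟩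
      let _ : AddAction ℤ_[p] X :=
        { vadd := fun u x => ⟨a u x, hXmaps u x x.2⟩
          zero_vadd := fun x => Subtype.ext (act.zero x (hXW x x.2))
          add_vadd := fun u v x => Subtype.ext (act.add u v x (hXW x x.2)) }
      have hvadd : ∀ (u : ℤ_[p]) (x : X), ((u +ᵥ x : X) : E) = a u x := fun _ _ => rfl
      have : ContinuousVAdd ℤ_[p] X := by
        constructor
        apply Continuous.subtype_mk (f := fun z : ℤ_[p] × X => a z.1 z.2)
        have h1 : Continuous (fun z : ℤ_[p] × X => (z.1, (z.2 : E))) := by fun_prop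
        exact act.cont.comp_continuous h1 (fun z => ⟨trivial, hXW _ z.2.2⟩)
      have : CompactSpace X := isCompact_iff_compactSpace.1 hXcpt
      obtain ⟨γ, hγc, hγ1, hγe⟩ := exists_equivariant_circle (p := p) (X := X)
        (fun x h => hcon x x.2.1 x.2.2 (congrArg Subtype.val h))
        (fun i (x : X) => θ i x)
        (fun i => (hθ i).comp_continuous continuous_subtype_val (fun x => x.2.1))
        (fun x y hxy => hθsep x x.2.1 y y.2.1 (fun h => hxy (Subtype.ext h)))
        T hT (fun (k : ℕ) (x : X) => odist a (xs k) x)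
        (fun k => (odist_contOn act (hxsW k)).comp_continuous continuous_subtype_val
          (fun x => hXW x x.2))
        (fun k g x => odist_inv act g (hXW x x.2))
        (fun x z hxz => odist_sep act hxsW hxsd (hXW x x.2) (hXW z z.2)
          (fun v hv => hxz v (Subtype.ext hv)))
        T' hT' (fun i t ht k t' ht' x hx => hyg i t ht k t' ht' x x.2.1 x.2.2 hx)
      let γ' : E → ℂ := fun x => if h : x ∈ X then γ ⟨x, h⟩ else 0
      have hγ' : ∀ (x : E) (h : x ∈ X), γ' x = γ ⟨x, h⟩ := fun x h => dif_pos h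
      refine lemmaA hW act hball (avgMap_contOn act) (fun u x hx => avgMap_inv act u hx) (y := y)
        hF2 hdegΦ hdegT (γ := γ') ?_ ?_ ?_
      · have h1 : closedBall c s₂ ∩ avgMap a ⁻¹' {y} = X := rfl
        rw [h1, continuousOn_iff_continuous_domRestrict]
        convert hγc using 1
        funext x
        exact hγ' x x.2
      · intro x hx hxy
        rw [hγ' x ⟨hx, hxy⟩]
        exact hγ1 _
      · intro x hx hxy
        have hxX : x ∈ X := ⟨hx, hxy⟩
        rw [hγ' x hxX, hγ' (a 1 x) (hXmaps 1 x hxX), ← hγe]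
        rfl
    obtain ⟨x, hx, hxy, hx1⟩ := hfix
    have h3 := act.fixed_of_one (hball hx) hx1
    have h4 : avgMap a x = x := avgMap_fixed h3
    rw [hxy] at h4
    intro u
    rw [h4]
    exact h3 u
  -- density
  intro y hy u
  by_contra hne
  have hyW : y ∈ W := hball (ball_subset_closedBall (ball_subset_ball hη's hy))
  have hsub : ball c η' ⊆ W :=
    (ball_subset_ball hη's).trans (ball_subset_closedBall.trans hball)
  have hcont : ContinuousOn (fun z => a u z - z) (ball c η') :=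
    ((act.cont_right u).mono hsub).sub continuousOn_id
  have hopen : IsOpen (ball c η' ∩ (fun z => a u z - z) ⁻¹' {0}ᶜ) :=
    hcont.isOpen_inter_preimage isOpen_ball isOpen_compl_singleton
  have hmem : y ∈ ball c η' ∩ (fun z => a u z - z) ⁻¹' {0}ᶜ := ⟨hy, by
    simpa only [preimage_compl, mem_compl_iff, mem_preimage, mem_singleton_iff, sub_eq_zero] using hne⟩
  obtain ⟨z, hz1, hz2⟩ := (Measure.dense_of_ae hae).exists_mem_open hopen ⟨y, hmem⟩
  have h5 := hgood z hz2.1 hz1 u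
  apply hz2.2
  simp [h5]

end Vale.Agent.P228
end
end
end

section

section

section

namespace Vale.Agent.P228

open Set Topology MeasureTheory Metric
open scoped ENNReal

attribute [local instance] msZ bsZ

set_option linter.unusedSectionVars false

variable {p : ℕ} [Fact p.Prime]
variable {n : ℕ} {M : Type*} [TopologicalSpace M] [AddAction ℤ_[p] M] [ContinuousVAdd ℤ_[p] M]

/-- averages over a family with uniformly bounded energy have null slices. -/
theorem slices_of_energy {F : ℤ_[p] → EuclideanSpace ℝ (Fin n) → EuclideanSpace ℝ (Fin n)}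
    {c : EuclideanSpace ℝ (Fin n)} {ρ : ℝ} (hρ : 0 < ρ) {s q : ℝ} (hs0 : 0 < s) (hq : 1 ≤ q)
    (hqn : q ≤ (n : ℝ) + 1) (hsq : (n : ℝ) - 1 < s * q)
    (hF : ContinuousOn (Function.uncurry F) (univ ×ˢ {x | ∀ i, |x i - c i| ≤ ρ}))
    {N : ℝ≥0∞} (hNtop : N < ⊤) (hN : ∀ u, gag s q (F u) {x | ∀ i, |x i - c i| ≤ ρ} ≤ N) :
    ∀ i : Fin n, ∀ᵐ t : ℝ, NullContent ((Module.finrank ℝ (EuclideanSpace ℝ (Fin n)) : ℝ) + 1)
      (fun x y => avg fun u => ‖F u x - F u y‖) {x | (∀ j, |x j - c j| < ρ) ∧ x i = t} := by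
  have hBm : MeasurableSet {x : EuclideanSpace ℝ (Fin n) | ∀ i, |x i - c i| ≤ ρ} := by
    apply IsClosed.measurableSet
    have : {x : EuclideanSpace ℝ (Fin n) | ∀ i, |x i - c i| ≤ ρ} =
        ⋂ i, {x : EuclideanSpace ℝ (Fin n) | |x i - c i| ≤ ρ} := by
      ext x; simp only [mem_ofPred_eq, mem_iInter]
    rw [this]
    apply isClosed_iInter
    intro i
    exact isClosed_le (by fun_prop) continuous_const
  have hns : 0 ≤ (n : ℝ) + s * q := by
    have : (0 : ℝ) ≤ n := Nat.cast_nonneg n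
    have : 0 ≤ s * q := by nlinarith only [hs0, hq]
    linarith only [this]
  have hfin : (Module.finrank ℝ (EuclideanSpace ℝ (Fin n)) : ℝ) = n := by simp only [finrank_euclideanSpace,
                                                                            Fintype.card_fin]
  rw [hfin]
  have hcl : ∀ x y : EuclideanSpace ℝ (Fin n), (∀ i, |x i - c i| ≤ ρ) → (∀ i, |y i - c i| ≤ ρ) →
      Continuous (fun u => ‖F u x - F u y‖) := fun x y hx hy =>
    continuous_of_continuousOn_prod (hcontBB_aux hF) (x := (x, y)) ⟨hx, hy⟩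
  apply nullContent_slices (fun x y => avg fun u => ‖F u x - F u y‖) c ρ hρ s q ((n : ℝ) + 1)
    hs0 hq hsq hqn
  · exact continuousOn_avg (hcontBB_aux hF)
  · intro x _
    simp [avg]
  · intro x y _ _
    exact avg_nonneg fun _ => norm_nonneg _
  · intro x y _ _
    congr 1
    funext u
    exact norm_sub_rev _ _
  · intro x y z hx hy hz
    rw [← avg_add (hcl x y hx hy) (hcl y z hy hz)]
    exact avg_mono (hcl x z hx hz) ((hcl x y hx hy).add (hcl y z hy hz))
      fun u => norm_sub_le_norm_sub_add_norm_sub _ _ _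
  · exact (energy_avg_le hq hBm hF hns hN).trans_lt hNtop

/-- a closed cube around `c` inside a ball -/
theorem cube_subset_ball (c : EuclideanSpace ℝ (Fin n)) {r : ℝ} (hr : 0 < r) :
    ∃ ρ > 0, {x : EuclideanSpace ℝ (Fin n) | ∀ i, |x i - c i| ≤ ρ} ⊆ ball c r := by
  have h1 : ∃ ρ > 0, ρ * (Real.sqrt n + 1) ≤ r / 2 := by
    refine ⟨r / 2 / (Real.sqrt n + 1), by positivity, ?_⟩
    rw [div_mul_cancel₀]
    positivity
  obtain ⟨ρ, hρ, hρr⟩ := h1
  refine ⟨ρ, hρ, fun x hx => ?_⟩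
  rw [mem_ball, EuclideanSpace.dist_eq]
  have h2 : ∑ i, dist (x i) (c i) ^ 2 ≤ n * ρ ^ 2 := by
    calc ∑ i, dist (x i) (c i) ^ 2 ≤ ∑ _i : Fin n, ρ ^ 2 := by
          apply Finset.sum_le_sum
          intro i _
          have := hx i
          rw [Real.dist_eq]
          exact pow_le_pow_left₀ (abs_nonneg _) this 2
      _ = n * ρ ^ 2 := by simp only [Finset.sum_const, Finset.card_univ, Fintype.card_fin,
                            nsmul_eq_mul]
  calc Real.sqrt (∑ i, dist (x i) (c i) ^ 2) ≤ Real.sqrt (n * ρ ^ 2) := Real.sqrt_le_sqrt h2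
    _ = Real.sqrt n * ρ := by
        rw [Real.sqrt_mul (Nat.cast_nonneg n), Real.sqrt_sq hρ.le]
    _ ≤ ρ * (Real.sqrt n + 1) := by nlinarith only [hρ]
    _ ≤ r / 2 := hρr
    _ < r := by linarith only [hr]

theorem isOpen_cube (c : EuclideanSpace ℝ (Fin n)) (ρ : ℝ) :
    IsOpen {x : EuclideanSpace ℝ (Fin n) | ∀ i, |x i - c i| < ρ} := by
  have : {x : EuclideanSpace ℝ (Fin n) | ∀ i, |x i - c i| < ρ} =
      ⋂ i, {x : EuclideanSpace ℝ (Fin n) | |x i - c i| < ρ} := by
    ext x; simp only [mem_ofPred_eq, mem_iInter]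
  rw [this]
  apply isOpen_iInter_of_finite
  intro i
  exact isOpen_lt (by fun_prop) continuous_const

/-- If almost all coordinate slices near `e x₀` are null for the averaged distances over the
cosets `g₀ + p ^ k ℤ_p`, then some small subgroup acts trivially near `x₀`. -/
theorem trivial_of_slices (e : OpenPartialHomeomorph M (EuclideanSpace ℝ (Fin n))) {x₀ : M}
    (hx₀ : x₀ ∈ e.source) {g₀ : ℤ_[p]} {k₁ : ℕ} {ρ : ℝ} (hρ : 0 < ρ)
    (hρt : {x | ∀ i, |x i - e x₀ i| ≤ ρ} ⊆ e.target)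
    (hρsrc : ∀ x : EuclideanSpace ℝ (Fin n), (∀ i, |x i - e x₀ i| ≤ ρ) →
      g₀ +ᵥ e.symm x ∈ e.source)
    (hslices : ∀ k ≥ k₁, ∀ i : Fin n, ∀ᵐ t : ℝ,
      SNull ((Module.finrank ℝ (EuclideanSpace ℝ (Fin n)) : ℝ) + 1)
      (fun x y => avg fun u => ‖chartMap e (g₀ + (p : ℤ_[p]) ^ k * u) x -
        chartMap e (g₀ + (p : ℤ_[p]) ^ k * u) y‖) {x | (∀ j, |x j - e x₀ j| < ρ) ∧ x i = t}) :
    ∃ k : ℕ, ∀ᶠ m in 𝓝 x₀, ∀ u : ℤ_[p], ((p : ℤ_[p]) ^ k * u) +ᵥ m = m := by
  set Q : Set (EuclideanSpace ℝ (Fin n)) := {x | ∀ i, |x i - e x₀ i| < ρ} with hQ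
  have hQc : Q ⊆ {x | ∀ i, |x i - e x₀ i| ≤ ρ} := fun x hx i => (hx i).le
  have hQopen : IsOpen Q := isOpen_cube _ _
  have hc0Q : e x₀ ∈ Q := fun i => by simpa only [sub_self, abs_zero] using hρ
  -- the base point `z₀ = g₀ + x₀`
  have hsrc0 : ∀ x ∈ Q, g₀ +ᵥ e.symm x ∈ e.source := fun x hx => hρsrc x (hQc hx)
  set z₀ : M := g₀ +ᵥ x₀ with hz₀
  have hz₀s : z₀ ∈ e.source := by
    have := hsrc0 (e x₀) hc0Q
    rwa [e.left_inv hx₀] at this
  set c := e z₀ with hc
  -- the open neighbourhood of `z₀` where the transported chart is defined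
  let V : Set M := (fun m => g₀ +ᵥ m) '' (e.symm '' Q)
  have hQs : e.symm '' Q ⊆ e.source := by
    rintro _ ⟨x, hx, rfl⟩
    exact e.map_target (hρt (hQc hx))
  have hVopen : IsOpen V := (Homeomorph.vadd g₀).isOpenMap _
    (e.symm.isOpen_image_of_subset_source hQopen (hQc.trans hρt))
  have hVs : V ⊆ e.source := by
    rintro _ ⟨_, ⟨x, hx, rfl⟩, rfl⟩
    exact hsrc0 x hx
  have hz₀V : z₀ ∈ V := ⟨x₀, ⟨e x₀, hc0Q, e.left_inv hx₀⟩, rfl⟩
  have hVim : IsOpen (e '' V) := e.isOpen_image_of_subset_source hVopen hVs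
  have hcV : c ∈ e '' V := ⟨z₀, hz₀V, rfl⟩
  obtain ⟨R, hR, hRV⟩ := nhds_basis_closedBall.mem_iff.1 (hVim.mem_nhds hcV)
  have hVt : e '' V ⊆ e.target := by
    rintro _ ⟨m, hm, rfl⟩
    exact e.map_source (hVs hm)
  -- small displacement
  obtain ⟨k₂, hk₂⟩ := exists_small_disp (p := p) e (isCompact_closedBall c R) (hRV.trans hVt)
    (δ := R / 20) (by positivity)
  set k := max k₁ k₂ with hk
  have hk1 : k₁ ≤ k := le_max_left _ _
  have hdisp := hk₂ k (le_max_right _ _)
  -- the local action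
  let B : Set M := e.symm '' ball c R
  have hBt : ball c R ⊆ e.target := (ball_subset_closedBall.trans hRV).trans hVt
  have hBopen : IsOpen B := e.symm.isOpen_image_of_subset_source isOpen_ball hBt
  let Nn : Set M := saturate (p := p) k B
  have hNopen : IsOpen Nn := isOpen_saturate k hBopen
  have hNs : Nn ⊆ e.source := by
    apply saturate_subset
    rintro u _ ⟨x, hx, rfl⟩
    exact (hdisp u x (ball_subset_closedBall hx)).1
  have act : LocAct p (e '' Nn) (chartAct (p := p) e k) :=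
    locAct_chartAct e k hNs (fun u m hm => saturate_inv k B u hm)
  have hW : IsOpen (e '' Nn) := isOpen_chart_image e hNopen hNs
  have hballW : ball c R ⊆ e '' Nn := by
    intro x hx
    exact ⟨e.symm x, subset_saturate k B ⟨x, hx, rfl⟩, e.right_inv (hBt hx)⟩
  have hclW : closedBall c (R / 2) ⊆ e '' Nn :=
    (closedBall_subset_ball (by linarith only [hR])).trans hballW
  have hδ : ∀ u : ℤ_[p], ∀ x ∈ closedBall c R, ‖chartAct e k u x - x‖ < R / 20 := by
    intro u x hx
    rw [← dist_eq_norm]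
    exact (hdisp u x hx).2
  have hphi : ∀ x ∈ closedBall c (R / 2), ‖avgMap (chartAct (p := p) e k) x - x‖ ≤ R / 20 := by
    intro x hx
    apply dist_avg_le (act.cont_left (hclW hx))
    intro u
    exact (hδ u x (closedBall_subset_closedBall (by linarith only [hR]) hx)).le
  -- the coordinate functions
  let θ : Fin n → EuclideanSpace ℝ (Fin n) → ℝ := fun i x => chartMap e (-g₀) x i
  have hinvmap : ∀ x ∈ e '' V, ∃ y ∈ Q, x = chartMap e g₀ y ∧ chartMap e (-g₀) x = y := by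
    rintro _ ⟨_, ⟨_, ⟨y, hy, rfl⟩, rfl⟩, rfl⟩
    refine ⟨y, hy, rfl, ?_⟩
    simp only [chartMap]
    rw [e.left_inv (hsrc0 y hy), neg_vadd_vadd, e.right_inv (hρt (hQc hy))]
  have hclV : closedBall c (R / 2) ⊆ e '' V :=
    (closedBall_subset_closedBall (by linarith only [hR])).trans hRV
  have hθc : ContinuousOn (chartMap e (-g₀)) (e '' V) := by
    intro x hx
    obtain ⟨y, hy, hxy, hyx⟩ := hinvmap x hx
    apply ContinuousAt.continuousWithinAt
    have h1 : (-g₀) +ᵥ e.symm x ∈ e.source := by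
      rw [hxy]
      simp only [chartMap]
      rw [e.left_inv (hsrc0 y hy), neg_vadd_vadd]
      exact hQs ⟨y, hy, rfl⟩
    have h2 := chartMap_contAt e (hVt hx) h1
    exact h2.comp (f := fun x : EuclideanSpace ℝ (Fin n) => (-g₀, x)) (x := x) (by fun_prop)
  -- null slices at the base point
  have hslice := hslices k hk1
  have hnull : ∀ i, ∀ᵐ t : ℝ,
      SNull ((Module.finrank ℝ (EuclideanSpace ℝ (Fin n)) : ℝ) + 1)
      (dist1 (chartAct (p := p) e k)) {x | x ∈ closedBall c (R / 2) ∧ θ i x = t} := by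
    intro i
    filter_upwards [hslice i] with t ht
    apply ht.image (chartMap e g₀) (C := 1) _ zero_le_one
    · rintro x ⟨hxQ, -⟩ y ⟨hyQ, -⟩
      rw [one_mul]
      apply le_of_eq
      unfold dist1
      congr 1
      funext u
      simp only [chartAct, chartMap]
      rw [e.left_inv (hsrc0 x hxQ), e.left_inv (hsrc0 y hyQ), ← add_vadd,
        ← add_vadd, add_comm g₀]
    · rintro x ⟨hx, hxt⟩
      obtain ⟨y, hy, hxy, hyx⟩ := hinvmap x (hclV hx)
      refine ⟨y, ⟨hy, ?_⟩, hxy.symm⟩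
      rw [← hyx]
      exact hxt
  -- apply the local theorem
  have hfix := local_fixed hW act (c := c) (s₁ := R / 4) (s₂ := R / 2) (η := R / 5)
    (η' := R / 20) (by positivity) (by linarith only [hR]) (by positivity) (by linarith only [hR]) (by linarith only [hR])
    hclW ?_ ?_ ?_ ?_ θ ?_ ?_ hnull
  · -- conclusion
    refine ⟨k, ?_⟩
    have h1 : ∀ᶠ m in 𝓝 z₀, ∀ u : ℤ_[p], ((p : ℤ_[p]) ^ k * u) +ᵥ m = m := by
      have h2 : e ⁻¹' ball c (R / 20) ∈ 𝓝 z₀ :=
        (e.continuousAt hz₀s).preimage_mem_nhds (ball_mem_nhds c (by (clear * - hR; positivity)))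
      filter_upwards [h2, e.open_source.mem_nhds hz₀s] with m hm hms u
      have h3 := hfix (e m) hm u
      simp only [chartAct, chartMap, e.left_inv hms] at h3
      have h4 : e m ∈ closedBall c R := by
        have : (R / 20) ≤ R := by linarith only [hR]
        exact ball_subset_closedBall (ball_subset_ball this hm)
      have h5 := (hdisp u (e m) h4).1
      rw [e.left_inv hms] at h5
      exact e.injOn h5 hms h3
    have h6 : Filter.Tendsto (fun m : M => g₀ +ᵥ m) (𝓝 x₀) (𝓝 z₀) :=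
      (continuous_const_vadd g₀).tendsto x₀
    filter_upwards [h6.eventually h1] with m hm u
    have h7 := hm u
    rw [← add_vadd, add_comm, add_vadd] at h7
    exact vadd_left_cancel g₀ h7
  · -- homotopy condition for `avgMap`
    intro z hz hsz t ht
    have h1 := hphi z hz
    have h2 : (1 - t) • z + t • avgMap (chartAct (p := p) e k) z - c =
        (z - c) + t • (avgMap (chartAct (p := p) e k) z - z) := by
      module
    rw [h2]
    have h3 : ‖t • (avgMap (chartAct (p := p) e k) z - z)‖ ≤ R / 20 := by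
      rw [norm_smul, Real.norm_eq_abs, abs_of_nonneg ht.1]
      (clear hx₀ hρ hρt hslices hQ hQopen hc0Q hz₀ hz₀s hc hQs hVopen hz₀V hVim hcV hk hk1 hBopen hNopen hW θ hinvmap hclV hθc hslice hnull hsz h2; nlinarith [ht.2, norm_nonneg (avgMap (chartAct (p := p) e k) z - z)])
    have h4 : R / 4 ≤ ‖z - c‖ := by rwa [dist_eq_norm] at hsz
    have h5 := norm_sub_le_norm_add (z - c) (t • (avgMap (chartAct (p := p) e k) z - z))
    linarith
  · intro z hz hsz t ht
    have h1 := hδ 1 z (closedBall_subset_closedBall (by linarith only [hR]) hz)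
    have h2 : (1 - t) • z + t • chartAct (p := p) e k 1 z - c =
        (z - c) + t • (chartAct (p := p) e k 1 z - z) := by
      module
    rw [h2]
    have h3 : ‖t • (chartAct (p := p) e k 1 z - z)‖ ≤ R / 20 := by
      rw [norm_smul, Real.norm_eq_abs, abs_of_nonneg ht.1]
      (clear hx₀ ρ hρ hρt hρsrc hslices Q hQ hQc hQopen hc0Q hsrc0 hz₀ hz₀s hc V hQs hVopen hVs hz₀V hVim hcV hRV hVt hk hk1 B hBt hBopen Nn hNopen hNs act hW hballW hclW hphi θ hinvmap hclV hθc hslice hnull hsz h2; nlinarith [ht.2, norm_nonneg (chartAct (p := p) e k 1 z - z)])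
    have h4 : R / 4 ≤ ‖z - c‖ := by rwa [dist_eq_norm] at hsz
    have h5 := norm_sub_le_norm_add (z - c) (t • (chartAct (p := p) e k 1 z - z))
    linarith
  · intro u x hx
    have h1 := hδ u x (ball_subset_closedBall (ball_subset_ball (by linarith only [hR]) hx))
    rw [mem_ball, dist_eq_norm] at hx ⊢
    have h2 : chartAct (p := p) e k u x - c = (chartAct (p := p) e k u x - x) + (x - c) := by abel
    rw [h2]
    have := norm_add_le (chartAct (p := p) e k u x - x) (x - c)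
    (clear hx₀ ρ hρ hρt hρsrc hslices Q hQ hQc hQopen hc0Q hsrc0 hz₀ hz₀s hc V hQs hVopen hVs hz₀V hVim hcV hRV hVt hk₂ hk hk1 hdisp B hBt hBopen Nn hNopen hNs act hW hballW hclW hδ hphi θ hinvmap hclV hθc hslice hnull h2; linarith)
  · intro x hx hxc u
    have h1 := hδ u x (closedBall_subset_closedBall (by linarith only [hR]) hx)
    have h2 := hphi x hx
    have h3 : chartAct (p := p) e k u x - c = (chartAct (p := p) e k u x - x) -
        (avgMap (chartAct (p := p) e k) x - x) + (avgMap (chartAct (p := p) e k) x - c) := by abel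
    rw [h3]
    have h4 := norm_add_le ((chartAct (p := p) e k u x - x) -
        (avgMap (chartAct (p := p) e k) x - x)) (avgMap (chartAct (p := p) e k) x - c)
    have h5 := norm_sub_le (chartAct (p := p) e k u x - x) (avgMap (chartAct (p := p) e k) x - x)
    (clear hx₀ hρ hρt hslices hQ hQopen hc0Q hz₀ hz₀s hc hQs hVopen hz₀V hVim hcV hk hk1 hBopen hNopen hW θ hinvmap hclV hθc hslice hnull h3; linarith)
  · intro i
    have h1 : ContinuousOn (chartMap e (-g₀)) (closedBall c (R / 2)) := hθc.mono hclV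
    have h2 : Continuous (fun x : EuclideanSpace ℝ (Fin n) => x i) := by fun_prop
    exact h2.comp_continuousOn h1
  · intro x hx y hy hxy
    by_contra hcon
    push Not at hcon
    apply hxy
    have h1 : chartMap e (-g₀) x = chartMap e (-g₀) y := by
      ext i
      exact hcon i
    obtain ⟨x', hx', hx1, hx2⟩ := hinvmap x (hclV hx)
    obtain ⟨y', hy', hy1, hy2⟩ := hinvmap y (hclV hy)
    rw [hx1, hy1, ← hx2, ← hy2, h1]

/-- uniform energy bounds on a coset imply that a small subgroup acts trivially. -/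
theorem trivial_of_energy (e : OpenPartialHomeomorph M (EuclideanSpace ℝ (Fin n))) {x₀ : M}
    (hx₀ : x₀ ∈ e.source) {s q : ℝ} (hs0 : 0 < s) (hq : 1 ≤ q) (hqn : q ≤ (n : ℝ) + 1)
    (hsq : (n : ℝ) - 1 < s * q) {g₀ : ℤ_[p]} {k₁ : ℕ} {r₁ : ℝ} {N : ℝ≥0∞} (hr₁ : 0 < r₁)
    (hN : N < ⊤) (hrt : ball (e x₀) r₁ ⊆ e.target)
    (hsrc : ∀ u : ℤ_[p], ∀ x ∈ ball (e x₀) r₁, (g₀ + (p : ℤ_[p]) ^ k₁ * u) +ᵥ e.symm x ∈ e.source)
    (hen : ∀ u : ℤ_[p], gag s q (chartMap e (g₀ + (p : ℤ_[p]) ^ k₁ * u)) (ball (e x₀) r₁) ≤ N) :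
    ∃ k : ℕ, ∀ᶠ m in 𝓝 x₀, ∀ u : ℤ_[p], ((p : ℤ_[p]) ^ k * u) +ᵥ m = m := by
  obtain ⟨ρ, hρ, hρb⟩ := cube_subset_ball (e x₀) hr₁
  apply trivial_of_slices e hx₀ (g₀ := g₀) (k₁ := k₁) hρ (hρb.trans hrt)
  · intro x hx
    have := hsrc 0 x (hρb hx)
    simpa using this
  · intro k hk1 i
    have hF : ContinuousOn (Function.uncurry fun (u : ℤ_[p]) x =>
        chartMap e (g₀ + (p : ℤ_[p]) ^ k * u) x)
        (univ ×ˢ {x | ∀ i, |x i - e x₀ i| ≤ ρ}) := by
      apply chartMap_contOn e (by fun_prop) (hρb.trans hrt)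
      intro u x hx
      have h1 := hsrc ((p : ℤ_[p]) ^ (k - k₁) * u) x (hρb hx)
      rwa [← mul_assoc, ← pow_add, Nat.add_sub_cancel' hk1] at h1
    have hslice := slices_of_energy (p := p) hρ hs0 hq hqn hsq hF hN (by
      intro u
      have h1 := hen ((p : ℤ_[p]) ^ (k - k₁) * u)
      rw [← mul_assoc, ← pow_add, Nat.add_sub_cancel' hk1] at h1
      exact (gag_mono _ _ _ hρb).trans h1)
    filter_upwards [hslice i] with t ht
    exact ht.sNull

end Vale.Agent.P228
end
end
end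

section

section

section

namespace Vale.Agent.P228

open Set Topology MeasureTheory Metric
open scoped ENNReal

variable {n : ℕ}

/-- either finite energy near `a` with admissible exponents, or pointwise Hoelder at `a` with
exponent larger than `(n-1)/(n+1)`. -/
def TypeSP (f : EuclideanSpace ℝ (Fin n) → EuclideanSpace ℝ (Fin n))
    (a : EuclideanSpace ℝ (Fin n)) : Prop :=
  (∃ b : AdmExp n, ∃ r > 0, gag (b.1.1 : ℝ) (b.1.2 : ℝ) f (ball a r) < ⊤) ∨
  (∃ α : ℚ, 0 < (α : ℝ) ∧ (n : ℝ) - 1 < α * (n + 1) ∧ ∃ N : ℕ,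
    ∀ h : EuclideanSpace ℝ (Fin n), ‖h‖ ≤ 1 / ((N : ℝ) + 1) → ‖f (a + h) - f a‖ ≤ N * ‖h‖ ^ (α : ℝ))

theorem CellNull.mono_set {r : ℝ} {D : EuclideanSpace ℝ (Fin n) → EuclideanSpace ℝ (Fin n) → ℝ}
    {c : EuclideanSpace ℝ (Fin n)} {ρ : ℝ} {A A' : Set (EuclideanSpace ℝ (Fin n))}
    (h : CellNull r D c ρ A) (hA : A' ⊆ A) : CellNull r D c ρ A' := by
  intro ε hε
  filter_upwards [h ε hε] with k hk
  obtain ⟨δ, hδ0, hδD, hδs⟩ := hk
  exact ⟨δ, hδ0, fun m x hx y hy hxm hym => hδD m x (hA hx) y (hA hy) hxm hym, hδs⟩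

theorem CellNull.empty {r : ℝ} (hr : 0 < r)
    {D : EuclideanSpace ℝ (Fin n) → EuclideanSpace ℝ (Fin n) → ℝ}
    {c : EuclideanSpace ℝ (Fin n)} {ρ : ℝ} : CellNull r D c ρ ∅ := by
  intro ε hε
  refine Filter.Eventually.of_forall fun k => ⟨fun _ => 0, fun _ => le_rfl,
    fun _ x hx => hx.elim, ?_⟩
  simp [Real.zero_rpow hr.ne', hε.le]

/-- the number of dyadic indices with prescribed `i`-th coordinate -/
theorem card_filter_coord_le (i : Fin n) (L : ℕ) (v : ℤ) :
    (Finset.univ.filter fun m : Fin n → Fin L => ((m i : ℕ) : ℤ) = v).card ≤ L ^ (n - 1) := by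
  classical
  have h1 : Fintype.card ({j : Fin n // j ≠ i} → Fin L) = L ^ (n - 1) := by
    rw [Fintype.card_fun, Fintype.card_fin, Fintype.card_subtype_compl, Fintype.card_fin,
      Fintype.card_subtype_eq]
  rw [← h1, ← Finset.card_univ]
  apply Finset.card_le_card_of_injOn (fun m j => m j.1) (fun _ _ => Finset.mem_univ _)
  intro m hm m' hm' hmm
  have hm1 : ((m i : ℕ) : ℤ) = v := (Finset.mem_filter.1 hm).2
  have hm2 : ((m' i : ℕ) : ℤ) = v := (Finset.mem_filter.1 hm').2
  funext j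
  by_cases hj : j = i
  · subst hj
    apply Fin.ext
    have : ((m j : ℕ) : ℤ) = ((m' j : ℕ) : ℤ) := by rw [hm1, hm2]
    exact_mod_cast this
  · exact congrFun hmm ⟨j, hj⟩

theorem cellNull_of_holder {D : EuclideanSpace ℝ (Fin n) → EuclideanSpace ℝ (Fin n) → ℝ}
    {c : EuclideanSpace ℝ (Fin n)} {ρ : ℝ} (hρ : 0 < ρ) {α : ℝ}
    (hα : (n : ℝ) - 1 < α * (n + 1)) (hα0 : 0 < α) {C : ℝ} {i : Fin n} {t : ℝ}
    {A : Set (EuclideanSpace ℝ (Fin n))} (hA : A ⊆ {x | (∀ j, |x j - c j| < ρ) ∧ x i = t})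
    {δ₀ : ℝ} (hδ₀ : 0 < δ₀)
    (hD : ∀ x ∈ A, ∀ y ∈ A, ‖x - y‖ ≤ δ₀ → D x y ≤ C * ‖x - y‖ ^ α) :
    CellNull ((n : ℝ) + 1) D c ρ A := by
  intro ε hε
  have hn0 : 0 < n := i.pos
  have hnR : (1 : ℝ) ≤ n := by exact_mod_cast hn0
  set κ : ℝ := α * (n + 1) - (n - 1) with hκ
  have hκ0 : 0 < κ := by rw [hκ]; linarith only [hα]
  set θ : ℝ := 2 ^ (-κ) with hθ
  have hθ0 : 0 < θ := by positivity
  have hθ1 : θ < 1 := Real.rpow_lt_one_of_one_lt_of_neg (by norm_num) (by linarith only [hα])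
  set C' : ℝ := max C 0 with hC'
  have hC'0 : 0 ≤ C' := le_max_right _ _
  have hCC' : C ≤ C' := le_max_left _ _
  set L : ℕ → ℝ := fun k => C' * (Real.sqrt n * (2 * ρ / 2 ^ k)) ^ α with hL
  have hL0 : ∀ k, 0 ≤ L k := fun k => by rw [hL]; (clear * - hn0 hρ; positivity)
  have hLk : ∀ k : ℕ, ((2 : ℝ) ^ k) ^ (n - 1) * L k ^ ((n : ℝ) + 1) =
      θ ^ k * (C' ^ ((n : ℝ) + 1) * (Real.sqrt n * (2 * ρ)) ^ (α * (n + 1))) := by
    intro k
    have h1 : L k ^ ((n : ℝ) + 1) = C' ^ ((n : ℝ) + 1) *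
        ((Real.sqrt n * (2 * ρ)) ^ (α * (n + 1)) * (((2 : ℝ) ^ k) ^ (α * (n + 1)))⁻¹) := by
      rw [hL]
      simp only
      rw [Real.mul_rpow hC'0 (by positivity), ← Real.rpow_mul (by positivity), mul_div_assoc',
        Real.div_rpow (by positivity) (by positivity), div_eq_mul_inv]
    have h2 : ((2 : ℝ) ^ k) ^ (n - 1) * (((2 : ℝ) ^ k) ^ (α * (n + 1)))⁻¹ = θ ^ k := by
      have h3 : ((2 : ℝ) ^ k) ^ (n - 1) = ((2 : ℝ) ^ k) ^ ((n : ℝ) - 1) := by
        rw [← Real.rpow_natCast ((2 : ℝ) ^ k) (n - 1), Nat.cast_sub (by omega : 1 ≤ n)]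
        norm_num
      rw [h3, ← Real.rpow_neg (by positivity), ← Real.rpow_add (by positivity), hθ,
        ← Real.rpow_natCast, ← Real.rpow_natCast, ← Real.rpow_mul (by norm_num),
        ← Real.rpow_mul (by norm_num)]
      congr 1
      rw [hκ]; ring
    rw [h1, ← h2]
    ring
  have hlim : Filter.Tendsto (fun k : ℕ => θ ^ k * (C' ^ ((n : ℝ) + 1) *
      (Real.sqrt n * (2 * ρ)) ^ (α * (n + 1)))) Filter.atTop (𝓝 0) := by
    have := (tendsto_pow_atTop_nhds_zero_of_lt_one hθ0.le hθ1).mul_const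
      (C' ^ ((n : ℝ) + 1) * (Real.sqrt n * (2 * ρ)) ^ (α * (n + 1)))
    rwa [zero_mul] at this
  have hlim2 : Filter.Tendsto (fun k : ℕ => Real.sqrt n * (2 * ρ / 2 ^ k)) Filter.atTop (𝓝 0) := by
    have h1 := (tendsto_pow_atTop_nhds_zero_of_lt_one (r := (1 / 2 : ℝ)) (by norm_num)
      (by norm_num)).const_mul (Real.sqrt n * (2 * ρ))
    rw [mul_zero] at h1
    refine h1.congr fun k => ?_
    rw [one_div, inv_pow]
    ring
  filter_upwards [hlim.eventually (Iic_mem_nhds hε), hlim2.eventually (Iic_mem_nhds hδ₀)]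
    with k hk1 hk2
  have hk1' : θ ^ k * (C' ^ ((n : ℝ) + 1) * (Real.sqrt n * (2 * ρ)) ^ (α * (n + 1))) ≤ ε := hk1
  have hk2' : Real.sqrt n * (2 * ρ / 2 ^ k) ≤ δ₀ := hk2
  set v : ℤ := ⌊(2 : ℝ) ^ k * ((t - c i + ρ) / (2 * ρ))⌋ with hv
  refine ⟨fun m => if ((m i : ℕ) : ℤ) = v then L k else 0, ?_, ?_, ?_⟩
  · intro m
    dsimp only
    split_ifs
    · exact hL0 k
    · exact le_rfl
  · intro m x hx y hy hxm hym
    have h1 : ((m i : ℕ) : ℤ) = v := by
      have h2 := congrFun hxm i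
      simp only [idx] at h2
      rw [← h2, (hA hx).2]
    dsimp only
    rw [if_pos h1]
    have h3 : ‖x - y‖ ≤ Real.sqrt n * (2 * ρ / 2 ^ k) :=
      norm_sub_le_of_cell hρ (v := fun i => ((m i : ℕ) : ℤ)) hxm hym
    calc D x y ≤ C * ‖x - y‖ ^ α := hD x hx y hy (h3.trans hk2')
      _ ≤ C' * ‖x - y‖ ^ α := mul_le_mul_of_nonneg_right hCC' (by (clear * -; positivity))
      _ ≤ L k := mul_le_mul_of_nonneg_left
          (Real.rpow_le_rpow (norm_nonneg _) h3 hα0.le) hC'0
  · have h1 : ∀ m : Fin n → Fin (2 ^ k), (if ((m i : ℕ) : ℤ) = v then L k else 0) ^ ((n : ℝ) + 1) =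
        if ((m i : ℕ) : ℤ) = v then L k ^ ((n : ℝ) + 1) else 0 := by
      intro m
      split_ifs
      · rfl
      · exact Real.zero_rpow (by (clear * - hn0; positivity))
    simp_rw [h1]
    rw [← Finset.sum_filter, Finset.sum_const, nsmul_eq_mul]
    have h2 : ((Finset.univ.filter fun m : Fin n → Fin (2 ^ k) => ((m i : ℕ) : ℤ) = v).card : ℝ) ≤
        ((2 : ℝ) ^ k) ^ (n - 1) := by
      have := card_filter_coord_le i (2 ^ k) v
      exact_mod_cast this
    calc _ ≤ ((2 : ℝ) ^ k) ^ (n - 1) * L k ^ ((n : ℝ) + 1) :=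
          mul_le_mul_of_nonneg_right h2 (Real.rpow_nonneg (hL0 k) _)
      _ ≤ ε := by rw [hLk]; exact hk1'

/-- parameters of the pieces -/
abbrev SPar (n : ℕ) : Type := AdmExp n ⊕ (ℚ × ℕ)

/-- the part of an open cube on which `f` has a uniform bound with given parameters -/
def pieceSP (f : EuclideanSpace ℝ (Fin n) → EuclideanSpace ℝ (Fin n))
    (c : EuclideanSpace ℝ (Fin n)) (ρ : ℝ) : SPar n → Set (EuclideanSpace ℝ (Fin n))
  | Sum.inl a => {x | x ∈ ocube c ρ ∧ gag (a.1.1 : ℝ) (a.1.2 : ℝ) f (ccube c ρ) < ⊤}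
  | Sum.inr a => {x | x ∈ ocube c ρ ∧ 0 < (a.1 : ℝ) ∧ (n : ℝ) - 1 < a.1 * (n + 1) ∧
      ∀ h : EuclideanSpace ℝ (Fin n), ‖h‖ ≤ 1 / ((a.2 : ℝ) + 1) →
        ‖f (x + h) - f x‖ ≤ a.2 * ‖h‖ ^ (a.1 : ℝ)}

/-- almost every slice of a piece is null -/
theorem cellNull_piece {f : EuclideanSpace ℝ (Fin n) → EuclideanSpace ℝ (Fin n)}
    {c : EuclideanSpace ℝ (Fin n)} {ρ : ℝ} (hρ : 0 < ρ) (hf : ContinuousOn f (ccube c ρ))
    (j : SPar n) (i : Fin n) : ∀ᵐ t : ℝ, CellNull ((n : ℝ) + 1) (fun x y => ‖f x - f y‖) c ρ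
      {x | x ∈ pieceSP f c ρ j ∧ x i = t} := by
  have hr : (0 : ℝ) < (n : ℝ) + 1 := by (clear * -; positivity)
  rcases j with a | a
  · by_cases hE : gag (a.1.1 : ℝ) (a.1.2 : ℝ) f (ccube c ρ) < ⊤
    · have h1 : ∀ᵐ t : ℝ, CellNull ((n : ℝ) + 1) (fun x y => ‖f x - f y‖) c ρ
          {x | (∀ j, |x j - c j| < ρ) ∧ x i = t} := by
        apply cellNull_slices _ c ρ hρ (a.1.1 : ℝ) (a.1.2 : ℝ) ((n : ℝ) + 1) a.2.1 a.2.2.1
          a.2.2.2.2 a.2.2.2.1
        · apply ContinuousOn.norm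
          apply ContinuousOn.sub
          · exact hf.comp continuousOn_fst (fun z hz => hz.1)
          · exact hf.comp continuousOn_snd (fun z hz => hz.2)
        · intro x _
          simp
        · intro x y _ _
          exact norm_nonneg _
        · intro x y _ _
          exact norm_sub_rev _ _
        · intro x y z _ _ _
          exact norm_sub_le_norm_sub_add_norm_sub _ _ _
        · exact hE
      filter_upwards [h1] with t ht
      exact ht.mono_set (fun x hx => ⟨hx.1.1, hx.2⟩)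
    · refine Filter.Eventually.of_forall fun t => (CellNull.empty hr).mono_set ?_
      rintro x ⟨⟨-, hx⟩, -⟩
      exact absurd hx hE
  · refine Filter.Eventually.of_forall fun t => ?_
    by_cases ha : 0 < (a.1 : ℝ) ∧ (n : ℝ) - 1 < a.1 * (n + 1)
    · apply cellNull_of_holder hρ ha.2 ha.1 (C := a.2) (i := i) (t := t)
        (δ₀ := 1 / ((a.2 : ℝ) + 1)) (fun x hx => ⟨hx.1.1, hx.2⟩) (by (clear * -; positivity))
      rintro x ⟨⟨-, -, -, hx⟩, -⟩ y - hxy
      have h1 := hx (y - x) (by rwa [norm_sub_rev])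
      rw [add_sub_cancel, norm_sub_rev, norm_sub_rev y x] at h1
      exact h1
    · apply (CellNull.empty hr).mono_set
      rintro x ⟨⟨-, hx1, hx2, -⟩, -⟩
      exact absurd ⟨hx1, hx2⟩ ha

/-- small cubes from a countable family -/
theorem exists_small_cube (x : EuclideanSpace ℝ (Fin n)) {r : ℝ} (hr : 0 < r) :
    ∃ κ : ℕ × ℕ, x ∈ ocube (TopologicalSpace.denseSeq (EuclideanSpace ℝ (Fin n)) κ.1)
      (1 / ((κ.2 : ℝ) + 1)) ∧
      ccube (TopologicalSpace.denseSeq (EuclideanSpace ℝ (Fin n)) κ.1) (1 / ((κ.2 : ℝ) + 1)) ⊆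
        ball x r := by
  obtain ⟨ρ₂, hρ₂, hρ₂b⟩ := cube_subset_ball x hr
  obtain ⟨l, hl⟩ := exists_nat_one_div_lt (show 0 < ρ₂ / 2 by positivity)
  have hl0 : (0 : ℝ) < 1 / ((l : ℝ) + 1) := by (clear * -; positivity)
  have hopen : IsOpen (ocube x (1 / ((l : ℝ) + 1))) := isOpen_cube x _
  obtain ⟨a, ha⟩ := (TopologicalSpace.denseRange_denseSeq (EuclideanSpace ℝ (Fin n))).exists_mem_open
    hopen ⟨x, fun i => by simpa only [sub_self, abs_zero, one_div, inv_pos] using hl0⟩
  refine ⟨(a, l), ?_, ?_⟩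
  · intro i
    rw [abs_sub_comm]
    exact ha i
  · intro y hy
    apply hρ₂b
    intro i
    have h1 := hy i
    have h2 := ha i
    dsimp only at h1 h2
    calc |y i - x i| = |(y i - TopologicalSpace.denseSeq (EuclideanSpace ℝ (Fin n)) a i) +
          (TopologicalSpace.denseSeq (EuclideanSpace ℝ (Fin n)) a i - x i)| := by ring_nf
      _ ≤ |y i - TopologicalSpace.denseSeq (EuclideanSpace ℝ (Fin n)) a i| +
          |TopologicalSpace.denseSeq (EuclideanSpace ℝ (Fin n)) a i - x i| := abs_add_le _ _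
      _ ≤ ρ₂ := by linarith

/-- every point of regular type lies in a piece of every small cube around it -/
theorem TypeSP.exists_piece {f : EuclideanSpace ℝ (Fin n) → EuclideanSpace ℝ (Fin n)}
    {x : EuclideanSpace ℝ (Fin n)} (h : TypeSP f x) : ∃ r > 0, ∃ j : SPar n,
      ∀ (c : EuclideanSpace ℝ (Fin n)) (ρ : ℝ), x ∈ ocube c ρ → ccube c ρ ⊆ ball x r →
        x ∈ pieceSP f c ρ j := by
  rcases h with ⟨b, r, hr, hE⟩ | ⟨α, hα0, hα, N, hN⟩
  · refine ⟨r, hr, Sum.inl b, fun c ρ hx hc => ⟨hx, ?_⟩⟩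
    exact (gag_mono _ _ _ hc).trans_lt hE
  · refine ⟨1, one_pos, Sum.inr (α, N), fun c ρ hx _ => ⟨hx, hα0, hα, hN⟩⟩

theorem finSlices {N : ℕ} {O : Set (EuclideanSpace ℝ (Fin n))} (hO : IsOpen O)
    (F : ℕ → EuclideanSpace ℝ (Fin n) → EuclideanSpace ℝ (Fin n))
    (hF : ∀ b < N, ContinuousOn (F b) O) (htype : ∀ b < N, ∀ x ∈ O, TypeSP (F b) x) :
    ∀ i : Fin n, ∀ᵐ t : ℝ, SNull ((n : ℝ) + 1)
      (fun x y => ∑ b ∈ Finset.range N, ‖F b x - F b y‖) {x | x ∈ O ∧ x i = t} := by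
  intro i
  have hr : (0 : ℝ) < (n : ℝ) + 1 := by (clear * -; positivity)
  set d := TopologicalSpace.denseSeq (EuclideanSpace ℝ (Fin n)) with hd
  set R : ℕ → ℝ := fun l => 1 / ((l : ℝ) + 1) with hR
  have hR0 : ∀ l, 0 < R l := fun l => by rw [hR]; (clear * -; positivity)
  set K : Type := {κ : ℕ × ℕ // ccube (d κ.1) (R κ.2) ⊆ O} with hK
  have h1 : ∀ᵐ t : ℝ, ∀ (κ : K) (b : ℕ) (j : SPar n), b < N →
      CellNull ((n : ℝ) + 1) (fun x y => ‖F b x - F b y‖) (d κ.1.1) (R κ.1.2)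
        {x | x ∈ pieceSP (F b) (d κ.1.1) (R κ.1.2) j ∧ x i = t} := by
    rw [ae_all_iff]
    intro κ
    rw [ae_all_iff]
    intro b
    rw [ae_all_iff]
    intro j
    by_cases hb : b < N
    · filter_upwards [cellNull_piece (hR0 κ.1.2) ((hF b hb).mono κ.2) j i] with t ht _
      exact ht
    · exact Filter.Eventually.of_forall fun t h => absurd h hb
  filter_upwards [h1] with t ht
  have h2 : ∀ z : K × (Fin N → SPar n), SNull ((n : ℝ) + 1)
      (fun x y => ∑ b ∈ Finset.range N, ‖F b x - F b y‖)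
      {x | x ∈ ocube (d z.1.1.1) (R z.1.1.2) ∧ x i = t ∧
        ∀ b : Fin N, x ∈ pieceSP (F b) (d z.1.1.1) (R z.1.1.2) (z.2 b)} := by
    rintro ⟨κ, f⟩
    apply NullContent.sNull
    apply CellNull.nullContent (hR0 κ.1.2) _ (fun x hx => hx.1)
    apply CellNull.sum hr
    intro b hb
    apply (ht κ b (f ⟨b, hb⟩) hb).mono_set
    rintro x ⟨-, hx2, hx3⟩
    exact ⟨hx3 ⟨b, hb⟩, hx2⟩
  refine (SNull.iUnion h2).mono ?_
  rintro x ⟨hxO, hxt⟩
  obtain ⟨r₀, hr₀, hr₀O⟩ := Metric.isOpen_iff.1 hO x hxO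
  choose r hr0 j hj using fun b : Fin N => (htype b b.2 x hxO).exists_piece
  obtain ⟨r₁, hr₁, hr₁r⟩ : ∃ r₁ > 0, ∀ b : Fin N, r₁ ≤ r b := by
    rcases isEmpty_or_nonempty (Fin N) with hN | hN
    · exact ⟨1, one_pos, fun b => (hN.false b).elim⟩
    · obtain ⟨b₀, hb₀⟩ := Finite.exists_min r
      exact ⟨r b₀, hr0 b₀, hb₀⟩
  obtain ⟨κ, hκ1, hκ2⟩ := exists_small_cube x (lt_min hr₀ hr₁)
  rw [mem_iUnion]
  refine ⟨(⟨κ, ?_⟩, j), hκ1, hxt, fun b => ?_⟩
  · exact (hκ2.trans (ball_subset_ball (min_le_left _ _))).trans hr₀O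
  · exact hj b _ _ hκ1 (hκ2.trans (ball_subset_ball ((min_le_right _ _).trans (hr₁r b))))

end Vale.Agent.P228
end
end
end

section

section

section

namespace Vale.Agent.P228

open Set Topology MeasureTheory Metric
open scoped ENNReal

variable {n : ℕ}

theorem RegularAt.typeSP {f : EuclideanSpace ℝ (Fin n) → EuclideanSpace ℝ (Fin n)}
    {a : EuclideanSpace ℝ (Fin n)} (h : RegularAt n f a) (hf : ∀ᶠ x in 𝓝 a, ContinuousAt f x) :
    TypeSP f a := by
  have hn : (0 : ℝ) ≤ n := Nat.cast_nonneg n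
  rcases h with ⟨α, C, r, hα0, hα, hr, hH⟩ | h | h
  · right
    obtain ⟨β, hβ1, hβ2⟩ := exists_rat_btwn (max_lt hα0 hα)
    have hβ0 : (0 : ℝ) < β := (le_max_left _ _).trans_lt hβ1
    have hβ3 := (le_max_right _ _).trans_lt hβ1
    rw [div_lt_iff₀ (by (clear * -; positivity))] at hβ3
    refine ⟨β, hβ0, hβ3, ?_⟩
    obtain ⟨N₁, hN₁⟩ := exists_nat_one_div_lt (lt_min hr one_pos)
    obtain ⟨N₂, hN₂⟩ := exists_nat_ge |C|
    refine ⟨max N₁ N₂, fun h hh => ?_⟩
    have h1 : (N₁ : ℝ) ≤ ((max N₁ N₂ : ℕ) : ℝ) := by exact_mod_cast le_max_left _ _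
    have h2 : (N₂ : ℝ) ≤ ((max N₁ N₂ : ℕ) : ℝ) := by exact_mod_cast le_max_right _ _
    have h3 : ‖h‖ < min r 1 := (hh.trans (one_div_le_one_div_of_le (by (clear * -; positivity))
      (by linarith only [h1] : (N₁ : ℝ) + 1 ≤ _))).trans_lt hN₁
    have h4 : a + h ∈ ball a r := by
      rw [mem_ball, dist_eq_norm, add_sub_cancel_left]
      exact h3.trans_le (min_le_left _ _)
    have h5 := hH (a + h) h4
    rw [add_sub_cancel_left] at h5
    have h6 : ‖h‖ ^ α ≤ ‖h‖ ^ (β : ℝ) := by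
      apply Real.rpow_le_rpow_of_exponent_ge' (norm_nonneg _)
        (h3.le.trans (min_le_right _ _)) hβ0.le hβ2.le
    calc ‖f (a + h) - f a‖ ≤ C * ‖h‖ ^ α := h5
      _ ≤ |C| * ‖h‖ ^ α := mul_le_mul_of_nonneg_right (le_abs_self _)
          (Real.rpow_nonneg (norm_nonneg _) _)
      _ ≤ ((max N₁ N₂ : ℕ) : ℝ) * ‖h‖ ^ (β : ℝ) :=
          mul_le_mul (hN₂.trans h2) h6 (Real.rpow_nonneg (norm_nonneg _) _) (by (clear * -; positivity))
  · left
    exact SupercriticalAt.exists_adm (Or.inl h) hf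
  · left
    exact SupercriticalAt.exists_adm (Or.inr (Or.inr h)) hf

end Vale.Agent.P228
end
end
end

section

section

section

namespace Vale.Agent.P228

open Set Topology MeasureTheory Metric
open scoped ENNReal

variable {n : ℕ}

/-- lower semicontinuity of the energy -/
theorem gag_le_of_tendsto {q s : ℝ} (hq : 0 < q) {B : Set (EuclideanSpace ℝ (Fin n))}
    (hB : MeasurableSet B)
    {F : ℕ → EuclideanSpace ℝ (Fin n) → EuclideanSpace ℝ (Fin n)}
    {f : EuclideanSpace ℝ (Fin n) → EuclideanSpace ℝ (Fin n)}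
    (hF : ∀ j, ContinuousOn (F j) B) (hf : ContinuousOn f B)
    (hlim : ∀ x ∈ B, Filter.Tendsto (fun j => F j x) Filter.atTop (𝓝 (f x)))
    (hs : 0 ≤ (n : ℝ) + s * q) {N : ℝ≥0∞} (hN : ∀ j, gag s q (F j) B ≤ N) :
    gag s q f B ≤ N := by
  rw [gag_eq_prod hq hB hf hs]
  set ν := (volume.restrict B).prod (volume.restrict B) with hν
  let G : (EuclideanSpace ℝ (Fin n) → EuclideanSpace ℝ (Fin n)) →
      (EuclideanSpace ℝ (Fin n) × EuclideanSpace ℝ (Fin n)) → ℝ≥0∞ := fun w z =>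
    ENNReal.ofReal (‖w z.1 - w z.2‖ ^ q / ‖z.1 - z.2‖ ^ ((n : ℝ) + s * q))
  have hmeas : ∀ j, AEMeasurable (G (F j)) ν := by
    intro w
    apply aemeasurable_kernel hq hB _ hs
    apply ContinuousOn.norm
    apply ContinuousOn.sub
    · exact (hF w).comp continuousOn_fst (fun z hz => hz.1)
    · exact (hF w).comp continuousOn_snd (fun z hz => hz.2)
  have hlim' : ∀ᵐ z ∂ν, Filter.Tendsto (fun j => G (F j) z) Filter.atTop (𝓝 (G f z)) := by
    have hBB : ∀ᵐ z ∂ν, z ∈ B ×ˢ B := by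
      rw [hν, Measure.prod_restrict]
      exact ae_restrict_mem (hB.prod hB)
    filter_upwards [hBB] with z hz
    apply ENNReal.tendsto_ofReal
    apply Filter.Tendsto.div_const
    exact ((hlim _ hz.1).sub (hlim _ hz.2)).norm.rpow_const (Or.inr hq.le)
  calc ∫⁻ z, G f z ∂ν = ∫⁻ z, Filter.liminf (fun j => G (F j) z) Filter.atTop ∂ν := by
        apply lintegral_congr_ae
        filter_upwards [hlim'] with z hz
        exact hz.liminf_eq.symm
    _ ≤ Filter.liminf (fun j => ∫⁻ z, G (F j) z ∂ν) Filter.atTop :=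
        lintegral_liminf_le' (fun j => hmeas j)
    _ ≤ N := by
        apply Filter.liminf_le_of_frequently_le'
        apply Filter.Frequently.of_forall
        intro j
        have := hN j
        rwa [gag_eq_prod hq hB (hF j) hs] at this

theorem lintegral_ball_add (y : EuclideanSpace ℝ (Fin n)) (r : ℝ)
    (φ : EuclideanSpace ℝ (Fin n) → ℝ≥0∞) :
    ∫⁻ h in ball (0 : EuclideanSpace ℝ (Fin n)) r, φ (y + h) = ∫⁻ x in ball y r, φ x := by
  have h1 : MeasurePreserving (fun h : EuclideanSpace ℝ (Fin n) => y + h) :=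
    measurePreserving_add_left volume y
  have h2 : MeasurableEmbedding (fun h : EuclideanSpace ℝ (Fin n) => y + h) :=
    measurableEmbedding_addLeft y
  have h3 : (fun h : EuclideanSpace ℝ (Fin n) => y + h) ⁻¹' ball y r = ball 0 r := by
    ext h
    simp [mem_ball, dist_eq_norm]
  rw [← h3]
  exact h1.setLIntegral_comp_preimage_emb h2 φ (ball y r)

theorem gag_translate (s q : ℝ) (f : EuclideanSpace ℝ (Fin n) → EuclideanSpace ℝ (Fin n))
    (y : EuclideanSpace ℝ (Fin n)) (r : ℝ) :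
    gag s q (fun h => f (y + h)) (ball 0 r) = gag s q f (ball y r) := by
  unfold gag
  rw [← lintegral_ball_add y r]
  apply lintegral_congr
  intro h
  rw [← lintegral_ball_add y r]
  apply lintegral_congr
  intro h'
  rw [add_sub_add_left_eq_sub]

theorem TypeSP.congr {f g : EuclideanSpace ℝ (Fin n) → EuclideanSpace ℝ (Fin n)}
    {a : EuclideanSpace ℝ (Fin n)} (h : TypeSP f a) (hfg : ∀ᶠ x in 𝓝 a, f x = g x) :
    TypeSP g a := by
  obtain ⟨r₀, hr₀, hr₀s⟩ := Metric.eventually_nhds_iff_ball.1 hfg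
  rcases h with ⟨b, r, hr, hb⟩ | ⟨α, hα0, hα, N, hN⟩
  · refine Or.inl ⟨b, min r r₀, lt_min hr hr₀, ?_⟩
    have h1 : gag (b.1.1 : ℝ) (b.1.2 : ℝ) g (ball a (min r r₀)) =
        gag (b.1.1 : ℝ) (b.1.2 : ℝ) f (ball a (min r r₀)) := by
      unfold gag
      apply setLIntegral_congr_fun measurableSet_ball
      intro x hx
      apply setLIntegral_congr_fun measurableSet_ball
      intro y hy
      simp only [hr₀s x (ball_subset_ball (min_le_right _ _) hx),
        hr₀s y (ball_subset_ball (min_le_right _ _) hy)]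
    rw [h1]
    exact (gag_mono _ _ _ (ball_subset_ball (min_le_left _ _))).trans_lt hb
  · right
    refine ⟨α, hα0, hα, ?_⟩
    obtain ⟨N', hN'⟩ := exists_nat_one_div_lt hr₀
    refine ⟨max N N', fun h hh => ?_⟩
    have hNN : (N : ℝ) ≤ ((max N N' : ℕ) : ℝ) := by exact_mod_cast le_max_left _ _
    have hNN' : (N' : ℝ) ≤ ((max N N' : ℕ) : ℝ) := by exact_mod_cast le_max_right _ _
    have h1 : ‖h‖ ≤ 1 / ((N : ℝ) + 1) :=
      hh.trans (one_div_le_one_div_of_le (by (clear * -; positivity)) (by linarith only [hNN]))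
    have h2 : ‖h‖ < r₀ := (hh.trans (one_div_le_one_div_of_le (by (clear * -; positivity))
      (by linarith only [hNN'] : (N' : ℝ) + 1 ≤ _))).trans_lt hN'
    have h3 : f (a + h) = g (a + h) := hr₀s _ (by simpa only [mem_ball, dist_eq_norm, add_sub_cancel_left] using h2)
    have h4 : f a = g a := hr₀s _ (mem_ball_self hr₀)
    rw [← h3, ← h4]
    calc ‖f (a + h) - f a‖ ≤ N * ‖h‖ ^ (α : ℝ) := hN h h1
      _ ≤ ((max N N' : ℕ) : ℝ) * ‖h‖ ^ (α : ℝ) :=
          mul_le_mul_of_nonneg_right hNN (Real.rpow_nonneg (norm_nonneg _) _)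

end Vale.Agent.P228
end
end
end

section

section

section

namespace Vale.Agent.P228

open Set Topology MeasureTheory Metric
open scoped ENNReal RealInnerProductSpace

attribute [local instance] msZ bsZ

set_option linter.unusedSectionVars false

variable {p : ℕ} [Fact p.Prime]

theorem exists_pos_lower {X : Type*} [TopologicalSpace X] {K : Set X} (hK : IsCompact K)
    {f : X → ℝ} (hf : ContinuousOn f K) (hpos : ∀ x ∈ K, 0 < f x) :
    ∃ η > 0, ∀ x ∈ K, η ≤ f x := by
  rcases K.eq_empty_or_nonempty with he | hne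
  · exact ⟨1, one_pos, fun x hx => by simp [he] at hx⟩
  · obtain ⟨x₀, hx₀, hmin⟩ := hK.exists_isMinOn hne hf
    exact ⟨f x₀, hpos x₀ hx₀, fun x hx => hmin hx⟩

theorem avg_pos {f : ℤ_[p] → ℝ} (hf : Continuous f) (h : ∀ u, 0 < f u) : 0 < avg f := by
  obtain ⟨η, hη, hηf⟩ := exists_pos_lower isCompact_univ hf.continuousOn (fun u _ => h u)
  calc 0 < η := hη
    _ = avg (fun _ : ℤ_[p] => η) := (avg_const η).symm
    _ ≤ avg f := avg_mono continuous_const hf (fun u => hηf u trivial)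

variable {E : Type*} [NormedAddCommGroup E] [InnerProductSpace ℝ E]

theorem inversion_contOn (v : E) (ρ : ℝ) :
    ContinuousOn (EuclideanGeometry.inversion v ρ) {v}ᶜ :=
  continuousOn_const.inversion continuousOn_const continuousOn_id (fun _ hx => hx)

theorem image_inversion_eq {v : E} {ρ : ℝ} (hρ : 0 < ρ) {W : Set E}
    (hfar : ∀ y ∈ W, ρ / 2 ≤ dist y v) :
    EuclideanGeometry.inversion v ρ '' W = {v}ᶜ ∩ EuclideanGeometry.inversion v ρ ⁻¹' W := by
  ext x
  constructor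
  · rintro ⟨y, hy, rfl⟩
    refine ⟨?_, ?_⟩
    · intro hcon
      have h1 := (EuclideanGeometry.inversion_eq_center hρ.ne').1 hcon
      have h2 := hfar y hy
      rw [h1, dist_self] at h2
      linarith only [hρ, h2]
    · rw [mem_preimage, EuclideanGeometry.inversion_inversion v hρ.ne']
      exact hy
  · rintro ⟨-, hx⟩
    exact ⟨_, hx, EuclideanGeometry.inversion_inversion v hρ.ne' x⟩

theorem locAct_inversion {v : E} {ρ : ℝ} (hρ : 0 < ρ) {W : Set E} {a : ℤ_[p] → E → E}
    (act : LocAct p W a) (hfar : ∀ y ∈ W, ρ / 2 ≤ dist y v) :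
    LocAct p (EuclideanGeometry.inversion v ρ '' W) (fun u x =>
      EuclideanGeometry.inversion v ρ (a u (EuclideanGeometry.inversion v ρ x))) := by
  have hinv := EuclideanGeometry.inversion_inversion v hρ.ne'
  have hne : ∀ y ∈ W, y ≠ v := by
    intro y hy hcon
    have h2 := hfar y hy
    rw [hcon, dist_self] at h2
    (clear * - hρ h2; linarith)
  refine ⟨?_, ?_, ?_, ?_⟩
  · rintro u _ ⟨y, hy, rfl⟩
    refine ⟨a u y, act.maps u y hy, ?_⟩
    simp only [hinv]
  · rintro _ ⟨y, hy, rfl⟩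
    simp only [hinv, act.zero y hy]
  · rintro u w _ ⟨y, hy, rfl⟩
    simp only [hinv, act.add u w y hy]
  · have h1 : ContinuousOn (fun z : ℤ_[p] × E => EuclideanGeometry.inversion v ρ z.2)
        (univ ×ˢ (EuclideanGeometry.inversion v ρ '' W)) := by
      apply (inversion_contOn v ρ).comp continuousOn_snd
      rintro ⟨u, x⟩ ⟨-, hx⟩
      rw [image_inversion_eq hρ hfar] at hx
      exact hx.1
    have h2 : ContinuousOn (fun z : ℤ_[p] × E => (z.1, EuclideanGeometry.inversion v ρ z.2))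
        (univ ×ˢ (EuclideanGeometry.inversion v ρ '' W)) := continuousOn_fst.prodMk h1
    have h3 : ContinuousOn (fun z : ℤ_[p] × E => a z.1 (EuclideanGeometry.inversion v ρ z.2))
        (univ ×ˢ (EuclideanGeometry.inversion v ρ '' W)) := by
      refine act.cont.comp h2 ?_
      rintro ⟨u, x⟩ ⟨-, hx⟩
      rw [image_inversion_eq hρ hfar] at hx
      exact ⟨trivial, hx.2⟩
    refine (inversion_contOn v ρ).comp h3 ?_
    rintro ⟨u, x⟩ ⟨-, hx⟩
    rw [image_inversion_eq hρ hfar] at hx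
    exact hne _ (act.maps u _ hx.2)

theorem isOpen_image_inversion {v : E} {ρ : ℝ} (hρ : 0 < ρ) {W : Set E} (hW : IsOpen W)
    (hfar : ∀ y ∈ W, ρ / 2 ≤ dist y v) : IsOpen (EuclideanGeometry.inversion v ρ '' W) := by
  rw [image_inversion_eq hρ hfar]
  exact (inversion_contOn v ρ).isOpen_inter_preimage isOpen_compl_singleton hW

/-- the touching argument in a chart -/
theorem touch_fixed [FiniteDimensional ℝ E] {W : Set E} {a : ℤ_[p] → E → E} (hW : IsOpen W)
    (act : LocAct p W a) {v c : E} {ρ : ℝ} (hρ : 0 < ρ) (hρc : dist c v = ρ) (hcW : c ∈ W)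
    (hcfix : ∀ u, a u c = c) (hfar : ∀ y ∈ W, ρ / 2 ≤ dist y v)
    (hnf : ∀ y ∈ W, (¬ ∀ u, a u y = y) → ρ ≤ dist y v)
    {ι : Type*} [Countable ι] (θ : ι → E → ℝ) (hθ : ∀ i, Continuous (θ i))
    (hθsep : ∀ x y : E, x ≠ y → ∃ i, θ i x ≠ θ i y)
    {Q : Set E} (hQ : Q ∈ 𝓝 c) (hQW : Q ⊆ W)
    (hnull : ∀ i, ∀ᵐ t : ℝ, SNull ((Module.finrank ℝ E : ℝ) + 1) (dist1 a)
      {x | x ∈ Q ∧ θ i x = t}) :
    ∀ᶠ y in 𝓝 c, ∀ u, a u y = y := by
  have hC : CompleteSpace E := FiniteDimensional.complete ℝ E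
  have hP : ProperSpace E := FiniteDimensional.proper_real E
  set j : E → E := EuclideanGeometry.inversion v ρ with hj
  have hinv : ∀ x, j (j x) = x := EuclideanGeometry.inversion_inversion v hρ.ne'
  have hjinj : Function.Injective j := EuclideanGeometry.inversion_injective v hρ.ne'
  have hjc : j c = c := EuclideanGeometry.inversion_of_mem_sphere hρc
  set W' : Set E := j '' W with hW'
  have hW'eq : W' = {v}ᶜ ∩ j ⁻¹' W := image_inversion_eq hρ hfar
  set a' : ℤ_[p] → E → E := fun u x => j (a u (j x)) with ha'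
  have act' : LocAct p W' a' := locAct_inversion hρ act hfar
  have hW'open : IsOpen W' := isOpen_image_inversion hρ hW hfar
  have hcW' : c ∈ W' := ⟨c, hcW, hjc⟩
  have hjcont : ContinuousOn j {v}ᶜ := inversion_contOn v ρ
  have hcv : c ≠ v := by
    intro h
    rw [h, dist_self] at hρc
    linarith only [hρ, hρc]
  have hjcat : ContinuousAt j c := hjcont.continuousAt (isOpen_compl_singleton.mem_nhds hcv)
  have ha'c : ∀ u, a' u c = c := by
    intro u
    simp only [ha', hjc, hcfix]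
  -- the key dichotomy
  have key : ∀ x ∈ W', (∀ u, a' u x = x) ∨ (∀ u, 0 < ⟪a' u x - c, v - c⟫) := by
    rintro _ ⟨y, hy, rfl⟩
    by_cases hfy : ∀ u, a u y = y
    · left
      intro u
      simp only [ha', hinv, hfy]
    · right
      intro u
      have hwW := act.maps u y hy
      have hwnf : ¬ ∀ w, a w (a u y) = a u y := by
        intro hcon
        apply hfy
        intro w
        have h1 : y = a u y := by
          have := hcon (-u)
          rw [act.neg_cancel u hy] at this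
          exact this
        rw [h1]
        conv_rhs => rw [← h1]
        rw [← h1] at hcon ⊢
        exact hcon w
      have h1 := hnf _ hwW hwnf
      have h2 : dist (j (a u y)) v ≤ ρ := by
        rw [hj, EuclideanGeometry.dist_inversion_center, div_le_iff₀ (hρ.trans_le h1)]
        nlinarith only [hρ, h1]
      have h3 : j (a u y) ≠ c := by
        intro hcon
        rw [← hjc] at hcon
        have h4 := hjinj hcon
        apply hwnf
        intro w
        rw [h4, hcfix]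
      have h5 : a' u (j y) = j (a u y) := by simp only [ha', hinv]
      rw [h5]
      have h6 : ‖(j (a u y) - c) - (v - c)‖ ≤ ‖v - c‖ := by
        rw [sub_sub_sub_cancel_right, ← dist_eq_norm, ← dist_eq_norm, dist_comm v c, hρc]
        exact h2
      have h7 : ‖(j (a u y) - c) - (v - c)‖ ^ 2 ≤ ‖v - c‖ ^ 2 :=
        pow_le_pow_left₀ (norm_nonneg _) h6 2
      rw [norm_sub_sq_real] at h7
      have h8 : 0 < ‖j (a u y) - c‖ := norm_pos_iff.2 (sub_ne_zero.2 h3)
      nlinarith only [h7, h8]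
  have hinner_avg : ∀ x ∈ W', (∀ u, 0 < ⟪a' u x - c, v - c⟫) →
      0 < ⟪avgMap a' x - c, v - c⟫ := by
    intro x hx h
    have hcx := act'.cont_left hx
    have h1 : avgMap a' x - c = avg (fun u => a' u x - c) := by
      rw [avg_sub hcx continuous_const, avg_const]
      rfl
    have h2 : ⟪avgMap a' x - c, v - c⟫ = avg (fun u => ⟪a' u x - c, v - c⟫) := by
      rw [h1]
      have h3 := (innerSL ℝ (v - c)).integral_comp_comm (μ := muZ p)
        (integrable_of_continuous (hcx.sub continuous_const) : Integrable (fun u => a' u x - c) _)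
      simp only [innerSL_apply_apply] at h3
      rw [real_inner_comm]
      unfold avg
      rw [← h3]
      congr 1
      funext u
      rw [real_inner_comm]
    rw [h2]
    exact avg_pos ((hcx.sub continuous_const).inner continuous_const) h
  have hself : ∀ x ∈ W', (∀ u, 0 < ⟪a' u x - c, v - c⟫) → 0 < ⟪x - c, v - c⟫ := by
    intro x hx h
    have := h 0
    rwa [act'.zero x hx] at this
  have hpos1 : ∀ x ∈ W', x ≠ c → ∀ t ∈ Icc (0 : ℝ) 1,
      0 < ‖(1 - t) • x + t • avgMap a' x - c‖ := by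
    intro x hx hxc t ht
    rw [norm_pos_iff]
    rcases key x hx with h | h
    · rw [avgMap_fixed h]
      have : (1 - t) • x + t • x - c = x - c := by module
      rw [this]
      exact sub_ne_zero.2 hxc
    · intro hcon
      have h1 : (1 - t) • x + t • avgMap a' x - c =
          (1 - t) • (x - c) + t • (avgMap a' x - c) := by module
      have h2 : ⟪(1 - t) • (x - c) + t • (avgMap a' x - c), v - c⟫ = 0 := by
        rw [← h1, hcon, inner_zero_left]
      rw [inner_add_left, real_inner_smul_left, real_inner_smul_left] at h2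
      have h3 := hself x hx h
      have h4 := hinner_avg x hx h
      rcases eq_or_lt_of_le ht.1 with h0 | h0
      · rw [← h0] at h2; (clear W hW act hρ hρc hcW hcfix hfar hnf θ hθ hθsep Q hQ hQW hnull hj hinv hjinj hjc W' hW' hW'eq ha' act' hW'open hcW' hjcont hcv hjcat ha'c key hinner_avg hself hx hxc t ht h hcon h1 h4 h0; linarith)
      · (clear hW hρc hcW hcfix hnf θ hθ hθsep Q hQ hQW hnull hj hinv hjinj hjc hW' hW'eq ha' hW'open hcW' hjcont hcv hjcat ha'c key hxc hcon h1; nlinarith [ht.2, mul_pos h0 h4, mul_nonneg (sub_nonneg.2 ht.2) h3.le])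
  have hpos2 : ∀ x ∈ W', x ≠ c → ∀ t ∈ Icc (0 : ℝ) 1,
      0 < ‖(1 - t) • x + t • a' 1 x - c‖ := by
    intro x hx hxc t ht
    rw [norm_pos_iff]
    rcases key x hx with h | h
    · rw [h]
      have : (1 - t) • x + t • x - c = x - c := by module
      rw [this]
      exact sub_ne_zero.2 hxc
    · intro hcon
      have h1 : (1 - t) • x + t • a' 1 x - c =
          (1 - t) • (x - c) + t • (a' 1 x - c) := by module
      have h2 : ⟪(1 - t) • (x - c) + t • (a' 1 x - c), v - c⟫ = 0 := by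
        rw [← h1, hcon, inner_zero_left]
      rw [inner_add_left, real_inner_smul_left, real_inner_smul_left] at h2
      have h3 := hself x hx h
      have h4 := h 1
      rcases eq_or_lt_of_le ht.1 with h0 | h0
      · rw [← h0] at h2; linarith
      · (clear hW hρc hcW hcfix hnf θ hθ hθsep Q hQ hQW hnull hj hinv hjinj hjc hW' hW'eq ha' hW'open hcW' hjcont hcv hjcat ha'c key hinner_avg hpos1 hxc hcon h1; nlinarith [ht.2, mul_pos h0 h4, mul_nonneg (sub_nonneg.2 ht.2) h3.le])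
  -- choice of `s₂`
  have hnhds : W' ∩ j ⁻¹' Q ∈ 𝓝 c := by
    refine Filter.inter_mem (hW'open.mem_nhds hcW') (hjcat.preimage_mem_nhds ?_)
    rw [hjc]; exact hQ
  obtain ⟨s₂, hs₂, hs₂sub⟩ := nhds_basis_closedBall.mem_iff.1 hnhds
  have hclW' : closedBall c s₂ ⊆ W' := hs₂sub.trans inter_subset_left
  have hclQ : ∀ x ∈ closedBall c s₂, j x ∈ Q := fun x hx => (hs₂sub hx).2
  have hclv : closedBall c s₂ ⊆ {v}ᶜ := by
    intro x hx
    have := hclW' hx
    rw [hW'eq] at this
    exact this.1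
  -- choice of `s₁`
  obtain ⟨V, hV, hVO⟩ := exists_nhds_tube (p := p) (x₀ := c)
    (O := {z : ℤ_[p] × E | a' z.1 z.2 ∈ ball c s₂}) (by
      intro u
      have h1 : ContinuousAt (Function.uncurry a') (u, c) := by
        apply act'.cont.continuousAt
        exact (isOpen_univ.prod hW'open).mem_nhds ⟨trivial, hcW'⟩
      have h2 : ball c s₂ ∈ 𝓝 (Function.uncurry a' (u, c)) := by
        change ball c s₂ ∈ 𝓝 (a' u c)
        rw [ha'c]
        exact ball_mem_nhds c hs₂
      exact h1.preimage_mem_nhds h2)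
  obtain ⟨s₀, hs₀, hs₀V⟩ := Metric.mem_nhds_iff.1 hV
  obtain ⟨s₁, hs₁, hs₁0, hs₁2⟩ : ∃ s₁ > 0, s₁ ≤ s₀ ∧ s₁ < s₂ :=
    ⟨min s₀ (s₂ / 2), lt_min hs₀ (by linarith only [hs₂]), min_le_left _ _,
      (min_le_right _ _).trans_lt (by linarith)⟩
  have hb : ∀ u, ∀ x ∈ ball c s₁, a' u x ∈ ball c s₂ :=
    fun u x hx => hVO u x (hs₀V (ball_subset_ball hs₁0 hx))
  -- choice of `η`
  have hAcl : IsCompact (closedBall c s₂ ∩ {x | s₁ ≤ dist x c}) :=
    (isCompact_closedBall c s₂).inter_right (isClosed_le continuous_const (by fun_prop))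
  have hKc : IsCompact ((closedBall c s₂ ∩ {x | s₁ ≤ dist x c}) ×ˢ Icc (0 : ℝ) 1) :=
    hAcl.prod isCompact_Icc
  have hne : ∀ x ∈ closedBall c s₂ ∩ {x | s₁ ≤ dist x c}, x ≠ c := by
    rintro x ⟨-, hx⟩ rfl
    simp only [mem_ofPred_eq, dist_self] at hx
    linarith only [hs₁, hx]
  have hcont1 : ContinuousOn (fun z : E × ℝ => ‖(1 - z.2) • z.1 + z.2 • avgMap a' z.1 - c‖)
      ((closedBall c s₂ ∩ {x | s₁ ≤ dist x c}) ×ˢ Icc (0 : ℝ) 1) := by
    have h1 : ContinuousOn (fun z : E × ℝ => avgMap a' z.1)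
        ((closedBall c s₂ ∩ {x | s₁ ≤ dist x c}) ×ˢ Icc (0 : ℝ) 1) :=
      (avgMap_contOn act').comp continuousOn_fst (fun z hz => hclW' hz.1.1)
    (clear hW hρc hcW hcfix hnf θ hθ hθsep hQ hQW hnull hj hinv hjinj hjc hW' hW'eq ha' hW'open hcW' hjcont hcv hjcat ha'c key hinner_avg hself hpos1 hpos2 hnhds hs₂ hclQ hclv V hV hVO s₀ hs₀ hs₀V hs₁ hs₁0 hs₁2 hb hAcl hKc hne; fun_prop)
  have hcont2 : ContinuousOn (fun z : E × ℝ => ‖(1 - z.2) • z.1 + z.2 • a' 1 z.1 - c‖)
      ((closedBall c s₂ ∩ {x | s₁ ≤ dist x c}) ×ˢ Icc (0 : ℝ) 1) := by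
    have h1 : ContinuousOn (fun z : E × ℝ => a' 1 z.1)
        ((closedBall c s₂ ∩ {x | s₁ ≤ dist x c}) ×ˢ Icc (0 : ℝ) 1) :=
      (act'.cont_right 1).comp continuousOn_fst (fun z hz => hclW' hz.1.1)
    exact ((((continuousOn_const.sub continuousOn_snd).smul continuousOn_fst).add
      (continuousOn_snd.smul h1)).sub continuousOn_const).norm
  obtain ⟨η₁, hη₁, hη₁le⟩ := exists_pos_lower hKc hcont1
    (fun z hz => hpos1 z.1 (hclW' hz.1.1) (hne _ hz.1) z.2 hz.2)
  obtain ⟨η₂, hη₂, hη₂le⟩ := exists_pos_lower hKc hcont2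
    (fun z hz => hpos2 z.1 (hclW' hz.1.1) (hne _ hz.1) z.2 hz.2)
  obtain ⟨η, hη, hηη₁, hηη₂⟩ : ∃ η > 0, η ≤ η₁ ∧ η ≤ η₂ :=
    ⟨min η₁ η₂, lt_min hη₁ hη₂, min_le_left _ _, min_le_right _ _⟩
  have hc1 : ∀ z ∈ closedBall c s₂, s₁ ≤ dist z c → ∀ t ∈ Icc (0 : ℝ) 1,
      η ≤ ‖(1 - t) • z + t • avgMap a' z - c‖ :=
    fun z hz hzs t ht => hηη₁.trans (hη₁le (z, t) ⟨⟨hz, hzs⟩, ht⟩)
  have hc2 : ∀ z ∈ closedBall c s₂, s₁ ≤ dist z c → ∀ t ∈ Icc (0 : ℝ) 1,
      η ≤ ‖(1 - t) • z + t • a' 1 z - c‖ :=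
    fun z hz hzs t ht => hηη₂.trans (hη₂le (z, t) ⟨⟨hz, hzs⟩, ht⟩)
  -- choice of `η'`
  have hDcl : IsCompact ((univ ×ˢ closedBall c s₂) ∩
      {z : ℤ_[p] × E | η ≤ ‖a' z.1 z.2 - c‖}) := by
    have h1 : IsCompact ((univ : Set ℤ_[p]) ×ˢ closedBall c s₂) :=
      isCompact_univ.prod (isCompact_closedBall c s₂)
    refine h1.of_isClosed_subset ?_ inter_subset_left
    have h2 : ContinuousOn (fun z : ℤ_[p] × E => ‖a' z.1 z.2 - c‖) (univ ×ˢ closedBall c s₂) := by
      have h3 : ContinuousOn (fun z : ℤ_[p] × E => a' z.1 z.2) (univ ×ˢ closedBall c s₂) :=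
        act'.cont.mono (prod_mono_right hclW')
      exact (h3.sub continuousOn_const).norm
    exact h2.preimage_isClosed_of_isClosed h1.isClosed isClosed_Ici
  have hcontD : ContinuousOn (fun z : ℤ_[p] × E => ‖avgMap a' z.2 - c‖)
      ((univ ×ˢ closedBall c s₂) ∩ {z : ℤ_[p] × E | η ≤ ‖a' z.1 z.2 - c‖}) := by
    have h1 : ContinuousOn (fun z : ℤ_[p] × E => avgMap a' z.2)
        ((univ ×ˢ closedBall c s₂) ∩ {z : ℤ_[p] × E | η ≤ ‖a' z.1 z.2 - c‖}) :=
      (avgMap_contOn act').comp continuousOn_snd (fun z hz => hclW' hz.1.2)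
    exact (h1.sub continuousOn_const).norm
  obtain ⟨η₃, hη₃, hη₃le⟩ := exists_pos_lower hDcl hcontD (by
    rintro ⟨u, x⟩ ⟨⟨-, hx⟩, hxη⟩
    have hxc : x ≠ c := by
      rintro rfl
      have : η ≤ ‖a' u x - x‖ := hxη
      rw [ha'c, sub_self, norm_zero] at this
      linarith only [hη, this]
    have := hpos1 x (hclW' hx) hxc 1 ⟨zero_le_one, le_rfl⟩
    simpa using this)
  obtain ⟨η', hη', hη'η, hη'η₃, hη's⟩ : ∃ η' > 0, η' ≤ η ∧ η' ≤ η₃ ∧ η' ≤ s₂ :=
    ⟨min (min η η₃) s₂, lt_min (lt_min hη hη₃) hs₂, (min_le_left _ _).trans (min_le_left _ _),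
      (min_le_left _ _).trans (min_le_right _ _), min_le_right _ _⟩
  have hd : ∀ x ∈ closedBall c s₂, ‖avgMap a' x - c‖ < η' → ∀ u, ‖a' u x - c‖ < η := by
    intro x hx hxη u
    by_contra hcon
    have h1 := hη₃le (u, x) ⟨⟨trivial, hx⟩, not_lt.1 hcon⟩
    simp only at h1
    (clear W hW act hρ hρc hcW hcfix hfar hnf θ hθ hθsep Q hQ hQW hnull hj hinv hjinj hjc W' hW' hW'eq ha' act' hW'open hcW' hjcont hcv hjcat ha'c key hinner_avg hself hpos1 hpos2 hnhds hs₂ hs₂sub hclW' hclQ hclv V hV hVO s₀ hs₀ hs₀V s₁ hs₁ hs₁0 hs₁2 hb hAcl hKc hne hcont1 hcont2 η₁ hη₁ hη₁le η₂ hη₂ hη₂le hη hηη₁ hηη₂ hc1 hc2 hDcl hcontD hη₃ hη' hη'η hη's; linarith)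
  -- the null slices
  have hnull' : ∀ i, ∀ᵐ t : ℝ, SNull ((Module.finrank ℝ E : ℝ) + 1) (dist1 a')
      {x | x ∈ closedBall c s₂ ∧ θ i (j x) = t} := by
    intro i
    filter_upwards [hnull i] with t ht
    refine ht.image (C := 4) j ?_ (by norm_num) ?_
    · rintro x ⟨hx, hxt⟩
      exact ⟨j x, ⟨hclQ x hx, hxt⟩, hinv x⟩
    · rintro x ⟨hx, -⟩ y ⟨hy, -⟩
      have hxW := hQW hx
      have hyW := hQW hy
      have h1 : dist1 a' (j x) (j y) = avg (fun u => ‖j (a u x) - j (a u y)‖) := by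
        unfold dist1
        simp only [ha', hinv]
      have h2 : (4 : ℝ) * dist1 a x y = avg (fun u => 4 * ‖a u x - a u y‖) := by
        unfold dist1 avg
        rw [integral_const_mul]
      rw [h1, h2]
      have hjW : ∀ z ∈ W, z ∈ ({v}ᶜ : Set E) := by
        intro z hz hcon
        have h3 := hfar z hz
        rw [mem_singleton_iff.1 hcon, dist_self] at h3
        linarith only [hρ, h3]
      apply avg_mono
      · have h3 : Continuous (fun u => j (a u x)) :=
          hjcont.comp_continuous (act.cont_left hxW) (fun u => hjW _ (act.maps u x hxW))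
        have h4 : Continuous (fun u => j (a u y)) :=
          hjcont.comp_continuous (act.cont_left hyW) (fun u => hjW _ (act.maps u y hyW))
        exact (h3.sub h4).norm
      · exact continuous_const.mul (norm_sub_cont act hxW hyW)
      · intro u
        have hx' := act.maps u x hxW
        have hy' := act.maps u y hyW
        have h5 := hfar _ hx'
        have h6 := hfar _ hy'
        rw [← dist_eq_norm, ← dist_eq_norm, hj,
          EuclideanGeometry.dist_inversion_inversion (hjW _ hx') (hjW _ hy')]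
        apply mul_le_mul_of_nonneg_right _ dist_nonneg
        have h7 : ρ / 2 * (ρ / 2) ≤ dist (a u x) v * dist (a u y) v :=
          mul_le_mul h5 h6 (by positivity) dist_nonneg
        have h8 : 0 < dist (a u x) v * dist (a u y) v := lt_of_lt_of_le (by positivity) h7
        rw [div_le_iff₀ h8]
        nlinarith only [h7]
  have hfinal := local_fixed hW'open act' hs₁ hs₁2 hη' hη'η hη's hclW' hc1 hc2 hb hd
    (fun i x => θ i (j x)) (fun i => (hθ i).comp_continuousOn (hjcont.mono hclv))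
    (fun x _ y _ hxy => hθsep _ _ (fun h => hxy (hjinj h))) hnull'
  have hev1 : ∀ᶠ y in 𝓝 c, j y ∈ ball c η' := by
    apply hjcat.eventually_mem
    rw [hjc]
    exact ball_mem_nhds c hη'
  filter_upwards [hev1, hW.mem_nhds hcW] with y hy hyW u
  have h1 := hfinal (j y) hy u
  have h2 : j (a u y) = j y := by
    simpa only [ha', hinv] using h1
  exact hjinj h2

end Vale.Agent.P228
end
end
end

section

section

section

namespace Vale.Agent.P228

open Set Topology MeasureTheory Metric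
open scoped ENNReal

attribute [local instance] msZ bsZ

set_option linter.unusedSectionVars false

variable {p : ℕ} [Fact p.Prime]
variable {n : ℕ} {M : Type*} [TopologicalSpace M] [AddAction ℤ_[p] M] [ContinuousVAdd ℤ_[p] M]

/-- the fixed point set of `p ^ k ℤ_p` -/
def fixSet (p : ℕ) [Fact p.Prime] (M : Type*) [AddAction ℤ_[p] M] (k : ℕ) : Set M :=
  {m | ∀ u : ℤ_[p], ((p : ℤ_[p]) ^ k * u) +ᵥ m = m}

theorem isClosed_fixSet [T2Space M] (k : ℕ) : IsClosed (fixSet p M k) := by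
  have : fixSet p M k = ⋂ u : ℤ_[p], {m | ((p : ℤ_[p]) ^ k * u) +ᵥ m = m} := by
    ext m; simp only [fixSet, mem_ofPred_eq, mem_iInter]
  rw [this]
  exact isClosed_iInter fun u => isClosed_eq (continuous_const_vadd _) continuous_id

/-- every element of `ℤ_p` is a natural number below `p ^ m` plus an element of `p ^ m ℤ_p`. -/
theorem exists_appr (u : ℤ_[p]) (m : ℕ) : ∃ a < p ^ m, ∃ w : ℤ_[p], u = a + (p : ℤ_[p]) ^ m * w := by
  have h := PadicInt.appr_spec m u
  rw [Ideal.mem_span_singleton] at h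
  obtain ⟨w, hw⟩ := h
  exact ⟨u.appr m, PadicInt.appr_lt u m, w, by rw [← hw]; ring⟩

/-- the interior of the fixed point set of `p ^ k ℤ_p` is closed at points near which almost
every coordinate slice is null. -/
theorem touch_closed_of_slices [T2Space M] (e : OpenPartialHomeomorph M (EuclideanSpace ℝ (Fin n)))
    {x₁ : M} (hx₁ : x₁ ∈ e.source) {k : ℕ} {R₁ : ℝ} (hR₁ : 0 < R₁)
    (hsl : ∀ (c : EuclideanSpace ℝ (Fin n)) (ρ : ℝ), 0 < ρ →
      {x : EuclideanSpace ℝ (Fin n) | ∀ i, |x i - c i| ≤ ρ} ⊆ ball (e x₁) R₁ →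
      (∀ u : ℤ_[p], ∀ x, (∀ i, |x i - c i| ≤ ρ) →
        ((p : ℤ_[p]) ^ k * u) +ᵥ e.symm x ∈ e.source) →
      {x : EuclideanSpace ℝ (Fin n) | ∀ i, |x i - c i| ≤ ρ} ⊆ e.target →
      ∀ i : Fin n, ∀ᵐ t : ℝ, SNull ((n : ℝ) + 1) (dist1 (chartAct (p := p) e k))
        {x | (∀ j, |x j - c j| < ρ) ∧ x i = t})
    (hcl : x₁ ∈ closure (interior (fixSet p M k))) : x₁ ∈ interior (fixSet p M k) := by
  by_contra hx₁V
  have hfix₁ : x₁ ∈ fixSet p M k := (isClosed_fixSet k).closure_subset_iff.2 interior_subset hcl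
  set c₁ := e x₁ with hc₁
  have hc₁t : c₁ ∈ e.target := e.map_source hx₁
  -- the tube around `c₁`
  obtain ⟨V₁, hV₁, hV₁O⟩ := exists_nhds_tube (p := p) (x₀ := c₁)
    (O := {z : ℤ_[p] × EuclideanSpace ℝ (Fin n) |
      ((p : ℤ_[p]) ^ k * z.1) +ᵥ e.symm z.2 ∈ e.source}) (by
      intro u
      have h1 : ((p : ℤ_[p]) ^ k * u) +ᵥ e.symm c₁ ∈ e.source := by
        rw [e.left_inv hx₁, hfix₁]; exact hx₁
      have h2 := eventually_source e hc₁t h1
      have h3 : ContinuousAt (fun z : ℤ_[p] × EuclideanSpace ℝ (Fin n) =>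
        ((p : ℤ_[p]) ^ k * z.1, z.2)) (u, c₁) := by (clear hx₁ R₁ hR₁ hcl hx₁V hfix₁ hsl hc₁ hc₁t h1 h2; fun_prop)
      exact h3.preimage_mem_nhds h2)
  obtain ⟨R, hR, hRs⟩ : ∃ R > 0, closedBall c₁ R ⊆ V₁ ∩ e.target ∩ ball c₁ R₁ := by
    have := Filter.inter_mem (Filter.inter_mem hV₁ (e.open_target.mem_nhds hc₁t))
      (ball_mem_nhds c₁ hR₁)
    exact nhds_basis_closedBall.mem_iff.1 this
  have hRt : closedBall c₁ R ⊆ e.target := fun x hx => (hRs hx).1.2
  have hRsrc : ∀ u : ℤ_[p], ∀ x ∈ closedBall c₁ R, ((p : ℤ_[p]) ^ k * u) +ᵥ e.symm x ∈ e.source :=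
    fun u x hx => hV₁O u x (hRs hx).1.1
  have hRR₁ : closedBall c₁ R ⊆ ball c₁ R₁ := fun x hx => (hRs hx).2
  -- the open set `𝒱`
  set 𝒱 : Set (EuclideanSpace ℝ (Fin n)) := e.target ∩ e.symm ⁻¹' interior (fixSet p M k) with h𝒱
  have h𝒱o : IsOpen 𝒱 := e.symm.isOpen_inter_preimage isOpen_interior
  have hc₁𝒱 : c₁ ∉ 𝒱 := by
    rintro ⟨-, h⟩
    rw [mem_preimage, hc₁, e.left_inv hx₁] at h
    exact hx₁V h
  obtain ⟨v, hv𝒱, hvc₁⟩ : ∃ v ∈ 𝒱, dist v c₁ < R / 8 := by
    have h1 : e ⁻¹' ball c₁ (R / 8) ∈ 𝓝 x₁ :=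
      (e.continuousAt hx₁).preimage_mem_nhds (ball_mem_nhds c₁ (by (clear * - hR; positivity)))
    obtain ⟨z, hz, hzV⟩ := mem_closure_iff_nhds.1 hcl _
      (Filter.inter_mem h1 (e.open_source.mem_nhds hx₁))
    refine ⟨e z, ⟨e.map_source hz.2, ?_⟩, hz.1⟩
    rw [mem_preimage, e.left_inv hz.2]
    exact hzV
  -- the nearest point
  set C : Set (EuclideanSpace ℝ (Fin n)) := closedBall c₁ (R / 2) \ 𝒱 with hC
  have hCcpt : IsCompact C := (isCompact_closedBall c₁ (R / 2)).diff h𝒱o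
  have hCne : C.Nonempty := ⟨c₁, mem_closedBall_self (by (clear * - hR; positivity)), hc₁𝒱⟩
  obtain ⟨c, hcC, hcmin⟩ := hCcpt.exists_isMinOn hCne
    (f := fun x => dist x v) (by (clear * -; fun_prop))
  set ρ := dist c v with hρdef
  have hcmin' : ∀ x ∈ C, ρ ≤ dist x v := fun x hx => hcmin hx
  have hρpos : 0 < ρ := by
    rw [hρdef, dist_pos]
    rintro rfl
    exact hcC.2 hv𝒱
  have hρR : ρ < R / 8 := by
    have h1 := hcmin' c₁ ⟨mem_closedBall_self (by positivity), hc₁𝒱⟩
    rw [dist_comm] at hvc₁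
    (clear * - hvc₁ h1; linarith)
  have hcc₁ : dist c c₁ < R / 4 := by
    have := dist_triangle c v c₁
    (clear * - hvc₁ hρR this; linarith)
  have hballv : ∀ y, dist y v < ρ → y ∈ 𝒱 := by
    intro y hy
    by_contra hcon
    have h1 : y ∈ C := by
      refine ⟨?_, hcon⟩
      rw [mem_closedBall]
      have := dist_triangle y v c₁
      linarith only [hvc₁, hρpos, hρR, hy, this]
    have := hcmin' y h1
    linarith only [hy, this]
  have hcR : c ∈ ball c₁ (R / 2) := by
    rw [mem_ball]; linarith only [hρpos, hρR, hcc₁]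
  have hct : c ∈ e.target := hRt (ball_subset_closedBall (ball_subset_ball (by linarith only [hρpos, hρR]) hcR))
  -- `c` is fixed
  have hcfixM : e.symm c ∈ fixSet p M k := by
    have h1 : c ∈ closure (ball v ρ) := by
      rw [closure_ball v hρpos.ne']
      exact le_of_eq hρdef.symm
    have h2 : e.symm c ∈ closure (fixSet p M k) :=
      (e.continuousAt_symm hct).continuousWithinAt.mem_closure h1
        (fun y hy => interior_subset (hballv y hy).2)
    rwa [(isClosed_fixSet k).closure_eq] at h2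
  have hcfix : ∀ u, chartAct (p := p) e k u c = c := by
    intro u
    simp only [chartAct, chartMap]
    rw [hcfixM, e.right_inv hct]
  -- the small invariant neighbourhood
  obtain ⟨V₂, hV₂, hV₂O⟩ := exists_nhds_tube (p := p) (x₀ := c)
    (O := {z : ℤ_[p] × EuclideanSpace ℝ (Fin n) |
      chartAct e k z.1 z.2 ∈ ball c (ρ / 2)}) (by
      intro u
      have h1 : ((p : ℤ_[p]) ^ k * u) +ᵥ e.symm c ∈ e.source := by
        rw [hcfixM]; exact e.map_target hct
      have h2 := chartMap_contAt e hct h1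
      have h3 : ContinuousAt (fun z : ℤ_[p] × EuclideanSpace ℝ (Fin n) =>
        ((p : ℤ_[p]) ^ k * z.1, z.2)) (u, c) := by (clear e x₁ hx₁ R₁ hR₁ hcl hx₁V hfix₁ c₁ hsl hc₁ hc₁t V₁ hV₁ hV₁O R hR hRs hRt hRsrc hRR₁ 𝒱 h𝒱 h𝒱o hc₁𝒱 v hv𝒱 hvc₁ C hC hCcpt hCne hcC hcmin ρ hρdef hcmin' hρpos hρR hcc₁ hballv hcR hct hcfixM hcfix h1 h2; fun_prop)
      have h4 : ContinuousAt (fun z : ℤ_[p] × EuclideanSpace ℝ (Fin n) =>
        chartAct e k z.1 z.2) (u, c) := h2.comp (f := fun z : ℤ_[p] × EuclideanSpace ℝ (Fin n) =>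
        ((p : ℤ_[p]) ^ k * z.1, z.2)) (x := (u, c)) h3
      apply h4.preimage_mem_nhds
      change ball c (ρ / 2) ∈ 𝓝 (chartAct e k u c)
      rw [hcfix]
      exact ball_mem_nhds c (by (clear * - hρpos; positivity)))
  obtain ⟨s₃, hs₃, hs₃s⟩ : ∃ s₃ > 0, ball c s₃ ⊆ V₂ ∩ ball c₁ (R / 2) :=
    Metric.mem_nhds_iff.1 (Filter.inter_mem hV₂ (isOpen_ball.mem_nhds hcR))
  have hs₃R : ball c s₃ ⊆ closedBall c₁ R := fun x hx =>
    ball_subset_closedBall (ball_subset_ball (by linarith only [hρpos, hρR]) (hs₃s hx).2)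
  let B : Set M := e.symm '' ball c s₃
  have hBopen : IsOpen B := e.symm.isOpen_image_of_subset_source isOpen_ball (hs₃R.trans hRt)
  let Nn : Set M := saturate (p := p) k B
  have hNopen : IsOpen Nn := isOpen_saturate k hBopen
  have hNs : Nn ⊆ e.source := by
    apply saturate_subset
    rintro u _ ⟨x, hx, rfl⟩
    exact hRsrc u x (hs₃R hx)
  have act : LocAct p (e '' Nn) (chartAct (p := p) e k) :=
    locAct_chartAct e k hNs (fun u m hm => saturate_inv k B u hm)
  have hW : IsOpen (e '' Nn) := isOpen_chart_image e hNopen hNs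
  have hballW : ball c s₃ ⊆ e '' Nn := by
    intro x hx
    exact ⟨e.symm x, subset_saturate k B ⟨x, hx, rfl⟩, e.right_inv (hRt (hs₃R hx))⟩
  have hWball : ∀ y ∈ e '' Nn, y ∈ ball c (ρ / 2) := by
    rintro _ ⟨m', hm', rfl⟩
    obtain ⟨u, _, ⟨x, hx, rfl⟩, rfl⟩ := mem_iUnion.1 hm'
    exact hV₂O u x (hs₃s hx).1
  have hfar : ∀ y ∈ e '' Nn, ρ / 2 ≤ dist y v := by
    intro y hy
    have h1 := hWball y hy
    rw [mem_ball] at h1
    have h2 := dist_triangle c y v
    rw [dist_comm c y] at h2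
    linarith only [h1, h2]
  have hnf : ∀ y ∈ e '' Nn, (¬ ∀ u, chartAct (p := p) e k u y = y) → ρ ≤ dist y v := by
    intro y hy hcon
    by_contra hlt
    apply hcon
    intro u
    have h1 := hballv y (not_le.1 hlt)
    have h2 : e.symm y ∈ fixSet p M k := interior_subset h1.2
    simp only [chartAct, chartMap]
    rw [h2, e.right_inv h1.1]
  -- null slices
  obtain ⟨ρ₂, hρ₂, hρ₂b⟩ := cube_subset_ball c hs₃
  have hslice := hsl c ρ₂ hρ₂ ((hρ₂b.trans hs₃R).trans hRR₁)
    (fun u x hx => hRsrc u x (hs₃R (hρ₂b hx))) ((hρ₂b.trans hs₃R).trans hRt)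
  have hfinr : (Module.finrank ℝ (EuclideanSpace ℝ (Fin n)) : ℝ) = n := by simp only [finrank_euclideanSpace,
                                                                             Fintype.card_fin]
  have hQ : {x : EuclideanSpace ℝ (Fin n) | ∀ i, |x i - c i| < ρ₂} ∈ 𝓝 c :=
    (isOpen_cube c ρ₂).mem_nhds (fun i => by simpa only [sub_self, abs_zero, gt_iff_lt] using hρ₂)
  have hQc : {x : EuclideanSpace ℝ (Fin n) | ∀ i, |x i - c i| < ρ₂} ⊆
      {x | ∀ i, |x i - c i| ≤ ρ₂} := fun x hx i => (hx i).le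
  have hev := touch_fixed hW act hρpos hρdef.symm (hballW (mem_ball_self hs₃)) hcfix hfar hnf
    (fun (i : Fin n) (x : EuclideanSpace ℝ (Fin n)) => x i) (fun i => by fun_prop)
    (fun x y hxy => by
      by_contra hcon
      push Not at hcon
      exact hxy (by ext i; exact hcon i))
    hQ ((hQc.trans hρ₂b).trans hballW) (by rw [hfinr]; exact hslice)
  -- contradiction
  apply hcC.2
  refine ⟨hct, ?_⟩
  rw [mem_preimage, mem_interior_iff_mem_nhds]
  have h1 : ∀ᶠ y in 𝓝 c, e.symm y ∈ fixSet p M k := by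
    filter_upwards [hev, ball_mem_nhds c hs₃] with y hy hys u
    have h2 := hy u
    simp only [chartAct, chartMap] at h2
    have h3 := hRsrc u y (hs₃R hys)
    have h4 : y ∈ e.target := hRt (hs₃R hys)
    rw [← e.left_inv h3, h2]
  have h5 : ContinuousAt e (e.symm c) := e.continuousAt (e.map_target hct)
  have h7 : ∀ᶠ y in 𝓝 (e (e.symm c)), e.symm y ∈ fixSet p M k := by
    rw [e.right_inv hct]
    exact h1
  have h6 : ∀ᶠ m in 𝓝 (e.symm c), e.symm (e m) ∈ fixSet p M k := h5.eventually h7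
  filter_upwards [h6, e.open_source.mem_nhds (e.map_target hct)] with m' hm' hms
  rwa [e.left_inv hms] at hm'

end Vale.Agent.P228
end
end
end

section

section

section

namespace Vale.Agent.P228

open Set Topology MeasureTheory Metric
open scoped ENNReal

attribute [local instance] msZ bsZ

set_option linter.unusedSectionVars false

variable {p : ℕ} [Fact p.Prime]
variable {n : ℕ} {M : Type*} [TopologicalSpace M] [AddAction ℤ_[p] M] [ContinuousVAdd ℤ_[p] M]

/-- the union of the open sets on which some small subgroup acts trivially -/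
def locTriv (p : ℕ) [Fact p.Prime] (M : Type*) [TopologicalSpace M] [AddAction ℤ_[p] M] : Set M :=
  ⋃ k, interior (fixSet p M k)

theorem isOpen_locTriv : IsOpen (locTriv p M) := isOpen_iUnion fun _ => isOpen_interior

/-- the subgroup `p ^ k ℤ_p` as a set -/
def powSet (p : ℕ) [Fact p.Prime] (k : ℕ) : Set ℤ_[p] := range fun u : ℤ_[p] => (p : ℤ_[p]) ^ k * u

theorem add_mem_powSet {k : ℕ} {g h : ℤ_[p]} (hg : g ∈ powSet p k) (hh : h ∈ powSet p k) :
    g + h ∈ powSet p k := by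
  obtain ⟨u, rfl⟩ := hg
  obtain ⟨v, rfl⟩ := hh
  exact ⟨u + v, mul_add _ _ _⟩

theorem isClosed_powSet (k : ℕ) : IsClosed (powSet p k) :=
  (isCompact_range (continuous_const.mul continuous_id)).isClosed

theorem isOpen_powSet (k : ℕ) : IsOpen (powSet p k) := by
  rw [Metric.isOpen_iff]
  intro g hg
  have hp0 : (0 : ℝ) < p := by exact_mod_cast (Fact.out : p.Prime).pos
  refine ⟨(p : ℝ) ^ (-(k : ℤ)), by (clear * - hp0; positivity), fun h hh => ?_⟩
  have h1 : h - g ∈ powSet p k := by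
    rw [mem_ball, dist_eq_norm] at hh
    have h2 := (PadicInt.norm_le_pow_iff_mem_span_pow (h - g) k).1 hh.le
    rw [Ideal.mem_span_singleton] at h2
    obtain ⟨u, hu⟩ := h2
    exact ⟨u, hu.symm⟩
  have := add_mem_powSet hg h1
  rwa [add_sub_cancel] at this

theorem SNull.mono_dist {X : Type*} {r : ℝ} {D D' : X → X → ℝ} {A : Set X} (h : SNull r D A)
    (hD : ∀ x ∈ A, ∀ y ∈ A, D' x y ≤ D x y) : SNull r D' A :=
  h.image id (by simp) zero_le_one (by simpa only [id_eq, one_mul] using hD)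

/-- the averaged distance over a coset is bounded by a finite sum where `p ^ m ℤ_p` acts
trivially. -/
theorem avg_le_sum (e : OpenPartialHomeomorph M (EuclideanSpace ℝ (Fin n))) {g₀ : ℤ_[p]} {k m : ℕ}
    {x z : EuclideanSpace ℝ (Fin n)} (hx : e.symm x ∈ fixSet p M m)
    (hz : e.symm z ∈ fixSet p M m) :
    (avg fun u => ‖chartMap e (g₀ + (p : ℤ_[p]) ^ k * u) x -
        chartMap e (g₀ + (p : ℤ_[p]) ^ k * u) z‖) ≤
      ∑ b ∈ Finset.range (p ^ m), ‖chartMap e (g₀ + (p : ℤ_[p]) ^ k * (b : ℤ_[p])) x -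
        chartMap e (g₀ + (p : ℤ_[p]) ^ k * (b : ℤ_[p])) z‖ := by
  refine (le_abs_self _).trans ?_
  rw [← Real.norm_eq_abs]
  apply norm_avg_le
  intro u
  rw [norm_norm]
  obtain ⟨b, hb, w, hw⟩ := exists_appr u m
  have h1 : g₀ + (p : ℤ_[p]) ^ k * u = (g₀ + (p : ℤ_[p]) ^ k * (b : ℤ_[p])) +
      (p : ℤ_[p]) ^ m * ((p : ℤ_[p]) ^ k * w) := by rw [hw]; ring
  have h2 : ∀ y : EuclideanSpace ℝ (Fin n), e.symm y ∈ fixSet p M m →
      chartMap e (g₀ + (p : ℤ_[p]) ^ k * u) y =
        chartMap e (g₀ + (p : ℤ_[p]) ^ k * (b : ℤ_[p])) y := by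
    intro y hy
    simp only [chartMap]
    rw [h1, add_vadd, hy]
  rw [h2 x hx, h2 z hz]
  exact Finset.single_le_sum (f := fun b : ℕ =>
    ‖chartMap e (g₀ + (p : ℤ_[p]) ^ k * (b : ℤ_[p])) x -
        chartMap e (g₀ + (p : ℤ_[p]) ^ k * (b : ℤ_[p])) z‖) (fun _ _ => norm_nonneg _)
        (Finset.mem_range.2 hb)

/-- null slices where a small subgroup acts trivially -/
theorem slices_of_fix (e : OpenPartialHomeomorph M (EuclideanSpace ℝ (Fin n))) {g₀ : ℤ_[p]}
    {k m : ℕ} {O : Set (EuclideanSpace ℝ (Fin n))} (hO : IsOpen O) (hOt : O ⊆ e.target)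
    (hsrc : ∀ u : ℤ_[p], ∀ x ∈ O, (g₀ + (p : ℤ_[p]) ^ k * u) +ᵥ e.symm x ∈ e.source)
    (hfix : ∀ x ∈ O, e.symm x ∈ fixSet p M m)
    (hreg : ∀ x ∈ O, ∀ᶠ g in residual ℤ_[p], g +ᵥ e.symm x ∈ e.source →
      TypeSP (chartMap e g) x) (i : Fin n) :
    ∀ᵐ t : ℝ, SNull ((n : ℝ) + 1) (fun x z => avg fun u =>
      ‖chartMap e (g₀ + (p : ℤ_[p]) ^ k * u) x - chartMap e (g₀ + (p : ℤ_[p]) ^ k * u) z‖)
      {x | x ∈ O ∧ x i = t} := by
  have h1 := finSlices (N := p ^ m) hO
    (fun b => chartMap e (g₀ + (p : ℤ_[p]) ^ k * (b : ℤ_[p]))) ?_ ?_ i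
  · filter_upwards [h1] with t ht
    apply ht.mono_dist
    intro x hx z hz
    exact avg_le_sum e (hfix x hx.1) (hfix z hz.1)
  · intro b _ x hx
    have h2 := chartMap_contAt e (hOt hx) (hsrc b x hx)
    exact (h2.comp (f := fun x : EuclideanSpace ℝ (Fin n) =>
      (g₀ + (p : ℤ_[p]) ^ k * (b : ℤ_[p]), x)) (x := x) (by fun_prop)).continuousWithinAt
  · intro b _ x hx
    -- a regular element of the coset
    have hopen : IsOpen ((fun g : ℤ_[p] => g - (g₀ + (p : ℤ_[p]) ^ k * (b : ℤ_[p]))) ⁻¹'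
        powSet p m) := (isOpen_powSet m).preimage (by fun_prop)
    have hne : ((fun g : ℤ_[p] => g - (g₀ + (p : ℤ_[p]) ^ k * (b : ℤ_[p]))) ⁻¹'
        powSet p m).Nonempty :=
      ⟨g₀ + (p : ℤ_[p]) ^ k * (b : ℤ_[p]), by simp only [powSet, mem_preimage, sub_self, mem_range, mul_eq_zero, pow_eq_zero_iff', Nat.cast_eq_zero, ne_eq, exists_or_eq_right]⟩
    obtain ⟨g, ⟨w, hw⟩, hg2⟩ := (dense_of_mem_residual (hreg x hx)).inter_open_nonempty _
      hopen hne
    have hgw : g = (g₀ + (p : ℤ_[p]) ^ k * (b : ℤ_[p])) + (p : ℤ_[p]) ^ m * w := by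
      simp only at hw
      rw [hw]; ring
    have hgx : ∀ x' ∈ O, g +ᵥ e.symm x' = (g₀ + (p : ℤ_[p]) ^ k * (b : ℤ_[p])) +ᵥ e.symm x' := by
      intro x' hx'
      rw [hgw, add_vadd, hfix x' hx']
    have h3 : TypeSP (chartMap e g) x := by
      apply hg2
      rw [hgx x hx]
      exact hsrc b x hx
    apply h3.congr
    filter_upwards [hO.mem_nhds hx] with x' hx'
    simp only [chartMap, hgx x' hx']

end Vale.Agent.P228
end
end
end

section

section

section

namespace Vale.Agent.P228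

open Set Topology MeasureTheory Metric
open scoped ENNReal

attribute [local instance] msZ bsZ

set_option linter.unusedSectionVars false

variable {p : ℕ} [Fact p.Prime]
variable {n : ℕ} {M : Type*} [TopologicalSpace M] [AddAction ℤ_[p] M] [ContinuousVAdd ℤ_[p] M]

/-- Hoelder index set -/
def HolExp (n : ℕ) : Type := {α : ℚ // 0 < (α : ℝ) ∧ (n : ℝ) - 1 < α * (n + 1)}

instance : Countable (HolExp n) := by unfold HolExp; infer_instance

/-- every point at which residually many group elements are regular is a point near which some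
small subgroup acts trivially. -/
theorem subset_locTriv (e : OpenPartialHomeomorph M (EuclideanSpace ℝ (Fin n))) {U : Set M}
    (hU : IsOpen U)
    (hreg : ∀ x ∈ e.source, x ∈ U → ∀ᶠ g in residual ℤ_[p], g +ᵥ x ∈ e.source →
      TypeSP (chartMap e g) (e x)) {x₀ : M} (hx₀ : x₀ ∈ e.source) (hx₀U : x₀ ∈ U) :
    x₀ ∈ locTriv p M := by
  by_contra hx₀V
  set c₀ := e x₀ with hc₀
  have hc₀t : c₀ ∈ e.target := e.map_source hx₀
  have hopenU : IsOpen (e.target ∩ e.symm ⁻¹' U) := e.symm.isOpen_inter_preimage hU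
  obtain ⟨R, hR, hRs⟩ := nhds_basis_closedBall.mem_iff.1 (hopenU.mem_nhds
    (show c₀ ∈ e.target ∩ e.symm ⁻¹' U from ⟨hc₀t, by rw [mem_preimage, hc₀, e.left_inv hx₀];
                                                       exact hx₀U⟩))
  have hRt : closedBall c₀ R ⊆ e.target := fun x hx => (hRs hx).1
  obtain ⟨k₁, hk₁⟩ := exists_small_disp (p := p) e (isCompact_closedBall c₀ R) hRt one_pos
  have hsrc : ∀ g ∈ powSet p k₁, ∀ x ∈ closedBall c₀ R, g +ᵥ e.symm x ∈ e.source := by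
    rintro _ ⟨u, rfl⟩ x hx
    exact (hk₁ k₁ le_rfl u x hx).1
  have hcontAt : ∀ g ∈ powSet p k₁, ∀ x ∈ closedBall c₀ R,
      ContinuousAt (fun z : ℤ_[p] × EuclideanSpace ℝ (Fin n) => chartMap e z.1 z.2) (g, x) :=
    fun g hg x hx => chartMap_contAt e (hRt hx) (hsrc g hg x hx)
  -- the bad set in the chart
  set Y : Set (EuclideanSpace ℝ (Fin n)) :=
    ball c₀ (R / 2) ∩ (e.target ∩ e.symm ⁻¹' locTriv p M)ᶜ with hY
  have hYlc : IsLocallyClosed Y :=
    isOpen_ball.isLocallyClosed.inter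
      (e.symm.isOpen_inter_preimage isOpen_locTriv).isClosed_compl.isLocallyClosed
  have hYL : LocallyCompactSpace Y := hYlc.locallyCompactSpace
  have hYB : BaireSpace Y := inferInstance
  have hYbad : ∀ y ∈ Y, e.symm y ∉ locTriv p M := by
    rintro y ⟨hy1, hy2⟩ hy3
    exact hy2 ⟨hRt (ball_subset_closedBall (ball_subset_ball (by linarith) hy1)), hy3⟩
  have hYne : Nonempty Y := ⟨⟨c₀, mem_ball_self (by (clear * - hR; positivity)), fun h => hx₀V (by
    have := h.2
    rwa [mem_preimage, hc₀, e.left_inv hx₀] at this)⟩⟩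
  have hYR : ∀ y : Y, ∀ h : EuclideanSpace ℝ (Fin n), ‖h‖ ≤ R / 2 →
      (y : EuclideanSpace ℝ (Fin n)) + h ∈ closedBall c₀ R := by
    intro y h hh
    have h1 := y.2.1
    rw [mem_ball, dist_eq_norm] at h1
    rw [mem_closedBall, dist_eq_norm]
    have h2 : (y : EuclideanSpace ℝ (Fin n)) + h - c₀ = (y - c₀) + h := by abel
    rw [h2]
    linarith only [norm_add_le ((y : EuclideanSpace ℝ (Fin n)) - c₀) h, hh, h1]
  -- radii
  set ρ : ℕ → ℝ := fun N => R / 2 / ((N : ℝ) + 1) with hρdef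
  have hρpos : ∀ N, 0 < ρ N := fun N => by rw [hρdef]; (clear * - hR; positivity)
  have hρle : ∀ N, ρ N ≤ R / 2 := fun N =>
    div_le_self (by positivity) (by have : (0 : ℝ) ≤ N := Nat.cast_nonneg N; linarith only [])
  -- the closed sets
  let A : (AdmExp n × ℕ) ⊕ (HolExp n × ℕ) → Set (ℤ_[p] × Y) := fun i => match i with
    | Sum.inl (b, N) => {z | z.1 ∈ powSet p k₁ ∧ gag (b.1.1 : ℝ) (b.1.2 : ℝ)
        (fun h => chartMap e z.1 ((z.2 : EuclideanSpace ℝ (Fin n)) + h)) (ball 0 (ρ N)) ≤ N}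
    | Sum.inr (α, N) => {z | z.1 ∈ powSet p k₁ ∧ ∀ h : EuclideanSpace ℝ (Fin n), ‖h‖ ≤ ρ N →
        ‖chartMap e z.1 ((z.2 : EuclideanSpace ℝ (Fin n)) + h) - chartMap e z.1 z.2‖ ≤
          N * ‖h‖ ^ (α.1 : ℝ)}
  have hlim : ∀ (v : ℕ → ℤ_[p] × Y) (w : ℤ_[p] × Y), (∀ j, (v j).1 ∈ powSet p k₁) →
      Filter.Tendsto v Filter.atTop (𝓝 w) → w.1 ∈ powSet p k₁ ∧
      ∀ h : EuclideanSpace ℝ (Fin n), ‖h‖ ≤ R / 2 →
        Filter.Tendsto (fun j => chartMap e (v j).1 (((v j).2 : EuclideanSpace ℝ (Fin n)) + h))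
        Filter.atTop (𝓝 (chartMap e w.1 ((w.2 : EuclideanSpace ℝ (Fin n)) + h))) := by
    intro v w hv hvw
    have h1 : Filter.Tendsto (fun j => (v j).1) Filter.atTop (𝓝 w.1) :=
      (continuous_fst.tendsto w).comp hvw
    have h2 : w.1 ∈ powSet p k₁ :=
      (isClosed_powSet k₁).mem_of_tendsto h1 (Filter.Eventually.of_forall hv)
    refine ⟨h2, fun h hh => ?_⟩
    have h3 := hcontAt w.1 h2 _ (hYR w.2 h hh)
    have h4 : Filter.Tendsto (fun j => ((v j).1, ((v j).2 : EuclideanSpace ℝ (Fin n)) + h))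
        Filter.atTop (𝓝 (w.1, (w.2 : EuclideanSpace ℝ (Fin n)) + h)) := by
      have h5 : Continuous (fun z : ℤ_[p] × Y => (z.1, (z.2 : EuclideanSpace ℝ (Fin n)) + h)) := by
        (clear U hU hreg hx₀U hc₀t hopenU hRs hRt k₁ hk₁ hsrc hcontAt hY hYbad hYR ρ hρdef hρpos hρle A v w hv hvw h1 h2 hh h3; fun_prop)
      exact (h5.tendsto w).comp hvw
    exact h3.tendsto.comp h4
  have hcontOn : ∀ z : ℤ_[p] × Y, z.1 ∈ powSet p k₁ → ∀ N, ContinuousOn
      (fun h => chartMap e z.1 ((z.2 : EuclideanSpace ℝ (Fin n)) + h)) (ball 0 (ρ N)) := by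
    intro z hz N h hh
    have hh' : ‖h‖ ≤ R / 2 := by
      rw [mem_ball, dist_zero_right] at hh
      exact hh.le.trans (hρle N)
    have h3 := hcontAt z.1 hz _ (hYR z.2 h hh')
    exact (h3.comp (f := fun h : EuclideanSpace ℝ (Fin n) =>
      (z.1, (z.2 : EuclideanSpace ℝ (Fin n)) + h)) (x := h) (by fun_prop)).continuousWithinAt
  have hAcl : ∀ i, IsClosed (A i) := by
    rintro (⟨b, N⟩ | ⟨α, N⟩)
    · apply IsSeqClosed.isClosed
      intro v w hv hvw
      have hq1 : (1 : ℝ) ≤ (b.1.2 : ℝ) := b.2.2.1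
      obtain ⟨h1, h2⟩ := hlim v w (fun j => (hv j).1) hvw
      refine ⟨h1, ?_⟩
      apply gag_le_of_tendsto (by linarith only [hq1]) measurableSet_ball
        (F := fun j h => chartMap e (v j).1 (((v j).2 : EuclideanSpace ℝ (Fin n)) + h))
      · intro j
        exact hcontOn (v j) (hv j).1 N
      · exact hcontOn w h1 N
      · intro h hh
        rw [mem_ball, dist_zero_right] at hh
        exact h2 h (hh.le.trans (hρle N))
      · have h3 : (0 : ℝ) ≤ n := Nat.cast_nonneg n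
        have h4 : 0 ≤ (b.1.1 : ℝ) * (b.1.2 : ℝ) := mul_nonneg b.2.1.le (by linarith only [hq1])
        linarith
      · intro j
        exact (hv j).2
    · apply IsSeqClosed.isClosed
      intro v w hv hvw
      obtain ⟨h1, h2⟩ := hlim v w (fun j => (hv j).1) hvw
      refine ⟨h1, fun h hh => ?_⟩
      have h3 := h2 h (hh.trans (hρle N))
      have h4 := h2 0 (by rw [norm_zero]; (clear * - hR; positivity))
      simp only [add_zero] at h4
      exact le_of_tendsto ((h3.sub h4).norm) (Filter.Eventually.of_forall fun j => (hv j).2 h hh)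
  have hregY : ∀ y : Y, ∀ᶠ g in residual ℤ_[p], g +ᵥ e.symm (y : EuclideanSpace ℝ (Fin n)) ∈
      e.source → TypeSP (chartMap e g) y := by
    intro y
    have hyR := hYR y 0 (by rw [norm_zero]; (clear * - hR; positivity))
    rw [add_zero] at hyR
    have h1 := hreg (e.symm y) (e.map_target (hRt hyR)) (hRs hyR).2
    rwa [e.right_inv (hRt hyR)] at h1
  have hcov : ∀ y : Y, ∀ᶠ g in residual ℤ_[p], g ∈ powSet p k₁ → ∃ i, (g, y) ∈ A i := by
    intro y
    filter_upwards [hregY y] with g hg hgp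
    have hyR := hYR y 0 (by rw [norm_zero]; positivity)
    rw [add_zero] at hyR
    have h3 : ∀ r : ℝ, 0 < r → ∃ N₁ : ℕ, ∀ N ≥ N₁, ρ N ≤ r := by
      intro r hr
      obtain ⟨N₁, hN₁⟩ := exists_nat_ge (R / 2 / r)
      refine ⟨N₁, fun N hN => ?_⟩
      rw [hρdef]
      simp only
      have h4 : (N₁ : ℝ) ≤ N := by exact_mod_cast hN
      rw [div_le_iff₀ (by (clear * -; positivity))]
      rw [div_le_iff₀ hr] at hN₁
      nlinarith only [hr, hN₁, h4]
    rcases hg (hsrc g hgp _ hyR) with ⟨b, r, hr, hb⟩ | ⟨α, hα0, hα, N₀, hN₀⟩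
    · obtain ⟨N₁, hN₁⟩ := h3 r hr
      obtain ⟨N₂, hN₂⟩ := exists_nat_ge (gag (b.1.1 : ℝ) (b.1.2 : ℝ) (chartMap e g)
        (ball y r)).toReal
      refine ⟨Sum.inl (b, max N₁ N₂), hgp, ?_⟩
      simp only
      rw [gag_translate]
      calc gag (b.1.1 : ℝ) (b.1.2 : ℝ) (chartMap e g) (ball y (ρ (max N₁ N₂)))
          ≤ gag (b.1.1 : ℝ) (b.1.2 : ℝ) (chartMap e g) (ball y r) :=
            gag_mono _ _ _ (ball_subset_ball (hN₁ _ (le_max_left _ _)))
        _ = ENNReal.ofReal (gag (b.1.1 : ℝ) (b.1.2 : ℝ) (chartMap e g) (ball y r)).toReal :=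
            (ENNReal.ofReal_toReal hb.ne).symm
        _ ≤ ENNReal.ofReal (N₂ : ℝ) := ENNReal.ofReal_le_ofReal hN₂
        _ = (N₂ : ℝ≥0∞) := ENNReal.ofReal_natCast N₂
        _ ≤ ((max N₁ N₂ : ℕ) : ℝ≥0∞) := by exact_mod_cast le_max_right _ _
    · obtain ⟨N₁, hN₁⟩ := h3 (1 / ((N₀ : ℝ) + 1)) (by (clear * -; positivity))
      refine ⟨Sum.inr (⟨α, hα0, hα⟩, max N₁ N₀), hgp, fun h hh => ?_⟩
      have h5 := hN₀ h (hh.trans (hN₁ _ (le_max_left _ _)))
      refine h5.trans (mul_le_mul_of_nonneg_right ?_ (Real.rpow_nonneg (norm_nonneg _) _))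
      exact_mod_cast le_max_right _ _
  obtain ⟨i, G₁, V₁, hG₁, hV₁, ⟨g₀, hg₀⟩, ⟨y₀, hy₀⟩, hG₁O, hbox⟩ :=
    exists_box_of_residual A hAcl (isOpen_powSet k₁) ⟨0, 0, by simp⟩ hcov
  -- a coset inside `G₁`
  have hU' : {w : ℤ_[p] | g₀ + w ∈ G₁} ∈ 𝓝 (0 : ℤ_[p]) := by
    have h1 : ContinuousAt (fun w : ℤ_[p] => g₀ + w) 0 := by (clear hU hreg hx₀U hc₀t hopenU hY hYbad hρdef hρpos hregY hcov i G₁ V₁ hG₁ hV₁ hg₀ y₀ hy₀ hG₁O hbox; fun_prop)
    apply h1.preimage_mem_nhds
    simp only [add_zero]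
    exact hG₁.mem_nhds hg₀
  obtain ⟨k₂, hk₂⟩ := exists_pow_mul_mem hU'
  have hcos : ∀ k ≥ k₂, ∀ u : ℤ_[p], g₀ + (p : ℤ_[p]) ^ k * u ∈ G₁ := fun k hk u => hk₂ k hk u
  have hy₀R := hYR y₀ 0 (by rw [norm_zero]; positivity)
  rw [add_zero] at hy₀R
  set x' : M := e.symm (y₀ : EuclideanSpace ℝ (Fin n)) with hx'
  have hx's : x' ∈ e.source := e.map_target (hRt hy₀R)
  have hex' : e x' = y₀ := e.right_inv (hRt hy₀R)
  have hx'bad : x' ∉ locTriv p M := hYbad _ y₀.2
  apply hx'bad
  suffices h : ∃ k : ℕ, ∀ᶠ m in 𝓝 x', ∀ u : ℤ_[p], ((p : ℤ_[p]) ^ k * u) +ᵥ m = m by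
    obtain ⟨k, hk⟩ := h
    exact mem_iUnion.2 ⟨k, mem_interior_iff_mem_nhds.2 hk⟩
  rcases i with ⟨b, N⟩ | ⟨α, N⟩
  · -- Sobolev case
    have hball : ball (y₀ : EuclideanSpace ℝ (Fin n)) (ρ N) ⊆ closedBall c₀ R := by
      intro z hz
      have h1 := hYR y₀ (z - y₀) (by
        rw [mem_ball, dist_eq_norm] at hz
        exact hz.le.trans (hρle N))
      rwa [add_sub_cancel] at h1
    apply trivial_of_energy e hx's (s := (b.1.1 : ℝ)) (q := (b.1.2 : ℝ)) b.2.1 b.2.2.1 b.2.2.2.1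
      b.2.2.2.2 (g₀ := g₀) (k₁ := k₂) (r₁ := ρ N) (N := (N : ℝ≥0∞)) (hρpos N)
      (ENNReal.natCast_lt_top N)
    · rw [hex']; exact hball.trans hRt
    · rw [hex']
      intro u x hx
      exact hsrc _ (hG₁O (hcos k₂ le_rfl u)) x (hball hx)
    · rw [hex']
      intro u
      have h1 := hbox (show (g₀ + (p : ℤ_[p]) ^ k₂ * u, y₀) ∈ G₁ ×ˢ V₁ from
        ⟨hcos k₂ le_rfl u, hy₀⟩)
      have h2 := h1.2
      simp only at h2
      rwa [gag_translate] at h2
  · -- pointwise Hoelder case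
    obtain ⟨r₂, hr₂, hr₂V⟩ := Metric.isOpen_iff.1 hV₁ y₀ hy₀
    have hy₀b : (y₀ : EuclideanSpace ℝ (Fin n)) ∈ ball c₀ (R / 2) := y₀.2.1
    obtain ⟨r₃, hr₃, hr₃s⟩ : ∃ r₃ > 0, ball (y₀ : EuclideanSpace ℝ (Fin n)) r₃ ⊆
        ball c₀ (R / 2) ∩ ball (y₀ : EuclideanSpace ℝ (Fin n)) r₂ :=
      Metric.mem_nhds_iff.1 (Filter.inter_mem (isOpen_ball.mem_nhds hy₀b)
        (ball_mem_nhds _ hr₂))
    obtain ⟨δ, hδ, hδb⟩ := cube_subset_ball (y₀ : EuclideanSpace ℝ (Fin n)) hr₃
    have hcubeR : {x : EuclideanSpace ℝ (Fin n) | ∀ i, |x i - (y₀ : EuclideanSpace ℝ (Fin n)) i|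
        ≤ δ} ⊆ closedBall c₀ R := fun x hx =>
      ball_subset_closedBall (ball_subset_ball (by linarith only [hR]) (hr₃s (hδb hx)).1)
    have hfinr : (Module.finrank ℝ (EuclideanSpace ℝ (Fin n)) : ℝ) = n := by simp only [finrank_euclideanSpace, Fintype.card_fin]
    apply trivial_of_slices e hx's (g₀ := g₀) (k₁ := k₂) hδ
    · rw [hex']; exact hcubeR.trans hRt
    · rw [hex']
      intro x hx
      exact hsrc _ (hG₁O hg₀) x (hcubeR hx)
    · rw [hex', hfinr]
      intro k hk i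
      -- the pieces where a small subgroup acts trivially
      have hpieces : ∀ m : ℕ, ∀ᵐ t : ℝ, SNull ((n : ℝ) + 1) (fun x z => avg fun u =>
          ‖chartMap e (g₀ + (p : ℤ_[p]) ^ k * u) x - chartMap e (g₀ + (p : ℤ_[p]) ^ k * u) z‖)
          {x | x ∈ ball c₀ (R / 2) ∩ (e.target ∩ e.symm ⁻¹' interior (fixSet p M m)) ∧
            x i = t} := by
        intro m
        have hsub : ball c₀ (R / 2) ∩ (e.target ∩ e.symm ⁻¹' interior (fixSet p M m)) ⊆
            closedBall c₀ R := fun x hx =>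
          ball_subset_closedBall (ball_subset_ball (by linarith only [hR]) hx.1)
        apply slices_of_fix e (isOpen_ball.inter (e.symm.isOpen_inter_preimage isOpen_interior))
          (fun x hx => hx.2.1) (m := m)
        · intro u x hx
          exact hsrc _ (hG₁O (hcos k hk u)) x (hsub hx)
        · intro x hx
          exact interior_subset hx.2.2
        · intro x hx
          have hxR := hsub hx
          have h1 := hreg (e.symm x) (e.map_target (hRt hxR)) (hRs hxR).2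
          rwa [e.right_inv (hRt hxR)] at h1
      rw [← ae_all_iff] at hpieces
      filter_upwards [hpieces] with t ht
      -- the piece in `Y`
      have hYpiece : SNull ((n : ℝ) + 1) (fun x z => avg fun u =>
          ‖chartMap e (g₀ + (p : ℤ_[p]) ^ k * u) x - chartMap e (g₀ + (p : ℤ_[p]) ^ k * u) z‖)
          {x | ((∀ j, |x j - (y₀ : EuclideanSpace ℝ (Fin n)) j| < δ) ∧ x i = t) ∧ x ∈ Y} := by
        refine (CellNull.nullContent hδ (cellNull_of_holder (n := n)
          (c := (y₀ : EuclideanSpace ℝ (Fin n))) hδ (α := (α.1 : ℝ)) α.2.2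
          α.2.1 (C := N) (i := i) (t := t) (δ₀ := ρ N) ?_ (hρpos N) ?_) ?_).sNull
        · rintro x ⟨hx, -⟩
          exact hx
        · rintro x ⟨⟨hx, -⟩, hxY⟩ z ⟨⟨hz, -⟩, -⟩ hxz
          refine (le_abs_self _).trans ?_
          rw [← Real.norm_eq_abs]
          apply norm_avg_le
          intro u
          rw [norm_norm]
          have hxV : (⟨x, hxY⟩ : Y) ∈ V₁ := by
            apply hr₂V
            have := (hr₃s (hδb (fun j => (hx j).le))).2
            exact this
          have h1 := hbox (show (g₀ + (p : ℤ_[p]) ^ k * u, (⟨x, hxY⟩ : Y)) ∈ G₁ ×ˢ V₁ from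
            ⟨hcos k hk u, hxV⟩)
          have h2 := h1.2 (z - x) (by rw [norm_sub_rev]; exact hxz)
          simp only [add_sub_cancel] at h2
          rw [norm_sub_rev, norm_sub_rev x z]
          exact h2
        · rintro x ⟨⟨hx, -⟩, -⟩
          exact hx
      -- union
      have hun : SNull ((n : ℝ) + 1) (fun x z => avg fun u =>
          ‖chartMap e (g₀ + (p : ℤ_[p]) ^ k * u) x - chartMap e (g₀ + (p : ℤ_[p]) ^ k * u) z‖)
          (⋃ o : Option ℕ, match o with
            | none => {x | ((∀ j, |x j - (y₀ : EuclideanSpace ℝ (Fin n)) j| < δ) ∧ x i = t) ∧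
                x ∈ Y}
            | some m => {x | x ∈ ball c₀ (R / 2) ∩
                (e.target ∩ e.symm ⁻¹' interior (fixSet p M m)) ∧ x i = t}) := by
        apply SNull.iUnion
        rintro (_ | m)
        · exact hYpiece
        · exact ht m
      apply hun.mono
      rintro x ⟨hx, hxt⟩
      have hxb : x ∈ ball c₀ (R / 2) := (hr₃s (hδb (fun j => (hx j).le))).1
      by_cases hxY : x ∈ Y
      · exact mem_iUnion.2 ⟨none, ⟨hx, hxt⟩, hxY⟩
      · have h1 : x ∈ e.target ∩ e.symm ⁻¹' locTriv p M := by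
          by_contra hcon
          exact hxY ⟨hxb, hcon⟩
        obtain ⟨m, hm⟩ := mem_iUnion.1 h1.2
        exact mem_iUnion.2 ⟨some m, ⟨hxb, h1.1, hm⟩, hxt⟩

end Vale.Agent.P228
end
end
end

section

section

section

namespace Vale.Agent.P228

open Set Topology MeasureTheory Metric
open scoped ENNReal

attribute [local instance] msZ bsZ

set_option linter.unusedSectionVars false

variable {p : ℕ} [Fact p.Prime]
variable {n : ℕ} {M : Type*} [TopologicalSpace M] [AddAction ℤ_[p] M] [ContinuousVAdd ℤ_[p] M]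

/-- the touching step for the pointwise classes -/
theorem touch_closed_pt [T2Space M] (e : OpenPartialHomeomorph M (EuclideanSpace ℝ (Fin n)))
    {U : Set M} (hU : IsOpen U)
    (hreg : ∀ x ∈ e.source, x ∈ U → ∀ᶠ g in residual ℤ_[p], g +ᵥ x ∈ e.source →
      TypeSP (chartMap e g) (e x)) {x₁ : M} (hx₁ : x₁ ∈ e.source) (hx₁U : x₁ ∈ U) {k m : ℕ}
    (hm : x₁ ∈ interior (fixSet p M m))
    (hcl : x₁ ∈ closure (interior (fixSet p M k))) : x₁ ∈ interior (fixSet p M k) := by
  have hopen : IsOpen (e.target ∩ e.symm ⁻¹' (U ∩ interior (fixSet p M m))) :=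
    e.symm.isOpen_inter_preimage (hU.inter isOpen_interior)
  have hmem : e x₁ ∈ e.target ∩ e.symm ⁻¹' (U ∩ interior (fixSet p M m)) :=
    ⟨e.map_source hx₁, by rw [mem_preimage, e.left_inv hx₁]; exact ⟨hx₁U, hm⟩⟩
  obtain ⟨R₁, hR₁, hR₁s⟩ := Metric.isOpen_iff.1 hopen _ hmem
  refine touch_closed_of_slices e hx₁ hR₁ ?_ hcl
  intro c ρ hρ hcube hsrc htgt i
  have hQc : {x : EuclideanSpace ℝ (Fin n) | ∀ i, |x i - c i| < ρ} ⊆
      {x | ∀ i, |x i - c i| ≤ ρ} := fun x hx i => (hx i).le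
  have h1 := slices_of_fix e (g₀ := 0) (k := k) (m := m) (isOpen_cube c ρ) (hQc.trans htgt)
    (by
      intro u x hx
      rw [zero_add]
      exact hsrc u x (hQc hx))
    (by
      intro x hx
      exact interior_subset (hR₁s (hcube (hQc hx))).2.2)
    (by
      intro x hx
      have h2 := hR₁s (hcube (hQc hx))
      have h3 := hreg (e.symm x) (e.map_target h2.1) h2.2.1
      rwa [e.right_inv h2.1] at h3) i
  simp only [zero_add] at h1
  exact h1

/-- global theorem for the pointwise classes -/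
theorem exists_trivial_of_typeSP [T2Space M] {U : Set M} (hU : IsOpen U) (hUd : Dense U)
    (hUc : IsPreconnected U) (hUne : U.Nonempty)
    (ch : M → OpenPartialHomeomorph M (EuclideanSpace ℝ (Fin n))) (hch : ∀ x, x ∈ (ch x).source)
    (hreg : ∀ x₁ : M, ∀ x ∈ (ch x₁).source, x ∈ U → ∀ᶠ g in residual ℤ_[p],
      g +ᵥ x ∈ (ch x₁).source → TypeSP (chartMap (ch x₁) g) (ch x₁ x)) :
    ∃ k : ℕ, ∀ (u : ℤ_[p]) (m : M), ((p : ℤ_[p]) ^ k * u) +ᵥ m = m := by
  have hloc : ∀ x ∈ U, ∃ k, x ∈ interior (fixSet p M k) := fun x hx =>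
    mem_iUnion.1 (subset_locTriv (ch x) hU (hreg x) (hch x) hx)
  obtain ⟨x₀, hx₀⟩ := hUne
  obtain ⟨k, hk⟩ := hloc x₀ hx₀
  have hsub : U ⊆ interior (fixSet p M k) := by
    apply hUc.subset_of_closure_inter_subset isOpen_interior ⟨x₀, hx₀, hk⟩
    rintro x₁ ⟨hx₁, hx₁U⟩
    obtain ⟨m, hm⟩ := hloc x₁ hx₁U
    exact touch_closed_pt (ch x₁) hU (hreg x₁) (hch x₁) hx₁U hm hx₁
  refine ⟨k, fun u m => ?_⟩
  have h1 : m ∈ closure U := hUd m
  have h2 : closure U ⊆ fixSet p M k :=
    (isClosed_fixSet k).closure_subset_iff.2 (hsub.trans interior_subset)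
  exact h2 h1 u

end Vale.Agent.P228
end
end
end
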